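import Mathlib

/-! R079, LAYER 0 (helper406): the box form and the literal Props `BoxBound β`.

Slopes `sl = (1,2,3,0)`; for a box of side `N`, position `s` and shift `β`, the point
`q ∈ [0,1]^4` stands for `t = N (β + ∑ q_i)`, `x = s + N ∑ sl_i q_i`, `y_j = x - sl_j t`
(so `y_j` does not contain `q_j`), and `f_j` is evaluated at `y_j`.

`S0106 ⇐ BoxBound (-1/2) ∧ BoxBound (-7/2)` (file `R079/L0Main_406.lean`). -/

set_option autoImplicit false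

open MeasureTheory Set

namespace Crest.Agent.R079.L0

/-- slopes -/
def sl : Fin 4 → ℝ := ![1, 2, 3, 0]

/-- Haar sign of a coordinate in `[0,1]` -/
noncomputable def ep (x : ℝ) : ℝ := if x < 1 / 2 then 1 else -1

/-- product of the four Haar signs -/
noncomputable def ep4 (q : Fin 4 → ℝ) : ℝ := ∏ i, ep (q i)

/-- the unit cube -/
def cube : Set (Fin 4 → ℝ) := Icc 0 1

/-- the `t`-coordinate of the box point -/
noncomputable def tq (β N : ℝ) (q : Fin 4 → ℝ) : ℝ := N * (β + ∑ i, q i)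

/-- the `x`-coordinate of the box point -/
noncomputable def xq (N s : ℝ) (q : Fin 4 → ℝ) : ℝ := s + N * ∑ i, sl i * q i

/-- shadow `y_j = x - sl_j t` -/
noncomputable def yq (β N s : ℝ) (q : Fin 4 → ℝ) (j : Fin 4) : ℝ := xq N s q - sl j * tq β N q

/-- box form -/
noncomputable def Lb (β N s : ℝ) (f : Fin 4 → ℝ → ℂ) : ℂ :=
  ∫ q in cube, ((ep4 q : ℝ) : ℂ) * ∏ j, f j (yq β N s q j)

/-- real `L³` norm -/
noncomputable def n3 (f : ℝ → ℂ) : ℝ := (eLpNorm f 3 volume).toReal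

/-- **the box bound** (all scales `N = ρ 2^k`, finitely many `k`) -/
def BoxBound (β : ℝ) : Prop :=
  ∃ C : ℝ, 0 ≤ C ∧ ∀ (f₁ f₂ f₃ : SchwartzMap ℝ ℂ) (g : ℝ → ℂ), Measurable g →
    (∀ x, ‖g x‖ ≤ 1) → ∀ ρ ∈ Icc (1 : ℝ) 2, ∀ m : ℕ,
    ‖∑ k ∈ Finset.Ico (-(m : ℤ)) m, ∫ s : ℝ, Lb β (ρ * (2 : ℝ) ^ k) s ![f₁, f₂, f₃, g]‖ ≤
      C * (n3 f₁ * n3 f₂ * n3 f₃)

/-- `S0106`, literally (target of `L0Main_406`) -/
def Target : Prop :=
  ∃ C : ℝ, ∀ (f₁ f₂ f₃ : SchwartzMap ℝ ℂ) (Tv : ℝ → ℂ),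
      (∀ x : ℝ, Filter.Tendsto
          (fun ε : ℝ => ∫ t in (Set.Icc (-ε) ε)ᶜ, f₁ (x - t) * f₂ (x - 2 * t) * f₃ (x - 3 * t) / (t : ℂ))
          (nhdsWithin 0 (Set.Ioi 0)) (nhds (Tv x))) →
      MeasureTheory.eLpNorm Tv 1 MeasureTheory.volume ≤
        ENNReal.ofReal C * (MeasureTheory.eLpNorm (⇑f₁) 3 MeasureTheory.volume *
          MeasureTheory.eLpNorm (⇑f₂) 3 MeasureTheory.volume *
          MeasureTheory.eLpNorm (⇑f₃) 3 MeasureTheory.volume)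

end Crest.Agent.R079.L0
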