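import Crest.Agent.R079.R244Defs_491
import Crest.Agent.R079.GrowthDefs_248

/-! R079: the class `CL(s)` of 279 #27424 (A₂-level) on the lattice, literal Props (architect
helper491).

`Lev k κ p f s`: the function `f` in slot `k`, restricted to the node `p = (m,l)`, has level `≤ s`
against ALL products `a(z₀,z₁) b(z₁,z₂) c(z₂,z₀)` with normalised `ℓ²` norms `≤ 1` on cubes of side
`2^(m+r)`, `r ≤ κ`, arbitrary position (`z_i` = box variables of the slots `k.succAbove i`,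
`y = ∑ cf k i * z_i`).  No condition on heights. -/

set_option autoImplicit false

namespace Crest.Agent.R079.Cls

open Finset Crest.Agent.R079.Grid Crest.Agent.R079.Pot Crest.Agent.R079.Glue Crest.Agent.R079.R244
  Crest.Agent.R079.Growth

/-- normalised pairing of `f` (slot `k`) with `abc` on the cube with corner `t`, side `n` -/
noncomputable def pair (k : Fin 4) (n : ℕ) (t : Fin 3 → ℤ) (f : ℤ → ℂ) (a b c : ℤ → ℤ → ℂ) : ℂ :=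
  (1 / (n : ℂ) ^ 3) * ∑ i0 ∈ range n, ∑ i1 ∈ range n, ∑ i2 ∈ range n,
    f (cf k 0 * (t 0 + (i0 : ℤ)) + cf k 1 * (t 1 + (i1 : ℤ)) + cf k 2 * (t 2 + (i2 : ℤ))) *
      (a (t 0 + (i0 : ℤ)) (t 1 + (i1 : ℤ)) * b (t 1 + (i1 : ℤ)) (t 2 + (i2 : ℤ)) *
        c (t 2 + (i2 : ℤ)) (t 0 + (i0 : ℤ)))

/-- **level** of `f` (slot `k`) at the node `p` -/
def Lev (k : Fin 4) (κ : ℕ) (p : ℕ × ℤ) (f : ℤ → ℂ) (s : ℝ) : Prop :=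
  ∀ r ≤ κ, ∀ (t : Fin 3 → ℤ) (a b c : ℤ → ℤ → ℂ),
    e2 a (2 ^ (p.1 + r)) (t 0) (t 1) ≤ 1 → e2 b (2 ^ (p.1 + r)) (t 1) (t 2) ≤ 1 →
    e2 c (2 ^ (p.1 + r)) (t 2) (t 0) ≤ 1 →
    ‖pair k (2 ^ (p.1 + r)) t (res p f) a b c‖ ≤ s

/-- level `≤ s` at all nodes of `R` -/
def LevOn (k : Fin 4) (κ : ℕ) (R : Finset (ℕ × ℤ)) (f : ℤ → ℂ) (s : ℝ) : Prop :=
  ∀ p ∈ R, Lev k κ p f s

/-- **(C0)** trivial bound: level `≤ K * av2` (crosswise Cauchy-Schwarz + 1D) -/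
def C0 : Prop := ∃ K : ℝ, 0 ≤ K ∧ ∀ (k : Fin 4) (κ : ℕ) (p : ℕ × ℤ) (f : ℤ → ℂ),
  Lev k κ p f (K * 2 ^ 7 * av2 (p.1 + 7) p.2 f)

/-- **(C1)** = (D0): static bound by the level of ONE slot and the `L²` norms of the three others -/
def C1 : Prop := ∃ K : ℝ, 0 ≤ K ∧ ∀ (bb : ℤ), bb = -1 ∨ bb = -7 → ∀ (k : Fin 4) (p : ℕ × ℤ)
  (F : Fin 4 → ℤ → ℂ) (s : ℝ), Lev k 1 p (F k) s → ∀ x ∈ adm p.1 p.2,
    ‖Lbox (2 ^ p.1) bb F x‖ ≤ K * s * ∏ i : Fin 3, av2 (p.1 + 7) p.2 (F (k.succAbove i))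

/-- kernel restricted to `T × T'` -/
noncomputable def msk (T T' : Finset ℤ) (a : ℤ → ℤ → ℂ) (z z' : ℤ) : ℂ :=
  if z ∈ T ∧ z' ∈ T' then a z z' else 0

/-- **(C2)** level ⇒ Schatten 4, pointwise in the frozen variable `w` and for every box:
`S₄⁴ ≤ s² ⟨a⟩²_box S₂²` -/
def C2 : Prop := ∀ (κ : ℕ) (j k e e' : Fin 4), j ≠ k → j ≠ e → j ≠ e' → k ≠ e → k ≠ e' → e ≠ e' →
  ∀ (p : ℕ × ℤ) (f : ℤ → ℂ) (s : ℝ), 0 ≤ s → Lev k κ p f s → ∀ r ≤ κ,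
  ∀ (T T' : Finset ℤ) (a : ℤ → ℤ → ℂ) (w q u : ℤ),
    e4 (frz j k e e' T T' a (res p f) w) (2 ^ (p.1 + r)) q u ≤
      s ^ 2 * e2 (msk T T' a) (2 ^ (p.1 + r)) q u *
        e2 (frz j k e e' T T' a (res p f) w) (2 ^ (p.1 + r)) q u

/-- **(C2')** averaged form: `S₄At` at all nodes of `R` for kernels with bounded box averages -/
def C2' : Prop := ∀ (κ : ℕ) (j k e e' : Fin 4), j ≠ k → j ≠ e → j ≠ e' → k ≠ e → k ≠ e' → e ≠ e' →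
  ∀ (R : Finset (ℕ × ℤ)) (f : ℤ → ℂ) (s V : ℝ), 0 ≤ s → LevOn k κ R f s →
  (∀ p ∈ R, av2 (p.1 + 7) p.2 f ≤ 1) →
  ∀ (T T' : Finset ℤ) (a : ℤ → ℤ → ℂ), n2 T T' a ≤ V →
    (∀ p ∈ R, ∀ r ≤ κ, ∀ q u : ℤ, e2 (msk T T' a) (2 ^ (p.1 + r)) q u ≤ 1) →
    S4At R κ V (s ^ 2) (fun F w => frz j k e e' T T' a F w) f

/-- **(C3)** Upsilon, exact: `K(1;3,3') = E₂ P(2;3,3') C(1,2,3) conj C(1,2,3')`,
`|K|₂ ≤ K₀ s |P|₂` for a function `C` (slot `k`) of level `s` with local `L²` norm `≤ 1`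
(`1, 2, 3` = the box variables of the slots `j, e, e'`). -/
def C3 : Prop := ∃ K₀ : ℝ, 0 ≤ K₀ ∧ ∀ (κ : ℕ) (j k e e' : Fin 4), j ≠ k → j ≠ e → j ≠ e' →
  k ≠ e → k ≠ e' → e ≠ e' → ∀ (p : ℕ × ℤ) (f : ℤ → ℂ) (s : ℝ), 0 ≤ s → Lev k κ p f s →
  av2 (p.1 + 7) p.2 f ≤ 1 → ∀ r ≤ κ, ∀ (t1 t2 t3 : ℤ) (P : ℕ → ℕ → ℕ → ℂ) (n : ℕ),
  n = 2 ^ (p.1 + r) →
    ∑ i1 ∈ range n, ∑ i3 ∈ range n, ∑ i3' ∈ range n,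
      ‖(1 / (n : ℂ)) * ∑ i2 ∈ range n, P i2 i3 i3' *
        res p f ((sl j - sl k) * (t1 + (i1 : ℤ)) + (sl e - sl k) * (t2 + (i2 : ℤ)) +
          (sl e' - sl k) * (t3 + (i3 : ℤ))) *
        (starRingEnd ℂ) (res p f ((sl j - sl k) * (t1 + (i1 : ℤ)) +
          (sl e - sl k) * (t2 + (i2 : ℤ)) + (sl e' - sl k) * (t3 + (i3' : ℤ))))‖ ^ 2 ≤
      (K₀ * s) ^ 2 * ∑ i2 ∈ range n, ∑ i3 ∈ range n, ∑ i3' ∈ range n, ‖P i2 i3 i3'‖ ^ 2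

/-- **(C4)** frozen `A₂` atom theorem (279 (4), localisation lemma + `Frozen24`): kernels of `ℓ²` norm
`≤ |J|` on cubes of side `2^κ |J|`, NO local bound on the averages; two slots of level `s`, the third
loc-`L²` with height `≤ H` of kernel times function. -/
def C4 : Prop :=
  ∃ K : ℝ, 0 ≤ K ∧ ∃ κ : ℕ, ∀ (bb : ℤ), bb = -1 ∨ bb = -7 →
    ∀ (R : Finset (ℕ × ℤ)) (J : ℕ × ℤ), IsRegion R J →
    ∀ (j : Fin 4) (i : Fin 3) (s H : ℝ), 0 < s → s ≤ 1 → 1 ≤ H → ∀ (μ : ℝ), 0 ≤ μ →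
    ∀ (t : Fin 3 → ℤ) (T : Fin 3 → Finset ℤ) (a b c : ℤ → ℤ → ℂ) (F : Fin 4 → ℤ → ℂ),
      (∀ i, T i = Ico (t i) (t i + 2 ^ (J.1 + 7))) →
      n2 (T 0) (T 1) a ≤ (2 ^ (J.1 + 7)) ^ 2 → n2 (T 1) (T 2) b ≤ (2 ^ (J.1 + 7)) ^ 2 →
      n2 (T 2) (T 0) c ≤ (2 ^ (J.1 + 7)) ^ 2 →
      (∀ k, ∀ p ∈ R, av2 (p.1 + 7) p.2 (F (j.succAbove k)) ≤ 1) →
      (i ≠ 0 → LevOn (j.succAbove 2) κ R (F (j.succAbove 2)) s) →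
      (i ≠ 1 → LevOn (j.succAbove 0) κ R (F (j.succAbove 0)) s) →
      (i ≠ 2 → LevOn (j.succAbove 1) κ R (F (j.succAbove 1)) s) →
      (i = 0 → ∀ w z z', ‖frAk j T a (F (j.succAbove 2)) w z z'‖ ≤ H) →
      (i = 1 → ∀ w z z', ‖frBk j T b (F (j.succAbove 0)) w z z'‖ ≤ H) →
      (i = 2 → ∀ w z z', ‖frCk j T c (F (j.succAbove 1)) w z z'‖ ≤ H) →
      F j = atom j μ T a b c →
      ∑ p ∈ R, ∑ x ∈ adm p.1 p.2, ‖Lbox (2 ^ p.1) bb F x‖ ≤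
        K * (μ * s * (1 + Real.log (H / s)) * (2 ^ (J.1 + 7)) ^ 3)

/-- the functions with slots `j₁, j₂` replaced by `X, Y` -/
def put (F : Fin 4 → ℤ → ℂ) (j₁ j₂ : Fin 4) (X Y : ℤ → ℂ) : Fin 4 → ℤ → ℂ :=
  Function.update (Function.update F j₁ X) j₂ Y

/-- the system (GrowthDefs) of the box form: slots `j₁ ≠ j₂` variable, the two others frozen
in `F`; the kernel `k p x y` is the form at the unit functions `δ_x, δ_y` -/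
noncomputable def sysOf (bb : ℤ) (ε : ℕ → ℤ → ℂ) (F : Fin 4 → ℤ → ℂ) (j₁ j₂ : Fin 4) : Sys :=
  fun p x y => TI bb ε (put F j₁ j₂ (Pi.single x 1) (Pi.single y 1)) p

/-- **(C5a)** the system reproduces the form -/
def C5a : Prop := ∀ (bb : ℤ), bb = -1 ∨ bb = -7 → ∀ (ε : ℕ → ℤ → ℂ) (F : Fin 4 → ℤ → ℂ)
  (j₁ j₂ : Fin 4), j₁ ≠ j₂ → ∀ (p : ℕ × ℤ) (X Y : ℤ → ℂ),
    tf (sysOf bb ε F j₁ j₂) p X Y = TI bb ε (put F j₁ j₂ X Y) p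

/-- **(C5)** near types are clean: the slot-`j₁` dual function of the windows `> i` has level
`≤ K s (1 + log (H/s))` at every node of the window `i`, for atoms of height `≤ H` -/
def LevH (k : Fin 4) (κ : ℕ) (p : ℕ × ℤ) (f : ℤ → ℂ) (H s : ℝ) : Prop :=
  ∀ r ≤ κ, ∀ (t : Fin 3 → ℤ) (a b c : ℤ → ℤ → ℂ),
    (∀ x y, ‖a x y‖ ≤ H) → (∀ x y, ‖b x y‖ ≤ H) → (∀ x y, ‖c x y‖ ≤ H) →
    e2 a (2 ^ (p.1 + r)) (t 0) (t 1) ≤ 1 → e2 b (2 ^ (p.1 + r)) (t 1) (t 2) ≤ 1 →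
    e2 c (2 ^ (p.1 + r)) (t 2) (t 0) ≤ 1 →
    ‖pair k (2 ^ (p.1 + r)) t (res p f) a b c‖ ≤ s

def C5 : Prop := ∃ K : ℝ, 0 ≤ K ∧ ∃ κ₀ : ℕ, ∀ (bb : ℤ), bb = -1 ∨ bb = -7 →
  ∀ (ε : ℕ → ℤ → ℂ), (∀ m x, ‖ε m x‖ ≤ 1) → ∀ (F : Fin 4 → ℤ → ℂ) (j₁ j₂ : Fin 4), j₁ ≠ j₂ →
  ∀ (W : Finset (ℕ × ℤ)) (J : ℕ × ℤ), IsRegion W J → ∀ (win : ℕ × ℤ → ℕ),
    (∀ p ∈ W, ∀ q ∈ W, iv p ⊆ iv q → win q ≤ win p) →
  ∀ (s H : ℝ), 0 < s → s ≤ 1 → 1 ≤ H →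
    (∀ k, k ≠ j₁ → k ≠ j₂ → (∀ p ∈ W, av2 (p.1 + 7) p.2 (F k) ≤ 1) ∧ LevOn k κ₀ W (F k) s) →
  ∀ Y : ℤ → ℂ, (∀ p ∈ W, av2 (p.1 + 7) p.2 Y ≤ 1) → (∀ y, ‖Y y‖ ≤ H) →
  ∀ i : ℕ, ∀ q ∈ wn W win i,
    LevH j₁ 7 q (Dgt (sysOf bb ε F j₁ j₂) W win i Y) H (K * s * (1 + Real.log (H / s)))

end Crest.Agent.R079.Cls
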