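import Crest.Agent.R079.GridDefs_569

/-! R079, layer 0/1 (helper569): shadows of admissible boxes and the static bound
`‖TI b ε F (m,l)‖ ≤ 64 · 2^(m+7) · ∏_j av2 (m+7) l (F j)`. -/

set_option autoImplicit false

namespace Crest.Agent.R079.Grid

open Finset

lemma pow_seven (m : ℕ) : (2 : ℤ) ^ (m + 7) = 128 * 2 ^ m := by rw [pow_add]; ring

lemma pow_one' (m : ℕ) : (2 : ℤ) ^ (m + 1) = 2 * 2 ^ m := by rw [pow_add]; ring

/-- all shadows of an admissible box lie in the interval of the node. -/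
lemma yv_mem (m : ℕ) (l b x : ℤ) (hb : b = -1 ∨ b = -7) (hx : x ∈ adm m l)
    (u : Fin 4 → Fin (2 ^ m + 2 ^ m)) (j : Fin 4) : yv (2 ^ m) b x u j ∈ dI (m + 7) l := by
  unfold adm at hx
  unfold dI
  rw [Finset.mem_Ico] at hx ⊢
  obtain ⟨h1, h2⟩ := hx
  have e : (l + 1) * (2 : ℤ) ^ (m + 7) = l * 2 ^ (m + 7) + 2 ^ (m + 7) := by ring
  rw [e] at h2 ⊢
  generalize l * (2 : ℤ) ^ (m + 7) = a at *
  rw [pow_seven, pow_one'] at *
  have hu : ∀ i, ((u i : ℕ) : ℤ) < 2 * 2 ^ m := by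
    intro i
    have := (u i).isLt
    have h3 : (((u i : ℕ) : ℕ) : ℤ) < ((2 ^ m + 2 ^ m : ℕ) : ℤ) := by exact_mod_cast this
    push_cast at h3
    linarith
  have hu0 : ∀ i, (0 : ℤ) ≤ ((u i : ℕ) : ℤ) := fun i => by positivity
  have c0 := hu 0
  have c1 := hu 1
  have c2 := hu 2
  have c3 := hu 3
  have d0 := hu0 0
  have d1 := hu0 1
  have d2 := hu0 2
  have d3 := hu0 3
  have hy : yv (2 ^ m) b x u j = x + ((1 - sl j) * ((u 0 : ℕ) : ℤ) + (2 - sl j) * ((u 1 : ℕ) : ℤ) +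
      (3 - sl j) * ((u 2 : ℕ) : ℤ) + (0 - sl j) * ((u 3 : ℕ) : ℤ)) - sl j * (b * 2 ^ m) := by
    unfold yv
    rw [Fin.sum_univ_four]
    simp [sl]
  rw [hy]
  generalize ((u 0 : ℕ) : ℤ) = u0 at *
  generalize ((u 1 : ℕ) : ℤ) = u1 at *
  generalize ((u 2 : ℕ) : ℤ) = u2 at *
  generalize ((u 3 : ℕ) : ℤ) = u3 at *
  generalize (2 : ℤ) ^ m = N at *
  rcases hb with rfl | rfl <;> fin_cases j <;> simp [sl] at * <;> constructor <;> linarith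

lemma sl_ne : ∀ j k : Fin 4, j ≠ k → sl j ≠ sl k := by
  unfold sl
  decide

/-- two different shadows and three box variables determine the box point -/
lemma pair_inj (N : ℕ) (b : ℤ) (j k : Fin 4) (hjk : j ≠ k) (x x' : ℤ)
    (u u' : Fin 4 → Fin (N + N)) (h1 : yv N b x u j = yv N b x' u' j)
    (h2 : yv N b x u k = yv N b x' u' k) (h3 : ∀ i : Fin 3, u i.succ = u' i.succ) :
    x = x' ∧ u = u' := by
  have hsl : sl j ≠ sl k := sl_ne j k hjk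
  have e : ∀ (x : ℤ) (u : Fin 4 → Fin (N + N)) (j : Fin 4), yv N b x u j =
      (x + ∑ i, sl i * ((u i : ℕ) : ℤ)) - sl j * (∑ i, ((u i : ℕ) : ℤ) + b * N) := by
    intro x u j
    unfold yv
    rw [mul_add, Finset.mul_sum, show ∑ i, (sl i - sl j) * ((u i : ℕ) : ℤ) =
      ∑ i, sl i * ((u i : ℕ) : ℤ) - ∑ i, sl j * ((u i : ℕ) : ℤ) by
        rw [← Finset.sum_sub_distrib]; exact Finset.sum_congr rfl fun i _ => by ring]
    ring
  rw [e, e] at h1 h2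
  have h4 : (sl j - sl k) * (∑ i, ((u i : ℕ) : ℤ) - ∑ i, ((u' i : ℕ) : ℤ)) = 0 := by
    linear_combination h2 - h1
  have h5 : ∑ i, ((u i : ℕ) : ℤ) - ∑ i, ((u' i : ℕ) : ℤ) = 0 := by
    rcases mul_eq_zero.mp h4 with h | h
    · exact absurd (sub_eq_zero.mp h) hsl
    · exact h
  have h6 : ((u 0 : ℕ) : ℤ) = ((u' 0 : ℕ) : ℤ) := by
    rw [Fin.sum_univ_four, Fin.sum_univ_four] at h5
    have a1 : u 1 = u' 1 := h3 0
    have a2 : u 2 = u' 2 := h3 1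
    have a3 : u 3 = u' 3 := h3 2
    rw [a1, a2, a3] at h5
    linarith
  have h7 : u 0 = u' 0 := by
    apply Fin.ext
    exact_mod_cast h6
  have h8 : u = u' := by
    funext i
    refine Fin.cases h7 (fun i => h3 i) i
  refine ⟨?_, h8⟩
  rw [h8] at h1
  linarith

/-- pair count -/
lemma pair_sum (m : ℕ) (l b : ℤ) (hb : b = -1 ∨ b = -7) (j k : Fin 4) (hjk : j ≠ k)
    (g h : ℤ → ℝ) (hg : ∀ y, 0 ≤ g y) (hh : ∀ y, 0 ≤ h y) :
    ∑ z ∈ adm m l ×ˢ (Finset.univ : Finset (Fin 4 → Fin (2 ^ m + 2 ^ m))),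
      g (yv (2 ^ m) b z.1 z.2 j) * h (yv (2 ^ m) b z.1 z.2 k) ≤
      (2 ^ m + 2 ^ m : ℝ) ^ 3 * ((∑ y ∈ dI (m + 7) l, g y) * ∑ y ∈ dI (m + 7) l, h y) := by
  classical
  set I := dI (m + 7) l
  set U3 : Finset (Fin 3 → Fin (2 ^ m + 2 ^ m)) := Finset.univ
  set φ : ℤ × (Fin 4 → Fin (2 ^ m + 2 ^ m)) → (ℤ × ℤ) × (Fin 3 → Fin (2 ^ m + 2 ^ m)) :=
    fun z => ((yv (2 ^ m) b z.1 z.2 j, yv (2 ^ m) b z.1 z.2 k), fun i => z.2 i.succ) with hφ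
  have hinj : Set.InjOn φ (adm m l ×ˢ (Finset.univ : Finset (Fin 4 → Fin (2 ^ m + 2 ^ m))) :
      Finset _) := by
    intro z _ w _ hzw
    simp only [hφ, Prod.mk.injEq] at hzw
    obtain ⟨⟨h1, h2⟩, h3⟩ := hzw
    obtain ⟨h4, h5⟩ := pair_inj (2 ^ m) b j k hjk z.1 w.1 z.2 w.2 h1 h2 (fun i => congrFun h3 i)
    exact Prod.ext h4 h5
  have e1 : ∑ z ∈ adm m l ×ˢ (Finset.univ : Finset (Fin 4 → Fin (2 ^ m + 2 ^ m))),
      g (yv (2 ^ m) b z.1 z.2 j) * h (yv (2 ^ m) b z.1 z.2 k) =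
      ∑ w ∈ (adm m l ×ˢ (Finset.univ : Finset (Fin 4 → Fin (2 ^ m + 2 ^ m)))).image φ,
        g w.1.1 * h w.1.2 := by
    rw [Finset.sum_image hinj]
  rw [e1]
  have hsub : (adm m l ×ˢ (Finset.univ : Finset (Fin 4 → Fin (2 ^ m + 2 ^ m)))).image φ ⊆
      (I ×ˢ I) ×ˢ U3 := by
    intro w hw
    rw [Finset.mem_image] at hw
    obtain ⟨z, hz, rfl⟩ := hw
    rw [Finset.mem_product] at hz
    simp only [hφ, Finset.mem_product]
    exact ⟨⟨yv_mem m l b z.1 hb hz.1 z.2 j, yv_mem m l b z.1 hb hz.1 z.2 k⟩, Finset.mem_univ _⟩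
  refine (Finset.sum_le_sum_of_subset_of_nonneg hsub fun w _ _ =>
    mul_nonneg (hg _) (hh _)).trans (le_of_eq ?_)
  rw [Finset.sum_product, Finset.sum_product]
  simp only [U3, Finset.sum_const, Finset.card_univ, Fintype.card_fun, Fintype.card_fin,
    nsmul_eq_mul]
  rw [Finset.sum_mul_sum, Finset.mul_sum]
  refine Finset.sum_congr rfl fun y _ => ?_
  rw [Finset.mul_sum]
  refine Finset.sum_congr rfl fun y' _ => ?_
  push_cast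
  ring

lemma av2_nonneg (k : ℕ) (l : ℤ) (f : ℤ → ℂ) : 0 ≤ av2 k l f := Real.sqrt_nonneg _

lemma sum_sq_eq (k : ℕ) (l : ℤ) (f : ℤ → ℂ) :
    ∑ y ∈ dI k l, ‖f y‖ ^ 2 = 2 ^ k * av2 k l f ^ 2 := by
  unfold av2
  rw [Real.sq_sqrt (by positivity)]
  field_simp

lemma norm_prod_hsg (N : ℕ) (u : Fin 4 → Fin (N + N)) :
    ‖((∏ i, hsg N (u i) : ℝ) : ℂ)‖ = 1 := by
  rw [Complex.norm_real, Real.norm_eq_abs, Finset.abs_prod]
  refine Finset.prod_eq_one fun i _ => ?_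
  unfold hsg
  split_ifs <;> simp

lemma norm_Lbox_le (N : ℕ) (b : ℤ) (F : Fin 4 → ℤ → ℂ) (x : ℤ) :
    ‖Lbox N b F x‖ ≤ (1 / ((N : ℝ) + N) ^ 4) *
      ∑ u : Fin 4 → Fin (N + N), ∏ j, ‖F j (yv N b x u j)‖ := by
  unfold Lbox
  rw [norm_mul]
  have e : ‖(1 / ((N : ℂ) + N) ^ 4)‖ = 1 / ((N : ℝ) + N) ^ 4 := by
    rw [norm_div, norm_one, norm_pow]
    congr 2
    rw [show (N : ℂ) + N = ((N + N : ℕ) : ℂ) by push_cast; ring, Complex.norm_natCast]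
    push_cast
    ring
  rw [e]
  refine mul_le_mul_of_nonneg_left ?_ (by positivity)
  refine (norm_sum_le _ _).trans (Finset.sum_le_sum fun u _ => ?_)
  rw [norm_mul, norm_prod_hsg, one_mul, norm_prod]

/-- **static bound** with absolute values per box. -/
theorem sum_norm_Lbox_le (m : ℕ) (l b : ℤ) (hb : b = -1 ∨ b = -7) (F : Fin 4 → ℤ → ℂ) :
    ∑ x ∈ adm m l, ‖Lbox (2 ^ m) b F x‖ ≤
      64 * 2 ^ (m + 7) * ∏ j, av2 (m + 7) l (F j) := by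
  classical
  set S : ℝ := (2 : ℝ) ^ m + 2 ^ m with hS
  have hSpos : 0 < S := by positivity
  have h1 : ∑ x ∈ adm m l, ‖Lbox (2 ^ m) b F x‖ ≤ (1 / S ^ 4) *
      ∑ z ∈ adm m l ×ˢ (Finset.univ : Finset (Fin 4 → Fin (2 ^ m + 2 ^ m))),
        ∏ j, ‖F j (yv (2 ^ m) b z.1 z.2 j)‖ := by
    rw [Finset.sum_product, Finset.mul_sum]
    refine Finset.sum_le_sum fun x _ => ?_
    have := norm_Lbox_le (2 ^ m) b F x
    push_cast at this
    exact this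
  set Z := adm m l ×ˢ (Finset.univ : Finset (Fin 4 → Fin (2 ^ m + 2 ^ m))) with hZ
  have h2 : ∑ z ∈ Z, ∏ j, ‖F j (yv (2 ^ m) b z.1 z.2 j)‖ ≤
      Real.sqrt (∑ z ∈ Z, (‖F 0 (yv (2 ^ m) b z.1 z.2 0)‖ * ‖F 1 (yv (2 ^ m) b z.1 z.2 1)‖) ^ 2) *
      Real.sqrt (∑ z ∈ Z, (‖F 2 (yv (2 ^ m) b z.1 z.2 2)‖ * ‖F 3 (yv (2 ^ m) b z.1 z.2 3)‖) ^ 2) := by
    refine le_trans (le_of_eq ?_) (Real.sum_mul_le_sqrt_mul_sqrt _ _ _)
    refine Finset.sum_congr rfl fun z _ => ?_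
    rw [Fin.prod_univ_four]
    ring
  set a : Fin 4 → ℝ := fun j => av2 (m + 7) l (F j) with ha
  have ha0 : ∀ j, 0 ≤ a j := fun j => av2_nonneg _ _ _
  have hpair : ∀ j k : Fin 4, j ≠ k →
      Real.sqrt (∑ z ∈ Z, (‖F j (yv (2 ^ m) b z.1 z.2 j)‖ * ‖F k (yv (2 ^ m) b z.1 z.2 k)‖) ^ 2) ≤
      Real.sqrt (S ^ 3) * (2 ^ (m + 7) * (a j * a k)) := by
    intro j k hjk
    have h3 := pair_sum m l b hb j k hjk (fun y => ‖F j y‖ ^ 2) (fun y => ‖F k y‖ ^ 2)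
      (fun y => by positivity) (fun y => by positivity)
    rw [sum_sq_eq, sum_sq_eq] at h3
    have h4 : ∑ z ∈ Z, (‖F j (yv (2 ^ m) b z.1 z.2 j)‖ * ‖F k (yv (2 ^ m) b z.1 z.2 k)‖) ^ 2 ≤
        S ^ 3 * (2 ^ (m + 7) * (a j * a k)) ^ 2 := by
      simp only [mul_pow]
      refine h3.trans (le_of_eq ?_)
      simp only [hS, ha]
      ring
    calc _ ≤ Real.sqrt (S ^ 3 * (2 ^ (m + 7) * (a j * a k)) ^ 2) := Real.sqrt_le_sqrt h4
      _ = _ := by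
        rw [Real.sqrt_mul (by positivity), Real.sqrt_sq]
        exact mul_nonneg (by positivity) (mul_nonneg (ha0 j) (ha0 k))
  have h01 := hpair 0 1 (by decide)
  have h23 := hpair 2 3 (by decide)
  calc ∑ x ∈ adm m l, ‖Lbox (2 ^ m) b F x‖ ≤ (1 / S ^ 4) *
        ((Real.sqrt (S ^ 3) * (2 ^ (m + 7) * (a 0 * a 1))) *
          (Real.sqrt (S ^ 3) * (2 ^ (m + 7) * (a 2 * a 3)))) := by
        refine h1.trans (mul_le_mul_of_nonneg_left (h2.trans ?_) (by positivity))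
        exact mul_le_mul h01 h23 (Real.sqrt_nonneg _)
          (mul_nonneg (Real.sqrt_nonneg _) (mul_nonneg (by positivity) (mul_nonneg (ha0 0) (ha0 1))))
    _ = 64 * 2 ^ (m + 7) * ∏ j, av2 (m + 7) l (F j) := by
        have e1 : Real.sqrt (S ^ 3) * Real.sqrt (S ^ 3) = S ^ 3 :=
          Real.mul_self_sqrt (by positivity)
        have e2 : (2 : ℝ) ^ (m + 7) = 64 * S := by rw [hS, pow_add]; ring
        rw [Fin.prod_univ_four]
        have e3 : (1 / S ^ 4) * ((Real.sqrt (S ^ 3) * (2 ^ (m + 7) * (a 0 * a 1))) *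
          (Real.sqrt (S ^ 3) * (2 ^ (m + 7) * (a 2 * a 3)))) =
          (1 / S ^ 4) * (Real.sqrt (S ^ 3) * Real.sqrt (S ^ 3)) *
            ((2 ^ (m + 7)) ^ 2 * (a 0 * a 1 * a 2 * a 3)) := by ring
        rw [e3, e1, e2]
        simp only [ha]
        field_simp

/-- **static bound** for the node form. -/
theorem norm_TI_le (b : ℤ) (hb : b = -1 ∨ b = -7) (ε : ℕ → ℤ → ℂ) (hε : ∀ m x, ‖ε m x‖ ≤ 1)
    (F : Fin 4 → ℤ → ℂ) (p : ℕ × ℤ) :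
    ‖TI b ε F p‖ ≤ 64 * 2 ^ (p.1 + 7) * ∏ j, av2 (p.1 + 7) p.2 (F j) := by
  unfold TI
  refine (norm_sum_le _ _).trans (le_trans ?_ (sum_norm_Lbox_le p.1 p.2 b hb F))
  refine Finset.sum_le_sum fun x _ => ?_
  rw [norm_mul]
  calc ‖ε p.1 x‖ * ‖Lbox (2 ^ p.1) b F x‖ ≤ 1 * ‖Lbox (2 ^ p.1) b F x‖ :=
        mul_le_mul_of_nonneg_right (hε _ _) (norm_nonneg _)
    _ = _ := one_mul _

end Crest.Agent.R079.Grid
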