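import Crest.Agent.R079.ClassDefs_491
import Crest.Agent.R079.Static_569

/-! R079: (C5a) the `Growth` system of the box form reproduces `TI` (helper491). -/

set_option autoImplicit false

namespace Crest.Agent.R079.Cls

open Finset Crest.Agent.R079.Grid Crest.Agent.R079.Pot Crest.Agent.R079.Glue Crest.Agent.R079.R244
  Crest.Agent.R079.Growth

theorem prod_put (F : Fin 4 → ℤ → ℂ) {j₁ j₂ : Fin 4} (h : j₁ ≠ j₂) (X Y : ℤ → ℂ)
    (y : Fin 4 → ℤ) :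
    ∏ j, put F j₁ j₂ X Y j (y j) =
      X (y j₁) * Y (y j₂) * ∏ j ∈ (univ.erase j₁).erase j₂, F j (y j) := by
  have h2 : j₂ ∈ (univ : Finset (Fin 4)).erase j₁ := by simp [h.symm]
  rw [← Finset.mul_prod_erase univ _ (Finset.mem_univ j₁), ← Finset.mul_prod_erase _ _ h2,
    mul_assoc]
  have e1 : put F j₁ j₂ X Y j₁ (y j₁) = X (y j₁) := by simp [put, h]
  have e2 : put F j₁ j₂ X Y j₂ (y j₂) = Y (y j₂) := by simp [put]
  rw [e1, e2]
  congr 2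
  refine Finset.prod_congr rfl fun j hj => ?_
  have hj2 : j ≠ j₂ := (Finset.mem_erase.1 hj).1
  have hj1 : j ≠ j₁ := (Finset.mem_erase.1 (Finset.mem_erase.1 hj).2).1
  simp [put, hj1, hj2]

theorem sum_single_mul (S : Finset ℤ) (X : ℤ → ℂ) {y : ℤ} (hy : y ∈ S) :
    ∑ x ∈ S, (Pi.single x (1 : ℂ) : ℤ → ℂ) y * X x = X y := by
  rw [Finset.sum_eq_single y]
  · simp
  · intro b _ hb
    simp [Pi.single_apply, hb.symm]
  · intro h; exact absurd hy h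

theorem c5a : C5a := by
  intro bb hbb ε F j₁ j₂ h p X Y
  unfold tf sysOf TI
  have key : ∀ x ∈ adm p.1 p.2,
      ∑ x' ∈ iv p, ∑ y' ∈ iv p, Lbox (2 ^ p.1) bb
        (put F j₁ j₂ (Pi.single x' 1) (Pi.single y' 1)) x * X x' * Y y' =
      Lbox (2 ^ p.1) bb (put F j₁ j₂ X Y) x := by
    intro x hx
    unfold Lbox
    simp only [prod_put F h]
    have hu : ∀ (u : Fin 4 → Fin (2 ^ p.1 + 2 ^ p.1)) (j : Fin 4),
        yv (2 ^ p.1) bb x u j ∈ iv p := fun u j => yv_mem _ _ _ _ hbb hx u j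
    calc ∑ x' ∈ iv p, ∑ y' ∈ iv p, ((1 / (((2 ^ p.1 : ℕ) : ℂ) + ((2 ^ p.1 : ℕ) : ℂ)) ^ 4) *
            ∑ u : Fin 4 → Fin (2 ^ p.1 + 2 ^ p.1), ((∏ i, hsg (2 ^ p.1) (u i) : ℝ) : ℂ) *
              ((Pi.single x' (1 : ℂ) : ℤ → ℂ) (yv (2 ^ p.1) bb x u j₁) *
                (Pi.single y' (1 : ℂ) : ℤ → ℂ) (yv (2 ^ p.1) bb x u j₂) *
                ∏ j ∈ (univ.erase j₁).erase j₂, F j (yv (2 ^ p.1) bb x u j))) * X x' * Y y'
        = ∑ x' ∈ iv p, ∑ y' ∈ iv p, ∑ u : Fin 4 → Fin (2 ^ p.1 + 2 ^ p.1),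
            (1 / (((2 ^ p.1 : ℕ) : ℂ) + ((2 ^ p.1 : ℕ) : ℂ)) ^ 4) *
            (((∏ i, hsg (2 ^ p.1) (u i) : ℝ) : ℂ) *
              (((Pi.single x' (1 : ℂ) : ℤ → ℂ) (yv (2 ^ p.1) bb x u j₁) * X x') *
                ((Pi.single y' (1 : ℂ) : ℤ → ℂ) (yv (2 ^ p.1) bb x u j₂) * Y y') *
                ∏ j ∈ (univ.erase j₁).erase j₂, F j (yv (2 ^ p.1) bb x u j))) := by
          refine Finset.sum_congr rfl fun x' _ => Finset.sum_congr rfl fun y' _ => ?_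
          rw [mul_assoc, Finset.mul_sum, Finset.sum_mul]
          refine Finset.sum_congr rfl fun u _ => ?_
          ring
      _ = ∑ u : Fin 4 → Fin (2 ^ p.1 + 2 ^ p.1),
            (1 / (((2 ^ p.1 : ℕ) : ℂ) + ((2 ^ p.1 : ℕ) : ℂ)) ^ 4) *
            (((∏ i, hsg (2 ^ p.1) (u i) : ℝ) : ℂ) *
              ((∑ x' ∈ iv p, (Pi.single x' (1 : ℂ) : ℤ → ℂ) (yv (2 ^ p.1) bb x u j₁) * X x') *
                (∑ y' ∈ iv p, (Pi.single y' (1 : ℂ) : ℤ → ℂ) (yv (2 ^ p.1) bb x u j₂) * Y y') *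
                ∏ j ∈ (univ.erase j₁).erase j₂, F j (yv (2 ^ p.1) bb x u j))) := by
          have s1 : ∀ x' ∈ iv p, ∑ y' ∈ iv p, ∑ u : Fin 4 → Fin (2 ^ p.1 + 2 ^ p.1),
              (1 / (((2 ^ p.1 : ℕ) : ℂ) + ((2 ^ p.1 : ℕ) : ℂ)) ^ 4) *
              (((∏ i, hsg (2 ^ p.1) (u i) : ℝ) : ℂ) *
              (((Pi.single x' (1 : ℂ) : ℤ → ℂ) (yv (2 ^ p.1) bb x u j₁) * X x') *
                ((Pi.single y' (1 : ℂ) : ℤ → ℂ) (yv (2 ^ p.1) bb x u j₂) * Y y') *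
                ∏ j ∈ (univ.erase j₁).erase j₂, F j (yv (2 ^ p.1) bb x u j))) =
              ∑ u : Fin 4 → Fin (2 ^ p.1 + 2 ^ p.1), ∑ y' ∈ iv p,
              (1 / (((2 ^ p.1 : ℕ) : ℂ) + ((2 ^ p.1 : ℕ) : ℂ)) ^ 4) *
              (((∏ i, hsg (2 ^ p.1) (u i) : ℝ) : ℂ) *
              (((Pi.single x' (1 : ℂ) : ℤ → ℂ) (yv (2 ^ p.1) bb x u j₁) * X x') *
                ((Pi.single y' (1 : ℂ) : ℤ → ℂ) (yv (2 ^ p.1) bb x u j₂) * Y y') *
                ∏ j ∈ (univ.erase j₁).erase j₂, F j (yv (2 ^ p.1) bb x u j))) := fun x' _ =>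
            Finset.sum_comm
          rw [Finset.sum_congr rfl s1, Finset.sum_comm]
          refine Finset.sum_congr rfl fun u _ => ?_
          simp only [← Finset.mul_sum, ← Finset.sum_mul]
      _ = _ := by
          rw [← Finset.mul_sum]
          congr 1
          refine Finset.sum_congr rfl fun u _ => ?_
          rw [sum_single_mul _ X (hu u j₁), sum_single_mul _ Y (hu u j₂)]
  calc ∑ x' ∈ iv p, ∑ y' ∈ iv p, (∑ x ∈ adm p.1 p.2, ε p.1 x * Lbox (2 ^ p.1) bb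
          (put F j₁ j₂ (Pi.single x' 1) (Pi.single y' 1)) x) * X x' * Y y'
      = ∑ x' ∈ iv p, ∑ y' ∈ iv p, ∑ x ∈ adm p.1 p.2, ε p.1 x * (Lbox (2 ^ p.1) bb
          (put F j₁ j₂ (Pi.single x' 1) (Pi.single y' 1)) x * X x' * Y y') := by
        refine Finset.sum_congr rfl fun x' _ => Finset.sum_congr rfl fun y' _ => ?_
        rw [mul_assoc, Finset.sum_mul]
        refine Finset.sum_congr rfl fun x _ => ?_
        ring
    _ = ∑ x ∈ adm p.1 p.2, ε p.1 x * ∑ x' ∈ iv p, ∑ y' ∈ iv p, (Lbox (2 ^ p.1) bb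
          (put F j₁ j₂ (Pi.single x' 1) (Pi.single y' 1)) x * X x' * Y y') := by
        have s1 : ∀ x' ∈ iv p, ∑ y' ∈ iv p, ∑ x ∈ adm p.1 p.2, ε p.1 x * (Lbox (2 ^ p.1) bb
            (put F j₁ j₂ (Pi.single x' 1) (Pi.single y' 1)) x * X x' * Y y') =
            ∑ x ∈ adm p.1 p.2, ∑ y' ∈ iv p, ε p.1 x * (Lbox (2 ^ p.1) bb
            (put F j₁ j₂ (Pi.single x' 1) (Pi.single y' 1)) x * X x' * Y y') := fun x' _ =>
          Finset.sum_comm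
        rw [Finset.sum_congr rfl s1, Finset.sum_comm]
        refine Finset.sum_congr rfl fun x _ => ?_
        simp only [← Finset.mul_sum]
    _ = ∑ x ∈ adm p.1 p.2, ε p.1 x * Lbox (2 ^ p.1) bb (put F j₁ j₂ X Y) x := by
        refine Finset.sum_congr rfl fun x hx => ?_
        rw [key x hx]

end Crest.Agent.R079.Cls
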