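import Crest.Agent.R079.R244Defs_491
import Crest.Agent.R079.FrozenA_569

/-! R079 (helper815): the Schatten-4 block averages `e4` are (fourth powers of) a norm, real parts,
embedding `ℤ → ZMod Q`. -/

set_option autoImplicit false
set_option linter.unusedSectionVars false
set_option linter.unusedVariables false

namespace Crest.Agent.R079.R244

open Finset Crest.Agent.R079.Grid Crest.Agent.R079.Pot Crest.Agent.R079.Glue

/-! ### Gram matrices of a family of vectors -/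

section gram

variable {ι κ : Type*} [Fintype ι] [Fintype κ]

/-- Gram matrix of the columns -/
noncomputable def gr (A : ι → κ → ℂ) (j j' : κ) : ℂ := ∑ i, A i j * (starRingEnd ℂ) (A i j')

/-- squared Hilbert-Schmidt norm -/
noncomputable def hs (G : κ → κ → ℂ) : ℝ := ∑ j, ∑ j', ‖G j j'‖ ^ 2

/-- `⟨G, H⟩` real part -/
noncomputable def ip (G H : κ → κ → ℂ) : ℝ := ∑ j, ∑ j', (G j j' * (starRingEnd ℂ) (H j j')).re

theorem ip_self (G : κ → κ → ℂ) : ip G G = hs G := by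
  unfold ip hs
  refine Finset.sum_congr rfl fun j _ => Finset.sum_congr rfl fun j' _ => ?_
  rw [Complex.mul_conj, Complex.normSq_eq_norm_sq]
  exact Complex.ofReal_re _

/-- the pairing of two Gram matrices is nonnegative -/
theorem ip_gr_nonneg {ι' : Type*} [Fintype ι'] (A : ι → κ → ℂ) (B : ι' → κ → ℂ) :
    0 ≤ ip (gr A) (gr B) := by
  have e : ip (gr A) (gr B) = ∑ i, ∑ i', ‖∑ j, A i j * (starRingEnd ℂ) (B i' j)‖ ^ 2 := by
    have e1 : ((ip (gr A) (gr B) : ℝ) : ℂ) =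
        ((∑ i, ∑ i', ‖∑ j, A i j * (starRingEnd ℂ) (B i' j)‖ ^ 2 : ℝ) : ℂ) := by
      have h1 : ∀ i i', ((‖∑ j, A i j * (starRingEnd ℂ) (B i' j)‖ ^ 2 : ℝ) : ℂ) =
          ∑ j, ∑ j', A i j * (starRingEnd ℂ) (B i' j) *
            ((starRingEnd ℂ) (A i j') * B i' j') := by
        intro i i'
        rw [← Complex.normSq_eq_norm_sq, ← Complex.mul_conj, map_sum, Finset.sum_mul_sum]
        refine Finset.sum_congr rfl fun j _ => Finset.sum_congr rfl fun j' _ => ?_
        rw [map_mul, Complex.conj_conj]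
      have h2 : (∑ j, ∑ j', gr A j j' * (starRingEnd ℂ) (gr B j j') : ℂ) =
          ((∑ i, ∑ i', ‖∑ j, A i j * (starRingEnd ℂ) (B i' j)‖ ^ 2 : ℝ) : ℂ) := by
        rw [Complex.ofReal_sum]
        simp only [Complex.ofReal_sum, h1]
        have h3 : ∀ j j', gr A j j' * (starRingEnd ℂ) (gr B j j') =
            ∑ i, ∑ i', A i j * (starRingEnd ℂ) (B i' j) *
              ((starRingEnd ℂ) (A i j') * B i' j') := by
          intro j j'
          unfold gr
          rw [map_sum, Finset.sum_mul_sum]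
          refine Finset.sum_congr rfl fun i _ => Finset.sum_congr rfl fun i' _ => ?_
          rw [map_mul, Complex.conj_conj]
          ring
        simp only [h3]
        calc ∑ j, ∑ j', ∑ i, ∑ i', A i j * (starRingEnd ℂ) (B i' j) *
              ((starRingEnd ℂ) (A i j') * B i' j')
            = ∑ j, ∑ i, ∑ j', ∑ i', A i j * (starRingEnd ℂ) (B i' j) *
              ((starRingEnd ℂ) (A i j') * B i' j') :=
              Finset.sum_congr rfl fun j _ => Finset.sum_comm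
          _ = ∑ i, ∑ j, ∑ j', ∑ i', A i j * (starRingEnd ℂ) (B i' j) *
              ((starRingEnd ℂ) (A i j') * B i' j') := Finset.sum_comm
          _ = ∑ i, ∑ j, ∑ i', ∑ j', A i j * (starRingEnd ℂ) (B i' j) *
              ((starRingEnd ℂ) (A i j') * B i' j') :=
              Finset.sum_congr rfl fun i _ => Finset.sum_congr rfl fun j _ => Finset.sum_comm
          _ = ∑ i, ∑ i', ∑ j, ∑ j', A i j * (starRingEnd ℂ) (B i' j) *
              ((starRingEnd ℂ) (A i j') * B i' j') :=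
              Finset.sum_congr rfl fun i _ => Finset.sum_comm
      have h4 : ip (gr A) (gr B) = (∑ j, ∑ j', gr A j j' * (starRingEnd ℂ) (gr B j j') : ℂ).re := by
        unfold ip
        rw [Complex.re_sum]
        refine Finset.sum_congr rfl fun j _ => ?_
        rw [Complex.re_sum]
      rw [h4, h2, Complex.ofReal_re]
    exact_mod_cast e1
  rw [e]
  positivity

theorem ip_comm (G H : κ → κ → ℂ) : ip G H = ip H G := by
  unfold ip
  refine Finset.sum_congr rfl fun j _ => Finset.sum_congr rfl fun j' _ => ?_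
  rw [← Complex.conj_re, map_mul, Complex.conj_conj, mul_comm]

theorem ip_sum_left {σ : Type*} (s : Finset σ) (c : ℝ) (G : σ → κ → κ → ℂ) (H : κ → κ → ℂ) :
    ip (fun j j' => (c : ℂ) * ∑ t ∈ s, G t j j') H = c * ∑ t ∈ s, ip (G t) H := by
  unfold ip
  simp only [Finset.mul_sum]
  have e : ∀ j j', (((∑ t ∈ s, (c : ℂ) * G t j j') * (starRingEnd ℂ) (H j j')) : ℂ).re =
      ∑ t ∈ s, c * (G t j j' * (starRingEnd ℂ) (H j j')).re := by
    intro j j'
    rw [Finset.sum_mul, Complex.re_sum]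
    refine Finset.sum_congr rfl fun t _ => ?_
    rw [mul_assoc, Complex.re_ofReal_mul]
  simp only [e]
  calc ∑ j, ∑ j', ∑ t ∈ s, c * (G t j j' * (starRingEnd ℂ) (H j j')).re
      = ∑ j, ∑ t ∈ s, ∑ j', c * (G t j j' * (starRingEnd ℂ) (H j j')).re :=
        Finset.sum_congr rfl fun j _ => Finset.sum_comm
    _ = ∑ t ∈ s, ∑ j, ∑ j', c * (G t j j' * (starRingEnd ℂ) (H j j')).re := Finset.sum_comm

theorem ip_sub_left (G G' H : κ → κ → ℂ) :
    ip (fun j j' => G j j' - G' j j') H = ip G H - ip G' H := by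
  unfold ip
  simp only [sub_mul, Complex.sub_re, Finset.sum_sub_distrib]

/-- Cauchy-Schwarz -/
theorem ip_le (G H : κ → κ → ℂ) : 2 * ip G H ≤ hs G + hs H := by
  unfold ip hs
  rw [Finset.mul_sum, ← Finset.sum_add_distrib]
  refine Finset.sum_le_sum fun j _ => ?_
  rw [Finset.mul_sum, ← Finset.sum_add_distrib]
  refine Finset.sum_le_sum fun j' _ => ?_
  have h1 : (G j j' * (starRingEnd ℂ) (H j j')).re ≤ ‖G j j'‖ * ‖H j j'‖ := by
    refine (Complex.re_le_norm _).trans ?_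
    rw [norm_mul, RCLike.norm_conj]
  nlinarith [sq_nonneg (‖G j j'‖ - ‖H j j'‖)]

/-- the defect `|s| ∑ Xₛ*Xₛ - (∑ Xₛ)*(∑ Xₛ)` is a Gram matrix (up to `1/2`) -/
theorem gr_sum_defect {σ : Type*} [Fintype σ] (X : σ → ι → κ → ℂ) (j j' : κ) :
    ((Fintype.card σ : ℝ) : ℂ) * ∑ t, gr (X t) j j' - gr (fun i j => ∑ t, X t i j) j j' =
      (1 / 2 : ℂ) * gr (fun (p : ι × σ × σ) j => X p.2.1 p.1 j - X p.2.2 p.1 j) j j' := by
  unfold gr
  rw [Fintype.sum_prod_type]
  simp only [Fintype.sum_prod_type]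
  rw [Finset.sum_comm (s := (Finset.univ : Finset σ)) (t := (Finset.univ : Finset ι))]
  rw [Finset.mul_sum, ← Finset.sum_sub_distrib, Finset.mul_sum]
  refine Finset.sum_congr rfl fun i _ => ?_
  have e1 : ∑ x : σ, ∑ x' : σ, (X x i j - X x' i j) * (starRingEnd ℂ) (X x i j' - X x' i j') =
      2 * ((Fintype.card σ : ℂ) * ∑ t, X t i j * (starRingEnd ℂ) (X t i j')) -
        2 * ((∑ t, X t i j) * (starRingEnd ℂ) (∑ t, X t i j')) := by
    have e2 : ∀ x x' : σ, (X x i j - X x' i j) * (starRingEnd ℂ) (X x i j' - X x' i j') =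
        X x i j * (starRingEnd ℂ) (X x i j') + X x' i j * (starRingEnd ℂ) (X x' i j') -
          X x i j * (starRingEnd ℂ) (X x' i j') - X x' i j * (starRingEnd ℂ) (X x i j') := by
      intro x x'
      rw [map_sub]
      ring
    simp only [e2, Finset.sum_sub_distrib, Finset.sum_add_distrib, Finset.sum_const,
      Finset.card_univ, nsmul_eq_mul, ← Finset.mul_sum, map_sum, Finset.sum_mul]
    have e3 : ∑ x : σ, ∑ x' : σ, X x' i j * (starRingEnd ℂ) (X x i j') =
        ∑ x : σ, ∑ x' : σ, X x i j * (starRingEnd ℂ) (X x' i j') := Finset.sum_comm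
    simp only [← Finset.mul_sum, ← Finset.sum_mul] at e3 ⊢
    ring
  rw [e1]
  push_cast
  ring

theorem hs_sum_le {σ : Type*} [Fintype σ] (X : σ → ι → κ → ℂ) :
    hs (gr (fun i j => ∑ t, X t i j)) ≤ (Fintype.card σ : ℝ) ^ 3 * ∑ t, hs (gr (X t)) := by
  set G : κ → κ → ℂ := gr (fun i j => ∑ t, X t i j) with hG
  set n : ℝ := (Fintype.card σ : ℝ) with hn
  have hn0 : 0 ≤ n := by positivity
  set H : κ → κ → ℂ := fun j j' => (n : ℂ) * ∑ t, gr (X t) j j' with hH
  -- H - G is half a Gram matrix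
  have hd : ∀ (ρ : Type _) [Fintype ρ] (Y : ρ → κ → ℂ), 0 ≤ ip H (gr Y) - ip G (gr Y) := by
    intro ρ _ Y
    rw [← ip_sub_left]
    have e : (fun j j' => H j j' - G j j') = fun j j' => ((1 / 2 : ℝ) : ℂ) * ∑ t ∈ ({()} : Finset Unit),
        gr (fun (p : ι × σ × σ) j => X p.2.1 p.1 j - X p.2.2 p.1 j) j j' := by
      funext j j'
      rw [Finset.sum_singleton, hH, hG]
      have := gr_sum_defect X j j'
      simp only
      rw [this]
      push_cast
      ring
    rw [e, ip_sum_left, Finset.sum_singleton]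
    have := ip_gr_nonneg (fun (p : ι × σ × σ) j => X p.2.1 p.1 j - X p.2.2 p.1 j) Y
    linarith
  have h1 : hs G ≤ ip H G := by
    have := hd ι (fun i j => ∑ t, X t i j)
    rw [← hG, ip_self] at this
    linarith
  have h2 : ip H G ≤ hs H := by
    -- ip H G = n ∑ ip (gr X t) G ≤ n ∑ ip (gr X t) H = ip H H
    have e1 : ip H G = n * ∑ t, ip (gr (X t)) G := ip_sum_left _ _ _ _
    have e2 : ip H H = n * ∑ t, ip (gr (X t)) H := ip_sum_left _ _ _ _
    rw [← ip_self H, e1, e2]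
    refine mul_le_mul_of_nonneg_left (Finset.sum_le_sum fun t _ => ?_) hn0
    have := hd ι (X t)
    rw [ip_comm H, ip_comm G] at this
    linarith
  have h3 : hs H ≤ n ^ 3 * ∑ t, hs (gr (X t)) := by
    have e2 : hs H = n * ∑ t, ip (gr (X t)) H := by
      rw [← ip_self H]
      exact ip_sum_left _ _ _ _
    have e3 : ∀ t, ip (gr (X t)) H = n * ∑ t', ip (gr (X t')) (gr (X t)) := by
      intro t
      rw [ip_comm]
      exact ip_sum_left _ _ _ _
    rw [e2]
    simp only [e3]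
    have h4 : ∑ t, ∑ t', ip (gr (X t')) (gr (X t)) ≤ n * ∑ t, hs (gr (X t)) := by
      have h5 : ∀ t t' : σ, ip (gr (X t')) (gr (X t)) ≤
          (1 / 2) * hs (gr (X t')) + (1 / 2) * hs (gr (X t)) := by
        intro t t'
        have := ip_le (gr (X t')) (gr (X t))
        linarith
      refine (Finset.sum_le_sum fun t _ => Finset.sum_le_sum fun t' _ => h5 t t').trans ?_
      simp only [Finset.sum_add_distrib, Finset.sum_const, Finset.card_univ, nsmul_eq_mul,
        ← Finset.mul_sum]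
      rw [← hn]
      linarith
    rw [← Finset.mul_sum, ← mul_assoc]
    calc n * n * ∑ t, ∑ t', ip (gr (X t')) (gr (X t)) ≤ n * n * (n * ∑ t, hs (gr (X t))) :=
          mul_le_mul_of_nonneg_left h4 (by positivity)
      _ = n ^ 3 * ∑ t, hs (gr (X t)) := by ring
  linarith

end gram

/-! ### `e4` -/

/-- the box of side `N` at `(q, p)` as a matrix -/
noncomputable def bm (X : ℤ → ℤ → ℂ) (N : ℕ) (q p : ℤ) (i j : Fin N) : ℂ :=
  X (q + ((i : ℕ) : ℤ)) (p + ((j : ℕ) : ℤ))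

theorem e4_eq_hs (X : ℤ → ℤ → ℂ) (N : ℕ) (q p : ℤ) :
    e4 X N q p = (1 / (N : ℝ) ^ 4) * hs (gr (bm X N q p)) := by
  unfold e4 hs gr bm
  congr 1
  rw [Finset.sum_range]
  refine Finset.sum_congr rfl fun j _ => ?_
  rw [Finset.sum_range]
  refine Finset.sum_congr rfl fun j' _ => ?_
  rw [Finset.sum_range]

theorem e4_nonneg (X : ℤ → ℤ → ℂ) (N : ℕ) (q p : ℤ) : 0 ≤ e4 X N q p := by
  unfold e4; positivity

/-- `e4^(1/4)` is a norm: sum over a finite family -/
theorem e4_sum_le {σ : Type*} (s : Finset σ) (X : σ → ℤ → ℤ → ℂ) (N : ℕ) (q p : ℤ) :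
    e4 (fun x y => ∑ t ∈ s, X t x y) N q p ≤ (s.card : ℝ) ^ 3 * ∑ t ∈ s, e4 (X t) N q p := by
  have h := hs_sum_le (fun (t : s) => bm (X t) N q p)
  rw [Fintype.card_coe] at h
  have e1 : gr (fun i j => ∑ t : s, bm (X t) N q p i j) =
      gr (bm (fun x y => ∑ t ∈ s, X t x y) N q p) := by
    congr 1
    funext i j
    unfold bm
    exact Finset.sum_coe_sort s (fun t => X t (q + ((i : ℕ) : ℤ)) (p + ((j : ℕ) : ℤ)))
  have e2 : ∑ t : s, hs (gr (bm (X t) N q p)) = ∑ t ∈ s, hs (gr (bm (X t) N q p)) :=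
    Finset.sum_coe_sort s (fun t => hs (gr (bm (X t) N q p)))
  rw [e1, e2] at h
  rw [e4_eq_hs]
  simp only [e4_eq_hs]
  rw [← Finset.mul_sum, mul_left_comm]
  exact mul_le_mul_of_nonneg_left h (by positivity)

theorem e4_congr (X Y : ℤ → ℤ → ℂ) (N : ℕ) (q p : ℤ)
    (h : ∀ i j : ℕ, i < N → j < N → X (q + (i : ℤ)) (p + (j : ℤ)) = Y (q + (i : ℤ)) (p + (j : ℤ))) :
    e4 X N q p = e4 Y N q p := by
  unfold e4
  congr 1
  refine Finset.sum_congr rfl fun j hj => Finset.sum_congr rfl fun j' hj' => ?_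
  congr 2
  refine Finset.sum_congr rfl fun i hi => ?_
  rw [Finset.mem_range] at hi hj hj'
  rw [h i j hi hj, h i j' hi hj']

theorem e4_conj (X : ℤ → ℤ → ℂ) (N : ℕ) (q p : ℤ) :
    e4 (fun x y => (starRingEnd ℂ) (X x y)) N q p = e4 X N q p := by
  unfold e4
  congr 1
  refine Finset.sum_congr rfl fun j _ => Finset.sum_congr rfl fun j' _ => ?_
  have e : ∑ i ∈ range N, (starRingEnd ℂ) (X (q + (i : ℤ)) (p + (j : ℤ))) *
      (starRingEnd ℂ) ((starRingEnd ℂ) (X (q + (i : ℤ)) (p + (j' : ℤ)))) =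
      (starRingEnd ℂ) (∑ i ∈ range N, X (q + (i : ℤ)) (p + (j : ℤ)) *
        (starRingEnd ℂ) (X (q + (i : ℤ)) (p + (j' : ℤ)))) := by
    rw [map_sum]
    refine Finset.sum_congr rfl fun i _ => ?_
    rw [map_mul]
  rw [e, RCLike.norm_conj]

theorem e4_smul (c : ℂ) (X : ℤ → ℤ → ℂ) (N : ℕ) (q p : ℤ) :
    e4 (fun x y => c * X x y) N q p = ‖c‖ ^ 4 * e4 X N q p := by
  unfold e4
  rw [mul_left_comm]
  congr 1
  rw [Finset.mul_sum]
  refine Finset.sum_congr rfl fun j _ => ?_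
  rw [Finset.mul_sum]
  refine Finset.sum_congr rfl fun j' _ => ?_
  have e : ∑ i ∈ range N, c * X (q + (i : ℤ)) (p + (j : ℤ)) *
      (starRingEnd ℂ) (c * X (q + (i : ℤ)) (p + (j' : ℤ))) =
      (c * (starRingEnd ℂ) c) * ∑ i ∈ range N, X (q + (i : ℤ)) (p + (j : ℤ)) *
        (starRingEnd ℂ) (X (q + (i : ℤ)) (p + (j' : ℤ))) := by
    rw [Finset.mul_sum]
    refine Finset.sum_congr rfl fun i _ => ?_
    rw [map_mul]
    ring
  rw [e, norm_mul, norm_mul, RCLike.norm_conj]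
  ring

theorem e4_add_le (X Y : ℤ → ℤ → ℂ) (N : ℕ) (q p : ℤ) :
    e4 (fun x y => X x y + Y x y) N q p ≤ 8 * (e4 X N q p + e4 Y N q p) := by
  have h := e4_sum_le (Finset.univ : Finset Bool) (fun b => if b then X else Y) N q p
  simp only [Fintype.sum_bool, if_true, Bool.false_eq_true, if_false] at h
  have e : ((Finset.univ : Finset Bool).card : ℝ) ^ 3 = 8 := by
    simp
    norm_num
  rw [e] at h
  exact h

/-- real part -/
theorem e4_re_le (X : ℤ → ℤ → ℂ) (N : ℕ) (q p : ℤ) :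
    e4 (fun x y => ((X x y).re : ℂ)) N q p ≤ e4 X N q p := by
  have e : (fun x y => ((X x y).re : ℂ)) =
      fun x y => (1 / 2 : ℂ) * X x y + (1 / 2 : ℂ) * (starRingEnd ℂ) (X x y) := by
    funext x y
    rw [Complex.re_eq_add_conj]
    ring
  rw [e]
  refine (e4_add_le _ _ N q p).trans ?_
  rw [e4_smul, e4_smul, e4_conj]
  have : ‖(1 / 2 : ℂ)‖ = 1 / 2 := by simp
  rw [this]
  have := e4_nonneg X N q p
  linarith

/-- imaginary part -/
theorem e4_im_le (X : ℤ → ℤ → ℂ) (N : ℕ) (q p : ℤ) :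
    e4 (fun x y => ((X x y).im : ℂ)) N q p ≤ e4 X N q p := by
  have e : (fun x y => ((X x y).im : ℂ)) = fun x y => (((-Complex.I) * X x y).re : ℂ) := by
    funext x y
    simp
  rw [e]
  refine (e4_re_le (fun x y => (-Complex.I) * X x y) N q p).trans ?_
  rw [e4_smul]
  simp

/-! ### real kernels on `ℤ` and `ZMod Q` -/

/-- real version on `ℤ` -/
noncomputable def e4Z (A : ℤ → ℤ → ℝ) (N : ℕ) (q p : ℤ) : ℝ :=
  (1 / (N : ℝ) ^ 4) * ∑ j ∈ range N, ∑ j' ∈ range N,
    (∑ i ∈ range N, A (q + (i : ℤ)) (p + (j : ℤ)) * A (q + (i : ℤ)) (p + (j' : ℤ))) ^ 2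

theorem e4Z_eq (A : ℤ → ℤ → ℝ) (N : ℕ) (q p : ℤ) :
    e4Z A N q p = e4 (fun x y => (A x y : ℂ)) N q p := by
  unfold e4Z e4
  congr 1
  refine Finset.sum_congr rfl fun j _ => Finset.sum_congr rfl fun j' _ => ?_
  have e : ∑ i ∈ range N, (A (q + (i : ℤ)) (p + (j : ℤ)) : ℂ) *
      (starRingEnd ℂ) (A (q + (i : ℤ)) (p + (j' : ℤ)) : ℂ) =
      ((∑ i ∈ range N, A (q + (i : ℤ)) (p + (j : ℤ)) * A (q + (i : ℤ)) (p + (j' : ℤ)) : ℝ) : ℂ) := by
    push_cast
    refine Finset.sum_congr rfl fun i _ => ?_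
    rw [Complex.conj_ofReal]
  rw [e, Complex.norm_real, Real.norm_eq_abs, sq_abs]

theorem e4Z_nonneg (A : ℤ → ℤ → ℝ) (N : ℕ) (q p : ℤ) : 0 ≤ e4Z A N q p := by
  unfold e4Z; positivity

theorem e4Z_re_le (X : ℤ → ℤ → ℂ) (N : ℕ) (q p : ℤ) :
    e4Z (fun x y => (X x y).re) N q p ≤ e4 X N q p := by
  rw [e4Z_eq]; exact e4_re_le X N q p

theorem e4Z_im_le (X : ℤ → ℤ → ℂ) (N : ℕ) (q p : ℤ) :
    e4Z (fun x y => (X x y).im) N q p ≤ e4 X N q p := by
  rw [e4Z_eq]; exact e4_im_le X N q p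

section emb

variable {Q : ℕ} [NeZero Q]

/-- all values of the embedded kernel on a box -/
theorem em_box (A : ℤ → ℤ → ℝ) (L N : ℕ)
    (hA : ∀ x y, ((L : ℤ) < |x| ∨ (L : ℤ) < |y|) → A x y = 0) (hQ : 2 * (L + N) < Q)
    (q p : ZMod Q) (i j : ℕ) (hi : i < N) (hj : j < N) :
    em Q A (q + (i : ZMod Q)) (p + (j : ZMod Q)) = A (q.valMinAbs + i) (p.valMinAbs + j) := by
  by_cases h : em Q A (q + (i : ZMod Q)) (p + (j : ZMod Q)) = 0
  · rw [h]
    by_contra hne
    have h1 : |q.valMinAbs + i| ≤ L := by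
      by_contra hc
      exact hne (hA _ _ (Or.inl (not_le.mp hc))).symm
    have h2 : |p.valMinAbs + j| ≤ L := by
      by_contra hc
      exact hne (hA _ _ (Or.inr (not_le.mp hc))).symm
    have e1 : (((q.valMinAbs + i : ℤ)) : ZMod Q) = q + (i : ZMod Q) := by
      simp
    have e2 : (((p.valMinAbs + j : ℤ)) : ZMod Q) = p + (j : ZMod Q) := by
      simp
    have hQ' : (2 * (L + N) : ℤ) < Q := by exact_mod_cast hQ
    have hN : (0 : ℤ) ≤ N := by positivity
    have := em_eq (Q := Q) A (q.valMinAbs + i) (p.valMinAbs + j) (by linarith) (by linarith)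
    rw [e1, e2, h] at this
    exact hne this
  · exact (em_point A L N hA hQ q p i j hi hj h).1

theorem e4r_em (A : ℤ → ℤ → ℝ) (L N : ℕ)
    (hA : ∀ x y, ((L : ℤ) < |x| ∨ (L : ℤ) < |y|) → A x y = 0) (hQ : 2 * (L + N) < Q)
    (q p : ZMod Q) : e4r (em Q A) N q p = e4Z A N q.valMinAbs p.valMinAbs := by
  unfold e4r e4Z
  congr 1
  refine Finset.sum_congr rfl fun j hj => Finset.sum_congr rfl fun j' hj' => ?_
  congr 1
  refine Finset.sum_congr rfl fun i hi => ?_
  rw [Finset.mem_range] at hi hj hj'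
  rw [em_box A L N hA hQ q p i j hi hj, em_box A L N hA hQ q p i j' hi hj']

theorem bx_em (A : ℤ → ℤ → ℝ) (L N : ℕ)
    (hA : ∀ x y, ((L : ℤ) < |x| ∨ (L : ℤ) < |y|) → A x y = 0) (hQ : 2 * (L + N) < Q)
    (q p : ZMod Q) : bx (em Q A) N q p = bxZ A N q.valMinAbs p.valMinAbs := by
  unfold bx bxZ
  congr 1
  refine Finset.sum_congr rfl fun i hi => Finset.sum_congr rfl fun j hj => ?_
  rw [Finset.mem_range] at hi hj
  rw [em_box A L N hA hQ q p i j hi hj]

end emb

end Crest.Agent.R079.R244
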