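import Crest.Agent.R079.FrozenA_569
import Crest.Agent.R079.FrozenB_569

/-! R079, I1 part C (helper569): frozen kernels, exit values, sum over the frozen variable. -/

set_option autoImplicit false

namespace Crest.Agent.R079.Glue

open Finset Crest.Agent.R079.Grid

/-- Hölder in the form used at the exits -/
lemma holder32 {ι : Type*} (S : Finset ι) (c : ℝ) (hc : 0 ≤ c) (u v : ι → ℝ) (hu : ∀ i, 0 ≤ u i)
    (r : ℝ) (hr : 0 < r) (hV : c * ∑ i ∈ S, v i ^ 2 ≤ r ^ 2) (X : ℝ) (hX0 : 0 ≤ X)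
    (hX : X ≤ c * ∑ i ∈ S, u i ^ 2 * v i ^ 2) :
    X ^ (3 / 2 : ℝ) ≤ r * (c * ∑ i ∈ S, u i ^ 3 * v i ^ 2) := by
  set t := Real.sqrt X with ht
  have ht0 : 0 ≤ t := Real.sqrt_nonneg X
  have ht2 : t ^ 2 = X := Real.sq_sqrt hX0
  set P := c * ∑ i ∈ S, u i ^ 3 * v i ^ 2 with hP
  set lam := t / r with hlam
  have hlam0 : 0 ≤ lam := div_nonneg ht0 hr.le
  have h1 : ∀ i ∈ S, 3 * lam * (u i ^ 2 * v i ^ 2) ≤ 2 * (u i ^ 3 * v i ^ 2) + lam ^ 3 * v i ^ 2 := by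
    intro i _
    have h2 : 0 ≤ 2 * u i ^ 3 + lam ^ 3 - 3 * u i ^ 2 * lam := by
      have : 2 * u i ^ 3 + lam ^ 3 - 3 * u i ^ 2 * lam = (u i - lam) ^ 2 * (2 * u i + lam) := by ring
      rw [this]
      exact mul_nonneg (sq_nonneg _) (by linarith [hu i])
    nlinarith [mul_nonneg h2 (sq_nonneg (v i))]
  have h2 := Finset.sum_le_sum h1
  rw [← Finset.mul_sum, Finset.sum_add_distrib, ← Finset.mul_sum, ← Finset.mul_sum] at h2
  have h3 : 3 * lam * (c * ∑ i ∈ S, u i ^ 2 * v i ^ 2) ≤ 2 * P + lam ^ 3 * (c * ∑ i ∈ S, v i ^ 2) := by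
    have := mul_le_mul_of_nonneg_left h2 hc
    rw [hP]
    linarith
  have h4 : 3 * lam * X ≤ 2 * P + lam ^ 3 * r ^ 2 := by
    refine (mul_le_mul_of_nonneg_left hX (by positivity)).trans (h3.trans ?_)
    have := mul_le_mul_of_nonneg_left hV (by positivity : 0 ≤ lam ^ 3)
    linarith
  have e1 : lam * X = t ^ 3 / r := by rw [hlam, ← ht2]; ring
  have e2 : lam ^ 3 * r ^ 2 = t ^ 3 / r := by
    rw [hlam]; field_simp
  have h5 : t ^ 3 / r ≤ P := by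
    have : 3 * (lam * X) ≤ 2 * P + lam ^ 3 * r ^ 2 := by linarith
    rw [e1, e2] at this
    linarith
  have h6 : t ^ 3 ≤ r * P := by
    rw [div_le_iff₀ hr] at h5
    linarith
  have e3 : X ^ (3 / 2 : ℝ) = t ^ 3 := by
    rw [ht, Real.sqrt_eq_rpow, ← Real.rpow_natCast, ← Real.rpow_mul hX0]
    norm_num
  rw [e3]
  exact h6

/-- real and imaginary parts -/
noncomputable def pr (σ : Bool) (z : ℂ) : ℝ := if σ then z.re else z.im

lemma abs_pr_le (σ : Bool) (z : ℂ) : |pr σ z| ≤ ‖z‖ := by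
  unfold pr
  split_ifs
  · exact Complex.abs_re_le_norm z
  · exact Complex.abs_im_le_norm z

lemma pr_zero (σ : Bool) : pr σ 0 = 0 := by unfold pr; simp

/-- frozen real kernel with linear form `α w + γ z + δ z'` -/
noncomputable def fK (σ : Bool) (α γ δ : ℤ) (T T' : Finset ℤ) (a : ℤ → ℤ → ℂ) (G : ℤ → ℂ) (w : ℤ)
    (z z' : ℤ) : ℝ :=
  if z ∈ T ∧ z' ∈ T' then pr σ (a z z' * G (α * w + γ * z + δ * z')) else 0

/-- exit density -/
noncomputable def gK (α γ δ : ℤ) (T T' : Finset ℤ) (a : ℤ → ℤ → ℂ) (D : Finset ℤ) (G : ℤ → ℂ)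
    (w : ℤ) (z z' : ℤ) : ℝ :=
  if z ∈ T ∧ z' ∈ T' then ‖a z z'‖ ^ 3 *
    (if α * w + γ * z + δ * z' ∈ D then ‖G (α * w + γ * z + δ * z')‖ ^ 2 else 0) else 0

lemma gK_nonneg (α γ δ : ℤ) (T T' : Finset ℤ) (a : ℤ → ℤ → ℂ) (D : Finset ℤ) (G : ℤ → ℂ)
    (w : ℤ) (z z' : ℤ) : 0 ≤ gK α γ δ T T' a D G w z z' := by
  unfold gK
  split_ifs <;> positivity

lemma gK_off (α γ δ : ℤ) (T T' : Finset ℤ) (a : ℤ → ℤ → ℂ) (D : Finset ℤ) (G : ℤ → ℂ)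
    (w : ℤ) (z z' : ℤ) (h : ¬ (z ∈ T ∧ z' ∈ T')) : gK α γ δ T T' a D G w z z' = 0 := by
  unfold gK
  rw [if_neg h]

/-- exit value of one box -/
lemma bxZ_fK_le (R : Finset (ℕ × ℤ)) (m s : ℕ) (F : ℤ → ℂ) (A : ℝ) (hA : 0 < A)
    (hF : ∀ p ∈ R, av2 (p.1 + 7) p.2 F ≤ A) (σ : Bool) (α γ δ : ℤ) (hγ : γ ≠ 0) (hγ3 : |γ| ≤ 3)
    (T T' : Finset ℤ) (a : ℤ → ℤ → ℂ) (w : ℤ) (D : Finset ℤ) (q p : ℤ)
    (hD : ∀ i j : ℕ, i < 2 ^ (m + s) → j < 2 ^ (m + s) →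
      α * w + γ * (q + (i : ℤ)) + δ * (p + (j : ℤ)) ∈ D) :
    bxZ (fK σ α γ δ T T' a (msk (Rm R m) F) w) (2 ^ (m + s)) q p ^ (3 / 2 : ℝ) ≤
      30 * A * ((1 / ((2 ^ (m + s) : ℕ) : ℝ) ^ 2) * ∑ i ∈ range (2 ^ (m + s)),
        ∑ j ∈ range (2 ^ (m + s)),
          gK α γ δ T T' a D (msk (Rm R m) F) w (q + (i : ℤ)) (p + (j : ℤ))) := by
  classical
  set N := 2 ^ (m + s) with hN
  set y : ℕ × ℕ → ℤ := fun ij => α * w + γ * (q + (ij.1 : ℤ)) + δ * (p + (ij.2 : ℤ)) with hy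
  set u : ℕ × ℕ → ℝ := fun ij =>
    if q + (ij.1 : ℤ) ∈ T ∧ p + (ij.2 : ℤ) ∈ T' then ‖a (q + (ij.1 : ℤ)) (p + (ij.2 : ℤ))‖ else 0
    with hu
  set v : ℕ × ℕ → ℝ := fun ij => ‖msk (Rm R m) F (y ij)‖ with hv
  have hu0 : ∀ ij, 0 ≤ u ij := fun ij => by simp only [hu]; split_ifs <;> positivity
  have h := holder32 (range N ×ˢ range N) (1 / (N : ℝ) ^ 2) (by positivity) u v hu0 (30 * A)
    (by positivity) ?_ (bxZ (fK σ α γ δ T T' a (msk (Rm R m) F) w) N q p) (bxZ_nonneg _ _ _ _) ?_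
  · refine h.trans (le_of_eq ?_)
    congr 2
    rw [Finset.sum_product]
    refine Finset.sum_congr rfl fun i hi => Finset.sum_congr rfl fun j hj => ?_
    rw [Finset.mem_range] at hi hj
    have hm := hD i j hi hj
    simp only [hu, hv, hy]
    unfold gK
    split_ifs with h1
    · rfl
    · simp
  · -- average of v²
    have h1 := sum_msk_box R m s F A hF (α * w + γ * q + δ * p) γ δ hγ hγ3
    rw [← hN] at h1
    rw [Finset.sum_product]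
    have e : ∀ i ∈ range N, ∀ j ∈ range N, v (i, j) ^ 2 =
        ‖msk (Rm R m) F (α * w + γ * q + δ * p + γ * (i : ℤ) + δ * (j : ℤ))‖ ^ 2 := by
      intro i _ j _
      simp only [hv, hy]
      congr 3
      ring
    rw [Finset.sum_congr rfl fun i hi => Finset.sum_congr rfl fun j hj => e i hi j hj]
    refine h1.trans ?_
    nlinarith [sq_nonneg A]
  · -- bxZ
    unfold bxZ
    rw [Finset.sum_product]
    refine mul_le_mul_of_nonneg_left ?_ (by positivity)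
    refine Finset.sum_le_sum fun i _ => Finset.sum_le_sum fun j _ => ?_
    simp only [hu, hv, hy]
    unfold fK
    split_ifs with h1
    · have h2 := abs_pr_le σ (a (q + (i : ℤ)) (p + (j : ℤ)) *
        msk (Rm R m) F (α * w + γ * (q + (i : ℤ)) + δ * (p + (j : ℤ))))
      rw [norm_mul] at h2
      rw [← sq_abs, ← mul_pow]
      exact pow_le_pow_left₀ (abs_nonneg _) h2 2
    · simp

/-- sum over injective families of positions -/
lemma sum_positions {ι : Type*} (Λ : Finset ι) (π : ι → ℤ × ℤ) (hπ : Set.InjOn π Λ) (N : ℕ)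
    (T T' : Finset ℤ) (g : ℤ → ℤ → ℝ) (hg : ∀ z z', 0 ≤ g z z')
    (hoff : ∀ z z', ¬ (z ∈ T ∧ z' ∈ T') → g z z' = 0) :
    ∑ x ∈ Λ, (1 / (N : ℝ) ^ 2) * ∑ i ∈ range N, ∑ j ∈ range N,
      g ((π x).1 + (i : ℤ)) ((π x).2 + (j : ℤ)) ≤ ∑ z ∈ T, ∑ z' ∈ T', g z z' := by
  classical
  rw [← Finset.mul_sum, Finset.sum_comm]
  have h1 : ∀ i ∈ range N, ∑ x ∈ Λ, ∑ j ∈ range N, g ((π x).1 + (i : ℤ)) ((π x).2 + (j : ℤ)) ≤
      N * ∑ z ∈ T, ∑ z' ∈ T', g z z' := by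
    intro i _
    rw [Finset.sum_comm]
    have h2 : ∀ j ∈ range N, ∑ x ∈ Λ, g ((π x).1 + (i : ℤ)) ((π x).2 + (j : ℤ)) ≤
        ∑ z ∈ T, ∑ z' ∈ T', g z z' := by
      intro j _
      rw [← Finset.sum_product']
      set φ : ι → ℤ × ℤ := fun x => ((π x).1 + (i : ℤ), (π x).2 + (j : ℤ)) with hφ
      have hφi : Set.InjOn φ Λ := by
        intro x hx x' hx' hxx
        apply hπ hx hx'
        simp only [hφ, Prod.mk.injEq] at hxx
        exact Prod.ext (by linarith [hxx.1]) (by linarith [hxx.2])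
      have e : ∑ x ∈ Λ, g ((π x).1 + (i : ℤ)) ((π x).2 + (j : ℤ)) =
          ∑ z ∈ Λ.image φ, g z.1 z.2 := by
        rw [Finset.sum_image hφi]
      rw [e]
      have e2 : ∑ z ∈ Λ.image φ, g z.1 z.2 = ∑ z ∈ (Λ.image φ).filter (fun z => z ∈ T ×ˢ T'),
          g z.1 z.2 := by
        rw [Finset.sum_filter]
        refine Finset.sum_congr rfl fun z _ => ?_
        split_ifs with hz
        · rfl
        · rw [Finset.mem_product] at hz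
          exact hoff _ _ hz
      rw [e2]
      refine Finset.sum_le_sum_of_subset_of_nonneg ?_ fun z _ _ => hg _ _
      intro z hz
      exact (Finset.mem_filter.mp hz).2
    refine (Finset.sum_le_sum h2).trans (le_of_eq ?_)
    rw [Finset.sum_const, Finset.card_range, nsmul_eq_mul]
  have h3 := mul_le_mul_of_nonneg_left (Finset.sum_le_sum h1)
    (by positivity : (0 : ℝ) ≤ 1 / (N : ℝ) ^ 2)
  refine h3.trans ?_
  rw [Finset.sum_const, Finset.card_range, nsmul_eq_mul]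
  have hS : 0 ≤ ∑ z ∈ T, ∑ z' ∈ T', g z z' :=
    Finset.sum_nonneg fun z _ => Finset.sum_nonneg fun z' _ => hg _ _
  rcases Nat.eq_zero_or_pos N with h0 | h0
  · subst h0; simpa using hS
  · have hN : (0 : ℝ) < N := by exact_mod_cast h0
    refine le_of_eq ?_
    field_simp

/-- sum over the frozen variable -/
lemma sum_gK_le (α γ δ : ℤ) (hα : α ≠ 0) (T T' : Finset ℤ) (a : ℤ → ℤ → ℂ) (D : Finset ℤ)
    (G : ℤ → ℂ) (Wf : Finset ℤ) :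
    ∑ w ∈ Wf, ∑ z ∈ T, ∑ z' ∈ T', gK α γ δ T T' a D G w z z' ≤
      n3 T T' a * ∑ y ∈ D, ‖G y‖ ^ 2 := by
  classical
  rw [Finset.sum_comm]
  unfold n3
  rw [Finset.sum_mul]
  refine Finset.sum_le_sum fun z hz => ?_
  rw [Finset.sum_comm, Finset.sum_mul]
  refine Finset.sum_le_sum fun z' hz' => ?_
  have e : ∀ w ∈ Wf, gK α γ δ T T' a D G w z z' = ‖a z z'‖ ^ 3 *
      (if α * w + γ * z + δ * z' ∈ D then ‖G (α * w + γ * z + δ * z')‖ ^ 2 else 0) := by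
    intro w _
    unfold gK
    rw [if_pos ⟨hz, hz'⟩]
  rw [Finset.sum_congr rfl e, ← Finset.mul_sum]
  refine mul_le_mul_of_nonneg_left ?_ (by positivity)
  rw [← Finset.sum_filter]
  rw [← Finset.sum_image (f := fun y => ‖G y‖ ^ 2) (g := fun w => α * w + γ * z + δ * z')]
  · refine Finset.sum_le_sum_of_subset_of_nonneg ?_ fun y _ _ => by positivity
    intro y hy
    rw [Finset.mem_image] at hy
    obtain ⟨w, hw, rfl⟩ := hy
    exact (Finset.mem_filter.mp hw).2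
  · intro w _ w' _ hww
    simp only at hww
    have : α * w = α * w' := by linarith
    exact mul_left_cancel₀ hα this


/-- a change of the frozen kernel is seen at an exit -/
lemma fK_sees (R : Finset (ℕ × ℤ)) (J : ℕ × ℤ) (hR : IsRegion R J) (m : ℕ) (hm : m ≤ J.1)
    (F : ℤ → ℂ) (σ : Bool) (α γ δ : ℤ) (T T' : Finset ℤ) (a : ℤ → ℤ → ℂ) (w : ℤ) (N : ℕ) (q p : ℤ)
    (h : SeesZ (fK σ α γ δ T T' a (msk (Rs R (m + 1)) F) w)
      (fK σ α γ δ T T' a (msk (Rs R m) F) w) N q p) :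
    ∃ i j : ℕ, i < N ∧ j < N ∧ α * w + γ * (q + (i : ℤ)) + δ * (p + (j : ℤ)) ∈ Dm R m := by
  obtain ⟨i, j, hi, hj, hne⟩ := h
  refine ⟨i, j, hi, hj, ?_⟩
  by_contra hc
  apply hne
  have hmono := Rs_mono R J hR m hm
  have e : msk (Rs R (m + 1)) F (α * w + γ * (q + (i : ℤ)) + δ * (p + (j : ℤ))) =
      msk (Rs R m) F (α * w + γ * (q + (i : ℤ)) + δ * (p + (j : ℤ))) := by
    unfold msk
    unfold Dm at hc
    rw [Finset.mem_sdiff] at hc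
    by_cases h1 : α * w + γ * (q + (i : ℤ)) + δ * (p + (j : ℤ)) ∈ Rs R m
    · rw [if_pos h1, if_pos (hmono h1)]
    · have h2 : α * w + γ * (q + (i : ℤ)) + δ * (p + (j : ℤ)) ∉ Rs R (m + 1) :=
        fun h2 => hc ⟨h2, h1⟩
      rw [if_neg h1, if_neg h2]
  unfold fK
  rw [e]

lemma abs_smul_le (s : ℤ) (i N : ℕ) (hs : |s| ≤ 3) (hi : i < N) : |s * (i : ℤ)| ≤ 3 * N := by
  rw [abs_mul, abs_of_nonneg (by positivity : (0 : ℤ) ≤ i)]
  have hi' : (i : ℤ) ≤ N := by exact_mod_cast hi.le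
  exact mul_le_mul hs hi' (by positivity) (by norm_num)

lemma mem_Dp (R : Finset (ℕ × ℤ)) (m h : ℕ) (d y : ℤ) (hd : d ∈ Dm R m)
    (h1 : |y - d| ≤ h * 2 ^ m) : y ∈ Dp R m h := by
  unfold Dp
  rw [Finset.mem_biUnion]
  refine ⟨d, hd, ?_⟩
  rw [Finset.mem_Icc]
  rw [abs_le] at h1
  constructor <;> linarith [h1.1, h1.2]

/-- **own potentials at the exits** -/
lemma ETZ_fK_le (R : Finset (ℕ × ℤ)) (J : ℕ × ℤ) (hR : IsRegion R J) (m s h : ℕ) (hm : m ≤ J.1)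
    (hh : 12 * 2 ^ s ≤ h) (F : ℤ → ℂ) (A : ℝ) (hA : 0 < A)
    (hF : ∀ p ∈ R, av2 (p.1 + 7) p.2 F ≤ A) (σ : Bool) (α γ δ : ℤ) (hγ : γ ≠ 0) (hγ3 : |γ| ≤ 3)
    (hδ3 : |δ| ≤ 3) (T T' : Finset ℤ) (a : ℤ → ℤ → ℂ) (w : ℤ) (L : ℕ) :
    ETZ L (fK σ α γ δ T T' a (msk (Rs R (m + 1)) F) w) (fK σ α γ δ T T' a (msk (Rs R m) F) w)
      (2 ^ (m + s)) ≤ 30 * A * ∑ z ∈ T, ∑ z' ∈ T',
        gK α γ δ T T' a (Dp R m h) (msk (Rm R m) F) w z z' := by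
  classical
  set N := 2 ^ (m + s) with hN
  set g := gK α γ δ T T' a (Dp R m h) (msk (Rm R m) F) w with hg
  have hNz : (N : ℤ) = 2 ^ s * 2 ^ m := by rw [hN]; push_cast; rw [pow_add]; ring
  have h1 : ∀ q p : ℤ, (if SeesZ (fK σ α γ δ T T' a (msk (Rs R (m + 1)) F) w)
      (fK σ α γ δ T T' a (msk (Rs R m) F) w) N q p then
      bxZ (fK σ α γ δ T T' a (msk (Rs R (m + 1)) F) w) N q p ^ (3 / 2 : ℝ) else 0) ≤
      30 * A * ((1 / (N : ℝ) ^ 2) * ∑ i ∈ range N, ∑ j ∈ range N, g (q + (i : ℤ)) (p + (j : ℤ))) := by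
    intro q p
    split_ifs with hs
    · obtain ⟨i', j', hi', hj', hd⟩ := fK_sees R J hR m hm F σ α γ δ T T' a w N q p hs
      refine bxZ_fK_le R m s F A hA hF σ α γ δ hγ hγ3 T T' a w (Dp R m h) q p ?_
      intro i j hi hj
      refine mem_Dp R m h _ _ hd ?_
      have a1 := abs_smul_le γ i N hγ3 hi
      have a2 := abs_smul_le γ i' N hγ3 hi'
      have a3 := abs_smul_le δ j N hδ3 hj
      have a4 := abs_smul_le δ j' N hδ3 hj'
      have e : α * w + γ * (q + (i : ℤ)) + δ * (p + (j : ℤ)) -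
          (α * w + γ * (q + (i' : ℤ)) + δ * (p + (j' : ℤ))) =
          γ * (i : ℤ) + δ * (j : ℤ) - γ * (i' : ℤ) - δ * (j' : ℤ) := by ring
      have hhz : (12 * 2 ^ s : ℤ) ≤ h := by exact_mod_cast hh
      have hb : 12 * (N : ℤ) ≤ h * 2 ^ m := by
        rw [hNz]
        have : (0 : ℤ) ≤ 2 ^ m := by positivity
        nlinarith
      rw [e]
      refine le_trans ?_ hb
      rw [abs_le] at a1 a2 a3 a4 ⊢
      constructor <;> linarith [a1.1, a1.2, a2.1, a2.2, a3.1, a3.2, a4.1, a4.2]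
    · have : ∀ i ∈ range N, ∀ j ∈ range N, 0 ≤ g (q + (i : ℤ)) (p + (j : ℤ)) :=
        fun i _ j _ => gK_nonneg _ _ _ _ _ _ _ _ _ _ _
      have h2 : 0 ≤ ∑ i ∈ range N, ∑ j ∈ range N, g (q + (i : ℤ)) (p + (j : ℤ)) :=
        Finset.sum_nonneg fun i hi => Finset.sum_nonneg fun j hj => this i hi j hj
      positivity
  unfold ETZ
  refine (Finset.sum_le_sum fun q _ => Finset.sum_le_sum fun p _ => h1 q p).trans ?_
  rw [← Finset.sum_product', ← Finset.mul_sum]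
  refine mul_le_mul_of_nonneg_left ?_ (by positivity)
  exact sum_positions (Icc (-(L : ℤ)) L ×ˢ Icc (-(L : ℤ)) L) (fun x => x)
    (fun x _ y _ hxy => hxy) N T T' g (fun z z' => gK_nonneg _ _ _ _ _ _ _ _ _ _ _)
    (fun z z' hz => gK_off _ _ _ _ _ _ _ _ _ _ _ hz)

/-- slopes: all four distinct in `[0,3]` -/
structure Slopes (sj s0 s1 s2 : ℤ) : Prop where
  hj : 0 ≤ sj ∧ sj ≤ 3
  h0 : 0 ≤ s0 ∧ s0 ≤ 3
  h1 : 0 ≤ s1 ∧ s1 ≤ 3
  h2 : 0 ≤ s2 ∧ s2 ≤ 3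
  nj0 : sj - s0 ≠ 0
  nj1 : sj - s1 ≠ 0
  nj2 : sj - s2 ≠ 0
  n10 : s1 - s0 ≠ 0
  n21 : s2 - s1 ≠ 0
  n02 : s0 - s2 ≠ 0

lemma slopes_sl (j : Fin 4) : Slopes (sl j) (sl (j.succAbove 0)) (sl (j.succAbove 1))
    (sl (j.succAbove 2)) := by
  fin_cases j <;> constructor <;> decide

/-- **joint potentials at the exits** -/
lemma VTZ_fK_le (R : Finset (ℕ × ℤ)) (J : ℕ × ℤ) (hR : IsRegion R J) (m h : ℕ) (hm : m ≤ J.1)
    (hh : 24 ≤ h) (F0 F1 F2 : ℤ → ℂ) (A0 A1 A2 : ℝ) (hA0 : 0 < A0) (hA1 : 0 < A1) (hA2 : 0 < A2)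
    (hF0 : ∀ p ∈ R, av2 (p.1 + 7) p.2 F0 ≤ A0) (hF1 : ∀ p ∈ R, av2 (p.1 + 7) p.2 F1 ≤ A1)
    (hF2 : ∀ p ∈ R, av2 (p.1 + 7) p.2 F2 ≤ A2) (σ0 σ1 σ2 : Bool) (sj s0 s1 s2 : ℤ)
    (hs : Slopes sj s0 s1 s2) (T0 T1 T2 : Finset ℤ) (a b c : ℤ → ℤ → ℂ) (w : ℤ) (L : ℕ) :
    VTZ L w
      (fK σ2 (sj - s2) (s0 - s2) (s1 - s2) T0 T1 a (msk (Rs R (m + 1)) F2) w)
      (fK σ0 (sj - s0) (s1 - s0) (s2 - s0) T1 T2 b (msk (Rs R (m + 1)) F0) w)
      (fK σ1 (sj - s1) (s2 - s1) (s0 - s1) T2 T0 c (msk (Rs R (m + 1)) F1) w)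
      (fK σ2 (sj - s2) (s0 - s2) (s1 - s2) T0 T1 a (msk (Rs R m) F2) w)
      (fK σ0 (sj - s0) (s1 - s0) (s2 - s0) T1 T2 b (msk (Rs R m) F0) w)
      (fK σ1 (sj - s1) (s2 - s1) (s0 - s1) T2 T0 c (msk (Rs R m) F1) w) (2 ^ m) ≤
    30 * A2 * (∑ z ∈ T0, ∑ z' ∈ T1,
        gK (sj - s2) (s0 - s2) (s1 - s2) T0 T1 a (Dp R m h) (msk (Rm R m) F2) w z z') +
    30 * A0 * (∑ z ∈ T1, ∑ z' ∈ T2,
        gK (sj - s0) (s1 - s0) (s2 - s0) T1 T2 b (Dp R m h) (msk (Rm R m) F0) w z z') +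
    30 * A1 * (∑ z ∈ T2, ∑ z' ∈ T0,
        gK (sj - s1) (s2 - s1) (s0 - s1) T2 T0 c (Dp R m h) (msk (Rm R m) F1) w z z') := by
  classical
  set N := 2 ^ m with hN
  set gA := gK (sj - s2) (s0 - s2) (s1 - s2) T0 T1 a (Dp R m h) (msk (Rm R m) F2) w with hgA
  set gB := gK (sj - s0) (s1 - s0) (s2 - s0) T1 T2 b (Dp R m h) (msk (Rm R m) F0) w with hgB
  set gC := gK (sj - s1) (s2 - s1) (s0 - s1) T2 T0 c (Dp R m h) (msk (Rm R m) F1) w with hgC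
  have hNz : (N : ℤ) = 2 ^ m := by rw [hN]; push_cast; ring
  set av : (ℤ → ℤ → ℝ) → ℤ → ℤ → ℝ := fun g q p =>
    (1 / (N : ℝ) ^ 2) * ∑ i ∈ range N, ∑ j ∈ range N, g (q + (i : ℤ)) (p + (j : ℤ)) with hav
  have hav0 : ∀ (g : ℤ → ℤ → ℝ), (∀ z z', 0 ≤ g z z') → ∀ q p, 0 ≤ av g q p := by
    intro g hg q p
    simp only [hav]
    exact mul_nonneg (by positivity)
      (Finset.sum_nonneg fun i _ => Finset.sum_nonneg fun j _ => hg _ _)
  have hgA0 : ∀ z z', 0 ≤ gA z z' := fun z z' => gK_nonneg _ _ _ _ _ _ _ _ _ _ _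
  have hgB0 : ∀ z z', 0 ≤ gB z z' := fun z z' => gK_nonneg _ _ _ _ _ _ _ _ _ _ _
  have hgC0 : ∀ z z', 0 ≤ gC z z' := fun z z' => gK_nonneg _ _ _ _ _ _ _ _ _ _ _
  have b2 : |s0 - s2| ≤ 3 ∧ |s1 - s2| ≤ 3 := by
    constructor <;> rw [abs_le] <;> constructor <;> linarith [hs.h0.1, hs.h0.2, hs.h1.1, hs.h1.2, hs.h2.1, hs.h2.2]
  have b0 : |s1 - s0| ≤ 3 ∧ |s2 - s0| ≤ 3 := by
    constructor <;> rw [abs_le] <;> constructor <;> linarith [hs.h0.1, hs.h0.2, hs.h1.1, hs.h1.2, hs.h2.1, hs.h2.2]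
  have b1 : |s2 - s1| ≤ 3 ∧ |s0 - s1| ≤ 3 := by
    constructor <;> rw [abs_le] <;> constructor <;> linarith [hs.h0.1, hs.h0.2, hs.h1.1, hs.h1.2, hs.h2.1, hs.h2.2]
  have hbh : 24 * (N : ℤ) ≤ h * 2 ^ m := by
    rw [hNz]
    have h24 : (24 : ℤ) ≤ h := by exact_mod_cast hh
    exact mul_le_mul_of_nonneg_right h24 (by positivity)
  -- the value at one position
  have h1 : ∀ i ∈ range N, ∀ p0 p1 : ℤ,
      (if SeesZ (fK σ2 (sj - s2) (s0 - s2) (s1 - s2) T0 T1 a (msk (Rs R (m + 1)) F2) w)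
          (fK σ2 (sj - s2) (s0 - s2) (s1 - s2) T0 T1 a (msk (Rs R m) F2) w) N p0 p1 ∨
        SeesZ (fK σ0 (sj - s0) (s1 - s0) (s2 - s0) T1 T2 b (msk (Rs R (m + 1)) F0) w)
          (fK σ0 (sj - s0) (s1 - s0) (s2 - s0) T1 T2 b (msk (Rs R m) F0) w) N p1
            (tc N i w p0 p1) ∨
        SeesZ (fK σ1 (sj - s1) (s2 - s1) (s0 - s1) T2 T0 c (msk (Rs R (m + 1)) F1) w)
          (fK σ1 (sj - s1) (s2 - s1) (s0 - s1) T2 T0 c (msk (Rs R m) F1) w) N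
            (tc N i w p0 p1) p0 then
        bxZ (fK σ2 (sj - s2) (s0 - s2) (s1 - s2) T0 T1 a (msk (Rs R (m + 1)) F2) w) N p0 p1
          ^ (3 / 2 : ℝ) +
        bxZ (fK σ0 (sj - s0) (s1 - s0) (s2 - s0) T1 T2 b (msk (Rs R (m + 1)) F0) w) N p1
          (tc N i w p0 p1) ^ (3 / 2 : ℝ) +
        bxZ (fK σ1 (sj - s1) (s2 - s1) (s0 - s1) T2 T0 c (msk (Rs R (m + 1)) F1) w) N
          (tc N i w p0 p1) p0 ^ (3 / 2 : ℝ)
      else 0) ≤ 30 * A2 * av gA p0 p1 + 30 * A0 * av gB p1 (tc N i w p0 p1) +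
        30 * A1 * av gC (tc N i w p0 p1) p0 := by
    intro i hi p0 p1
    rw [Finset.mem_range] at hi
    split_ifs with hse
    · set p2 := tc N i w p0 p1 with hp2
      set G0 : ℤ := sj * w + s0 * p0 + s1 * p1 + s2 * p2 with hG0
      set t0 : ℤ := w + p0 + p1 + p2 with ht0
      have ht : t0 = -(2 * (N : ℤ)) + i := by rw [ht0, hp2]; unfold tc; ring
      have hi' : (i : ℤ) < N := by exact_mod_cast hi
      have hi0 : (0 : ℤ) ≤ i := by positivity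
      have hst : ∀ s : ℤ, 0 ≤ s ∧ s ≤ 3 → |s * t0| ≤ 6 * N := by
        intro s hs
        rw [abs_mul]
        have h1 : |s| ≤ 3 := by rw [abs_le]; constructor <;> linarith [hs.1, hs.2]
        have h2 : |t0| ≤ 2 * N := by rw [ht, abs_le]; constructor <;> linarith
        have := mul_le_mul h1 h2 (abs_nonneg _) (by norm_num)
        linarith
      -- all points are close to `G0`
      have cA : ∀ i0 i1 : ℕ, i0 < N → i1 < N → |((sj - s2) * w + (s0 - s2) * (p0 + (i0 : ℤ)) +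
          (s1 - s2) * (p1 + (i1 : ℤ))) - G0| ≤ 12 * N := by
        intro i0 i1 hi0 hi1
        have e : ((sj - s2) * w + (s0 - s2) * (p0 + (i0 : ℤ)) + (s1 - s2) * (p1 + (i1 : ℤ))) - G0 =
            -(s2 * t0) + (s0 - s2) * (i0 : ℤ) + (s1 - s2) * (i1 : ℤ) := by
          rw [hG0, ht0]; ring
        have a1 := abs_smul_le (s0 - s2) i0 N b2.1 hi0
        have a2 := abs_smul_le (s1 - s2) i1 N b2.2 hi1
        have a3 := hst s2 hs.h2
        rw [e]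
        rw [abs_le] at a1 a2 a3 ⊢
        constructor <;> linarith [a1.1, a1.2, a2.1, a2.2, a3.1, a3.2]
      have cB : ∀ i0 i1 : ℕ, i0 < N → i1 < N → |((sj - s0) * w + (s1 - s0) * (p1 + (i0 : ℤ)) +
          (s2 - s0) * (p2 + (i1 : ℤ))) - G0| ≤ 12 * N := by
        intro i0 i1 hi0 hi1
        have e : ((sj - s0) * w + (s1 - s0) * (p1 + (i0 : ℤ)) + (s2 - s0) * (p2 + (i1 : ℤ))) - G0 =
            -(s0 * t0) + (s1 - s0) * (i0 : ℤ) + (s2 - s0) * (i1 : ℤ) := by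
          rw [hG0, ht0]; ring
        have a1 := abs_smul_le (s1 - s0) i0 N b0.1 hi0
        have a2 := abs_smul_le (s2 - s0) i1 N b0.2 hi1
        have a3 := hst s0 hs.h0
        rw [e]
        rw [abs_le] at a1 a2 a3 ⊢
        constructor <;> linarith [a1.1, a1.2, a2.1, a2.2, a3.1, a3.2]
      have cC : ∀ i0 i1 : ℕ, i0 < N → i1 < N → |((sj - s1) * w + (s2 - s1) * (p2 + (i0 : ℤ)) +
          (s0 - s1) * (p0 + (i1 : ℤ))) - G0| ≤ 12 * N := by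
        intro i0 i1 hi0 hi1
        have e : ((sj - s1) * w + (s2 - s1) * (p2 + (i0 : ℤ)) + (s0 - s1) * (p0 + (i1 : ℤ))) - G0 =
            -(s1 * t0) + (s2 - s1) * (i0 : ℤ) + (s0 - s1) * (i1 : ℤ) := by
          rw [hG0, ht0]; ring
        have a1 := abs_smul_le (s2 - s1) i0 N b1.1 hi0
        have a2 := abs_smul_le (s0 - s1) i1 N b1.2 hi1
        have a3 := hst s1 hs.h1
        rw [e]
        rw [abs_le] at a1 a2 a3 ⊢
        constructor <;> linarith [a1.1, a1.2, a2.1, a2.2, a3.1, a3.2]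
      obtain ⟨d, hd, hdG⟩ : ∃ d ∈ Dm R m, |d - G0| ≤ 12 * N := by
        rcases hse with hse | hse | hse
        · obtain ⟨i', j', hi', hj', hd⟩ := fK_sees R J hR m hm F2 σ2 _ _ _ T0 T1 a w N p0 p1 hse
          exact ⟨_, hd, cA i' j' hi' hj'⟩
        · obtain ⟨i', j', hi', hj', hd⟩ := fK_sees R J hR m hm F0 σ0 _ _ _ T1 T2 b w N p1 p2 hse
          exact ⟨_, hd, cB i' j' hi' hj'⟩
        · obtain ⟨i', j', hi', hj', hd⟩ := fK_sees R J hR m hm F1 σ1 _ _ _ T2 T0 c w N p2 p0 hse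
          exact ⟨_, hd, cC i' j' hi' hj'⟩
      have close : ∀ y : ℤ, |y - G0| ≤ 12 * N → y ∈ Dp R m h := by
        intro y hy
        refine mem_Dp R m h d y hd (le_trans ?_ hbh)
        rw [abs_le] at hy hdG ⊢
        constructor <;> linarith [hy.1, hy.2, hdG.1, hdG.2]
      refine add_le_add (add_le_add ?_ ?_) ?_
      · exact bxZ_fK_le R m 0 F2 A2 hA2 hF2 σ2 _ _ _ hs.n02 b2.1 T0 T1 a w (Dp R m h) p0 p1
          fun i j hi hj => close _ (cA i j hi hj)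
      · exact bxZ_fK_le R m 0 F0 A0 hA0 hF0 σ0 _ _ _ hs.n10 b0.1 T1 T2 b w (Dp R m h) p1 p2
          fun i j hi hj => close _ (cB i j hi hj)
      · exact bxZ_fK_le R m 0 F1 A1 hA1 hF1 σ1 _ _ _ hs.n21 b1.1 T2 T0 c w (Dp R m h) p2 p0
          fun i j hi hj => close _ (cC i j hi hj)
    · have := hav0 gA hgA0 p0 p1
      have := hav0 gB hgB0 p1 (tc N i w p0 p1)
      have := hav0 gC hgC0 (tc N i w p0 p1) p0
      positivity
  set SA := ∑ z ∈ T0, ∑ z' ∈ T1, gA z z' with hSA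
  set SB := ∑ z ∈ T1, ∑ z' ∈ T2, gB z z' with hSB
  set SC := ∑ z ∈ T2, ∑ z' ∈ T0, gC z z' with hSC
  have h2 : ∀ i ∈ range N, ∑ p0 ∈ Icc (-(L : ℤ)) L, ∑ p1 ∈ Icc (-(L : ℤ)) L,
      (if SeesZ (fK σ2 (sj - s2) (s0 - s2) (s1 - s2) T0 T1 a (msk (Rs R (m + 1)) F2) w)
          (fK σ2 (sj - s2) (s0 - s2) (s1 - s2) T0 T1 a (msk (Rs R m) F2) w) N p0 p1 ∨
        SeesZ (fK σ0 (sj - s0) (s1 - s0) (s2 - s0) T1 T2 b (msk (Rs R (m + 1)) F0) w)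
          (fK σ0 (sj - s0) (s1 - s0) (s2 - s0) T1 T2 b (msk (Rs R m) F0) w) N p1
            (tc N i w p0 p1) ∨
        SeesZ (fK σ1 (sj - s1) (s2 - s1) (s0 - s1) T2 T0 c (msk (Rs R (m + 1)) F1) w)
          (fK σ1 (sj - s1) (s2 - s1) (s0 - s1) T2 T0 c (msk (Rs R m) F1) w) N
            (tc N i w p0 p1) p0 then
        bxZ (fK σ2 (sj - s2) (s0 - s2) (s1 - s2) T0 T1 a (msk (Rs R (m + 1)) F2) w) N p0 p1
          ^ (3 / 2 : ℝ) +
        bxZ (fK σ0 (sj - s0) (s1 - s0) (s2 - s0) T1 T2 b (msk (Rs R (m + 1)) F0) w) N p1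
          (tc N i w p0 p1) ^ (3 / 2 : ℝ) +
        bxZ (fK σ1 (sj - s1) (s2 - s1) (s0 - s1) T2 T0 c (msk (Rs R (m + 1)) F1) w) N
          (tc N i w p0 p1) p0 ^ (3 / 2 : ℝ)
      else 0) ≤ 30 * A2 * SA + 30 * A0 * SB + 30 * A1 * SC := by
    intro i hi
    refine (Finset.sum_le_sum fun p0 _ => Finset.sum_le_sum fun p1 _ => h1 i hi p0 p1).trans ?_
    have qA : ∑ x ∈ Icc (-(L : ℤ)) L ×ˢ Icc (-(L : ℤ)) L, av gA x.1 x.2 ≤ SA :=
      sum_positions (Icc (-(L : ℤ)) L ×ˢ Icc (-(L : ℤ)) L) (fun x => x)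
        (fun x _ y _ hxy => hxy) N T0 T1 gA hgA0 (fun z z' hz => gK_off _ _ _ _ _ _ _ _ _ _ _ hz)
    have qB : ∑ x ∈ Icc (-(L : ℤ)) L ×ˢ Icc (-(L : ℤ)) L, av gB x.2 (tc N i w x.1 x.2) ≤ SB := by
      refine sum_positions (Icc (-(L : ℤ)) L ×ˢ Icc (-(L : ℤ)) L)
        (fun x => (x.2, tc N i w x.1 x.2)) ?_ N T1 T2 gB hgB0
        (fun z z' hz => gK_off _ _ _ _ _ _ _ _ _ _ _ hz)
      intro x _ y _ hxy
      simp only [Prod.mk.injEq, tc] at hxy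
      exact Prod.ext (by linarith [hxy.1, hxy.2]) hxy.1
    have qC : ∑ x ∈ Icc (-(L : ℤ)) L ×ˢ Icc (-(L : ℤ)) L, av gC (tc N i w x.1 x.2) x.1 ≤ SC := by
      refine sum_positions (Icc (-(L : ℤ)) L ×ˢ Icc (-(L : ℤ)) L)
        (fun x => (tc N i w x.1 x.2, x.1)) ?_ N T2 T0 gC hgC0
        (fun z z' hz => gK_off _ _ _ _ _ _ _ _ _ _ _ hz)
      intro x _ y _ hxy
      simp only [Prod.mk.injEq, tc] at hxy
      exact Prod.ext hxy.2 (by linarith [hxy.1, hxy.2])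
    have e : ∑ p0 ∈ Icc (-(L : ℤ)) L, ∑ p1 ∈ Icc (-(L : ℤ)) L,
        (30 * A2 * av gA p0 p1 + 30 * A0 * av gB p1 (tc N i w p0 p1) +
          30 * A1 * av gC (tc N i w p0 p1) p0) =
        30 * A2 * (∑ x ∈ Icc (-(L : ℤ)) L ×ˢ Icc (-(L : ℤ)) L, av gA x.1 x.2) +
        30 * A0 * (∑ x ∈ Icc (-(L : ℤ)) L ×ˢ Icc (-(L : ℤ)) L, av gB x.2 (tc N i w x.1 x.2)) +
        30 * A1 * (∑ x ∈ Icc (-(L : ℤ)) L ×ˢ Icc (-(L : ℤ)) L, av gC (tc N i w x.1 x.2) x.1) := by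
      rw [Finset.mul_sum (Icc (-(L : ℤ)) L ×ˢ Icc (-(L : ℤ)) L) (fun x => av gA x.1 x.2),
        Finset.mul_sum (Icc (-(L : ℤ)) L ×ˢ Icc (-(L : ℤ)) L) (fun x => av gB x.2 (tc N i w x.1 x.2)),
        Finset.mul_sum (Icc (-(L : ℤ)) L ×ˢ Icc (-(L : ℤ)) L) (fun x => av gC (tc N i w x.1 x.2) x.1),
        ← Finset.sum_add_distrib, ← Finset.sum_add_distrib, Finset.sum_product]
    rw [e]
    exact add_le_add (add_le_add (mul_le_mul_of_nonneg_left qA (by positivity))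
      (mul_le_mul_of_nonneg_left qB (by positivity))) (mul_le_mul_of_nonneg_left qC (by positivity))
  unfold VTZ
  refine (mul_le_mul_of_nonneg_left (Finset.sum_le_sum h2) (by positivity)).trans ?_
  rw [Finset.sum_const, Finset.card_range, nsmul_eq_mul]
  have hN0 : (0 : ℝ) < (N : ℝ) := by rw [hN]; positivity
  refine le_of_eq ?_
  field_simp

end Crest.Agent.R079.Glue
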