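import Crest.Agent.R072.Lattice

/-! R079, LAYER 2a/2b/2d, R-PART (architect helper491): abstract trace potentials on real boxes.

Everything lives on `ZMod Q` (finite sums, all positions of the boxes), real matrices, exactly as in
R072's `LatA/LatB`, but

* for an ABSTRACT potential `P = (F, E)` (`F` = joint potential, `E` = companion used for the own
  potentials; instances: `(phi, phi)` with `c = 4`, `(LD t, LD (t/2))` with `c = 1`),
* with BLOCK-AVERAGED offsets (`bl`): in the 4-linear form the vertex `0` is frozen (`x₀` fixed,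
  `p₀ = x₀ - u₀`, `u₀ < 2N` free), so the offset of the triangular box form is `b N + u₀ - x₀`,
* with SCALE DEPENDENT functions `X m, Z m` (= `f · 1_{R_m}`, masks): this replaces the region
  weights; the telescoping losses are supported on the positions which see a change of the mask.  -/

set_option autoImplicit false

namespace Crest.Agent.R079.Pot

open Matrix Finset Crest.Agent.R072 Crest.Agent.R072.Lattice
open scoped MatrixOrder

/-- a pair of "trace" potentials -/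
structure TPot where
  /-- joint potential -/
  F : (r : ℕ) → Matrix (Fin r) (Fin r) ℝ → ℝ
  /-- companion (own) potential -/
  E : (r : ℕ) → Matrix (Fin r) (Fin r) ℝ → ℝ

/-- midpoint gap of a function on matrices -/
noncomputable def mgap (G : (r : ℕ) → Matrix (Fin r) (Fin r) ℝ → ℝ) (r : ℕ)
    (X Y : Matrix (Fin r) (Fin r) ℝ) : ℝ :=
  G r X + G r Y - 2 * G r ((1 / 2 : ℝ) • (X + Y))

/-- upper left block, doubled -/
def blkA (r : ℕ) (M : Matrix (Fin (r + r)) (Fin (r + r)) ℝ) : Matrix (Fin r) (Fin r) ℝ :=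
  (2 : ℝ) • M.submatrix (Fin.castAdd r) (Fin.castAdd r)

/-- lower right block, doubled -/
def blkB (r : ℕ) (M : Matrix (Fin (r + r)) (Fin (r + r)) ℝ) : Matrix (Fin r) (Fin r) ℝ :=
  (2 : ℝ) • M.submatrix (Fin.natAdd r) (Fin.natAdd r)

/-- pinching gain: `F(2 M₁₁) + F(2 M₂₂) - 2 F(M)` -/
noncomputable def gam (G : (r : ℕ) → Matrix (Fin r) (Fin r) ℝ → ℝ) (r : ℕ)
    (M : Matrix (Fin (r + r)) (Fin (r + r)) ℝ) : ℝ :=
  G r (blkA r M) + G r (blkB r M) - 2 * G (r + r) M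

/-- one potential: nonnegative, convex (supporting functional at every PSD matrix), pinching
inequality -/
structure GoodPot (G : (r : ℕ) → Matrix (Fin r) (Fin r) ℝ → ℝ) : Prop where
  nonneg : ∀ (r : ℕ) (M : Matrix (Fin r) (Fin r) ℝ), M.PosSemidef → 0 ≤ G r M
  supp : ∀ (r : ℕ) (Z : Matrix (Fin r) (Fin r) ℝ), Z.PosSemidef →
    ∃ L : Matrix (Fin r) (Fin r) ℝ →ₗ[ℝ] ℝ, ∀ X : Matrix (Fin r) (Fin r) ℝ, X.PosSemidef →
      G r Z + L (X - Z) ≤ G r X
  split : ∀ (r : ℕ) (M : Matrix (Fin (r + r)) (Fin (r + r)) ℝ), M.PosSemidef → 0 ≤ gam G r M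

theorem GoodPot.mid {G : (r : ℕ) → Matrix (Fin r) (Fin r) ℝ → ℝ} (h : GoodPot G) (r : ℕ)
    (X Y : Matrix (Fin r) (Fin r) ℝ) (hX : X.PosSemidef) (hY : Y.PosSemidef) :
    G r ((1 / 2 : ℝ) • (X + Y)) ≤ (1 / 2) * G r X + (1 / 2) * G r Y := by
  obtain ⟨L, hL⟩ := h.supp r ((1 / 2 : ℝ) • (X + Y)) ((hX.add hY).smul (by norm_num))
  have h1 := hL X hX
  have h2 := hL Y hY
  have e : L (X - (1 / 2 : ℝ) • (X + Y)) + L (Y - (1 / 2 : ℝ) • (X + Y)) = 0 := by
    rw [← map_add]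
    have : X - (1 / 2 : ℝ) • (X + Y) + (Y - (1 / 2 : ℝ) • (X + Y)) = 0 := by
      have h3 : (1 / 2 : ℝ) • (X + Y) + (1 / 2 : ℝ) • (X + Y) = X + Y := by
        rw [← add_smul]; norm_num
      calc X - (1 / 2 : ℝ) • (X + Y) + (Y - (1 / 2 : ℝ) • (X + Y))
          = (X + Y) - ((1 / 2 : ℝ) • (X + Y) + (1 / 2 : ℝ) • (X + Y)) := by abel
        _ = 0 := by rw [h3, sub_self]
    rw [this, map_zero]
  linarith

/-- the axioms used by the lattice argument, with constant `c` in the mixed difference estimate -/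
structure Good (P : TPot) (c : ℝ) : Prop where
  c0 : 0 ≤ c
  F : GoodPot P.F
  E : GoodPot P.E
  mixed : ∀ (r : ℕ) (a₁ a₂ b₁ b₂ : Matrix (Fin r) (Fin r) ℝ), a₁.PosSemidef → a₂.PosSemidef →
    b₁.PosSemidef → b₂.PosSemidef →
    |P.F r (a₁ + b₁) + P.F r (a₂ + b₂) - P.F r (a₁ + b₂) - P.F r (a₂ + b₁)| ≤
      c * (mgap P.E r a₁ a₂ + mgap P.E r b₁ b₂)

section lat

variable {Q : ℕ} [NeZero Q]

/-- joint potential at sizes `(a, r)`, offset `n` (R072's `W`) -/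
noncomputable def W (P : TPot) (X Z : ZMod Q → ZMod Q → ℝ) (a r : ℕ) (n : ZMod Q) : ℝ :=
  ∑ p : ZMod Q, ∑ q : ZMod Q, P.F r (abar X a r q p + abar Z a r (n - p - q) p)

/-- own potential (companion `E`) -/
noncomputable def EW (P : TPot) (X : ZMod Q → ZMod Q → ℝ) (a r : ℕ) : ℝ :=
  ∑ p : ZMod Q, ∑ q : ZMod Q, P.E r (abar X a r q p)

/-- pinching gains of all boxes of side `2N`, offset `n` -/
noncomputable def GW (P : TPot) (X Z : ZMod Q → ZMod Q → ℝ) (N : ℕ) (n : ZMod Q) : ℝ :=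
  ∑ p : ZMod Q, ∑ q : ZMod Q,
    gam P.F N (abar X (N + N) (N + N) q p + abar Z (N + N) (N + N) (n - p - q) p)

/-- average of `f` over the block `[l N, l N + N)` of offsets -/
noncomputable def bl (f : ZMod Q → ℝ) (N : ℕ) (l : ℤ) : ℝ :=
  (1 / (N : ℝ)) * ∑ i ∈ range N, f ((l : ZMod Q) * (N : ZMod Q) + (i : ZMod Q))

/-- reference potential: boxes of side `N`, block `-2` (centred) -/
noncomputable def Vb (P : TPot) (X Z : ZMod Q → ZMod Q → ℝ) (N : ℕ) : ℝ :=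
  bl (W P X Z N N) N (-2)

/-- own potentials of both functions at scale `N` -/
noncomputable def EE (P : TPot) (X Z : ZMod Q → ZMod Q → ℝ) (N : ℕ) : ℝ :=
  EW P X N N + EW P Z N N

end lat

/-- **(PL1)** one scale estimate (R072's `gap_pot`, block averaged, mirror `l ↦ -7 - l`) -/
def GapPot : Prop := ∃ C : ℝ, 0 ≤ C ∧ ∀ (P : TPot) (c : ℝ), Good P c →
  ∀ (Q : ℕ) [NeZero Q] (X Z : ZMod Q → ZMod Q → ℝ) (m κ : ℕ) (l : ℤ), 2 * |l| + 20 ≤ 2 ^ κ →
    bl (GW P X Z (2 ^ m)) (2 ^ m) l ≤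
      4 * (Vb P X Z (2 ^ m) - Vb P X Z (2 ^ (m + 1))) +
        C * c * (EE P X Z (2 ^ m) - EE P X Z (2 ^ (m + κ)))

/-- **(PL2)** summation over the scales with scale dependent functions `X m, Z m`
(`X (m+1)` is the function used at scale `2^m`, `X 0 = 0`): only the changes are paid. -/
def MaskSum : Prop := ∃ C : ℝ, 0 ≤ C ∧ ∀ (P : TPot) (c : ℝ), Good P c →
  ∀ (Q : ℕ) [NeZero Q] (X Z : ℕ → ZMod Q → ZMod Q → ℝ) (κ M : ℕ) (l : ℤ), 2 * |l| + 20 ≤ 2 ^ κ →
    ∑ m ∈ range M, bl (GW P (X (m + 1)) (Z (m + 1)) (2 ^ m)) (2 ^ m) l ≤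
      4 * ∑ m ∈ range M, (Vb P (X (m + 1)) (Z (m + 1)) (2 ^ m) - Vb P (X m) (Z m) (2 ^ m)) +
      C * c * ∑ j ∈ range κ, ∑ m ∈ range M,
        (EE P (X (m + 1)) (Z (m + 1)) (2 ^ (m + j)) - EE P (X m) (Z m) (2 ^ (m + j))) +
      4 * Vb P (X 0) (Z 0) 1 + C * c * κ * EE P (X 0) (Z 0) 1

section touch

variable {Q : ℕ} [NeZero Q]

/-- the box `[q, q+a) × [p, p+a)` sees a difference of `X` and `X'` -/
def Sees (X X' : ZMod Q → ZMod Q → ℝ) (a : ℕ) (q p : ZMod Q) : Prop :=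
  ∃ i j : ℕ, i < a ∧ j < a ∧ X (q + (i : ZMod Q)) (p + (j : ZMod Q)) ≠
    X' (q + (i : ZMod Q)) (p + (j : ZMod Q))

end touch

/-- **(PL3)** if the boxes which see a change are contained in `D` then the change of the reference
potential is at most the sum of the new potentials over `D`. -/
def TouchV : Prop := ∀ (P : TPot) (c : ℝ), Good P c →
  ∀ (Q : ℕ) [NeZero Q] (X Z X' Z' : ZMod Q → ZMod Q → ℝ) (N : ℕ), 0 < N →
    ∀ D : ZMod Q → Finset (ZMod Q × ZMod Q),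
    (∀ n p q, (Sees X X' N q p ∨ Sees Z Z' N (n - p - q) p) → (q, p) ∈ D n) →
      Vb P X Z N - Vb P X' Z' N ≤ bl (fun n => ∑ z ∈ D n,
        P.F N (abar X N N z.1 z.2 + abar Z N N (n - z.2 - z.1) z.2)) N (-2)

/-- **(PL3')** same for the own potentials -/
def TouchE : Prop := ∀ (P : TPot) (c : ℝ), Good P c →
  ∀ (Q : ℕ) [NeZero Q] (X X' : ZMod Q → ZMod Q → ℝ) (N : ℕ),
    ∀ D : Finset (ZMod Q × ZMod Q), (∀ p q, Sees X X' N q p → (q, p) ∈ D) →
      EW P X N N - EW P X' N N ≤ ∑ z ∈ D, P.E N (abar X N N z.1 z.2)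

end Crest.Agent.R079.Pot
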