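import Crest.Agent.R079.GridDefs_569
import Crest.Agent.R079.PotDefs_491

/-! R079, GLUE (4D -> 3D) and the literal Props consumed / produced by (I1) (helper569).

Slot `j` carries an ATOM, the three other slots `k i = j.succAbove i` arbitrary functions.  A box of
the 4-linear form is `p : Fin 4 → ℤ` with `∑ pᵢ = b N` (base point `x = ∑ slᵢ pᵢ`), its points are
`xᵢ = pᵢ + uᵢ` and the shadows are `y_k = ∑ᵢ (slᵢ - sl_k) xᵢ`.  Frozen variable: `w = x_j`. -/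

set_option autoImplicit false

namespace Crest.Agent.R079.Glue

open Finset Crest.Agent.R079.Grid Crest.Agent.R079.Pot

/-- slopes of the three other slots relative to slot `j` -/
def cf (j : Fin 4) (i : Fin 3) : ℤ := sl (j.succAbove i) - sl j

/-- the atom of slot `j` with kernels `a(z₀,z₁) b(z₁,z₂) c(z₂,z₀)` on `T 0 × T 1 × T 2`. -/
noncomputable def atom (j : Fin 4) (κ : ℝ) (T : Fin 3 → Finset ℤ) (a b c : ℤ → ℤ → ℂ) (y : ℤ) : ℂ :=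
  (κ : ℂ) * ∑ z0 ∈ T 0, ∑ z1 ∈ T 1, ∑ z2 ∈ T 2,
    if cf j 0 * z0 + cf j 1 * z1 + cf j 2 * z2 = y then a z0 z1 * b z1 z2 * c z2 z0 else 0

/-- triangular box form on `ℤ` (same shape as `R072.Lattice.Lbox`) -/
noncomputable def Lb3 (A B C : ℤ → ℤ → ℂ) (N : ℕ) (p0 p1 p2 : ℤ) : ℂ :=
  (1 / ((N : ℂ) + N) ^ 3) * ∑ i0 : Fin (N + N), ∑ i1 : Fin (N + N), ∑ i2 : Fin (N + N),
    ((hsg N i0 * hsg N i1 * hsg N i2 : ℝ) : ℂ) *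
      (A (p0 + ((i0 : ℕ) : ℤ)) (p1 + ((i1 : ℕ) : ℤ)) *
       B (p1 + ((i1 : ℕ) : ℤ)) (p2 + ((i2 : ℕ) : ℤ)) *
       C (p2 + ((i2 : ℕ) : ℤ)) (p0 + ((i0 : ℕ) : ℤ)))

/-- one factor with frozen variable `w`: slot `k`, variables of the slots `e, f`. -/
noncomputable def frz (j k e f : Fin 4) (T T' : Finset ℤ) (a : ℤ → ℤ → ℂ) (F : ℤ → ℂ) (w : ℤ)
    (z z' : ℤ) : ℂ :=
  if z ∈ T ∧ z' ∈ T' then
    a z z' * F ((sl j - sl k) * w + (sl e - sl k) * z + (sl f - sl k) * z') else 0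

noncomputable def frA (j : Fin 4) (T : Fin 3 → Finset ℤ) (a : ℤ → ℤ → ℂ) (F : Fin 4 → ℤ → ℂ)
    (w : ℤ) : ℤ → ℤ → ℂ :=
  frz j (j.succAbove 2) (j.succAbove 0) (j.succAbove 1) (T 0) (T 1) a (F (j.succAbove 2)) w

noncomputable def frB (j : Fin 4) (T : Fin 3 → Finset ℤ) (b : ℤ → ℤ → ℂ) (F : Fin 4 → ℤ → ℂ)
    (w : ℤ) : ℤ → ℤ → ℂ :=
  frz j (j.succAbove 0) (j.succAbove 1) (j.succAbove 2) (T 1) (T 2) b (F (j.succAbove 0)) w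

noncomputable def frC (j : Fin 4) (T : Fin 3 → Finset ℤ) (c : ℤ → ℤ → ℂ) (F : Fin 4 → ℤ → ℂ)
    (w : ℤ) : ℤ → ℤ → ℂ :=
  frz j (j.succAbove 1) (j.succAbove 2) (j.succAbove 0) (T 2) (T 0) c (F (j.succAbove 1)) w

/-- unnormalised `ℓ³(ℤ²)` norm (cubed) of a kernel on `T × T'` -/
noncomputable def n3 (T T' : Finset ℤ) (a : ℤ → ℤ → ℂ) : ℝ := ∑ z ∈ T, ∑ z' ∈ T', ‖a z z'‖ ^ 3

/-- **(I1)** frozen atom theorem: the atom sits in slot `j`. -/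
def FrozenAtom : Prop :=
  ∃ K : ℝ, 0 ≤ K ∧ ∀ (bb : ℤ), bb = -1 ∨ bb = -7 →
    ∀ (R : Finset (ℕ × ℤ)) (J : ℕ × ℤ), IsRegion R J →
    ∀ (j : Fin 4) (κ : ℝ), 0 ≤ κ → ∀ (T : Fin 3 → Finset ℤ) (a b c : ℤ → ℤ → ℂ)
      (F : Fin 4 → ℤ → ℂ) (A : Fin 3 → ℝ), (∀ i, 0 ≤ A i) →
      (∀ i, ∀ p ∈ R, av2 (p.1 + 7) p.2 (F (j.succAbove i)) ≤ A i) →
      F j = atom j κ T a b c →
      ∑ p ∈ R, ∑ x ∈ adm p.1 p.2, ‖Lbox (2 ^ p.1) bb F x‖ ≤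
        K * (κ * 2 ^ (J.1 + 7) * (∏ i, A i) *
          (n3 (T 0) (T 1) a * n3 (T 1) (T 2) b * n3 (T 2) (T 0) c) ^ (1 / 3 : ℝ))

section tri

variable {Q : ℕ} [NeZero Q]

/-- box average of `|X|²` over the box of side `N` (trace of `abar X N N q p`) -/
noncomputable def bx (X : ZMod Q → ZMod Q → ℝ) (N : ℕ) (q p : ZMod Q) : ℝ :=
  (1 / (N : ℝ) ^ 2) * ∑ i ∈ range N, ∑ j ∈ range N, X (q + (i : ZMod Q)) (p + (j : ZMod Q)) ^ 2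

open Classical in
/-- exit value of the joint potentials (scale `N`, all three functions) -/
noncomputable def VT (A B C A' B' C' : ZMod Q → ZMod Q → ℝ) (N : ℕ) : ℝ :=
  (1 / (N : ℝ)) * ∑ i ∈ range N, ∑ p0 : ZMod Q, ∑ p1 : ZMod Q,
    if Sees A A' N p0 p1 ∨ Sees B B' N p1 (-(2 * (N : ZMod Q)) + (i : ZMod Q) - p0 - p1) ∨
        Sees C C' N (-(2 * (N : ZMod Q)) + (i : ZMod Q) - p0 - p1) p0 then
      bx A N p0 p1 ^ (3 / 2 : ℝ) +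
      bx B N p1 (-(2 * (N : ZMod Q)) + (i : ZMod Q) - p0 - p1) ^ (3 / 2 : ℝ) +
      bx C N (-(2 * (N : ZMod Q)) + (i : ZMod Q) - p0 - p1) p0 ^ (3 / 2 : ℝ)
    else 0

open Classical in
/-- exit value of an own potential -/
noncomputable def ET (A A' : ZMod Q → ZMod Q → ℝ) (N : ℕ) : ℝ :=
  ∑ q : ZMod Q, ∑ p : ZMod Q, if Sees A A' N q p then bx A N q p ^ (3 / 2 : ℝ) else 0

end tri

/-- **(TriIso)** isotropic corollary of TRI: the triangular box forms of all scales, functions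
depending on the scale (`A (m+1)` at scale `2^m`, `A 0 = 0`); only the changes are paid. -/
def TriIso : Prop :=
  ∃ K : ℝ, 0 ≤ K ∧ ∃ κ : ℕ, ∀ l : ℤ, |l| ≤ 7 → ∀ (Q : ℕ) [NeZero Q]
    (A B C : ℕ → ZMod Q → ZMod Q → ℝ), A 0 = 0 → B 0 = 0 → C 0 = 0 → ∀ M : ℕ,
    ∑ m ∈ range M, (1 / (2 : ℝ) ^ m) * ∑ i ∈ range (2 ^ m), ∑ p0 : ZMod Q, ∑ p1 : ZMod Q,
      |Crest.Agent.R072.Lattice.Lbox (A (m + 1)) (B (m + 1)) (C (m + 1)) (2 ^ m) p0 p1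
        ((l : ZMod Q) * ((2 ^ m : ℕ) : ZMod Q) + (i : ZMod Q) - p0 - p1)| ≤
    K * ∑ m ∈ range M,
      (VT (A (m + 1)) (B (m + 1)) (C (m + 1)) (A m) (B m) (C m) (2 ^ m) +
        ∑ s ∈ range κ, (ET (A (m + 1)) (A m) (2 ^ (m + s)) + ET (B (m + 1)) (B m) (2 ^ (m + s)) +
          ET (C (m + 1)) (C m) (2 ^ (m + s))))

end Crest.Agent.R079.Glue
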