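import Crest.Agent.R079.Tri_378
import Crest.Agent.R079.GlueDefs_569

/-! R079, TriIso (helper378): isotropic corollary of `tri_path`, `x = y = z = 4^j`. -/

set_option autoImplicit false
set_option linter.unusedSectionVars false
set_option linter.unusedVariables false

namespace Crest.Agent.R079.Pot

open Matrix Finset Filter Topology Crest.Agent.R072 Crest.Agent.R072.Lattice Crest.Agent.R079.LD
  Crest.Agent.R079.Path Crest.Agent.R072.Nd Crest.Agent.R079.Glue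
open scoped MatrixOrder

theorem four_zpow_exp (j : ℤ) : (4 : ℝ) ^ j = Real.exp (Real.log 4 * (j : ℝ)) := by
  rw [← Real.rpow_intCast, Real.rpow_def_of_pos (by norm_num : (0 : ℝ) < 4)]

theorem tendsto_four_bot : Tendsto (fun j : ℤ => (4 : ℝ) ^ j) atBot (𝓝 0) := by
  have h4 : 0 < Real.log 4 := Real.log_pos (by norm_num)
  simp only [four_zpow_exp]
  exact Real.tendsto_exp_atBot.comp
    ((tendsto_intCast_atBot_iff (R := ℝ).2 tendsto_id).const_mul_atBot h4)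

theorem tendsto_four_top : Tendsto (fun j : ℤ => (4 : ℝ) ^ j) atTop atTop := by
  have h4 : 0 < Real.log 4 := Real.log_pos (by norm_num)
  simp only [four_zpow_exp]
  exact Real.tendsto_exp_atTop.comp
    ((tendsto_intCast_atTop_atTop (R := ℝ)).const_mul_atTop h4)

/-- the isotropic path -/
theorem pathIso : PathSeq (fun j : ℤ => (4 : ℝ) ^ j) (fun j : ℤ => (4 : ℝ) ^ j)
    (fun j : ℤ => (4 : ℝ) ^ j) := by
  have hpos : ∀ j : ℤ, (0 : ℝ) < 4 ^ j := fun j => by positivity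
  have hs : ∀ j : ℤ, (4 : ℝ) ^ (j + 1) = 4 * 4 ^ j := fun j => by
    rw [zpow_add_one₀ (by norm_num)]; ring
  have hm : ∀ j : ℤ, (4 : ℝ) ^ j ≤ 4 ^ (j + 1) := fun j => by
    rw [hs]; nlinarith [hpos j]
  refine ⟨hpos, hpos, hpos, hm, hm, hm, fun j => (hs j).le, fun j => (hs j).le,
    fun j => (hs j).le, tendsto_four_bot, tendsto_four_bot, tendsto_four_bot, ?_⟩
  exact (tendsto_four_top.atTop_mul_atTop₀ tendsto_four_top).atTop_mul_atTop₀ tendsto_four_top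

theorem iso_weight (j : ℤ) :
    (√((4 : ℝ) ^ j) * √((4 : ℝ) ^ j) * √((4 : ℝ) ^ j))⁻¹ = ((2 : ℝ) ^ j)⁻¹ ^ 3 := by
  have h : √((4 : ℝ) ^ j) = 2 ^ j := by
    rw [show (4 : ℝ) = 2 * 2 by norm_num, mul_zpow, Real.sqrt_mul_self (by positivity)]
  rw [h]
  rw [inv_pow]
  congr 1
  ring

/-- telescoping over `Ico` of integers -/
theorem sum_Ico_tele (h : ℤ → ℝ) (a : ℤ) (k : ℕ) :
    ∑ j ∈ Finset.Ico a (a + k), (h (j + 1) - h j) = h (a + k) - h a := by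
  induction k with
  | zero => simp
  | succ k ih =>
    have e : Finset.Ico a (a + ((k + 1 : ℕ) : ℤ)) = insert (a + k) (Finset.Ico a (a + k)) := by
      ext i
      simp only [Finset.mem_Ico, Finset.mem_insert]
      push_cast
      omega
    rw [e, Finset.sum_insert (by simp), ih]
    push_cast
    rw [show a + ((k : ℤ) + 1) = a + k + 1 by ring]
    ring

theorem min_tele {u : ℝ} (hu : 0 ≤ u) :
    min u (u ^ 3) * 1 ≤ 6 * u ^ 2 * (2 * u / (1 + 2 * u) - u / (1 + u)) := by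
  have h1 : 0 < 1 + 2 * u := by linarith
  have h2 : 0 < 1 + u := by linarith
  have e : 2 * u / (1 + 2 * u) - u / (1 + u) = u / ((1 + 2 * u) * (1 + u)) := by
    field_simp
    ring
  rw [e, mul_one]
  rcases le_total u 1 with h | h
  · refine (min_le_right _ _).trans ?_
    rw [← mul_div_assoc, le_div_iff₀ (by positivity)]
    have : (1 + 2 * u) * (1 + u) ≤ 6 := by nlinarith
    have h3 : 0 ≤ u ^ 3 := by positivity
    nlinarith
  · refine (min_le_left _ _).trans ?_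
    rw [← mul_div_assoc, le_div_iff₀ (by positivity)]
    have : (1 + 2 * u) * (1 + u) ≤ 6 * u ^ 2 := by nlinarith
    nlinarith

/-- the isotropic geometric sum -/
theorem iso_sum {t : ℝ} (ht : 0 ≤ t) (J : ℕ) :
    ∑ j ∈ Finset.Ico (-(J : ℤ)) J, ((2 : ℝ) ^ j)⁻¹ ^ 3 * min (4 ^ j * t) ((4 ^ j * t) ^ 2) ≤
      6 * t ^ (3 / 2 : ℝ) := by
  set r := √t with hr
  have hr0 : 0 ≤ r := Real.sqrt_nonneg t
  have hrt : t = r ^ 2 := (Real.sq_sqrt ht).symm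
  have hpow : t ^ (3 / 2 : ℝ) = r ^ 3 := by
    rw [hr, Real.sqrt_eq_rpow, ← Real.rpow_natCast, ← Real.rpow_mul ht]
    norm_num
  rw [hpow]
  set h : ℤ → ℝ := fun j => 2 ^ j * r / (1 + 2 ^ j * r) with hh
  have hterm : ∀ j : ℤ, ((2 : ℝ) ^ j)⁻¹ ^ 3 * min (4 ^ j * t) ((4 ^ j * t) ^ 2) ≤
      6 * r ^ 3 * (h (j + 1) - h j) := by
    intro j
    have hp : (0 : ℝ) < 2 ^ j := by positivity
    have h4 : (4 : ℝ) ^ j = 2 ^ j * 2 ^ j := by
      rw [show (4 : ℝ) = 2 * 2 by norm_num, mul_zpow]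
    have h2 : (2 : ℝ) ^ (j + 1) = 2 * 2 ^ j := by rw [zpow_add_one₀ (by norm_num)]; ring
    simp only [hh]
    rw [h2, h4, hrt]
    set P : ℝ := (2 : ℝ) ^ j with hP
    rcases eq_or_lt_of_le hr0 with h0 | h0
    · rw [← h0]; simp
    have hu : 0 < P * r := by positivity
    have hm := min_tele hu.le
    have e1 : min (P * P * r ^ 2) ((P * P * r ^ 2) ^ 2) = P * r * min (P * r) ((P * r) ^ 3) := by
      rw [mul_min_of_nonneg _ _ hu.le]
      congr 1 <;> ring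
    have e2 : P⁻¹ ^ 3 * min (P * P * r ^ 2) ((P * P * r ^ 2) ^ 2) =
        r ^ 3 * ((P * r)⁻¹ ^ 2 * min (P * r) ((P * r) ^ 3)) := by
      rw [e1]
      field_simp
    rw [e2, mul_comm (6 : ℝ), mul_assoc]
    refine mul_le_mul_of_nonneg_left ?_ (by positivity)
    rw [inv_pow, inv_mul_le_iff₀ (by positivity)]
    have e3 : 2 * P * r = 2 * (P * r) := by ring
    rw [e3]
    linarith
  refine (Finset.sum_le_sum fun j _ => hterm j).trans ?_
  rw [← Finset.mul_sum]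
  have ht := sum_Ico_tele h (-(J : ℤ)) (J + J)
  have e : -(J : ℤ) + ((J + J : ℕ) : ℤ) = J := by push_cast; ring
  rw [e] at ht
  rw [ht]
  have h1 : h J ≤ 1 := by
    simp only [hh]
    rw [div_le_one (by positivity)]
    linarith
  have h2 : 0 ≤ h (-(J : ℤ)) := by
    simp only [hh]
    positivity
  have h3 : 0 ≤ 6 * r ^ 3 := by positivity
  nlinarith

theorem trace_sq_le {n : ℕ} {M : Matrix (Fin n) (Fin n) ℝ} (hM : M.PosSemidef) :
    trace (M * M) ≤ trace M ^ 2 := by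
  have hsym : ∀ i j, M i j = M j i := fun i j => by
    have := hM.1.apply i j
    simpa using this.symm
  have hd : ∀ i, 0 ≤ M i i := fun i => hM.diag_nonneg
  have h2 : ∀ i j, M i j * M j i ≤ M i i * M j j := by
    intro i j
    by_cases hij : i = j
    · subst hij; exact le_refl _
    have h := hM.dotProduct_mulVec_nonneg
    rcases eq_or_lt_of_le (hd i) with h0 | h0
    · -- M i i = 0
      have hk : ∀ a : ℝ, 0 ≤ a * (2 * M i j) + M j j := by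
        intro a
        have hv := h (Pi.single i a + Pi.single j 1)
        have e : star (Pi.single i a + Pi.single j (1 : ℝ)) ⬝ᵥ
            M *ᵥ (Pi.single i a + Pi.single j 1) =
            a * a * M i i + a * M i j + a * M j i + M j j := by
          rw [Matrix.mulVec_add, star_trivial, add_dotProduct, dotProduct_add, dotProduct_add]
          simp [Matrix.mulVec_single, single_dotProduct]
          ring
        rw [e, ← h0, hsym j i] at hv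
        linarith
      have hz : M i j = 0 := by
        by_contra hne
        have := hk (-(M j j + 1) / (2 * M i j))
        rw [div_mul_cancel₀ _ (mul_ne_zero two_ne_zero hne)] at this
        linarith
      rw [hz, ← h0]; simp
    · have hv := h (Pi.single i (-(M i j / M i i)) + Pi.single j 1)
      have e : star (Pi.single i (-(M i j / M i i)) + Pi.single j (1 : ℝ)) ⬝ᵥ
            M *ᵥ (Pi.single i (-(M i j / M i i)) + Pi.single j 1) =
            (-(M i j / M i i)) * (-(M i j / M i i)) * M i i + (-(M i j / M i i)) * M i j +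
              (-(M i j / M i i)) * M j i + M j j := by
        rw [Matrix.mulVec_add, star_trivial, add_dotProduct, dotProduct_add, dotProduct_add]
        simp [Matrix.mulVec_single, single_dotProduct]
        ring
      rw [e, hsym j i] at hv
      rw [hsym j i]
      have e2 : (-(M i j / M i i)) * (-(M i j / M i i)) * M i i + (-(M i j / M i i)) * M i j +
              (-(M i j / M i i)) * M i j + M j j = M j j - M i j ^ 2 / M i i := by
        field_simp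
        ring
      rw [e2] at hv
      have : M i j ^ 2 / M i i ≤ M j j := by linarith
      rw [div_le_iff₀ h0] at this
      nlinarith
  calc trace (M * M) = ∑ i, ∑ j, M i j * M j i := by
        simp only [trace, Matrix.diag_apply, Matrix.mul_apply]
    _ ≤ ∑ i, ∑ j, M i i * M j j := Finset.sum_le_sum fun i _ => Finset.sum_le_sum fun j _ => h2 i j
    _ = trace M ^ 2 := by
        simp only [trace, Matrix.diag_apply]
        rw [sq, Finset.sum_mul_sum]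

theorem LD1_le_min {n : ℕ} {M : Matrix (Fin n) (Fin n) ℝ} (hM : M.PosSemidef) {c : ℝ}
    (hc : 0 ≤ c) : LD 1 (c • M) ≤ min (c * trace M) ((c * trace M) ^ 2) := by
  have hcM : (c • M).PosSemidef := hM.smul hc
  have h1 := LD_le_trace one_pos hcM.nonneg
  have h2 := LD_le_sq one_pos hcM.nonneg
  have h3 := trace_sq_le hcM
  rw [trace_smul, smul_eq_mul] at h1 h3
  rw [inv_one, one_mul] at h1
  rw [inv_one, one_pow, one_mul] at h2
  exact le_min h1 (h2.trans h3)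

theorem LDh_le_min {n : ℕ} {M : Matrix (Fin n) (Fin n) ℝ} (hM : M.PosSemidef) {c : ℝ}
    (hc : 0 ≤ c) : LD (1 / 2) (c • M) ≤ 4 * min (c * trace M) ((c * trace M) ^ 2) := by
  have hcM : (c • M).PosSemidef := hM.smul hc
  have h1 := LD_le_trace (t := 1 / 2) (by norm_num) hcM.nonneg
  have h2 := LD_le_sq (t := 1 / 2) (by norm_num) hcM.nonneg
  have h3 := trace_sq_le hcM
  have h0 : 0 ≤ trace (c • M) := hcM.trace_nonneg
  rw [trace_smul, smul_eq_mul] at h1 h3 h0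
  rw [mul_min_of_nonneg _ _ (by norm_num : (0 : ℝ) ≤ 4)]
  refine le_min ?_ ?_
  · refine h1.trans ?_
    rw [show ((1 / 2 : ℝ))⁻¹ = 2 by norm_num]
    linarith
  · refine h2.trans ?_
    rw [show ((1 / 2 : ℝ))⁻¹ ^ 2 = 4 by norm_num]
    linarith

section

variable {Q : ℕ} [NeZero Q]

theorem trace_abar (X : ZMod Q → ZMod Q → ℝ) (N : ℕ) (q p : ZMod Q) :
    trace (abar X N N q p) = bx X N q p := by
  unfold bx abar
  simp only [trace, Matrix.diag_apply]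
  rw [← Finset.mul_sum, Finset.sum_comm]
  congr 1
  · rw [sq]
  · refine Finset.sum_congr rfl fun i _ => ?_
    rw [Finset.sum_range]
    refine Finset.sum_congr rfl fun j _ => ?_
    rw [sq]

theorem trace_abar_tr (X : ZMod Q → ZMod Q → ℝ) (N : ℕ) (q p : ZMod Q) :
    trace (abar (tr X) N N p q) = bx X N q p := by
  rw [trace_abar]
  unfold bx tr
  rw [Finset.sum_comm]

theorem bx_nonneg (X : ZMod Q → ZMod Q → ℝ) (N : ℕ) (q p : ZMod Q) : 0 ≤ bx X N q p := by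
  unfold bx
  positivity

theorem add_rpow_32 {a b : ℝ} (ha : 0 ≤ a) (hb : 0 ≤ b) :
    (a + b) ^ (3 / 2 : ℝ) ≤ 4 * (a ^ (3 / 2 : ℝ) + b ^ (3 / 2 : ℝ)) := by
  have h1 : a + b ≤ 2 * max a b := by
    have := le_max_left a b
    have := le_max_right a b
    linarith
  have hm : 0 ≤ max a b := ha.trans (le_max_left a b)
  have h2 : (a + b) ^ (3 / 2 : ℝ) ≤ (2 * max a b) ^ (3 / 2 : ℝ) :=
    Real.rpow_le_rpow (by linarith) h1 (by norm_num)
  have h3 : (2 * max a b) ^ (3 / 2 : ℝ) = 2 ^ (3 / 2 : ℝ) * (max a b) ^ (3 / 2 : ℝ) :=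
    Real.mul_rpow (by norm_num) hm
  have h4 : (2 : ℝ) ^ (3 / 2 : ℝ) ≤ 4 := by
    calc (2 : ℝ) ^ (3 / 2 : ℝ) ≤ 2 ^ (2 : ℝ) :=
          Real.rpow_le_rpow_of_exponent_le (by norm_num) (by norm_num)
      _ = 4 := by norm_num
  have h5 : (max a b) ^ (3 / 2 : ℝ) ≤ a ^ (3 / 2 : ℝ) + b ^ (3 / 2 : ℝ) := by
    rcases le_total a b with h | h
    · rw [max_eq_right h]
      have := Real.rpow_nonneg ha (3 / 2)
      linarith
    · rw [max_eq_left h]
      have := Real.rpow_nonneg hb (3 / 2)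
      linarith
  have h6 : 0 ≤ (max a b) ^ (3 / 2 : ℝ) := Real.rpow_nonneg hm _
  rw [h3] at h2
  nlinarith

/-- one joint potential along the isotropic path -/
theorem iso_joint (X Z : ZMod Q → ZMod Q → ℝ) {α γ : ℝ} {n : ℕ}
    (U V : Matrix (Fin n) (Fin n) ℝ) (hU : U.PosSemidef) (hV : V.PosSemidef)
    (ha : trace U = α) (hc : trace V = γ) (J : ℕ) :
    ∑ j ∈ Finset.Ico (-(J : ℤ)) J, ((2 : ℝ) ^ j)⁻¹ ^ 3 *
      LD 1 ((4 : ℝ) ^ j • U + (4 : ℝ) ^ j • V) ≤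
      24 * (α ^ (3 / 2 : ℝ) + γ ^ (3 / 2 : ℝ)) := by
  have hα : 0 ≤ α := ha ▸ hU.trace_nonneg
  have hγ : 0 ≤ γ := hc ▸ hV.trace_nonneg
  have h1 : ∑ j ∈ Finset.Ico (-(J : ℤ)) J, ((2 : ℝ) ^ j)⁻¹ ^ 3 *
      LD 1 ((4 : ℝ) ^ j • U + (4 : ℝ) ^ j • V) ≤
      ∑ j ∈ Finset.Ico (-(J : ℤ)) J, ((2 : ℝ) ^ j)⁻¹ ^ 3 *
        min (4 ^ j * (α + γ)) ((4 ^ j * (α + γ)) ^ 2) := by
    refine Finset.sum_le_sum fun j _ => mul_le_mul_of_nonneg_left ?_ (by positivity)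
    rw [← smul_add]
    have h := LD1_le_min (hU.add hV) (c := (4 : ℝ) ^ j) (by positivity)
    rwa [trace_add, ha, hc] at h
  refine h1.trans ((iso_sum (add_nonneg hα hγ) J).trans ?_)
  have := add_rpow_32 hα hγ
  linarith

/-- one own potential along the isotropic path -/
theorem iso_own {α : ℝ} {n : ℕ} (U : Matrix (Fin n) (Fin n) ℝ) (hU : U.PosSemidef)
    (ha : trace U = α) (J : ℕ) :
    ∑ j ∈ Finset.Ico (-(J : ℤ)) J, ((2 : ℝ) ^ j)⁻¹ ^ 3 * LD (1 / 2) ((4 : ℝ) ^ j • U) ≤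
      24 * α ^ (3 / 2 : ℝ) := by
  have hα : 0 ≤ α := ha ▸ hU.trace_nonneg
  have h1 : ∑ j ∈ Finset.Ico (-(J : ℤ)) J, ((2 : ℝ) ^ j)⁻¹ ^ 3 * LD (1 / 2) ((4 : ℝ) ^ j • U) ≤
      ∑ j ∈ Finset.Ico (-(J : ℤ)) J, 4 * (((2 : ℝ) ^ j)⁻¹ ^ 3 *
        min (4 ^ j * α) ((4 ^ j * α) ^ 2)) := by
    refine Finset.sum_le_sum fun j _ => ?_
    have h := LDh_le_min hU (c := (4 : ℝ) ^ j) (by positivity)
    rw [ha] at h
    have h2 : (0 : ℝ) ≤ ((2 : ℝ) ^ j)⁻¹ ^ 3 := by positivity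
    calc ((2 : ℝ) ^ j)⁻¹ ^ 3 * LD (1 / 2) ((4 : ℝ) ^ j • U) ≤ ((2 : ℝ) ^ j)⁻¹ ^ 3 *
          (4 * min (4 ^ j * α) ((4 ^ j * α) ^ 2)) := mul_le_mul_of_nonneg_left h h2
      _ = _ := by ring
  refine h1.trans ?_
  rw [← Finset.mul_sum]
  have := iso_sum hα J
  linarith

theorem iso_JV (F0 F1 F2 : ZMod Q → ZMod Q → ℝ) (N : ℕ) (p0 p1 p2 : ZMod Q) (J : ℕ) :
    ∑ j ∈ Finset.Ico (-(J : ℤ)) J, (√((4 : ℝ) ^ j) * √((4 : ℝ) ^ j) * √((4 : ℝ) ^ j))⁻¹ *
      JV F0 F1 F2 N p0 p1 p2 ((4 : ℝ) ^ j) ((4 : ℝ) ^ j) ((4 : ℝ) ^ j) ≤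
    48 * (bx F0 N p0 p1 ^ (3 / 2 : ℝ) + bx F1 N p1 p2 ^ (3 / 2 : ℝ) +
      bx F2 N p2 p0 ^ (3 / 2 : ℝ)) := by
  have h1 := iso_joint F0 F2 (abar (tr F0) N N p1 p0) (abar F2 N N p2 p0) (abar_psd _ _ _ _ _)
    (abar_psd _ _ _ _ _) (trace_abar_tr F0 N p0 p1) (trace_abar F2 N p2 p0) J
  have h2 := iso_joint F0 F2 (abar F0 N N p0 p1) (abar (tr F1) N N p2 p1) (abar_psd _ _ _ _ _)
    (abar_psd _ _ _ _ _) (trace_abar F0 N p0 p1) (trace_abar_tr F1 N p1 p2) J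
  have h3 := iso_joint F0 F2 (abar F1 N N p1 p2) (abar (tr F2) N N p0 p2) (abar_psd _ _ _ _ _)
    (abar_psd _ _ _ _ _) (trace_abar F1 N p1 p2) (trace_abar_tr F2 N p2 p0) J
  have e : ∑ j ∈ Finset.Ico (-(J : ℤ)) J,
      (√((4 : ℝ) ^ j) * √((4 : ℝ) ^ j) * √((4 : ℝ) ^ j))⁻¹ *
      JV F0 F1 F2 N p0 p1 p2 ((4 : ℝ) ^ j) ((4 : ℝ) ^ j) ((4 : ℝ) ^ j) =
      ∑ j ∈ Finset.Ico (-(J : ℤ)) J, ((2 : ℝ) ^ j)⁻¹ ^ 3 *
        LD 1 ((4 : ℝ) ^ j • abar (tr F0) N N p1 p0 + (4 : ℝ) ^ j • abar F2 N N p2 p0) +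
      ∑ j ∈ Finset.Ico (-(J : ℤ)) J, ((2 : ℝ) ^ j)⁻¹ ^ 3 *
        LD 1 ((4 : ℝ) ^ j • abar F0 N N p0 p1 + (4 : ℝ) ^ j • abar (tr F1) N N p2 p1) +
      ∑ j ∈ Finset.Ico (-(J : ℤ)) J, ((2 : ℝ) ^ j)⁻¹ ^ 3 *
        LD 1 ((4 : ℝ) ^ j • abar F1 N N p1 p2 + (4 : ℝ) ^ j • abar (tr F2) N N p0 p2) := by
    rw [← Finset.sum_add_distrib, ← Finset.sum_add_distrib]
    refine Finset.sum_congr rfl fun j _ => ?_
    rw [iso_weight]
    unfold JV
    ring
  rw [e]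
  linarith

theorem iso_JE (F : ZMod Q → ZMod Q → ℝ) (a : ℕ) (q p : ZMod Q) (J : ℕ) :
    ∑ j ∈ Finset.Ico (-(J : ℤ)) J, (√((4 : ℝ) ^ j) * √((4 : ℝ) ^ j) * √((4 : ℝ) ^ j))⁻¹ *
      JE F a q p ((4 : ℝ) ^ j) ≤ 48 * bx F a q p ^ (3 / 2 : ℝ) := by
  have h1 := iso_own (abar F a a q p) (abar_psd _ _ _ _ _) (trace_abar F a q p) J
  have h2 := iso_own (abar (tr F) a a p q) (abar_psd _ _ _ _ _) (trace_abar_tr F a q p) J
  have e : ∑ j ∈ Finset.Ico (-(J : ℤ)) J,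
      (√((4 : ℝ) ^ j) * √((4 : ℝ) ^ j) * √((4 : ℝ) ^ j))⁻¹ * JE F a q p ((4 : ℝ) ^ j) =
      ∑ j ∈ Finset.Ico (-(J : ℤ)) J, ((2 : ℝ) ^ j)⁻¹ ^ 3 *
        LD (1 / 2) ((4 : ℝ) ^ j • abar F a a q p) +
      ∑ j ∈ Finset.Ico (-(J : ℤ)) J, ((2 : ℝ) ^ j)⁻¹ ^ 3 *
        LD (1 / 2) ((4 : ℝ) ^ j • abar (tr F) a a p q) := by
    rw [← Finset.sum_add_distrib]
    refine Finset.sum_congr rfl fun j _ => ?_
    rw [iso_weight]
    unfold JE
    ring
  rw [e]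
  linarith

end

/-- **(TriIso)** -/
theorem triIso : TriIso := by
  classical
  refine ⟨76800 * 768, by norm_num, 6, ?_⟩
  intro l hl Q _ A B C hA hB hC M
  have hκ : 2 * |l| + 20 ≤ 2 ^ 6 := by omega
  have h := tri_path A B C hA hB hC 6 M l (by exact_mod_cast hκ) pathIso
    (fun m p0 p1 p2 => 48 * (bx (A (m + 1)) (2 ^ m) p0 p1 ^ (3 / 2 : ℝ) +
      bx (B (m + 1)) (2 ^ m) p1 p2 ^ (3 / 2 : ℝ) + bx (C (m + 1)) (2 ^ m) p2 p0 ^ (3 / 2 : ℝ)))
    (fun m k q p => 48 * bx (A (m + 1)) (2 ^ (m + k)) q p ^ (3 / 2 : ℝ))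
    (fun m k q p => 48 * bx (B (m + 1)) (2 ^ (m + k)) q p ^ (3 / 2 : ℝ))
    (fun m k q p => 48 * bx (C (m + 1)) (2 ^ (m + k)) q p ^ (3 / 2 : ℝ))
    (fun m _ p0 p1 p2 _ J => iso_JV _ _ _ _ _ _ _ J)
    (fun m _ k _ q p _ J => iso_JE _ _ _ _ J)
    (fun m _ k _ q p _ J => iso_JE _ _ _ _ J)
    (fun m _ k _ q p _ J => iso_JE _ _ _ _ J)
  have hl' : ∀ m : ℕ, (1 / (2 : ℝ) ^ m) * ∑ i ∈ range (2 ^ m), ∑ p0 : ZMod Q, ∑ p1 : ZMod Q,
      |Crest.Agent.R072.Lattice.Lbox (A (m + 1)) (B (m + 1)) (C (m + 1)) (2 ^ m) p0 p1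
        ((l : ZMod Q) * ((2 ^ m : ℕ) : ZMod Q) + (i : ZMod Q) - p0 - p1)| =
      bl (fun n => ∑ p0 : ZMod Q, ∑ p1 : ZMod Q,
      |Lbox (A (m + 1)) (B (m + 1)) (C (m + 1)) (2 ^ m) p0 p1 (n - p0 - p1)|) (2 ^ m) l := by
    intro m
    unfold bl
    push_cast
    rfl
  simp only [hl']
  refine h.trans ?_
  have hVT : ∀ m : ℕ, bl (fun n => ∑ p0 : ZMod Q, ∑ p1 : ZMod Q,
      if Any3 (A (m + 1)) (A m) (B (m + 1)) (B m) (C (m + 1)) (C m) (2 ^ m) p0 p1 (n - p0 - p1)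
      then 48 * (bx (A (m + 1)) (2 ^ m) p0 p1 ^ (3 / 2 : ℝ) +
      bx (B (m + 1)) (2 ^ m) p1 (n - p0 - p1) ^ (3 / 2 : ℝ) +
      bx (C (m + 1)) (2 ^ m) (n - p0 - p1) p0 ^ (3 / 2 : ℝ)) else 0) (2 ^ m) (-2) =
      48 * VT (A (m + 1)) (B (m + 1)) (C (m + 1)) (A m) (B m) (C m) (2 ^ m) := by
    intro m
    unfold bl VT
    rw [mul_left_comm]
    congr 1
    rw [Finset.mul_sum]
    refine Finset.sum_congr rfl fun i _ => ?_
    rw [Finset.mul_sum]
    refine Finset.sum_congr rfl fun p0 _ => ?_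
    rw [Finset.mul_sum]
    refine Finset.sum_congr rfl fun p1 _ => ?_
    rw [mul_ite, mul_zero]
    have e : (((-2 : ℤ)) : ZMod Q) * ((2 ^ m : ℕ) : ZMod Q) + (i : ZMod Q) - p0 - p1 =
      -(2 * ((2 ^ m : ℕ) : ZMod Q)) + (i : ZMod Q) - p0 - p1 := by
      push_cast
      ring
    rw [e]
    exact if_congr Iff.rfl rfl rfl
  have hET : ∀ (F : ℕ → ZMod Q → ZMod Q → ℝ) (m k : ℕ),
      (∑ q : ZMod Q, ∑ p : ZMod Q, if Sees (F (m + 1)) (F m) (2 ^ (m + k)) q p then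
        48 * bx (F (m + 1)) (2 ^ (m + k)) q p ^ (3 / 2 : ℝ) else 0) =
      48 * ET (F (m + 1)) (F m) (2 ^ (m + k)) := by
    intro F m k
    unfold ET
    rw [Finset.mul_sum]
    refine Finset.sum_congr rfl fun q _ => ?_
    rw [Finset.mul_sum]
    refine Finset.sum_congr rfl fun p _ => ?_
    rw [mul_ite, mul_zero]
  simp only [hVT, hET]
  have hV0 : 0 ≤ ∑ m ∈ range M, VT (A (m + 1)) (B (m + 1)) (C (m + 1)) (A m) (B m) (C m)
      (2 ^ m) := by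
    refine Finset.sum_nonneg fun m _ => ?_
    unfold VT
    refine mul_nonneg (by positivity) (Finset.sum_nonneg fun i _ => Finset.sum_nonneg fun p0 _ =>
      Finset.sum_nonneg fun p1 _ => ?_)
    split_ifs
    · have h1 := Real.rpow_nonneg (bx_nonneg (A (m + 1)) (2 ^ m) p0 p1) (3 / 2)
      have h2 := Real.rpow_nonneg (bx_nonneg (B (m + 1)) (2 ^ m) p1
        (-(2 * ((2 ^ m : ℕ) : ZMod Q)) + (i : ZMod Q) - p0 - p1)) (3 / 2)
      have h3 := Real.rpow_nonneg (bx_nonneg (C (m + 1)) (2 ^ m)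
        (-(2 * ((2 ^ m : ℕ) : ZMod Q)) + (i : ZMod Q) - p0 - p1) p0) (3 / 2)
      linarith
    · exact le_refl _
  rw [Finset.sum_add_distrib]
  rw [Finset.sum_comm (s := range M) (t := range 6)]
  simp only [← mul_add, ← Finset.mul_sum]
  linarith

end Crest.Agent.R079.Pot
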