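import Crest.Agent.R079.FrozenC_569
import Crest.Agent.R079.TriIso_378

/-! R079, I1 (helper569): the frozen atom theorem `FrozenAtom` from `TriIso`. -/

set_option autoImplicit false

namespace Crest.Agent.R079.Glue

open Finset Crest.Agent.R079.Grid

/-! ### complex to real -/

/-- `1` or `I` -/
noncomputable def co (σ : Bool) : ℂ := if σ then 1 else Complex.I

lemma norm_co (σ : Bool) : ‖co σ‖ = 1 := by unfold co; split_ifs <;> simp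

lemma co_pr (z : ℂ) : z = ∑ σ : Bool, co σ * ((pr σ z : ℝ) : ℂ) := by
  rw [Fintype.sum_bool]
  unfold co pr
  simp only [if_true, Bool.false_eq_true, if_false]
  rw [one_mul, mul_comm]
  exact (Complex.re_add_im z).symm

lemma co_pr' (z : ℂ) : z = co true * ((pr true z : ℝ) : ℂ) + co false * ((pr false z : ℝ) : ℂ) := by
  have := co_pr z
  rwa [Fintype.sum_bool] at this

lemma Lb3_A (A B C : ℤ → ℤ → ℂ) (N : ℕ) (p0 p1 p2 : ℤ) :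
    Lb3 A B C N p0 p1 p2 = ∑ σ : Bool, co σ * Lb3 (fun z z' => ((pr σ (A z z') : ℝ) : ℂ)) B C N p0 p1 p2 := by
  rw [Fintype.sum_bool]
  unfold Lb3
  simp only [Finset.mul_sum]
  simp only [← Finset.sum_add_distrib]
  refine Finset.sum_congr rfl fun i0 _ => Finset.sum_congr rfl fun i1 _ =>
    Finset.sum_congr rfl fun i2 _ => ?_
  conv_lhs => rw [co_pr' (A (p0 + ((i0 : ℕ) : ℤ)) (p1 + ((i1 : ℕ) : ℤ)))]
  ring

lemma Lb3_B (A B C : ℤ → ℤ → ℂ) (N : ℕ) (p0 p1 p2 : ℤ) :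
    Lb3 A B C N p0 p1 p2 = ∑ σ : Bool, co σ * Lb3 A (fun z z' => ((pr σ (B z z') : ℝ) : ℂ)) C N p0 p1 p2 := by
  rw [Fintype.sum_bool]
  unfold Lb3
  simp only [Finset.mul_sum]
  simp only [← Finset.sum_add_distrib]
  refine Finset.sum_congr rfl fun i0 _ => Finset.sum_congr rfl fun i1 _ =>
    Finset.sum_congr rfl fun i2 _ => ?_
  conv_lhs => rw [co_pr' (B (p1 + ((i1 : ℕ) : ℤ)) (p2 + ((i2 : ℕ) : ℤ)))]
  ring

lemma Lb3_C (A B C : ℤ → ℤ → ℂ) (N : ℕ) (p0 p1 p2 : ℤ) :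
    Lb3 A B C N p0 p1 p2 = ∑ σ : Bool, co σ * Lb3 A B (fun z z' => ((pr σ (C z z') : ℝ) : ℂ)) N p0 p1 p2 := by
  rw [Fintype.sum_bool]
  unfold Lb3
  simp only [Finset.mul_sum]
  simp only [← Finset.sum_add_distrib]
  refine Finset.sum_congr rfl fun i0 _ => Finset.sum_congr rfl fun i1 _ =>
    Finset.sum_congr rfl fun i2 _ => ?_
  conv_lhs => rw [co_pr' (C (p2 + ((i2 : ℕ) : ℤ)) (p0 + ((i0 : ℕ) : ℤ)))]
  ring

lemma Lb3_real (A B C : ℤ → ℤ → ℝ) (N : ℕ) (p0 p1 p2 : ℤ) :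
    Lb3 (fun z z' => (A z z' : ℂ)) (fun z z' => (B z z' : ℂ)) (fun z z' => (C z z' : ℂ)) N p0 p1 p2 =
      ((Lb3r A B C N p0 p1 p2 : ℝ) : ℂ) := by
  unfold Lb3 Lb3r
  push_cast
  rfl

lemma norm_sum_co (f : Bool → ℂ) : ‖∑ σ : Bool, co σ * f σ‖ ≤ ∑ σ : Bool, ‖f σ‖ := by
  refine (norm_sum_le _ _).trans (Finset.sum_le_sum fun σ _ => ?_)
  rw [norm_mul, norm_co, one_mul]

lemma norm_Lb3_le (A B C : ℤ → ℤ → ℂ) (N : ℕ) (p0 p1 p2 : ℤ) :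
    ‖Lb3 A B C N p0 p1 p2‖ ≤ ∑ σ2 : Bool, ∑ σ0 : Bool, ∑ σ1 : Bool,
      |Lb3r (fun z z' => pr σ2 (A z z')) (fun z z' => pr σ0 (B z z'))
        (fun z z' => pr σ1 (C z z')) N p0 p1 p2| := by
  rw [Lb3_A]
  refine (norm_sum_co _).trans (Finset.sum_le_sum fun σ2 _ => ?_)
  rw [Lb3_B]
  refine (norm_sum_co _).trans (Finset.sum_le_sum fun σ0 _ => ?_)
  rw [Lb3_C]
  refine (norm_sum_co _).trans (Finset.sum_le_sum fun σ1 _ => ?_)
  rw [Lb3_real, Complex.norm_real, Real.norm_eq_abs]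

/-- frozen kernels of the masked functions are `fK` -/
lemma pr_frz (σ : Bool) (j k e f : Fin 4) (T T' : Finset ℤ) (a : ℤ → ℤ → ℂ) (G : ℤ → ℂ) (w : ℤ)
    (z z' : ℤ) : pr σ (frz j k e f T T' a G w z z') =
      fK σ (sl j - sl k) (sl e - sl k) (sl f - sl k) T T' a G w z z' := by
  unfold frz fK
  split_ifs
  · rfl
  · exact pr_zero σ

/-! ### one choice of real parts and one block: sum over scales and the frozen variable -/

/-- the data of the three frozen kernels at level index `n` -/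
noncomputable def famA (R : Finset (ℕ × ℤ)) (j : Fin 4) (T : Fin 3 → Finset ℤ) (a : ℤ → ℤ → ℂ)
    (F : Fin 4 → ℤ → ℂ) (σ : Bool) (w : ℤ) (n : ℕ) : ℤ → ℤ → ℝ :=
  fK σ (sl j - sl (j.succAbove 2)) (sl (j.succAbove 0) - sl (j.succAbove 2))
    (sl (j.succAbove 1) - sl (j.succAbove 2)) (T 0) (T 1) a (msk (Rs R n) (F (j.succAbove 2))) w

noncomputable def famB (R : Finset (ℕ × ℤ)) (j : Fin 4) (T : Fin 3 → Finset ℤ) (b : ℤ → ℤ → ℂ)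
    (F : Fin 4 → ℤ → ℂ) (σ : Bool) (w : ℤ) (n : ℕ) : ℤ → ℤ → ℝ :=
  fK σ (sl j - sl (j.succAbove 0)) (sl (j.succAbove 1) - sl (j.succAbove 0))
    (sl (j.succAbove 2) - sl (j.succAbove 0)) (T 1) (T 2) b (msk (Rs R n) (F (j.succAbove 0))) w

noncomputable def famC (R : Finset (ℕ × ℤ)) (j : Fin 4) (T : Fin 3 → Finset ℤ) (c : ℤ → ℤ → ℂ)
    (F : Fin 4 → ℤ → ℂ) (σ : Bool) (w : ℤ) (n : ℕ) : ℤ → ℤ → ℝ :=
  fK σ (sl j - sl (j.succAbove 1)) (sl (j.succAbove 2) - sl (j.succAbove 1))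
    (sl (j.succAbove 0) - sl (j.succAbove 1)) (T 2) (T 0) c (msk (Rs R n) (F (j.succAbove 1))) w

lemma fK_support (σ : Bool) (α γ δ : ℤ) (T T' : Finset ℤ) (a : ℤ → ℤ → ℂ) (G : ℤ → ℂ) (w : ℤ)
    (L : ℕ) (hT : ∀ z ∈ T, |z| ≤ L) (hT' : ∀ z ∈ T', |z| ≤ L) (z z' : ℤ)
    (h : (L : ℤ) < |z| ∨ (L : ℤ) < |z'|) : fK σ α γ δ T T' a G w z z' = 0 := by
  unfold fK
  rw [if_neg]
  rintro ⟨h1, h2⟩
  rcases h with h | h
  · exact absurd (hT z h1) (not_le.mpr h)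
  · exact absurd (hT' z' h2) (not_le.mpr h)

lemma fK_zero (σ : Bool) (α γ δ : ℤ) (T T' : Finset ℤ) (a : ℤ → ℤ → ℂ) (R : Finset (ℕ × ℤ))
    (G : ℤ → ℂ) (w : ℤ) : fK σ α γ δ T T' a (msk (Rs R 0) G) w = 0 := by
  funext z z'
  unfold fK msk Rs
  simp [pr_zero]

lemma exists_bound (T : Fin 3 → Finset ℤ) : ∃ L : ℕ, ∀ i, ∀ z ∈ T i, |z| ≤ L := by
  classical
  refine ⟨(Finset.univ.sup fun i => (T i).sup fun z => z.natAbs), fun i z hz => ?_⟩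
  have h1 : z.natAbs ≤ (T i).sup fun z => z.natAbs := Finset.le_sup (f := fun z : ℤ => z.natAbs) hz
  have h2 : ((T i).sup fun z => z.natAbs) ≤ Finset.univ.sup fun i => (T i).sup fun z => z.natAbs :=
    Finset.le_sup (f := fun i => (T i).sup fun z : ℤ => z.natAbs) (Finset.mem_univ i)
  rw [Int.abs_eq_natAbs]
  exact_mod_cast h1.trans h2

/-- **one block, one choice of real parts** -/
lemma block_bound (K : ℝ) (hK : 0 ≤ K) (κ : ℕ)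
    (hTri : ∀ l : ℤ, |l| ≤ 7 → ∀ (w : ℤ) (A B C : ℕ → ℤ → ℤ → ℝ) (L : ℕ),
    (∀ m x y, ((L : ℤ) < |x| ∨ (L : ℤ) < |y|) → A m x y = 0) →
    (∀ m x y, ((L : ℤ) < |x| ∨ (L : ℤ) < |y|) → B m x y = 0) →
    (∀ m x y, ((L : ℤ) < |x| ∨ (L : ℤ) < |y|) → C m x y = 0) →
    A 0 = 0 → B 0 = 0 → C 0 = 0 → ∀ M L1 : ℕ, ∃ L' : ℕ,
    ∑ m ∈ range M, (1 / (2 : ℝ) ^ m) * ∑ i ∈ range (2 ^ m), ∑ p0 ∈ Icc (-(L1 : ℤ)) L1,
      ∑ p1 ∈ Icc (-(L1 : ℤ)) L1,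
      |Lb3r (A (m + 1)) (B (m + 1)) (C (m + 1)) (2 ^ m) p0 p1
        (l * 2 ^ m + (i : ℤ) - w - p0 - p1)| ≤
    K * ∑ m ∈ range M,
      (VTZ L' w (A (m + 1)) (B (m + 1)) (C (m + 1)) (A m) (B m) (C m) (2 ^ m) +
        ∑ s ∈ range κ, (ETZ L' (A (m + 1)) (A m) (2 ^ (m + s)) +
          ETZ L' (B (m + 1)) (B m) (2 ^ (m + s)) + ETZ L' (C (m + 1)) (C m) (2 ^ (m + s)))))
    (l : ℤ) (hl : |l| ≤ 7) (R : Finset (ℕ × ℤ)) (J : ℕ × ℤ) (hR : IsRegion R J) (j : Fin 4)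
    (T : Fin 3 → Finset ℤ) (a b c : ℤ → ℤ → ℂ) (F : Fin 4 → ℤ → ℂ) (A : Fin 3 → ℝ)
    (hA : ∀ i, 0 < A i) (hF : ∀ i, ∀ p ∈ R, av2 (p.1 + 7) p.2 (F (j.succAbove i)) ≤ A i)
    (σ2 σ0 σ1 : Bool) (Wf : Finset ℤ) (L1 : ℕ) :
    ∑ w ∈ Wf, ∑ m ∈ range (J.1 + 1), (1 / (2 : ℝ) ^ m) * ∑ i ∈ range (2 ^ m),
      ∑ p0 ∈ Icc (-(L1 : ℤ)) L1, ∑ p1 ∈ Icc (-(L1 : ℤ)) L1,
      |Lb3r (famA R j T a F σ2 w (m + 1)) (famB R j T b F σ0 w (m + 1))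
        (famC R j T c F σ1 w (m + 1)) (2 ^ m) p0 p1 (l * 2 ^ m + (i : ℤ) - w - p0 - p1)| ≤
    (K * (1 + κ) * 30 * (2 * (2 * ((12 * 2 ^ κ + 24 : ℕ) : ℝ) + 257))) *
      (A 2 ^ 3 * n3 (T 0) (T 1) a + A 0 ^ 3 * n3 (T 1) (T 2) b + A 1 ^ 3 * n3 (T 2) (T 0) c) *
      2 ^ (J.1 + 7) := by
  classical
  obtain ⟨L, hL⟩ := exists_bound T
  set h : ℕ := 12 * 2 ^ κ + 24 with hh
  have hsl := slopes_sl j
  have h1 : ∀ w, ∃ L' : ℕ,
    ∑ m ∈ range (J.1 + 1), (1 / (2 : ℝ) ^ m) * ∑ i ∈ range (2 ^ m), ∑ p0 ∈ Icc (-(L1 : ℤ)) L1,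
      ∑ p1 ∈ Icc (-(L1 : ℤ)) L1,
      |Lb3r (famA R j T a F σ2 w (m + 1)) (famB R j T b F σ0 w (m + 1))
        (famC R j T c F σ1 w (m + 1)) (2 ^ m) p0 p1 (l * 2 ^ m + (i : ℤ) - w - p0 - p1)| ≤
    K * ∑ m ∈ range (J.1 + 1),
      (VTZ L' w (famA R j T a F σ2 w (m + 1)) (famB R j T b F σ0 w (m + 1))
        (famC R j T c F σ1 w (m + 1)) (famA R j T a F σ2 w m) (famB R j T b F σ0 w m)
        (famC R j T c F σ1 w m) (2 ^ m) +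
        ∑ s ∈ range κ, (ETZ L' (famA R j T a F σ2 w (m + 1)) (famA R j T a F σ2 w m) (2 ^ (m + s)) +
          ETZ L' (famB R j T b F σ0 w (m + 1)) (famB R j T b F σ0 w m) (2 ^ (m + s)) +
          ETZ L' (famC R j T c F σ1 w (m + 1)) (famC R j T c F σ1 w m) (2 ^ (m + s)))) := by
    intro w
    exact hTri l hl w (famA R j T a F σ2 w) (famB R j T b F σ0 w) (famC R j T c F σ1 w) L
      (fun m x y hxy => fK_support _ _ _ _ _ _ _ _ _ L (hL 0) (hL 1) x y hxy)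
      (fun m x y hxy => fK_support _ _ _ _ _ _ _ _ _ L (hL 1) (hL 2) x y hxy)
      (fun m x y hxy => fK_support _ _ _ _ _ _ _ _ _ L (hL 2) (hL 0) x y hxy)
      (fK_zero _ _ _ _ _ _ _ _ _ _) (fK_zero _ _ _ _ _ _ _ _ _ _) (fK_zero _ _ _ _ _ _ _ _ _ _)
      (J.1 + 1) L1
  choose L' hL' using h1
  -- exit densities
  set gA : ℕ → ℤ → ℝ := fun m w => ∑ z ∈ T 0, ∑ z' ∈ T 1,
    gK (sl j - sl (j.succAbove 2)) (sl (j.succAbove 0) - sl (j.succAbove 2))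
      (sl (j.succAbove 1) - sl (j.succAbove 2)) (T 0) (T 1) a (Dp R m h)
      (msk (Rm R m) (F (j.succAbove 2))) w z z' with hgA
  set gB : ℕ → ℤ → ℝ := fun m w => ∑ z ∈ T 1, ∑ z' ∈ T 2,
    gK (sl j - sl (j.succAbove 0)) (sl (j.succAbove 1) - sl (j.succAbove 0))
      (sl (j.succAbove 2) - sl (j.succAbove 0)) (T 1) (T 2) b (Dp R m h)
      (msk (Rm R m) (F (j.succAbove 0))) w z z' with hgB
  set gC : ℕ → ℤ → ℝ := fun m w => ∑ z ∈ T 2, ∑ z' ∈ T 0,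
    gK (sl j - sl (j.succAbove 1)) (sl (j.succAbove 2) - sl (j.succAbove 1))
      (sl (j.succAbove 0) - sl (j.succAbove 1)) (T 2) (T 0) c (Dp R m h)
      (msk (Rm R m) (F (j.succAbove 1))) w z z' with hgC
  have hlev : ∀ w, ∀ m ∈ range (J.1 + 1),
      (VTZ (L' w) w (famA R j T a F σ2 w (m + 1)) (famB R j T b F σ0 w (m + 1))
        (famC R j T c F σ1 w (m + 1)) (famA R j T a F σ2 w m) (famB R j T b F σ0 w m)
        (famC R j T c F σ1 w m) (2 ^ m) +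
        ∑ s ∈ range κ, (ETZ (L' w) (famA R j T a F σ2 w (m + 1)) (famA R j T a F σ2 w m) (2 ^ (m + s)) +
          ETZ (L' w) (famB R j T b F σ0 w (m + 1)) (famB R j T b F σ0 w m) (2 ^ (m + s)) +
          ETZ (L' w) (famC R j T c F σ1 w (m + 1)) (famC R j T c F σ1 w m) (2 ^ (m + s)))) ≤
      (1 + κ) * (30 * A 2 * gA m w + 30 * A 0 * gB m w + 30 * A 1 * gC m w) := by
    intro w m hm
    rw [Finset.mem_range] at hm
    have v1 := VTZ_fK_le R J hR m h (by omega) (by omega) (F (j.succAbove 0)) (F (j.succAbove 1))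
      (F (j.succAbove 2)) (A 0) (A 1) (A 2) (hA 0) (hA 1) (hA 2) (hF 0) (hF 1) (hF 2) σ0 σ1 σ2
      (sl j) (sl (j.succAbove 0)) (sl (j.succAbove 1)) (sl (j.succAbove 2)) hsl (T 0) (T 1) (T 2)
      a b c w (L' w)
    have v2 : ∀ s ∈ range κ,
        (ETZ (L' w) (famA R j T a F σ2 w (m + 1)) (famA R j T a F σ2 w m) (2 ^ (m + s)) +
          ETZ (L' w) (famB R j T b F σ0 w (m + 1)) (famB R j T b F σ0 w m) (2 ^ (m + s)) +
          ETZ (L' w) (famC R j T c F σ1 w (m + 1)) (famC R j T c F σ1 w m) (2 ^ (m + s))) ≤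
        (30 * A 2 * gA m w + 30 * A 0 * gB m w + 30 * A 1 * gC m w) := by
      intro s hs
      rw [Finset.mem_range] at hs
      have hsh : 12 * 2 ^ s ≤ h := by
        have : 2 ^ s ≤ 2 ^ κ := Nat.pow_le_pow_right (by norm_num) hs.le
        omega
      have b2 : |sl (j.succAbove 0) - sl (j.succAbove 2)| ≤ 3 ∧
          |sl (j.succAbove 1) - sl (j.succAbove 2)| ≤ 3 := by
        constructor <;> rw [abs_le] <;> constructor <;>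
          linarith [hsl.h0.1, hsl.h0.2, hsl.h1.1, hsl.h1.2, hsl.h2.1, hsl.h2.2]
      have b0 : |sl (j.succAbove 1) - sl (j.succAbove 0)| ≤ 3 ∧
          |sl (j.succAbove 2) - sl (j.succAbove 0)| ≤ 3 := by
        constructor <;> rw [abs_le] <;> constructor <;>
          linarith [hsl.h0.1, hsl.h0.2, hsl.h1.1, hsl.h1.2, hsl.h2.1, hsl.h2.2]
      have b1 : |sl (j.succAbove 2) - sl (j.succAbove 1)| ≤ 3 ∧
          |sl (j.succAbove 0) - sl (j.succAbove 1)| ≤ 3 := by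
        constructor <;> rw [abs_le] <;> constructor <;>
          linarith [hsl.h0.1, hsl.h0.2, hsl.h1.1, hsl.h1.2, hsl.h2.1, hsl.h2.2]
      refine add_le_add (add_le_add ?_ ?_) ?_
      · exact ETZ_fK_le R J hR m s h (by omega) hsh _ (A 2) (hA 2) (hF 2) σ2 _ _ _ hsl.n02
          b2.1 b2.2 (T 0) (T 1) a w (L' w)
      · exact ETZ_fK_le R J hR m s h (by omega) hsh _ (A 0) (hA 0) (hF 0) σ0 _ _ _ hsl.n10
          b0.1 b0.2 (T 1) (T 2) b w (L' w)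
      · exact ETZ_fK_le R J hR m s h (by omega) hsh _ (A 1) (hA 1) (hF 1) σ1 _ _ _ hsl.n21
          b1.1 b1.2 (T 2) (T 0) c w (L' w)
    have v3 := Finset.sum_le_sum v2
    rw [Finset.sum_const, Finset.card_range, nsmul_eq_mul] at v3
    have e : (1 + (κ : ℝ)) * (30 * A 2 * gA m w + 30 * A 0 * gB m w + 30 * A 1 * gC m w) =
        (30 * A 2 * gA m w + 30 * A 0 * gB m w + 30 * A 1 * gC m w) +
        κ * (30 * A 2 * gA m w + 30 * A 0 * gB m w + 30 * A 1 * gC m w) := by ring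
    rw [e]
    exact add_le_add v1 v3
  have h2 : ∀ w ∈ Wf, ∑ m ∈ range (J.1 + 1), (1 / (2 : ℝ) ^ m) * ∑ i ∈ range (2 ^ m),
      ∑ p0 ∈ Icc (-(L1 : ℤ)) L1, ∑ p1 ∈ Icc (-(L1 : ℤ)) L1,
      |Lb3r (famA R j T a F σ2 w (m + 1)) (famB R j T b F σ0 w (m + 1))
        (famC R j T c F σ1 w (m + 1)) (2 ^ m) p0 p1 (l * 2 ^ m + (i : ℤ) - w - p0 - p1)| ≤
      K * ∑ m ∈ range (J.1 + 1),
        (1 + κ) * (30 * A 2 * gA m w + 30 * A 0 * gB m w + 30 * A 1 * gC m w) := by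
    intro w _
    exact (hL' w).trans (mul_le_mul_of_nonneg_left (Finset.sum_le_sum (hlev w)) hK)
  refine (Finset.sum_le_sum h2).trans ?_
  rw [← Finset.mul_sum, Finset.sum_comm]
  -- sum over `w`
  have h3 : ∀ m ∈ range (J.1 + 1), ∑ w ∈ Wf,
      (1 + (κ : ℝ)) * (30 * A 2 * gA m w + 30 * A 0 * gB m w + 30 * A 1 * gC m w) ≤
      ((1 + κ) * 30 * (2 * (2 * (h : ℝ) + 257)) *
      (A 2 ^ 3 * n3 (T 0) (T 1) a + A 0 ^ 3 * n3 (T 1) (T 2) b + A 1 ^ 3 * n3 (T 2) (T 0) c)) *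
        (Dm R m).card := by
    intro m _
    have nA : ∑ w ∈ Wf, gA m w ≤ n3 (T 0) (T 1) a *
        ((2 * (2 * h + 257) * A 2 ^ 2) * (Dm R m).card) :=
      (sum_gK_le _ _ _ hsl.nj2 (T 0) (T 1) a (Dp R m h) _ Wf).trans
        (mul_le_mul_of_nonneg_left (sum_msk_Dp R m _ (A 2) (hF 2) h)
          (Finset.sum_nonneg fun z _ => Finset.sum_nonneg fun z' _ => by positivity))
    have nB : ∑ w ∈ Wf, gB m w ≤ n3 (T 1) (T 2) b *
        ((2 * (2 * h + 257) * A 0 ^ 2) * (Dm R m).card) :=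
      (sum_gK_le _ _ _ hsl.nj0 (T 1) (T 2) b (Dp R m h) _ Wf).trans
        (mul_le_mul_of_nonneg_left (sum_msk_Dp R m _ (A 0) (hF 0) h)
          (Finset.sum_nonneg fun z _ => Finset.sum_nonneg fun z' _ => by positivity))
    have nC : ∑ w ∈ Wf, gC m w ≤ n3 (T 2) (T 0) c *
        ((2 * (2 * h + 257) * A 1 ^ 2) * (Dm R m).card) :=
      (sum_gK_le _ _ _ hsl.nj1 (T 2) (T 0) c (Dp R m h) _ Wf).trans
        (mul_le_mul_of_nonneg_left (sum_msk_Dp R m _ (A 1) (hF 1) h)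
          (Finset.sum_nonneg fun z _ => Finset.sum_nonneg fun z' _ => by positivity))
    have e : ∑ w ∈ Wf, (1 + (κ : ℝ)) *
        (30 * A 2 * gA m w + 30 * A 0 * gB m w + 30 * A 1 * gC m w) =
        (1 + κ) * (30 * A 2 * ∑ w ∈ Wf, gA m w + 30 * A 0 * ∑ w ∈ Wf, gB m w +
          30 * A 1 * ∑ w ∈ Wf, gC m w) := by
      rw [← Finset.mul_sum, Finset.sum_add_distrib, Finset.sum_add_distrib, ← Finset.mul_sum,
        ← Finset.mul_sum, ← Finset.mul_sum]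
    rw [e]
    have q2 : 30 * A 2 * ∑ w ∈ Wf, gA m w ≤ 30 * A 2 * (n3 (T 0) (T 1) a *
        ((2 * (2 * h + 257) * A 2 ^ 2) * (Dm R m).card)) :=
      mul_le_mul_of_nonneg_left nA (by have := hA 2; positivity)
    have q0 : 30 * A 0 * ∑ w ∈ Wf, gB m w ≤ 30 * A 0 * (n3 (T 1) (T 2) b *
        ((2 * (2 * h + 257) * A 0 ^ 2) * (Dm R m).card)) :=
      mul_le_mul_of_nonneg_left nB (by have := hA 0; positivity)
    have q1 : 30 * A 1 * ∑ w ∈ Wf, gC m w ≤ 30 * A 1 * (n3 (T 2) (T 0) c *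
        ((2 * (2 * h + 257) * A 1 ^ 2) * (Dm R m).card)) :=
      mul_le_mul_of_nonneg_left nC (by have := hA 1; positivity)
    have q := mul_le_mul_of_nonneg_left (add_le_add (add_le_add q2 q0) q1)
      (by positivity : (0 : ℝ) ≤ 1 + (κ : ℝ))
    refine q.trans (le_of_eq ?_)
    ring
  have h4 := mul_le_mul_of_nonneg_left (Finset.sum_le_sum h3) hK
  refine h4.trans ?_
  rw [← Finset.mul_sum]
  have h5 := sum_card_Dm R J hR
  have hn : ∀ (T T' : Finset ℤ) (a : ℤ → ℤ → ℂ), 0 ≤ n3 T T' a := fun T T' a =>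
    Finset.sum_nonneg fun z _ => Finset.sum_nonneg fun z' _ => by positivity
  have a2 := (hA 2).le
  have a0 := (hA 0).le
  have a1 := (hA 1).le
  have n1 := hn (T 0) (T 1) a
  have n2 := hn (T 1) (T 2) b
  have n3' := hn (T 2) (T 0) c
  have h6 : 0 ≤ K * ((1 + κ) * 30 * (2 * (2 * (h : ℝ) + 257)) *
      (A 2 ^ 3 * n3 (T 0) (T 1) a + A 0 ^ 3 * n3 (T 1) (T 2) b + A 1 ^ 3 * n3 (T 2) (T 0) c)) := by
    positivity
  have h7 := mul_le_mul_of_nonneg_left h5 h6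
  refine le_trans (le_of_eq ?_) (h7.trans (le_of_eq ?_)) <;> ring

/-! ### from the region sum to the blocks -/

/-- masked system at level `m` -/
noncomputable def Fm (R : Finset (ℕ × ℤ)) (j : Fin 4) (F : Fin 4 → ℤ → ℂ) (m : ℕ) : Fin 4 → ℤ → ℂ :=
  fun k => if k = j then F j else msk (Rm R m) (F k)

lemma Lbox_Fm (R : Finset (ℕ × ℤ)) (j : Fin 4) (F : Fin 4 → ℤ → ℂ) (m : ℕ) (l : ℤ)
    (hp : (m, l) ∈ R) (bb : ℤ) (hbb : bb = -1 ∨ bb = -7) (x : ℤ) (hx : x ∈ adm m l) :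
    Lbox (2 ^ m) bb F x = Lbox (2 ^ m) bb (Fm R j F m) x := by
  unfold Lbox
  congr 1
  refine Finset.sum_congr rfl fun u _ => ?_
  congr 1
  refine Finset.prod_congr rfl fun k _ => ?_
  unfold Fm
  split_ifs with hk
  · rw [hk]
  · unfold msk
    have h1 := yv_mem m l bb x hbb hx u k
    rw [mem_dI_iff] at h1
    have h2 : yv (2 ^ m) bb x u k ∈ Rm R m := by
      rw [mem_Rm, h1]; exact hp
    rw [if_pos h2]

lemma adm_subset (m : ℕ) (l : ℤ) : adm m l ⊆ dI (m + 7) l := by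
  intro x hx
  unfold adm at hx
  unfold dI
  rw [Finset.mem_Ico] at hx ⊢
  have : (0 : ℤ) < 2 ^ (m + 1) := by positivity
  constructor <;> linarith [hx.1, hx.2]

lemma region_sum (R : Finset (ℕ × ℤ)) (J : ℕ × ℤ) (hR : IsRegion R J) (j : Fin 4)
    (F : Fin 4 → ℤ → ℂ) (bb : ℤ) (hbb : bb = -1 ∨ bb = -7) :
    ∑ p ∈ R, ∑ x ∈ adm p.1 p.2, ‖Lbox (2 ^ p.1) bb F x‖ =
      ∑ m ∈ range (J.1 + 1), ∑ x ∈ (R.filter (fun p => p.1 = m)).biUnion (fun p => adm p.1 p.2),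
        ‖Lbox (2 ^ m) bb (Fm R j F m) x‖ := by
  classical
  rw [← Finset.sum_fiberwise_of_maps_to (s := R) (t := range (J.1 + 1)) (g := fun p => p.1)
    (fun p hp => Finset.mem_range.mpr (Nat.lt_succ_of_le (level_le R J hR p hp)))]
  refine Finset.sum_congr rfl fun m _ => ?_
  rw [Finset.sum_biUnion]
  · refine Finset.sum_congr rfl fun p hp => ?_
    rw [Finset.mem_filter] at hp
    obtain ⟨hp, hpm⟩ := hp
    obtain ⟨m', l⟩ := p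
    simp only at hpm
    subst hpm
    refine Finset.sum_congr rfl fun x hx => ?_
    rw [Lbox_Fm R j F m' l hp bb hbb x hx]
  · intro p hp q hq hpq
    rw [Function.onFun, Finset.disjoint_left]
    intro x hx hx'
    rw [Finset.mem_coe, Finset.mem_filter] at hp hq
    have h1 := adm_subset _ _ hx
    have h2 := adm_subset _ _ hx'
    rw [mem_dI_iff] at h1 h2
    apply hpq
    obtain ⟨p1, p2⟩ := p
    obtain ⟨q1, q2⟩ := q
    simp only at hp hq h1 h2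
    obtain ⟨_, rfl⟩ := hp
    obtain ⟨_, hq2⟩ := hq
    subst hq2
    rw [h1] at h2
    rw [h2]

lemma sum_fin_two (N : ℕ) (f : ℕ → ℝ) : ∑ v : Fin (N + N), f v =
    ∑ i ∈ range N, f i + ∑ i ∈ range N, f (N + i) := by
  rw [Fin.sum_univ_eq_sum_range, Finset.sum_range_add]

/-- reordering of the positions: frozen variable outside -/
lemma sum_cube_le (L1 N : ℕ) (l : ℤ) (i : ℕ) (hi : i < N) (hl : |l| ≤ 7) (W0 : ℕ)
    (hW : 3 * L1 + 8 * N ≤ W0) (G : ℤ → ℤ → ℤ → ℤ → ℝ) (hG : ∀ w x y z, 0 ≤ G w x y z) :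
    ∑ p ∈ Icc (-(L1 : ℤ)) L1 ×ˢ (Icc (-(L1 : ℤ)) L1 ×ˢ Icc (-(L1 : ℤ)) L1),
      G ((i : ℤ) + l * N - p.1 - p.2.1 - p.2.2) p.1 p.2.1 p.2.2 ≤
    ∑ w ∈ Icc (-(W0 : ℤ)) W0, ∑ p0 ∈ Icc (-(L1 : ℤ)) L1, ∑ p1 ∈ Icc (-(L1 : ℤ)) L1,
      G w p0 p1 (l * N + (i : ℤ) - w - p0 - p1) := by
  classical
  have e : ∑ w ∈ Icc (-(W0 : ℤ)) W0, ∑ p0 ∈ Icc (-(L1 : ℤ)) L1, ∑ p1 ∈ Icc (-(L1 : ℤ)) L1,
      G w p0 p1 (l * N + (i : ℤ) - w - p0 - p1) =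
      ∑ q ∈ Icc (-(W0 : ℤ)) W0 ×ˢ (Icc (-(L1 : ℤ)) L1 ×ˢ Icc (-(L1 : ℤ)) L1),
        G q.1 q.2.1 q.2.2 (l * N + (i : ℤ) - q.1 - q.2.1 - q.2.2) := by
    rw [Finset.sum_product]
    refine Finset.sum_congr rfl fun w _ => ?_
    rw [Finset.sum_product]
  rw [e]
  set φ : ℤ × ℤ × ℤ → ℤ × ℤ × ℤ := fun p => ((i : ℤ) + l * N - p.1 - p.2.1 - p.2.2, p.1, p.2.1)
    with hφ
  have hφi : Function.Injective φ := by
    rintro ⟨x, y, z⟩ ⟨x', y', z'⟩ h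
    simp only [hφ, Prod.mk.injEq] at h
    obtain ⟨h1, h2, h3⟩ := h
    subst h2
    subst h3
    have : z = z' := by linarith
    rw [this]
  have e2 : ∑ p ∈ Icc (-(L1 : ℤ)) L1 ×ˢ (Icc (-(L1 : ℤ)) L1 ×ˢ Icc (-(L1 : ℤ)) L1),
      G ((i : ℤ) + l * N - p.1 - p.2.1 - p.2.2) p.1 p.2.1 p.2.2 =
      ∑ q ∈ (Icc (-(L1 : ℤ)) L1 ×ˢ (Icc (-(L1 : ℤ)) L1 ×ˢ Icc (-(L1 : ℤ)) L1)).image φ,
        G q.1 q.2.1 q.2.2 (l * N + (i : ℤ) - q.1 - q.2.1 - q.2.2) := by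
    rw [Finset.sum_image (fun x _ y _ h => hφi h)]
    refine Finset.sum_congr rfl fun p _ => ?_
    simp only [hφ]
    congr 1
    ring
  rw [e2]
  refine Finset.sum_le_sum_of_subset_of_nonneg ?_ fun q _ _ => hG _ _ _ _
  intro q hq
  rw [Finset.mem_image] at hq
  obtain ⟨p, hp, rfl⟩ := hq
  rw [Finset.mem_product, Finset.mem_product, Finset.mem_Icc, Finset.mem_Icc, Finset.mem_Icc] at hp
  simp only [hφ]
  rw [Finset.mem_product, Finset.mem_product, Finset.mem_Icc, Finset.mem_Icc, Finset.mem_Icc]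
  refine ⟨?_, hp.1, hp.2.1⟩
  have hN : (0 : ℤ) ≤ N := by positivity
  have hlN : |l * (N : ℤ)| ≤ 7 * N := by
    rw [abs_mul, abs_of_nonneg hN]
    exact mul_le_mul_of_nonneg_right hl hN
  have hlN' := abs_le.mp hlN
  have hi' : (i : ℤ) < N := by exact_mod_cast hi
  have hi0 : (0 : ℤ) ≤ i := by positivity
  have hW' : (3 * L1 + 8 * N : ℤ) ≤ W0 := by exact_mod_cast hW
  constructor <;> linarith [hp.1.1, hp.1.2, hp.2.1.1, hp.2.1.2, hp.2.2.1, hp.2.2.2, hlN'.1, hlN'.2]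

lemma swap5 (I : Finset ℕ) (W P : Finset ℤ) (X : Bool × Bool × Bool → ℕ → ℤ → ℤ → ℤ → ℝ) :
    ∑ i ∈ I, ∑ w ∈ W, ∑ p0 ∈ P, ∑ p1 ∈ P, ∑ σ : Bool × Bool × Bool, X σ i w p0 p1 =
      ∑ σ : Bool × Bool × Bool, ∑ w ∈ W, ∑ i ∈ I, ∑ p0 ∈ P, ∑ p1 ∈ P, X σ i w p0 p1 := by
  have h1 : ∀ i w p0, ∑ p1 ∈ P, ∑ σ : Bool × Bool × Bool, X σ i w p0 p1 =
      ∑ σ : Bool × Bool × Bool, ∑ p1 ∈ P, X σ i w p0 p1 := fun i w p0 => Finset.sum_comm
  have h2 : ∀ i w, ∑ p0 ∈ P, ∑ p1 ∈ P, ∑ σ : Bool × Bool × Bool, X σ i w p0 p1 =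
      ∑ σ : Bool × Bool × Bool, ∑ p0 ∈ P, ∑ p1 ∈ P, X σ i w p0 p1 := fun i w => by
    rw [Finset.sum_congr rfl fun p0 _ => h1 i w p0, Finset.sum_comm]
  have h3 : ∀ i, ∑ w ∈ W, ∑ p0 ∈ P, ∑ p1 ∈ P, ∑ σ : Bool × Bool × Bool, X σ i w p0 p1 =
      ∑ σ : Bool × Bool × Bool, ∑ w ∈ W, ∑ p0 ∈ P, ∑ p1 ∈ P, X σ i w p0 p1 := fun i => by
    rw [Finset.sum_congr rfl fun w _ => h2 i w, Finset.sum_comm]
  rw [Finset.sum_congr rfl fun i _ => h3 i, Finset.sum_comm]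
  refine Finset.sum_congr rfl fun σ _ => ?_
  rw [Finset.sum_comm]

lemma norm_Lb3_le' (A B C : ℤ → ℤ → ℂ) (N : ℕ) (p0 p1 p2 : ℤ) :
    ‖Lb3 A B C N p0 p1 p2‖ ≤ ∑ σ : Bool × Bool × Bool,
      |Lb3r (fun z z' => pr σ.1 (A z z')) (fun z z' => pr σ.2.1 (B z z'))
        (fun z z' => pr σ.2.2 (C z z')) N p0 p1 p2| := by
  refine (norm_Lb3_le A B C N p0 p1 p2).trans (le_of_eq ?_)
  rw [Fintype.sum_prod_type]
  refine Finset.sum_congr rfl fun σ2 _ => ?_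
  rw [Fintype.sum_prod_type]

/-- **the region sum, before scaling** -/
lemma frozen_sum (Kb : ℝ) (bb : ℤ) (hbb : bb = -1 ∨ bb = -7)
    (R : Finset (ℕ × ℤ)) (J : ℕ × ℤ) (hR : IsRegion R J) (j : Fin 4)
    (T : Fin 3 → Finset ℤ) (a b c : ℤ → ℤ → ℂ) (F : Fin 4 → ℤ → ℂ)
    (hblock : ∀ l : ℤ, |l| ≤ 7 → ∀ (σ2 σ0 σ1 : Bool) (Wf : Finset ℤ) (L1 : ℕ),
      ∑ w ∈ Wf, ∑ m ∈ range (J.1 + 1), (1 / (2 : ℝ) ^ m) * ∑ i ∈ range (2 ^ m),
      ∑ p0 ∈ Icc (-(L1 : ℤ)) L1, ∑ p1 ∈ Icc (-(L1 : ℤ)) L1,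
      |Lb3r (famA R j T a F σ2 w (m + 1)) (famB R j T b F σ0 w (m + 1))
        (famC R j T c F σ1 w (m + 1)) (2 ^ m) p0 p1 (l * 2 ^ m + (i : ℤ) - w - p0 - p1)| ≤ Kb)
    (κ : ℝ) (hκ : 0 ≤ κ) (hFj : F j = atom j κ T a b c) :
    ∑ p ∈ R, ∑ x ∈ adm p.1 p.2, ‖Lbox (2 ^ p.1) bb F x‖ ≤ κ * (8 * Kb) := by
  classical
  obtain ⟨Lt, hLt⟩ := exists_bound T
  set L1 : ℕ := Lt + 2 * 2 ^ (J.1 + 1) with hL1
  set W0 : ℕ := 3 * L1 + 8 * 2 ^ (J.1 + 1) with hW0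
  set P : Finset (ℤ × ℤ × ℤ) := Icc (-(L1 : ℤ)) L1 ×ˢ (Icc (-(L1 : ℤ)) L1 ×ˢ Icc (-(L1 : ℤ)) L1)
    with hP
  set Wf := Icc (-(W0 : ℤ)) W0 with hWf
  rw [region_sum R J hR j F bb hbb]
  -- one level
  set X : ℤ → Bool × Bool × Bool → ℕ → ℕ → ℤ → ℤ → ℤ → ℝ := fun l σ m i w p0 p1 =>
    |Lb3r (famA R j T a F σ.1 w (m + 1)) (famB R j T b F σ.2.1 w (m + 1))
        (famC R j T c F σ.2.2 w (m + 1)) (2 ^ m) p0 p1 (l * 2 ^ m + (i : ℤ) - w - p0 - p1)| with hX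
  set G : ℕ → ℤ → ℤ → ℤ → ℤ → ℝ := fun m w p0 p1 p2 =>
    ‖Lb3 (frA j T a (Fm R j F m) w) (frB j T b (Fm R j F m) w) (frC j T c (Fm R j F m) w)
      (2 ^ m) p0 p1 p2‖ with hG
  have hG0 : ∀ m w x y z, 0 ≤ G m w x y z := fun m w x y z => norm_nonneg _
  have hGX : ∀ (l : ℤ) (m i : ℕ) (w p0 p1 : ℤ), G m w p0 p1 (l * 2 ^ m + (i : ℤ) - w - p0 - p1) ≤
      ∑ σ : Bool × Bool × Bool, X l σ m i w p0 p1 := by
    intro l m i w p0 p1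
    simp only [hG, hX]
    refine (norm_Lb3_le' _ _ _ _ _ _ _).trans (le_of_eq ?_)
    refine Finset.sum_congr rfl fun σ _ => ?_
    have e1 : (fun z z' => pr σ.1 (frA j T a (Fm R j F m) w z z')) =
        famA R j T a F σ.1 w (m + 1) := by
      funext z z'
      unfold frA famA
      rw [pr_frz]
      unfold Fm
      rw [if_neg (Fin.succAbove_ne j 2)]
      rfl
    have e2 : (fun z z' => pr σ.2.1 (frB j T b (Fm R j F m) w z z')) =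
        famB R j T b F σ.2.1 w (m + 1) := by
      funext z z'
      unfold frB famB
      rw [pr_frz]
      unfold Fm
      rw [if_neg (Fin.succAbove_ne j 0)]
      rfl
    have e3 : (fun z z' => pr σ.2.2 (frC j T c (Fm R j F m) w z z')) =
        famC R j T c F σ.2.2 w (m + 1) := by
      funext z z'
      unfold frC famC
      rw [pr_frz]
      unfold Fm
      rw [if_neg (Fin.succAbove_ne j 1)]
      rfl
    rw [e1, e2, e3]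
  have hlevel : ∀ m ∈ range (J.1 + 1),
      ∑ x ∈ (R.filter (fun p => p.1 = m)).biUnion (fun p => adm p.1 p.2),
        ‖Lbox (2 ^ m) bb (Fm R j F m) x‖ ≤
      κ * ((1 / 2) * ((∑ σ : Bool × Bool × Bool, ∑ w ∈ Wf, (1 / (2 : ℝ) ^ m) *
        ∑ i ∈ range (2 ^ m), ∑ p0 ∈ Icc (-(L1 : ℤ)) L1, ∑ p1 ∈ Icc (-(L1 : ℤ)) L1,
          X bb σ m i w p0 p1) +
        (∑ σ : Bool × Bool × Bool, ∑ w ∈ Wf, (1 / (2 : ℝ) ^ m) *
        ∑ i ∈ range (2 ^ m), ∑ p0 ∈ Icc (-(L1 : ℤ)) L1, ∑ p1 ∈ Icc (-(L1 : ℤ)) L1,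
          X (bb + 1) σ m i w p0 p1))) := by
    intro m hm
    rw [Finset.mem_range] at hm
    have hpow : 2 ^ m ≤ 2 ^ (J.1 + 1) := Nat.pow_le_pow_right (by norm_num) (by omega)
    have g := sum_norm_Lbox_atom_le j (2 ^ m) bb κ hκ T a b c (Fm R j F m)
      (by unfold Fm; rw [if_pos rfl, hFj])
      ((R.filter (fun p => p.1 = m)).biUnion (fun p => adm p.1 p.2)) P (by
        intro t0 t1 t2 z0 h0 z1 h1 z2 h2
        have c0 := abs_le.mp (hLt 0 z0 h0)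
        have c1 := abs_le.mp (hLt 1 z1 h1)
        have c2 := abs_le.mp (hLt 2 z2 h2)
        have d0 := t0.isLt
        have d1 := t1.isLt
        have d2 := t2.isLt
        rw [hP, Finset.mem_product, Finset.mem_product, Finset.mem_Icc, Finset.mem_Icc,
          Finset.mem_Icc]
        refine ⟨?_, ?_, ?_⟩ <;> constructor <;> simp only <;> omega)
    refine g.trans (mul_le_mul_of_nonneg_left ?_ hκ)
    -- two blocks
    have hsplit : ∀ p : ℤ × ℤ × ℤ, (1 / (((2 ^ m : ℕ) : ℝ) + ((2 ^ m : ℕ) : ℝ))) *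
        ∑ v : Fin (2 ^ m + 2 ^ m),
        ‖Lb3 (frA j T a (Fm R j F m) (((v : ℕ) : ℤ) + bb * ((2 ^ m : ℕ) : ℤ) - p.1 - p.2.1 - p.2.2))
            (frB j T b (Fm R j F m) (((v : ℕ) : ℤ) + bb * ((2 ^ m : ℕ) : ℤ) - p.1 - p.2.1 - p.2.2))
            (frC j T c (Fm R j F m) (((v : ℕ) : ℤ) + bb * ((2 ^ m : ℕ) : ℤ) - p.1 - p.2.1 - p.2.2))
            (2 ^ m) p.1 p.2.1 p.2.2‖ =
        (1 / 2) * ((1 / (2 : ℝ) ^ m) * ∑ i ∈ range (2 ^ m),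
          G m ((i : ℤ) + bb * ((2 ^ m : ℕ) : ℤ) - p.1 - p.2.1 - p.2.2) p.1 p.2.1 p.2.2 +
          (1 / (2 : ℝ) ^ m) * ∑ i ∈ range (2 ^ m),
          G m ((i : ℤ) + (bb + 1) * ((2 ^ m : ℕ) : ℤ) - p.1 - p.2.1 - p.2.2) p.1 p.2.1 p.2.2) := by
      intro p
      have e1 := sum_fin_two (2 ^ m) (fun v => G m ((v : ℤ) + bb * ((2 ^ m : ℕ) : ℤ) - p.1 - p.2.1 -
        p.2.2) p.1 p.2.1 p.2.2)
      have e2 : ∑ v : Fin (2 ^ m + 2 ^ m),
        ‖Lb3 (frA j T a (Fm R j F m) (((v : ℕ) : ℤ) + bb * ((2 ^ m : ℕ) : ℤ) - p.1 - p.2.1 - p.2.2))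
            (frB j T b (Fm R j F m) (((v : ℕ) : ℤ) + bb * ((2 ^ m : ℕ) : ℤ) - p.1 - p.2.1 - p.2.2))
            (frC j T c (Fm R j F m) (((v : ℕ) : ℤ) + bb * ((2 ^ m : ℕ) : ℤ) - p.1 - p.2.1 - p.2.2))
            (2 ^ m) p.1 p.2.1 p.2.2‖ = ∑ v : Fin (2 ^ m + 2 ^ m),
          G m (((v : ℕ) : ℤ) + bb * ((2 ^ m : ℕ) : ℤ) - p.1 - p.2.1 - p.2.2) p.1 p.2.1 p.2.2 := rfl
      rw [e2, e1]
      have e3 : ∀ i ∈ range (2 ^ m), G m (((2 ^ m + i : ℕ) : ℤ) + bb * ((2 ^ m : ℕ) : ℤ) - p.1 -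
          p.2.1 - p.2.2) p.1 p.2.1 p.2.2 =
          G m ((i : ℤ) + (bb + 1) * ((2 ^ m : ℕ) : ℤ) - p.1 - p.2.1 - p.2.2) p.1 p.2.1 p.2.2 := by
        intro i _
        congr 1
        push_cast
        ring
      rw [Finset.sum_congr rfl e3]
      push_cast
      have h2m : (2 : ℝ) ^ m ≠ 0 := by positivity
      field_simp
      ring
    rw [Finset.sum_congr rfl fun p _ => hsplit p, ← Finset.mul_sum, Finset.sum_add_distrib,
      ← Finset.mul_sum, ← Finset.mul_sum]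
    refine mul_le_mul_of_nonneg_left ?_ (by norm_num)
    have hone : ∀ l : ℤ, |l| ≤ 7 → (1 / (2 : ℝ) ^ m) * ∑ p ∈ P, ∑ i ∈ range (2 ^ m),
          G m ((i : ℤ) + l * ((2 ^ m : ℕ) : ℤ) - p.1 - p.2.1 - p.2.2) p.1 p.2.1 p.2.2 ≤
        ∑ σ : Bool × Bool × Bool, ∑ w ∈ Wf, (1 / (2 : ℝ) ^ m) *
        ∑ i ∈ range (2 ^ m), ∑ p0 ∈ Icc (-(L1 : ℤ)) L1, ∑ p1 ∈ Icc (-(L1 : ℤ)) L1,
          X l σ m i w p0 p1 := by
      intro l hl
      have e4 : ∑ σ : Bool × Bool × Bool, ∑ w ∈ Wf, (1 / (2 : ℝ) ^ m) *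
        ∑ i ∈ range (2 ^ m), ∑ p0 ∈ Icc (-(L1 : ℤ)) L1, ∑ p1 ∈ Icc (-(L1 : ℤ)) L1,
          X l σ m i w p0 p1 = (1 / (2 : ℝ) ^ m) * ∑ i ∈ range (2 ^ m), ∑ w ∈ Wf,
          ∑ p0 ∈ Icc (-(L1 : ℤ)) L1, ∑ p1 ∈ Icc (-(L1 : ℤ)) L1,
          ∑ σ : Bool × Bool × Bool, X l σ m i w p0 p1 := by
        rw [swap5 (range (2 ^ m)) Wf (Icc (-(L1 : ℤ)) L1) (fun σ i w p0 p1 => X l σ m i w p0 p1)]
        rw [Finset.mul_sum]
        refine Finset.sum_congr rfl fun σ _ => ?_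
        rw [Finset.mul_sum]
      rw [e4]
      refine mul_le_mul_of_nonneg_left ?_ (by positivity)
      rw [Finset.sum_comm]
      refine Finset.sum_le_sum fun i hi => ?_
      rw [Finset.mem_range] at hi
      refine (sum_cube_le L1 (2 ^ m) l i hi hl W0 (by rw [hW0]; omega) (G m) (hG0 m)).trans ?_
      refine Finset.sum_le_sum fun w _ => Finset.sum_le_sum fun p0 _ =>
        Finset.sum_le_sum fun p1 _ => ?_
      have := hGX l m i w p0 p1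
      rw [show (l * ((2 ^ m : ℕ) : ℤ) + (i : ℤ) - w - p0 - p1) =
        l * 2 ^ m + (i : ℤ) - w - p0 - p1 by push_cast; ring]
      exact this
    have hl0 : |bb| ≤ 7 := by rcases hbb with rfl | rfl <;> norm_num
    have hl1 : |bb + 1| ≤ 7 := by rcases hbb with rfl | rfl <;> norm_num
    exact add_le_add (hone bb hl0) (hone (bb + 1) hl1)
  refine (Finset.sum_le_sum hlevel).trans ?_
  rw [← Finset.mul_sum, ← Finset.mul_sum, Finset.sum_add_distrib]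
  refine mul_le_mul_of_nonneg_left ?_ hκ
  have htot : ∀ l : ℤ, |l| ≤ 7 → ∑ m ∈ range (J.1 + 1), ∑ σ : Bool × Bool × Bool, ∑ w ∈ Wf,
      (1 / (2 : ℝ) ^ m) * ∑ i ∈ range (2 ^ m), ∑ p0 ∈ Icc (-(L1 : ℤ)) L1,
        ∑ p1 ∈ Icc (-(L1 : ℤ)) L1, X l σ m i w p0 p1 ≤ 8 * Kb := by
    intro l hl
    rw [Finset.sum_comm]
    have h1 : ∀ σ ∈ (Finset.univ : Finset (Bool × Bool × Bool)), ∑ m ∈ range (J.1 + 1),
        ∑ w ∈ Wf, (1 / (2 : ℝ) ^ m) * ∑ i ∈ range (2 ^ m), ∑ p0 ∈ Icc (-(L1 : ℤ)) L1,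
        ∑ p1 ∈ Icc (-(L1 : ℤ)) L1, X l σ m i w p0 p1 ≤ Kb := by
      intro σ _
      rw [Finset.sum_comm]
      exact hblock l hl σ.1 σ.2.1 σ.2.2 Wf L1
    refine (Finset.sum_le_sum h1).trans (le_of_eq ?_)
    rw [Finset.sum_const, Finset.card_univ]
    simp
  have hl0 : |bb| ≤ 7 := by rcases hbb with rfl | rfl <;> norm_num
  have hl1 : |bb + 1| ≤ 7 := by rcases hbb with rfl | rfl <;> norm_num
  have t0 := htot bb hl0
  have t1 := htot (bb + 1) hl1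
  linarith

/-! ### scaling -/

lemma n3_smul (T T' : Finset ℤ) (a : ℤ → ℤ → ℂ) (s : ℝ) (hs : 0 ≤ s) :
    n3 T T' (fun z z' => (s : ℂ) * a z z') = s ^ 3 * n3 T T' a := by
  unfold n3
  rw [Finset.mul_sum]
  refine Finset.sum_congr rfl fun z _ => ?_
  rw [Finset.mul_sum]
  refine Finset.sum_congr rfl fun z' _ => ?_
  rw [norm_mul, mul_pow, Complex.norm_real, Real.norm_of_nonneg hs]

lemma n3_nonneg (T T' : Finset ℤ) (a : ℤ → ℤ → ℂ) : 0 ≤ n3 T T' a :=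
  Finset.sum_nonneg fun z _ => Finset.sum_nonneg fun z' _ => by positivity

lemma atom_smul (j : Fin 4) (κ : ℝ) (T : Fin 3 → Finset ℤ) (a b c : ℤ → ℤ → ℂ) (s1 s2 s3 : ℝ)
    (h : s1 * s2 * s3 = 1) :
    atom j κ T (fun z z' => (s1 : ℂ) * a z z') (fun z z' => (s2 : ℂ) * b z z')
      (fun z z' => (s3 : ℂ) * c z z') = atom j κ T a b c := by
  funext y
  unfold atom
  congr 1
  refine Finset.sum_congr rfl fun z0 _ => Finset.sum_congr rfl fun z1 _ =>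
    Finset.sum_congr rfl fun z2 _ => ?_
  split_ifs
  · have hc : (s1 : ℂ) * s2 * s3 = 1 := by exact_mod_cast h
    calc (s1 : ℂ) * a z0 z1 * ((s2 : ℂ) * b z1 z2) * ((s3 : ℂ) * c z2 z0)
        = ((s1 : ℂ) * s2 * s3) * (a z0 z1 * b z1 z2 * c z2 z0) := by ring
      _ = a z0 z1 * b z1 z2 * c z2 z0 := by rw [hc, one_mul]
  · rfl

lemma scale_opt (V M x y z δ : ℝ) (hM : 0 ≤ M) (hx0 : 0 ≤ x) (hy0 : 0 ≤ y) (hz0 : 0 ≤ z)
    (hδ : 0 < δ)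
    (h : ∀ s1 s2 s3 : ℝ, 0 ≤ s1 → 0 ≤ s2 → 0 ≤ s3 → s1 * s2 * s3 = 1 →
      V ≤ M * (s1 ^ 3 * x + s2 ^ 3 * y + s3 ^ 3 * z)) :
    V ≤ M * (3 * ((x + δ) * (y + δ) * (z + δ)) ^ (1 / 3 : ℝ)) := by
  set X := x + δ with hX
  set Y := y + δ with hY
  set Z := z + δ with hZ
  have hX0 : 0 < X := by linarith
  have hY0 : 0 < Y := by linarith
  have hZ0 : 0 < Z := by linarith
  set P := (X * Y * Z) ^ (1 / 3 : ℝ) with hP
  have hXYZ : 0 < X * Y * Z := by positivity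
  have hP0 : 0 < P := Real.rpow_pos_of_pos hXYZ _
  have hP3 : P ^ 3 = X * Y * Z := by
    rw [hP, ← Real.rpow_natCast, ← Real.rpow_mul hXYZ.le]
    norm_num
  have hcube : ∀ u : ℝ, 0 ≤ u → (u ^ (1 / 3 : ℝ)) ^ 3 = u := by
    intro u hu
    rw [← Real.rpow_natCast, ← Real.rpow_mul hu]
    norm_num
  have p1 : 0 ≤ P / X := by positivity
  have p2 : 0 ≤ P / Y := by positivity
  have p3 : 0 ≤ P / Z := by positivity
  have hprod : (P / X) ^ (1 / 3 : ℝ) * (P / Y) ^ (1 / 3 : ℝ) * (P / Z) ^ (1 / 3 : ℝ) = 1 := by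
    rw [← Real.mul_rpow p1 p2, ← Real.mul_rpow (mul_nonneg p1 p2) p3]
    have : P / X * (P / Y) * (P / Z) = 1 := by
      have e : P / X * (P / Y) * (P / Z) = P ^ 3 / (X * Y * Z) := by field_simp
      rw [e, hP3, div_self hXYZ.ne']
    rw [this, Real.one_rpow]
  refine (h _ _ _ (Real.rpow_nonneg p1 _) (Real.rpow_nonneg p2 _) (Real.rpow_nonneg p3 _)
    hprod).trans (mul_le_mul_of_nonneg_left ?_ hM)
  rw [hcube _ p1, hcube _ p2, hcube _ p3]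
  have aux : ∀ u U : ℝ, 0 < U → u ≤ U → P / U * u ≤ P := by
    intro u U hU huU
    rw [div_mul_eq_mul_div, div_le_iff₀ hU]
    exact mul_le_mul_of_nonneg_left huU hP0.le
  have e1 := aux x X hX0 (by linarith)
  have e2 := aux y Y hY0 (by linarith)
  have e3 := aux z Z hZ0 (by linarith)
  linarith

/-- **(I1): the frozen atom theorem** -/
theorem frozenAtom_of_triIsoZ (h : TriIsoZ) : FrozenAtom := by
  obtain ⟨K, hK, κ, hTri⟩ := h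
  set C0 : ℝ := K * (1 + κ) * 30 * (2 * (2 * ((12 * 2 ^ κ + 24 : ℕ) : ℝ) + 257)) with hC0
  have hC00 : 0 ≤ C0 := by positivity
  refine ⟨24 * C0, by positivity, ?_⟩
  intro bb hbb R J hR j μ hμ T a b c F A hA hF hFj
  set V := ∑ p ∈ R, ∑ x ∈ adm p.1 p.2, ‖Lbox (2 ^ p.1) bb F x‖ with hV
  have na := n3_nonneg (T 0) (T 1) a
  have nb := n3_nonneg (T 1) (T 2) b
  have nc := n3_nonneg (T 2) (T 0) c
  set M : ℝ := μ * (8 * C0 * 2 ^ (J.1 + 7)) with hM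
  have hM0 : 0 ≤ M := by positivity
  set na' := n3 (T 0) (T 1) a with hna
  set nb' := n3 (T 1) (T 2) b with hnb
  set nc' := n3 (T 2) (T 0) c with hnc
  -- the bound for every `δ > 0`
  set f : ℝ → ℝ := fun δ => M * (3 * ((((A 2 + δ) ^ 3 * na' + δ) *
    ((A 0 + δ) ^ 3 * nb' + δ) * ((A 1 + δ) ^ 3 * nc' + δ)) ^ (1 / 3 : ℝ))) with hf
  have h2 : ∀ δ : ℝ, 0 < δ → V ≤ f δ := by
    intro δ hδ
    have hA' : ∀ i, 0 < A i + δ := fun i => by have := hA i; linarith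
    refine scale_opt V M _ _ _ δ hM0 (mul_nonneg (pow_nonneg (hA' 2).le 3) na)
      (mul_nonneg (pow_nonneg (hA' 0).le 3) nb) (mul_nonneg (pow_nonneg (hA' 1).le 3) nc) hδ ?_
    intro s1 s2 s3 hs1 hs2 hs3 hs
    have := frozen_sum (C0 * ((A 2 + δ) ^ 3 * (s1 ^ 3 * na') +
        (A 0 + δ) ^ 3 * (s2 ^ 3 * nb') + (A 1 + δ) ^ 3 * (s3 ^ 3 * nc')) *
        2 ^ (J.1 + 7)) bb hbb R J hR j T (fun z z' => (s1 : ℂ) * a z z')
      (fun z z' => (s2 : ℂ) * b z z') (fun z z' => (s3 : ℂ) * c z z') F ?_ μ hμ ?_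
    · refine this.trans (le_of_eq ?_)
      rw [hM]
      ring
    · intro l hl σ2 σ0 σ1 Wf L1
      have := block_bound K hK κ hTri l hl R J hR j T (fun z z' => (s1 : ℂ) * a z z')
        (fun z z' => (s2 : ℂ) * b z z') (fun z z' => (s3 : ℂ) * c z z') F (fun i => A i + δ) hA'
        (fun i p hp => (hF i p hp).trans (by linarith)) σ2 σ0 σ1 Wf L1
      rw [n3_smul _ _ _ _ hs1, n3_smul _ _ _ _ hs2, n3_smul _ _ _ _ hs3] at this
      exact this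
    · rw [hFj, atom_smul j μ T a b c s1 s2 s3 hs]
  -- limit
  have hcont : Continuous f := by
    simp only [hf]
    refine continuous_const.mul (continuous_const.mul
      (Continuous.rpow_const ?_ fun x => Or.inr (by norm_num)))
    fun_prop
  have h3 : V ≤ f 0 := by
    refine ge_of_tendsto (x := nhdsWithin 0 (Set.Ioi 0)) (hcont.continuousWithinAt (s := Set.Ioi 0)) ?_
    exact Filter.eventually_of_mem self_mem_nhdsWithin fun δ hδ => h2 δ hδ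
  refine h3.trans (le_of_eq ?_)
  simp only [hf, add_zero]
  have e : (A 2 ^ 3 * na' * (A 0 ^ 3 * nb') * (A 1 ^ 3 * nc')) ^ (1 / 3 : ℝ) = (∏ i, A i) *
      (na' * nb' * nc') ^ (1 / 3 : ℝ) := by
    rw [show A 2 ^ 3 * na' * (A 0 ^ 3 * nb') * (A 1 ^ 3 * nc') = (A 0 * A 1 * A 2) ^ 3 *
      (na' * nb' * nc') by ring]
    have hp : 0 ≤ A 0 * A 1 * A 2 := mul_nonneg (mul_nonneg (hA 0) (hA 1)) (hA 2)
    rw [Real.mul_rpow (pow_nonneg hp 3) (mul_nonneg (mul_nonneg na nb) nc), Fin.prod_univ_three]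
    congr 1
    rw [← Real.rpow_natCast, ← Real.rpow_mul hp]
    norm_num
  rw [e, hM]
  ring

/-- **(I1) from `TriIso`** -/
theorem frozenAtom_of_triIso (h : TriIso) : FrozenAtom :=
  frozenAtom_of_triIsoZ (triIsoZ_of_triIso h)

/-- **(I1)** -/
theorem frozenAtom : FrozenAtom := frozenAtom_of_triIso Crest.Agent.R079.Pot.triIso

end Crest.Agent.R079.Glue
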