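import Crest.Agent.R079.GlueDefs_569

/-! R079, GLUE (helper569): the 4-linear lattice box form with an atom in slot `j` is an average of
triangular box forms. -/

set_option autoImplicit false

namespace Crest.Agent.R079.Glue

open Finset Crest.Agent.R079.Grid Crest.Agent.R079.Pot

/-- sum over functions on `Fin 3` -/
lemma sum_fin3 {α β : Type*} [Fintype α] [AddCommMonoid β] (g : (Fin 3 → α) → β) :
    ∑ f : Fin 3 → α, g f = ∑ a : α, ∑ b : α, ∑ c : α, g ![a, b, c] := by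
  have e : (α × α × α) ≃ (Fin 3 → α) :=
    { toFun := fun t => ![t.1, t.2.1, t.2.2]
      invFun := fun f => (f 0, f 1, f 2)
      left_inv := fun t => rfl
      right_inv := fun f => by funext i; fin_cases i <;> rfl }
  have h : ∑ f : Fin 3 → α, g f = ∑ t : α × α × α, g ![t.1, t.2.1, t.2.2] := by
    refine (Fintype.sum_equiv
      { toFun := fun t : α × α × α => ![t.1, t.2.1, t.2.2]
        invFun := fun f => (f 0, f 1, f 2)
        left_inv := fun t => rfl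
        right_inv := fun f => by funext i; fin_cases i <;> rfl } _ _ fun t => rfl).symm
  rw [h, Fintype.sum_prod_type]
  refine Finset.sum_congr rfl fun a _ => ?_
  rw [Fintype.sum_prod_type]

/-- sum over the box split into the frozen coordinate and the three others -/
lemma sum_box {α β : Type*} [Fintype α] [AddCommMonoid β] (j : Fin 4) (g : (Fin 4 → α) → β) :
    ∑ u : Fin 4 → α, g u = ∑ v : α, ∑ i0 : α, ∑ i1 : α, ∑ i2 : α, g (j.insertNth v ![i0, i1, i2]) := by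
  have h : ∑ u : Fin 4 → α, g u = ∑ t : α × (Fin 3 → α), g (j.insertNth t.1 t.2) :=
    (Fintype.sum_equiv (Fin.insertNthEquiv (fun _ => α) j) _ _ fun t => rfl).symm
  rw [h, Fintype.sum_prod_type]
  refine Finset.sum_congr rfl fun a _ => ?_
  rw [sum_fin3]

/-- shadows of the point `(v, i0, i1, i2)` -/
lemma yv_insert (j k : Fin 4) (N : ℕ) (bb x : ℤ) (v i0 i1 i2 : Fin (N + N)) :
    yv N bb x (j.insertNth (α := fun _ => Fin (N + N)) v ![i0, i1, i2]) k =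
      x + ((sl j - sl k) * ((v : ℕ) : ℤ) + (sl (j.succAbove 0) - sl k) * ((i0 : ℕ) : ℤ) +
        (sl (j.succAbove 1) - sl k) * ((i1 : ℕ) : ℤ) +
        (sl (j.succAbove 2) - sl k) * ((i2 : ℕ) : ℤ)) - sl k * (bb * N) := by
  unfold yv
  rw [Fin.sum_univ_succAbove _ j, Fin.sum_univ_three]
  simp only [Fin.insertNth_apply_same, Fin.insertNth_apply_succAbove]
  simp only [Matrix.cons_val_zero, Matrix.cons_val_one, Matrix.cons_val]
  ring

/-- reindexing of a sum over `T 0 × T 1 × T 2` -/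
lemma sum_shift3 (T : Fin 3 → Finset ℤ) (P : Finset (ℤ × ℤ × ℤ)) (t0 t1 t2 : ℤ)
    (hP : ∀ z0 ∈ T 0, ∀ z1 ∈ T 1, ∀ z2 ∈ T 2, (z0 - t0, z1 - t1, z2 - t2) ∈ P)
    (g : ℤ → ℤ → ℤ → ℂ) :
    ∑ z0 ∈ T 0, ∑ z1 ∈ T 1, ∑ z2 ∈ T 2, g z0 z1 z2 =
      ∑ p ∈ P, if p.1 + t0 ∈ T 0 ∧ p.2.1 + t1 ∈ T 1 ∧ p.2.2 + t2 ∈ T 2 then
        g (p.1 + t0) (p.2.1 + t1) (p.2.2 + t2) else 0 := by
  rw [← Finset.sum_filter]
  have h : ∑ z0 ∈ T 0, ∑ z1 ∈ T 1, ∑ z2 ∈ T 2, g z0 z1 z2 =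
      ∑ z ∈ T 0 ×ˢ (T 1 ×ˢ T 2), g z.1 z.2.1 z.2.2 := by
    rw [Finset.sum_product]
    refine Finset.sum_congr rfl fun z0 _ => ?_
    rw [Finset.sum_product]
  rw [h]
  refine Finset.sum_nbij' (fun z => (z.1 - t0, z.2.1 - t1, z.2.2 - t2))
    (fun p => (p.1 + t0, p.2.1 + t1, p.2.2 + t2)) ?_ ?_ ?_ ?_ ?_
  · intro z hz
    rw [Finset.mem_product, Finset.mem_product] at hz
    rw [Finset.mem_filter]
    refine ⟨hP _ hz.1 _ hz.2.1 _ hz.2.2, ?_, ?_, ?_⟩
    · simpa using hz.1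
    · simpa using hz.2.1
    · simpa using hz.2.2
  · intro p hp
    rw [Finset.mem_filter] at hp
    rw [Finset.mem_product, Finset.mem_product]
    exact hp.2
  · intro z _; simp
  · intro p _; simp
  · intro z _; simp

/-- **GLUE (identity)** -/
theorem Lbox_atom (j : Fin 4) (N : ℕ) (bb : ℤ) (κ : ℝ) (T : Fin 3 → Finset ℤ)
    (a b c : ℤ → ℤ → ℂ) (F : Fin 4 → ℤ → ℂ) (hF : F j = atom j κ T a b c) (x : ℤ)
    (P : Finset (ℤ × ℤ × ℤ))
    (hP : ∀ t0 t1 t2 : Fin (N + N), ∀ z0 ∈ T 0, ∀ z1 ∈ T 1, ∀ z2 ∈ T 2,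
      (z0 - ((t0 : ℕ) : ℤ), z1 - ((t1 : ℕ) : ℤ), z2 - ((t2 : ℕ) : ℤ)) ∈ P) :
    Lbox N bb F x = (κ : ℂ) * ∑ p ∈ P,
      if cf j 0 * p.1 + cf j 1 * p.2.1 + cf j 2 * p.2.2 = x - sl j * (bb * N) then
        (1 / ((N : ℂ) + N)) * ∑ v : Fin (N + N), (hsg N v : ℂ) *
          Lb3 (frA j T a F (((v : ℕ) : ℤ) + bb * N - p.1 - p.2.1 - p.2.2))
            (frB j T b F (((v : ℕ) : ℤ) + bb * N - p.1 - p.2.1 - p.2.2))
            (frC j T c F (((v : ℕ) : ℤ) + bb * N - p.1 - p.2.1 - p.2.2)) N p.1 p.2.1 p.2.2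
      else 0 := by
  classical
  -- left side
  have hL : Lbox N bb F x = (1 / ((N : ℂ) + N) ^ 4) * ∑ v : Fin (N + N), ∑ i0 : Fin (N + N),
      ∑ i1 : Fin (N + N), ∑ i2 : Fin (N + N), (κ : ℂ) * ∑ p ∈ P,
        if cf j 0 * p.1 + cf j 1 * p.2.1 + cf j 2 * p.2.2 = x - sl j * (bb * N) then
        ((hsg N v * (hsg N i0 * hsg N i1 * hsg N i2) : ℝ) : ℂ) *
        (frA j T a F (((v : ℕ) : ℤ) + bb * N - p.1 - p.2.1 - p.2.2)
            (p.1 + ((i0 : ℕ) : ℤ)) (p.2.1 + ((i1 : ℕ) : ℤ)) *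
          frB j T b F (((v : ℕ) : ℤ) + bb * N - p.1 - p.2.1 - p.2.2)
            (p.2.1 + ((i1 : ℕ) : ℤ)) (p.2.2 + ((i2 : ℕ) : ℤ)) *
          frC j T c F (((v : ℕ) : ℤ) + bb * N - p.1 - p.2.1 - p.2.2)
            (p.2.2 + ((i2 : ℕ) : ℤ)) (p.1 + ((i0 : ℕ) : ℤ))) else 0 := by
    unfold Lbox
    rw [sum_box j]
    congr 1
    refine Finset.sum_congr rfl fun v _ => Finset.sum_congr rfl fun i0 _ =>
      Finset.sum_congr rfl fun i1 _ => Finset.sum_congr rfl fun i2 _ => ?_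
    rw [Fin.prod_univ_succAbove _ j, Fin.prod_univ_succAbove _ j, Fin.prod_univ_three,
      Fin.prod_univ_three]
    simp only [Fin.insertNth_apply_same, Fin.insertNth_apply_succAbove]
    simp only [Matrix.cons_val_zero, Matrix.cons_val_one, Matrix.cons_val]
    rw [hF]
    unfold atom
    rw [sum_shift3 T P ((i0 : ℕ) : ℤ) ((i1 : ℕ) : ℤ) ((i2 : ℕ) : ℤ)
      (fun z0 h0 z1 h1 z2 h2 => hP i0 i1 i2 z0 h0 z1 h1 z2 h2)]
    rw [show ∀ (X Y Z : ℂ), X * (((κ : ℂ) * Y) * Z) = (κ : ℂ) * (Y * (X * Z)) by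
      intros; ring]
    congr 1
    rw [Finset.sum_mul]
    refine Finset.sum_congr rfl fun p _ => ?_
    obtain ⟨p0, p1, p2⟩ := p
    simp only
    have hy : ∀ k : Fin 4, yv N bb x (j.insertNth (α := fun _ => Fin (N + N)) v ![i0, i1, i2]) k =
      x + ((sl j - sl k) * ((v : ℕ) : ℤ) + (sl (j.succAbove 0) - sl k) * ((i0 : ℕ) : ℤ) +
        (sl (j.succAbove 1) - sl k) * ((i1 : ℕ) : ℤ) +
        (sl (j.succAbove 2) - sl k) * ((i2 : ℕ) : ℤ)) - sl k * (bb * N) :=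
      fun k => yv_insert j k N bb x v i0 i1 i2
    have hc : cf j 0 * (p0 + ((i0 : ℕ) : ℤ)) + cf j 1 * (p1 + ((i1 : ℕ) : ℤ)) +
        cf j 2 * (p2 + ((i2 : ℕ) : ℤ)) =
        yv N bb x (j.insertNth (α := fun _ => Fin (N + N)) v ![i0, i1, i2]) j ↔
        cf j 0 * p0 + cf j 1 * p1 + cf j 2 * p2 = x - sl j * (bb * N) := by
      rw [hy j]
      unfold cf
      constructor
      · intro h; linear_combination h
      · intro h; linear_combination h
    rw [if_congr hc rfl rfl]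
    by_cases hcond : cf j 0 * p0 + cf j 1 * p1 + cf j 2 * p2 = x - sl j * (bb * N)
    · rw [if_pos hcond, if_pos hcond]
      have hx : x = cf j 0 * p0 + cf j 1 * p1 + cf j 2 * p2 + sl j * (bb * N) := by
        rw [hcond]; ring
      unfold frA frB frC frz
      by_cases h0 : p0 + ((i0 : ℕ) : ℤ) ∈ T 0
      · by_cases h1 : p1 + ((i1 : ℕ) : ℤ) ∈ T 1
        · by_cases h2 : p2 + ((i2 : ℕ) : ℤ) ∈ T 2
          · rw [if_pos ⟨h0, h1, h2⟩, if_pos ⟨h0, h1⟩, if_pos ⟨h1, h2⟩, if_pos ⟨h2, h0⟩]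
            have e0 : yv N bb x (j.insertNth (α := fun _ => Fin (N + N)) v ![i0, i1, i2])
                (j.succAbove 0) = (sl j - sl (j.succAbove 0)) *
                (((v : ℕ) : ℤ) + bb * N - p0 - p1 - p2) +
                (sl (j.succAbove 1) - sl (j.succAbove 0)) * (p1 + ((i1 : ℕ) : ℤ)) +
                (sl (j.succAbove 2) - sl (j.succAbove 0)) * (p2 + ((i2 : ℕ) : ℤ)) := by
              rw [hy, hx]; unfold cf; ring
            have e1 : yv N bb x (j.insertNth (α := fun _ => Fin (N + N)) v ![i0, i1, i2])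
                (j.succAbove 1) = (sl j - sl (j.succAbove 1)) *
                (((v : ℕ) : ℤ) + bb * N - p0 - p1 - p2) +
                (sl (j.succAbove 2) - sl (j.succAbove 1)) * (p2 + ((i2 : ℕ) : ℤ)) +
                (sl (j.succAbove 0) - sl (j.succAbove 1)) * (p0 + ((i0 : ℕ) : ℤ)) := by
              rw [hy, hx]; unfold cf; ring
            have e2 : yv N bb x (j.insertNth (α := fun _ => Fin (N + N)) v ![i0, i1, i2])
                (j.succAbove 2) = (sl j - sl (j.succAbove 2)) *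
                (((v : ℕ) : ℤ) + bb * N - p0 - p1 - p2) +
                (sl (j.succAbove 0) - sl (j.succAbove 2)) * (p0 + ((i0 : ℕ) : ℤ)) +
                (sl (j.succAbove 1) - sl (j.succAbove 2)) * (p1 + ((i1 : ℕ) : ℤ)) := by
              rw [hy, hx]; unfold cf; ring
            rw [e0, e1, e2]
            push_cast
            ring
          · rw [if_neg (fun h => h2 h.2.2), if_neg (fun h : _ ∧ _ => h2 h.2)]
            ring
        · rw [if_neg (fun h => h1 h.2.1), if_neg (fun h : _ ∧ _ => h1 h.2)]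
          ring
      · rw [if_neg (fun h => h0 h.1), if_neg (fun h : _ ∧ _ => h0 h.1)]
        ring
    · rw [if_neg hcond, if_neg hcond]
      simp
  rw [hL]
  have hR : ∀ p ∈ P, (if cf j 0 * p.1 + cf j 1 * p.2.1 + cf j 2 * p.2.2 = x - sl j * (bb * N) then
        (1 / ((N : ℂ) + N)) * ∑ v : Fin (N + N), (hsg N v : ℂ) *
          Lb3 (frA j T a F (((v : ℕ) : ℤ) + bb * N - p.1 - p.2.1 - p.2.2))
            (frB j T b F (((v : ℕ) : ℤ) + bb * N - p.1 - p.2.1 - p.2.2))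
            (frC j T c F (((v : ℕ) : ℤ) + bb * N - p.1 - p.2.1 - p.2.2)) N p.1 p.2.1 p.2.2
      else 0) = (1 / ((N : ℂ) + N) ^ 4) * ∑ v : Fin (N + N), ∑ i0 : Fin (N + N),
      ∑ i1 : Fin (N + N), ∑ i2 : Fin (N + N),
        if cf j 0 * p.1 + cf j 1 * p.2.1 + cf j 2 * p.2.2 = x - sl j * (bb * N) then
        ((hsg N v * (hsg N i0 * hsg N i1 * hsg N i2) : ℝ) : ℂ) *
        (frA j T a F (((v : ℕ) : ℤ) + bb * N - p.1 - p.2.1 - p.2.2)
            (p.1 + ((i0 : ℕ) : ℤ)) (p.2.1 + ((i1 : ℕ) : ℤ)) *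
          frB j T b F (((v : ℕ) : ℤ) + bb * N - p.1 - p.2.1 - p.2.2)
            (p.2.1 + ((i1 : ℕ) : ℤ)) (p.2.2 + ((i2 : ℕ) : ℤ)) *
          frC j T c F (((v : ℕ) : ℤ) + bb * N - p.1 - p.2.1 - p.2.2)
            (p.2.2 + ((i2 : ℕ) : ℤ)) (p.1 + ((i0 : ℕ) : ℤ))) else 0 := by
    intro p _
    split_ifs with hcond
    · unfold Lb3
      rw [show (1 / ((N : ℂ) + N) ^ 4) = (1 / ((N : ℂ) + N)) * (1 / ((N : ℂ) + N) ^ 3) by
        rw [pow_succ]; rw [one_div_mul_one_div_rev]]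
      rw [mul_assoc]
      congr 1
      rw [Finset.mul_sum]
      refine Finset.sum_congr rfl fun v _ => ?_
      rw [← mul_assoc, mul_comm (hsg N v : ℂ) (1 / ((N : ℂ) + N) ^ 3), mul_assoc]
      congr 1
      rw [Finset.mul_sum]
      refine Finset.sum_congr rfl fun i0 _ => ?_
      rw [Finset.mul_sum]
      refine Finset.sum_congr rfl fun i1 _ => ?_
      rw [Finset.mul_sum]
      refine Finset.sum_congr rfl fun i2 _ => ?_
      push_cast
      ring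
    · simp
  rw [Finset.sum_congr rfl hR]
  rw [← Finset.mul_sum, mul_left_comm (κ : ℂ)]
  congr 1
  conv_rhs => rw [Finset.sum_comm, Finset.mul_sum]
  refine Finset.sum_congr rfl fun v _ => ?_
  conv_rhs => rw [Finset.sum_comm, Finset.mul_sum]
  refine Finset.sum_congr rfl fun i0 _ => ?_
  conv_rhs => rw [Finset.sum_comm, Finset.mul_sum]
  refine Finset.sum_congr rfl fun i1 _ => ?_
  conv_rhs => rw [Finset.sum_comm, Finset.mul_sum]

/-- **GLUE (inequality)** -/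
theorem sum_norm_Lbox_atom_le (j : Fin 4) (N : ℕ) (bb : ℤ) (κ : ℝ) (hκ : 0 ≤ κ)
    (T : Fin 3 → Finset ℤ)
    (a b c : ℤ → ℤ → ℂ) (F : Fin 4 → ℤ → ℂ) (hF : F j = atom j κ T a b c) (S : Finset ℤ)
    (P : Finset (ℤ × ℤ × ℤ))
    (hP : ∀ t0 t1 t2 : Fin (N + N), ∀ z0 ∈ T 0, ∀ z1 ∈ T 1, ∀ z2 ∈ T 2,
      (z0 - ((t0 : ℕ) : ℤ), z1 - ((t1 : ℕ) : ℤ), z2 - ((t2 : ℕ) : ℤ)) ∈ P) :
    ∑ x ∈ S, ‖Lbox N bb F x‖ ≤ κ * ∑ p ∈ P, (1 / ((N : ℝ) + N)) * ∑ v : Fin (N + N),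
      ‖Lb3 (frA j T a F (((v : ℕ) : ℤ) + bb * N - p.1 - p.2.1 - p.2.2))
            (frB j T b F (((v : ℕ) : ℤ) + bb * N - p.1 - p.2.1 - p.2.2))
            (frC j T c F (((v : ℕ) : ℤ) + bb * N - p.1 - p.2.1 - p.2.2)) N p.1 p.2.1 p.2.2‖ := by
  classical
  set G : ℤ × ℤ × ℤ → ℝ := fun p => (1 / ((N : ℝ) + N)) * ∑ v : Fin (N + N),
      ‖Lb3 (frA j T a F (((v : ℕ) : ℤ) + bb * N - p.1 - p.2.1 - p.2.2))
            (frB j T b F (((v : ℕ) : ℤ) + bb * N - p.1 - p.2.1 - p.2.2))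
            (frC j T c F (((v : ℕ) : ℤ) + bb * N - p.1 - p.2.1 - p.2.2)) N p.1 p.2.1 p.2.2‖ with hG
  have hG0 : ∀ p, 0 ≤ G p := fun p => by
    simp only [hG]
    positivity
  have h1 : ∀ x ∈ S, ‖Lbox N bb F x‖ ≤ κ * ∑ p ∈ P,
      if cf j 0 * p.1 + cf j 1 * p.2.1 + cf j 2 * p.2.2 = x - sl j * (bb * N) then G p else 0 := by
    intro x _
    rw [Lbox_atom j N bb κ T a b c F hF x P hP, norm_mul, Complex.norm_real,
      Real.norm_of_nonneg hκ]
    refine mul_le_mul_of_nonneg_left ?_ hκ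
    refine (norm_sum_le _ _).trans (Finset.sum_le_sum fun p _ => ?_)
    split_ifs with hc
    · rw [norm_mul]
      simp only [hG]
      have e : ‖(1 / ((N : ℂ) + N))‖ = 1 / ((N : ℝ) + N) := by
        rw [norm_div, norm_one]
        congr 1
        rw [show (N : ℂ) + N = ((N + N : ℕ) : ℂ) by push_cast; ring, Complex.norm_natCast]
        push_cast
        ring
      rw [e]
      refine mul_le_mul_of_nonneg_left ?_ (by positivity)
      refine (norm_sum_le _ _).trans (Finset.sum_le_sum fun v _ => ?_)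
      rw [norm_mul]
      have e2 : ‖(hsg N v : ℂ)‖ = 1 := by
        rw [Complex.norm_real]
        unfold hsg
        split_ifs <;> simp
      rw [e2, one_mul]
    · simp
  refine (Finset.sum_le_sum h1).trans ?_
  rw [← Finset.mul_sum]
  refine mul_le_mul_of_nonneg_left ?_ hκ
  rw [Finset.sum_comm]
  refine Finset.sum_le_sum fun p _ => ?_
  have h2 : ∀ x ∈ S, (if cf j 0 * p.1 + cf j 1 * p.2.1 + cf j 2 * p.2.2 = x - sl j * (bb * N)
      then G p else 0) = if x = cf j 0 * p.1 + cf j 1 * p.2.1 + cf j 2 * p.2.2 + sl j * (bb * N)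
      then G p else 0 := by
    intro x _
    refine if_congr ⟨fun h => by rw [h]; ring, fun h => by rw [h]; ring⟩ rfl rfl
  rw [Finset.sum_congr rfl h2, Finset.sum_ite_eq']
  split_ifs
  · exact le_rfl
  · exact hG0 p

end Crest.Agent.R079.Glue
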