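import Mathlib

/-! R079, LAYER 0d (helper569): LATTICE box form, dyadic grid, regions, and the interface Props

`BBFinite --(L0e, 292)--> GridBound --(L0d, 569)--> LatBound --(L0d, 569)--> BoxBound (-1/2), (-7/2)`.

Everything below is a finite sum over the lattice `ℤ` (no measure theory): the passage lattice -> line
(Riemann sums) is part of L0d.  `sl = (1,2,3,0)`: slots `0,1,2` carry `f₁,f₂,f₃`, slot `3` the dualising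
function.  A box of side `2N` (`N = 2^m`), base point `x`, offset `b` (`b = -1, -7`, i.e. `β = b/2` in
`BoxDefs_406`): `u : Fin 4 → Fin (2N)`, `t = b N + ∑ uᵢ`, `A = x + ∑ slᵢ uᵢ`,
`y_j = A - sl_j t = x + ∑ᵢ (slᵢ - sl_j) uᵢ - sl_j b N` (does not contain `u_j`). -/

set_option autoImplicit false

namespace Crest.Agent.R079.Grid

open Finset

/-- slopes -/
def sl : Fin 4 → ℤ := ![1, 2, 3, 0]

/-- half signs of a side of length `N + N` (same as `Crest.Agent.R072.hsgn`). -/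
noncomputable def hsg (N : ℕ) (i : Fin (N + N)) : ℝ := if (i : ℕ) < N then 1 else -1

/-- shadow `y_j` of the box point `u` -/
def yv (N : ℕ) (b x : ℤ) (u : Fin 4 → Fin (N + N)) (j : Fin 4) : ℤ :=
  x + ∑ i, (sl i - sl j) * ((u i : ℕ) : ℤ) - sl j * (b * N)

/-- normalised lattice box form (side `2N`, base point `x`, offset `b`) -/
noncomputable def Lbox (N : ℕ) (b : ℤ) (F : Fin 4 → ℤ → ℂ) (x : ℤ) : ℂ :=
  (1 / ((N : ℂ) + N) ^ 4) * ∑ u : Fin 4 → Fin (N + N),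
    ((∏ i, hsg N (u i) : ℝ) : ℂ) * ∏ j, F j (yv N b x u j)

/-- dyadic interval of level `k` and index `l`: `[l 2^k, (l+1) 2^k) ∩ ℤ`. -/
noncomputable def dI (k : ℕ) (l : ℤ) : Finset ℤ := Finset.Ico (l * 2 ^ k) ((l + 1) * 2 ^ k)

/-- normalised local `L²` norm of `f` on `dI k l` -/
noncomputable def av2 (k : ℕ) (l : ℤ) (f : ℤ → ℂ) : ℝ :=
  Real.sqrt ((1 / 2 ^ k) * ∑ y ∈ dI k l, ‖f y‖ ^ 2)

/-- base points of the boxes of side `2^(m+1)` attached to the node `(m,l)` = interval `dI (m+7) l`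
(`|I| = 64` sides): all shadows `y_j` (both offsets) lie in `[x - 5·side, x + 11·side) ⊆ I`. -/
noncomputable def adm (m : ℕ) (l : ℤ) : Finset ℤ :=
  Finset.Ico (l * 2 ^ (m + 7) + 5 * 2 ^ (m + 1)) ((l + 1) * 2 ^ (m + 7) - 11 * 2 ^ (m + 1) + 1)

/-- the form attached to the node `p = (m,l)` (NOT divided by `|I| = 2^(m+7)`), arbitrary
coefficients `ε m x`. -/
noncomputable def TI (b : ℤ) (ε : ℕ → ℤ → ℂ) (F : Fin 4 → ℤ → ℂ) (p : ℕ × ℤ) : ℂ :=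
  ∑ x ∈ adm p.1 p.2, ε p.1 x * Lbox (2 ^ p.1) b F x

/-- `R` is a (finite) tree region with top `J`: nodes below `J`, closed under passing to larger
dyadic intervals below `J`. -/
def IsRegion (R : Finset (ℕ × ℤ)) (J : ℕ × ℤ) : Prop :=
  (∀ p ∈ R, dI (p.1 + 7) p.2 ⊆ dI (J.1 + 7) J.2) ∧
  (∀ p ∈ R, ∀ q : ℕ × ℤ, dI (p.1 + 7) p.2 ⊆ dI (q.1 + 7) q.2 →
    dI (q.1 + 7) q.2 ⊆ dI (J.1 + 7) J.2 → q ∈ R)

/-- **INTERFACE L0 / L1: `BB < ∞`** (local `L²` bound on all tree regions, all coefficients of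
modulus `≤ 1`, both offsets). -/
def BBFinite : Prop :=
  ∃ C : ℝ, 0 ≤ C ∧ ∀ b : ℤ, b = -1 ∨ b = -7 → ∀ ε : ℕ → ℤ → ℂ, (∀ m x, ‖ε m x‖ ≤ 1) →
    ∀ (R : Finset (ℕ × ℤ)) (J : ℕ × ℤ), IsRegion R J →
    ∀ (F : Fin 4 → ℤ → ℂ) (A : Fin 4 → ℝ), (∀ j, 0 ≤ A j) →
      (∀ j, ∀ p ∈ R, av2 (p.1 + 7) p.2 (F j) ≤ A j) →
      ‖∑ p ∈ R, TI b ε F p‖ ≤ C * 2 ^ (J.1 + 7) * ∏ j, A j

/-- `ℓ³` norm of a finitely supported function -/
noncomputable def l3 (f : ℤ → ℂ) : ℝ := (∑ᶠ x : ℤ, ‖f x‖ ^ 3) ^ (1 / 3 : ℝ)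

/-- output of L0e: `ℓ³×ℓ³×ℓ³×ℓ^∞` bound, one dyadic grid, arbitrary finite sets of nodes. -/
def GridBound : Prop :=
  ∃ C : ℝ, 0 ≤ C ∧ ∀ b : ℤ, b = -1 ∨ b = -7 → ∀ ε : ℕ → ℤ → ℂ, (∀ m x, ‖ε m x‖ ≤ 1) →
    ∀ (R : Finset (ℕ × ℤ)) (F : Fin 4 → ℤ → ℂ), (∀ j, (Function.support (F j)).Finite) →
      (∀ x, ‖F 3 x‖ ≤ 1) →
      ‖∑ p ∈ R, TI b ε F p‖ ≤ C * (l3 (F 0) * l3 (F 1) * l3 (F 2))

/-- output of L0d, part 1: lattice theorem for the dyadic box kernels. -/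
def LatBound : Prop :=
  ∃ C : ℝ, 0 ≤ C ∧ ∀ b : ℤ, b = -1 ∨ b = -7 → ∀ (M : ℕ) (F : Fin 4 → ℤ → ℂ) (S : Finset ℕ),
    (∀ j, (Function.support (F j)).Finite) → (∀ x, ‖F 3 x‖ ≤ 1) → (∀ m ∈ S, m < M) →
      ‖∑ m ∈ S, ∑ᶠ x : ℤ, Lbox (2 ^ m) b F x‖ ≤ C * (l3 (F 0) * l3 (F 1) * l3 (F 2))

end Crest.Agent.R079.Grid
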