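import Crest.Agent.R079.GridDefs_569

/-! R079, L0d part 1 (helper569): `GridBound → LatBound` (one-third trick with two grids). -/

set_option autoImplicit false

namespace Crest.Agent.R079.Grid

open Finset

/-! ### arithmetic -/

lemma third_aux (s q r0 q1 r1 e : ℤ) (hs : 1 ≤ s) (h0 : 0 ≤ r0) (h0' : r0 < 64 * s)
    (h1 : 0 ≤ r1) (h1' : r1 < 64 * s)
    (h : 3 * (64 * s * q + r0) - (64 * s * e - 1) = 3 * (64 * s * q1 + r1))
    (hr : r0 < 5 * s ∨ 53 * s < r0) : 5 * s ≤ r1 ∧ r1 ≤ 53 * s := by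
  obtain ⟨z, hz⟩ : ∃ z : ℤ, z = 3 * q - 3 * q1 - e := ⟨_, rfl⟩
  have h2 : 3 * r1 = 3 * r0 + 1 + 64 * (s * z) := by rw [hz]; linear_combination (-1) * h
  have hz1 : z < 4 := by
    by_contra hc
    push Not at hc
    have : s * 4 ≤ s * z := mul_le_mul_of_nonneg_left hc (by omega)
    omega
  have hz2 : -4 < z := by
    by_contra hc
    push Not at hc
    have : s * z ≤ s * (-4) := mul_le_mul_of_nonneg_left hc (by omega)
    omega
  have hz3 : z = -3 ∨ z = -2 ∨ z = -1 ∨ z = 0 ∨ z = 1 ∨ z = 2 ∨ z = 3 := by omega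
  rcases hz3 with h | h | h | h | h | h | h <;> subst h <;> omega

/-- grid shift -/
def thet (K : ℕ) : ℤ := (4 ^ K - 1) / 3

lemma three_thet (K : ℕ) : 3 * thet K = 4 ^ K - 1 := by
  unfold thet
  have h : (3 : ℤ) ∣ 4 ^ K - 1 := by
    have := Int.emod_emod_of_dvd
    have h2 : (4 : ℤ) ^ K ≡ 1 ^ K [ZMOD 3] := Int.ModEq.pow K (by decide)
    rw [one_pow] at h2
    exact (Int.modEq_iff_dvd.mp h2.symm)
  exact Int.mul_ediv_cancel' h

lemma adm_iff (m : ℕ) (x : ℤ) : x ∈ adm m (x / 2 ^ (m + 7)) ↔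
    5 * 2 ^ (m + 1) ≤ x % 2 ^ (m + 7) ∧ x % 2 ^ (m + 7) ≤ 53 * 2 ^ (m + 1) := by
  unfold adm
  rw [Finset.mem_Ico]
  have h := Int.mul_ediv_add_emod x (2 ^ (m + 7))
  have e : (2 : ℤ) ^ (m + 7) = 64 * 2 ^ (m + 1) := by rw [pow_add, pow_add]; ring
  generalize x / 2 ^ (m + 7) = q at *
  generalize x % 2 ^ (m + 7) = r at *
  rw [e] at h
  rw [e]
  constructor
  · rintro ⟨h1, h2⟩
    constructor <;> nlinarith
  · rintro ⟨h1, h2⟩
    constructor <;> nlinarith

lemma two_grids (m K : ℕ) (hK : m + 7 ≤ K) (x : ℤ) :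
    x ∈ adm m (x / 2 ^ (m + 7)) ∨ (x - thet K) ∈ adm m ((x - thet K) / 2 ^ (m + 7)) := by
  rw [adm_iff, adm_iff]
  by_cases hr : 5 * 2 ^ (m + 1) ≤ x % 2 ^ (m + 7) ∧ x % 2 ^ (m + 7) ≤ 53 * 2 ^ (m + 1)
  · exact Or.inl hr
  right
  have e : (2 : ℤ) ^ (m + 7) = 64 * 2 ^ (m + 1) := by rw [pow_add, pow_add]; ring
  have hpos : (0 : ℤ) < 2 ^ (m + 7) := by positivity
  have hs : (1 : ℤ) ≤ 2 ^ (m + 1) := one_le_pow₀ (by norm_num)
  have h := Int.mul_ediv_add_emod x (2 ^ (m + 7))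
  have h' := Int.mul_ediv_add_emod (x - thet K) (2 ^ (m + 7))
  have a1 := Int.emod_nonneg x hpos.ne'
  have a2 := Int.emod_lt_of_pos x hpos
  have b1 := Int.emod_nonneg (x - thet K) hpos.ne'
  have b2 := Int.emod_lt_of_pos (x - thet K) hpos
  have hth := three_thet K
  obtain ⟨d, hd⟩ : ∃ d : ℕ, 2 * K = (m + 7) + d := ⟨2 * K - (m + 7), by omega⟩
  have h4 : (4 : ℤ) ^ K = 2 ^ (m + 7) * 2 ^ d := by
    rw [show (4 : ℤ) = 2 ^ 2 by norm_num, ← pow_mul, hd, pow_add]
  generalize x / 2 ^ (m + 7) = q at *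
  generalize x % 2 ^ (m + 7) = r at *
  generalize (x - thet K) / 2 ^ (m + 7) = q1 at *
  generalize (x - thet K) % 2 ^ (m + 7) = r1 at *
  rw [e] at h h' a2 b2 h4
  refine third_aux (2 ^ (m + 1)) q r q1 r1 (2 ^ d) hs a1 a2 b1 b2 ?_ (by omega)
  rw [h, h']
  rw [h4] at hth
  linarith

/-! ### translations -/

lemma yv_add (N : ℕ) (b x c : ℤ) (u : Fin 4 → Fin (N + N)) (j : Fin 4) :
    yv N b (x + c) u j = yv N b x u j + c := by
  unfold yv; ring

lemma Lbox_shift (N : ℕ) (b : ℤ) (F : Fin 4 → ℤ → ℂ) (x c : ℤ) :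
    Lbox N b F (x + c) = Lbox N b (fun j y => F j (y + c)) x := by
  unfold Lbox
  simp only [yv_add]

lemma l3_shift (f : ℤ → ℂ) (c : ℤ) : l3 (fun y => f (y + c)) = l3 f := by
  unfold l3
  congr 1
  exact finsum_comp_equiv (Equiv.addRight c) (f := fun x => ‖f x‖ ^ 3)

lemma support_shift_finite (f : ℤ → ℂ) (c : ℤ) (h : (Function.support f).Finite) :
    (Function.support (fun y => f (y + c))).Finite := by
  refine (h.preimage (f := fun y : ℤ => y + c) ?_)
  intro a _ b _ hab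
  simpa using hab

lemma l3_nonneg (f : ℤ → ℂ) : 0 ≤ l3 f := by
  unfold l3
  exact Real.rpow_nonneg (finsum_nonneg fun x => by positivity) _

lemma Lbox_support_finite (N : ℕ) (b : ℤ) (F : Fin 4 → ℤ → ℂ)
    (h : (Function.support (F 3)).Finite) : (Function.support (Lbox N b F)).Finite := by
  have hs : Function.support (Lbox N b F) ⊆
      ⋃ u : Fin 4 → Fin (N + N), (fun x : ℤ => x + (∑ i, (sl i - sl 3) * ((u i : ℕ) : ℤ) -
        sl 3 * (b * N))) ⁻¹' (Function.support (F 3)) := by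
    intro x hx
    rw [Function.mem_support] at hx
    rw [Set.mem_iUnion]
    by_contra hc
    push Not at hc
    apply hx
    unfold Lbox
    rw [Finset.sum_eq_zero, mul_zero]
    intro u _
    have h3 : F 3 (yv N b x u 3) = 0 := by
      have := hc u
      rw [Set.mem_preimage, Function.mem_support, not_not] at this
      rw [← this]
      congr 1
      unfold yv
      ring
    have h4 : ∏ j, F j (yv N b x u j) = 0 := Finset.prod_eq_zero (Finset.mem_univ 3) h3
    rw [h4, mul_zero]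
  refine (Set.finite_iUnion fun u => ?_).subset hs
  refine h.preimage ?_
  intro a _ b _ hab
  simpa using hab

/-! ### collecting the boxes of one grid -/

/-- sum over a finite window `X` of base points, collected in the nodes of the grid shifted by `c` -/
lemma collect (b : ℤ) (F : Fin 4 → ℤ → ℂ) (c : ℤ) (S : Finset ℕ) (X : Finset ℤ)
    (P : ℕ → ℤ → Prop) [∀ m x, Decidable (P m x)] :
    ∃ (R : Finset (ℕ × ℤ)) (ε : ℕ → ℤ → ℂ), (∀ m x, ‖ε m x‖ ≤ 1) ∧
      ∑ m ∈ S, ∑ x ∈ X, (if P m x ∧ (x - c) ∈ adm m ((x - c) / 2 ^ (m + 7)) then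
        Lbox (2 ^ m) b F x else 0) = ∑ p ∈ R, TI b ε (fun j y => F j (y + c)) p := by
  classical
  set Λ : Finset ℤ := S.biUnion fun m => X.image fun x => (x - c) / 2 ^ (m + 7) with hΛ
  refine ⟨S ×ˢ Λ, fun m x' => if P m (x' + c) ∧ x' + c ∈ X then 1 else 0, ?_, ?_⟩
  · intro m x
    dsimp only
    split_ifs <;> simp
  rw [Finset.sum_product]
  refine Finset.sum_congr rfl fun m hm => ?_
  unfold TI
  simp only
  have h1 : ∀ l ∈ Λ, ∑ x ∈ adm m l, (if P m (x + c) ∧ x + c ∈ X then (1 : ℂ) else 0) *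
      Lbox (2 ^ m) b (fun j y => F j (y + c)) x =
      ∑ x ∈ X, if P m x ∧ x - c ∈ adm m l then Lbox (2 ^ m) b F x else 0 := by
    intro l _
    have e1 : ∑ x ∈ adm m l, (if P m (x + c) ∧ x + c ∈ X then (1 : ℂ) else 0) *
        Lbox (2 ^ m) b (fun j y => F j (y + c)) x =
        ∑ x ∈ (adm m l).filter (fun x => P m (x + c) ∧ x + c ∈ X), Lbox (2 ^ m) b F (x + c) := by
      rw [Finset.sum_filter]
      refine Finset.sum_congr rfl fun x _ => ?_
      rw [Lbox_shift]
      split_ifs <;> simp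
    rw [e1, ← Finset.sum_filter]
    refine Finset.sum_bij (fun x _ => x + c) ?_ ?_ ?_ ?_
    · intro x hx
      simp only [Finset.mem_filter, add_sub_cancel_right] at hx ⊢
      tauto
    · intro x _ y _ h
      simpa using h
    · intro x hx
      simp only [Finset.mem_filter] at hx
      refine ⟨x - c, ?_, by ring⟩
      simp only [Finset.mem_filter, sub_add_cancel]
      tauto
    · intro x _
      rfl
  rw [Finset.sum_congr rfl h1, Finset.sum_comm]
  refine Finset.sum_congr rfl fun x hx => ?_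
  have hmem : (x - c) / 2 ^ (m + 7) ∈ Λ := by
    rw [hΛ, Finset.mem_biUnion]
    exact ⟨m, hm, Finset.mem_image_of_mem _ hx⟩
  rw [Finset.sum_eq_single ((x - c) / 2 ^ (m + 7))]
  · intro l _ hl
    rw [if_neg]
    rintro ⟨_, h2⟩
    apply hl
    unfold adm at h2
    rw [Finset.mem_Ico] at h2
    have hpos : (0 : ℤ) < 2 ^ (m + 7) := by positivity
    have hpos' : (0 : ℤ) < 2 ^ (m + 1) := by positivity
    symm
    rw [Int.ediv_eq_iff_of_pos hpos]
    constructor <;> nlinarith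
  · intro h
    exact absurd hmem h

/-- **`GridBound → LatBound`**. -/
theorem latBound_of_gridBound (h : GridBound) : LatBound := by
  classical
  obtain ⟨C, hC0, hC⟩ := h
  refine ⟨2 * C, by positivity, ?_⟩
  intro b hb M F S hF hF3 hS
  set θ := thet (M + 7) with hθ
  -- a common finite window
  have hfin : ∀ m, (Function.support (Lbox (2 ^ m) b F)).Finite := fun m =>
    Lbox_support_finite _ _ _ (hF 3)
  set X : Finset ℤ := S.biUnion fun m => (hfin m).toFinset with hX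
  have hsum : ∀ m ∈ S, ∑ᶠ x : ℤ, Lbox (2 ^ m) b F x = ∑ x ∈ X, Lbox (2 ^ m) b F x := by
    intro m hm
    refine finsum_eq_sum_of_support_subset _ ?_
    intro x hx
    rw [hX, Finset.mem_coe, Finset.mem_biUnion]
    exact ⟨m, hm, by simpa using hx⟩
  rw [Finset.sum_congr rfl hsum]
  obtain ⟨R0, ε0, hε0, h0⟩ := collect b F 0 S X (fun _ _ => True)
  obtain ⟨R1, ε1, hε1, h1⟩ := collect b F θ S X
    (fun m x => ¬ (x ∈ adm m (x / 2 ^ (m + 7))))
  have hsplit : ∑ m ∈ S, ∑ x ∈ X, Lbox (2 ^ m) b F x =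
      ∑ p ∈ R0, TI b ε0 (fun j y => F j (y + 0)) p +
        ∑ p ∈ R1, TI b ε1 (fun j y => F j (y + θ)) p := by
    rw [← h0, ← h1, ← Finset.sum_add_distrib]
    refine Finset.sum_congr rfl fun m hm => ?_
    rw [← Finset.sum_add_distrib]
    refine Finset.sum_congr rfl fun x _ => ?_
    have h2 := two_grids m (M + 7) (by have := hS m hm; omega) x
    rw [← hθ] at h2
    simp only [sub_zero, true_and]
    by_cases hx : x ∈ adm m (x / 2 ^ (m + 7))
    · rw [if_pos hx, if_neg (by tauto), add_zero]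
    · rw [if_neg hx, if_pos ⟨hx, h2.resolve_left hx⟩, zero_add]
  rw [hsplit]
  have b0 := hC b hb ε0 hε0 R0 (fun j y => F j (y + 0))
    (fun j => support_shift_finite _ _ (hF j)) (fun x => hF3 _)
  have b1 := hC b hb ε1 hε1 R1 (fun j y => F j (y + θ))
    (fun j => support_shift_finite _ _ (hF j)) (fun x => hF3 _)
  rw [l3_shift, l3_shift, l3_shift] at b0 b1
  refine (norm_add_le _ _).trans ?_
  linarith

end Crest.Agent.R079.Grid
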