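import Crest.Agent.R079.GrowthG1_215

/-! R079, SOFT LAYER, leaf **G2** (helper450): global-local for the dual functions (256 NOTES #9 (2)).

All four parts are one abstract statement `dual_pos`: a family `h p` of functions supported on the
intervals `iv p`, a window index `w` and the test families `g l` normalised by
`∑_{l ≥ w p} av_p (g l)² ≤ 1`; frozen tests = index `w = 0`, `L = 1`.  Stopping: test with
`g l = r conj (D l)`, stop at the maximal nodes `Q` with `∑_{l ≥ w Q} av_Q (g l)² > 4` (total length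
`≤ |J|/4`), the rest costs `2A|J|`, the stopped subtrees `2A|J|` by induction. -/

set_option autoImplicit false

namespace Crest.Agent.R079.Growth

open Finset Grid

lemma swap_sum (L : ℕ) (h : Nd → Fn) (hs : ∀ p x, x ∉ iv p → h p x = 0) (w : Nd → ℕ)
    (W : Finset Nd) (J : Nd) (hlt : ∀ p ∈ W, w p < L) (hJ : ∀ p ∈ W, iv p ⊆ iv J) (g : ℕ → Fn) :
    ∑ p ∈ W, ∑ x ∈ iv p, g (w p) x * h p x =
      ∑ l ∈ range L, ∑ x ∈ iv J, g l x * ∑ p ∈ wn W w l, h p x := by
  classical
  have e1 : ∀ l ∈ range L, ∑ x ∈ iv J, g l x * ∑ p ∈ wn W w l, h p x =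
      ∑ p ∈ W.filter (fun p => w p = l), ∑ x ∈ iv p, g (w p) x * h p x := by
    intro l _
    simp_rw [Finset.mul_sum]
    rw [Finset.sum_comm]
    refine Finset.sum_congr rfl fun p hp => ?_
    rw [Finset.mem_filter] at hp
    rw [hp.2]
    exact (Finset.sum_subset (hJ p hp.1) fun x _ hx => by rw [hs p x hx, mul_zero]).symm
  rw [Finset.sum_congr rfl e1]
  exact (Finset.sum_fiberwise_of_maps_to (fun p hp => Finset.mem_range.2 (hlt p hp)) _).symm

/-- stopping argument for strictly positive constants -/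
theorem dual_pos (L : ℕ) (h : Nd → Fn) (hs : ∀ p x, x ∉ iv p → h p x = 0) (w : Nd → ℕ)
    (W0 : Finset Nd) (hlt : ∀ p ∈ W0, w p < L) (A : ℝ) (hA : 0 < A)
    (H : ∀ W J, W ⊆ W0 → IsRegion W J → ∀ g : ℕ → Fn, locM L W w g →
      ‖∑ p ∈ W, ∑ x ∈ iv p, g (w p) x * h p x‖ ≤ A * len J) :
    ∀ (n : ℕ) (W : Finset Nd) (J : Nd), W.card ≤ n → W ⊆ W0 → IsRegion W J →
      ∑ l ∈ range L, ∑ x ∈ iv J, ‖∑ p ∈ wn W w l, h p x‖ ^ 2 ≤ (4 * A) ^ 2 * len J := by
  classical
  have hempty : ∀ J : Nd, ∑ l ∈ range L, ∑ x ∈ iv J, ‖∑ p ∈ wn ∅ w l, h p x‖ ^ 2 ≤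
      (4 * A) ^ 2 * len J := by
    intro J
    have e : ∀ l, wn (∅ : Finset Nd) w l = ∅ := fun l => by unfold wn; simp
    simp only [e, Finset.sum_empty, norm_zero]
    have := len_pos J
    simp only [ne_eq, OfNat.ofNat_ne_zero, not_false_eq_true, zero_pow, Finset.sum_const_zero]
    positivity
  intro n
  induction n with
  | zero =>
    intro W J hc _ _
    have : W = ∅ := Finset.card_eq_zero.1 (by omega)
    subst this
    exact hempty J
  | succ n ih =>
    intro W J hc hW hR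
    rcases W.eq_empty_or_nonempty with hE | ⟨p0, hp0⟩
    · subst hE
      exact hempty J
    have hJW : J ∈ W := hR.2 p0 hp0 J (hR.1 p0 hp0) (Finset.Subset.refl _)
    have hJpos := len_pos J
    set N := ∑ l ∈ range L, ∑ x ∈ iv J, ‖∑ p ∈ wn W w l, h p x‖ ^ 2 with hN
    have hN0 : 0 ≤ N := Finset.sum_nonneg fun l _ => Finset.sum_nonneg fun x _ => by positivity
    rcases hN0.eq_or_lt with h0 | hNpos
    · rw [← h0]
      positivity
    obtain ⟨r, hr, hrN⟩ : ∃ r : ℝ, 0 < r ∧ r ^ 2 * N = len J :=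
      ⟨Real.sqrt (len J / N), Real.sqrt_pos.2 (by positivity), by
        rw [Real.sq_sqrt (by positivity)]; field_simp⟩
    obtain ⟨g, hgdef⟩ : ∃ g : ℕ → Fn, ∀ l x,
        g l x = (r : ℂ) * (starRingEnd ℂ) (∑ p ∈ wn W w l, h p x) := ⟨_, fun _ _ => rfl⟩
    have hg2 : ∀ l x, ‖g l x‖ ^ 2 = r ^ 2 * ‖∑ p ∈ wn W w l, h p x‖ ^ 2 := by
      intro l x
      rw [hgdef, norm_mul, mul_pow, Complex.norm_real, Real.norm_eq_abs, sq_abs,
        Complex.norm_conj]
    have hgJ : ∑ l ∈ range L, ∑ x ∈ iv J, ‖g l x‖ ^ 2 = len J := by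
      simp_rw [hg2, ← Finset.mul_sum]
      exact hrN
    have hgD : ∀ l x, g l x * ∑ p ∈ wn W w l, h p x =
        ((r * ‖∑ p ∈ wn W w l, h p x‖ ^ 2 : ℝ) : ℂ) := by
      intro l x
      rw [hgdef, mul_assoc, mul_comm ((starRingEnd ℂ) _), Complex.mul_conj,
        Complex.normSq_eq_norm_sq]
      push_cast
      rfl
    have htot : ∑ p ∈ W, ∑ x ∈ iv p, g (w p) x * h p x = ((r * N : ℝ) : ℂ) := by
      rw [swap_sum L h hs w W J (fun p hp => hlt p (hW hp)) hR.1 g]
      simp_rw [hgD]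
      rw [hN, Finset.mul_sum]
      push_cast
      refine Finset.sum_congr rfl fun l _ => ?_
      rw [Finset.mul_sum]
    -- local energies
    have hloc : ∀ p : Nd, (∑ l ∈ (range L).filter (fun l => w p ≤ l), av p (g l) ^ 2) * len p ≤
        ∑ l ∈ range L, ∑ x ∈ iv p, ‖g l x‖ ^ 2 := by
      intro p
      rw [Finset.sum_mul]
      refine (Finset.sum_le_sum_of_subset_of_nonneg (Finset.filter_subset _ _)
        fun l _ _ => mul_nonneg (sq_nonneg _) (len_pos p).le).trans (le_of_eq ?_)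
      refine Finset.sum_congr rfl fun l _ => ?_
      rw [sum_av, mul_comm]
    obtain ⟨S, hS⟩ : ∃ S : Finset Nd, S = W.filter
        (fun p => 4 < ∑ l ∈ (range L).filter (fun l => w p ≤ l), av p (g l) ^ 2) := ⟨_, rfl⟩
    have hSW : ∀ p ∈ S, p ∈ W ∧
        4 < ∑ l ∈ (range L).filter (fun l => w p ≤ l), av p (g l) ^ 2 := by
      intro p hp
      rw [hS, Finset.mem_filter] at hp
      exact hp
    have hJS : J ∉ S := by
      intro hJS
      have h1 := (hSW J hJS).2
      have h2 := hloc J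
      rw [hgJ] at h2
      nlinarith
    obtain ⟨V, hV⟩ : ∃ V : Finset Nd, V = W.filter (fun p => ∃ q ∈ S, iv p ⊆ iv q) := ⟨_, rfl⟩
    have hVm : ∀ p, p ∈ V ↔ p ∈ W ∧ ∃ q ∈ S, iv p ⊆ iv q := by
      intro p
      rw [hV, Finset.mem_filter]
    have hVS : ∀ F ∈ mx V, F ∈ S := by
      intro F hF
      obtain ⟨_, q, hq, hFq⟩ := (hVm F).1 (mx_sub hF)
      have hqV : q ∈ V := (hVm q).2 ⟨(hSW q hq).1, q, hq, Finset.Subset.refl _⟩
      have := (Finset.mem_filter.1 hF).2 q hqV hFq
      rwa [this] at hq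
    -- energies of the stopped intervals
    have hen : ∑ F ∈ mx V, ∑ l ∈ range L, ∑ x ∈ iv F, ‖g l x‖ ^ 2 ≤ len J := by
      rw [← hgJ, Finset.sum_comm]
      refine Finset.sum_le_sum fun l _ => ?_
      rw [← Finset.sum_biUnion (fun p hp q hq hne => mx_disj V hp hq hne)]
      refine Finset.sum_le_sum_of_subset_of_nonneg ?_ fun _ _ _ => by positivity
      intro y hy
      rw [Finset.mem_biUnion] at hy
      obtain ⟨F, hF, hy⟩ := hy
      exact hR.1 F (hSW F (hVS F hF)).1 hy
    have hlen : 4 * ∑ F ∈ mx V, len F ≤ len J := by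
      refine le_trans ?_ hen
      rw [Finset.mul_sum]
      refine Finset.sum_le_sum fun F hF => ?_
      refine le_trans ?_ (hloc F)
      exact mul_le_mul_of_nonneg_right (hSW F (hVS F hF)).2.le (len_pos F).le
    -- the part which is not stopped
    have hgood : ‖∑ p ∈ W.filter (fun p => ¬ ∃ q ∈ S, iv p ⊆ iv q),
        ∑ x ∈ iv p, g (w p) x * h p x‖ ≤ 2 * A * len J := by
      have hreg : IsRegion (W.filter (fun p => ¬ ∃ q ∈ S, iv p ⊆ iv q)) J := by
        refine ⟨fun p hp => hR.1 p (Finset.mem_filter.1 hp).1, ?_⟩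
        intro p hp q hpq hqJ
        rw [Finset.mem_filter] at hp ⊢
        refine ⟨hR.2 p hp.1 q hpq hqJ, ?_⟩
        rintro ⟨s, hs', hqs⟩
        exact hp.2 ⟨s, hs', Finset.Subset.trans hpq hqs⟩
      have hb := H _ J ((Finset.filter_subset _ _).trans hW) hreg
        (fun l x => (((1 / 2 : ℝ)) : ℂ) * g l x) (by
          intro p hp
          rw [Finset.mem_filter] at hp
          have hpS : p ∉ S := fun hpS => hp.2 ⟨p, hpS, Finset.Subset.refl _⟩
          rw [hS, Finset.mem_filter] at hpS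
          have h4 : ∑ l ∈ (range L).filter (fun l => w p ≤ l), av p (g l) ^ 2 ≤ 4 := by
            by_contra hcon
            exact hpS ⟨hp.1, not_le.1 hcon⟩
          have e : ∀ l, av p ((fun l x => (((1 / 2 : ℝ)) : ℂ) * g l x) l) ^ 2 =
              1 / 4 * av p (g l) ^ 2 := by
            intro l
            have := av_smul p (1 / 2) (by norm_num) (g l)
            simp only
            rw [this]
            ring
          rw [Finset.sum_congr rfl fun l _ => e l, ← Finset.mul_sum]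
          linarith)
      have e2 : ∑ p ∈ W.filter (fun p => ¬ ∃ q ∈ S, iv p ⊆ iv q), ∑ x ∈ iv p,
          (fun l x => (((1 / 2 : ℝ)) : ℂ) * g l x) (w p) x * h p x =
          (((1 / 2 : ℝ)) : ℂ) * ∑ p ∈ W.filter (fun p => ¬ ∃ q ∈ S, iv p ⊆ iv q),
            ∑ x ∈ iv p, g (w p) x * h p x := by
        rw [Finset.mul_sum]
        refine Finset.sum_congr rfl fun p _ => ?_
        rw [Finset.mul_sum]
        refine Finset.sum_congr rfl fun x _ => ?_
        simp only
        ring
      rw [e2, norm_mul, Complex.norm_real, Real.norm_eq_abs, abs_of_pos (by norm_num)] at hb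
      linarith
    -- the stopped part
    have hbad : ‖∑ p ∈ V, ∑ x ∈ iv p, g (w p) x * h p x‖ ≤ 2 * A * len J := by
      rw [sum_mx V]
      have hF : ∀ F ∈ mx V, ‖∑ p ∈ V.filter (fun p => iv p ⊆ iv F),
          ∑ x ∈ iv p, g (w p) x * h p x‖ ≤
          (4 * A)⁻¹ * (4 * A ^ 2 * (∑ l ∈ range L, ∑ x ∈ iv F, ‖g l x‖ ^ 2) +
            (4 * A) ^ 2 * len F) := by
        intro F hF
        have hFS := hVS F hF
        have hFW := (hSW F hFS).1
        have hFJ := hR.1 F hFW
        have e : V.filter (fun p => iv p ⊆ iv F) = W.filter (fun p => iv p ⊆ iv F) := by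
          ext p
          rw [Finset.mem_filter, Finset.mem_filter, hVm]
          constructor
          · rintro ⟨⟨h1, _⟩, h2⟩
            exact ⟨h1, h2⟩
          · rintro ⟨h1, h2⟩
            exact ⟨⟨h1, F, hFS, h2⟩, h2⟩
        rw [e]
        set WF := W.filter (fun p => iv p ⊆ iv F) with hWF
        have hregF : IsRegion WF F := by
          refine ⟨fun p hp => (Finset.mem_filter.1 hp).2, ?_⟩
          intro p hp q hpq hqF
          rw [hWF, Finset.mem_filter] at hp ⊢
          exact ⟨hR.2 p hp.1 q hpq (Finset.Subset.trans hqF hFJ), hqF⟩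
        have hcard : WF.card ≤ n := by
          have : WF.card < W.card := by
            refine Finset.card_lt_card ?_
            rw [Finset.ssubset_iff_subset_ne]
            refine ⟨Finset.filter_subset _ _, ?_⟩
            intro heq
            rw [← heq, hWF, Finset.mem_filter] at hJW
            have := iv_eq_of_level hJW.2 (iv_level hFJ)
            rw [this] at hFS
            exact hJS hFS
          omega
        have hI := ih WF F hcard ((Finset.filter_subset _ _).trans hW) hregF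
        rw [swap_sum L h hs w WF F (fun p hp => hlt p (hW (Finset.mem_filter.1 hp).1)) hregF.1 g]
        have h4A : 0 < 4 * A := by positivity
        rw [← mul_le_mul_iff_right₀ h4A, ← mul_assoc, mul_inv_cancel₀ h4A.ne', one_mul]
        calc 4 * A * ‖∑ l ∈ range L, ∑ x ∈ iv F, g l x * ∑ p ∈ wn WF w l, h p x‖
            ≤ 4 * A * ∑ l ∈ range L, ∑ x ∈ iv F, ‖g l x‖ * ‖∑ p ∈ wn WF w l, h p x‖ := by
              refine mul_le_mul_of_nonneg_left ?_ h4A.le
              refine (norm_sum_le _ _).trans (Finset.sum_le_sum fun l _ => ?_)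
              refine (norm_sum_le _ _).trans (Finset.sum_le_sum fun x _ => ?_)
              exact (norm_mul _ _).le
          _ = ∑ l ∈ range L, ∑ x ∈ iv F, 4 * A * (‖g l x‖ * ‖∑ p ∈ wn WF w l, h p x‖) := by
              rw [Finset.mul_sum]
              exact Finset.sum_congr rfl fun l _ => Finset.mul_sum _ _ _
          _ ≤ ∑ l ∈ range L, ∑ x ∈ iv F,
              (4 * A ^ 2 * ‖g l x‖ ^ 2 + ‖∑ p ∈ wn WF w l, h p x‖ ^ 2) := by
              refine Finset.sum_le_sum fun l _ => Finset.sum_le_sum fun x _ => ?_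
              nlinarith [sq_nonneg (2 * A * ‖g l x‖ - ‖∑ p ∈ wn WF w l, h p x‖)]
          _ = 4 * A ^ 2 * (∑ l ∈ range L, ∑ x ∈ iv F, ‖g l x‖ ^ 2) +
              ∑ l ∈ range L, ∑ x ∈ iv F, ‖∑ p ∈ wn WF w l, h p x‖ ^ 2 := by
              simp_rw [Finset.sum_add_distrib, Finset.mul_sum]
          _ ≤ _ := by linarith
      refine (norm_sum_le _ _).trans ((Finset.sum_le_sum hF).trans ?_)
      rw [← Finset.mul_sum, Finset.sum_add_distrib, ← Finset.mul_sum, ← Finset.mul_sum]
      have h4A : 0 < 4 * A := by positivity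
      rw [← mul_le_mul_iff_right₀ h4A, ← mul_assoc, mul_inv_cancel₀ h4A.ne', one_mul]
      have hA2 : 0 < A ^ 2 := by positivity
      nlinarith [mul_le_mul_of_nonneg_left hen hA2.le, mul_le_mul_of_nonneg_left hlen hA2.le]
    -- conclusion
    have hsplit : ∑ p ∈ W, ∑ x ∈ iv p, g (w p) x * h p x =
        (∑ p ∈ V, ∑ x ∈ iv p, g (w p) x * h p x) +
        ∑ p ∈ W.filter (fun p => ¬ ∃ q ∈ S, iv p ⊆ iv q), ∑ x ∈ iv p, g (w p) x * h p x := by
      rw [hV]
      exact (Finset.sum_filter_add_sum_filter_not W _ _).symm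
    have hfin : r * N ≤ 4 * A * len J := by
      have h1 : ‖((r * N : ℝ) : ℂ)‖ = r * N := by
        rw [Complex.norm_real, Real.norm_eq_abs, abs_of_nonneg (by positivity)]
      rw [← h1, ← htot, hsplit]
      refine (norm_add_le _ _).trans ?_
      linarith
    have h2 : len J * N ≤ (4 * A * len J) ^ 2 := by
      calc len J * N = (r * N) ^ 2 := by rw [← hrN]; ring
        _ ≤ _ := pow_le_pow_left₀ (by positivity) hfin 2
    have h3 : len J * N ≤ len J * ((4 * A) ^ 2 * len J) := by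
      refine h2.trans (le_of_eq ?_)
      ring
    exact le_of_mul_le_mul_left h3 hJpos

/-- **abstract global-local** -/
theorem dual_core (L : ℕ) (h : Nd → Fn) (hs : ∀ p x, x ∉ iv p → h p x = 0) (w : Nd → ℕ)
    (W0 : Finset Nd) (J0 : Nd) (hR : IsRegion W0 J0) (hlt : ∀ p ∈ W0, w p < L) (A : ℝ)
    (hA : 0 ≤ A)
    (H : ∀ W J, W ⊆ W0 → IsRegion W J → ∀ g : ℕ → Fn, locM L W w g →
      ‖∑ p ∈ W, ∑ x ∈ iv p, g (w p) x * h p x‖ ≤ A * len J) :
    ∑ l ∈ range L, ∑ x ∈ iv J0, ‖∑ p ∈ wn W0 w l, h p x‖ ^ 2 ≤ (4 * A) ^ 2 * len J0 := by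
  have key : ∀ ε : ℝ, 0 < ε →
      ∑ l ∈ range L, ∑ x ∈ iv J0, ‖∑ p ∈ wn W0 w l, h p x‖ ^ 2 ≤ (4 * (A + ε)) ^ 2 * len J0 := by
    intro ε hε
    refine dual_pos L h hs w W0 hlt (A + ε) (by linarith) ?_ W0.card W0 J0 le_rfl
      (Finset.Subset.refl _) hR
    intro W J hW hreg g hg
    refine (H W J hW hreg g hg).trans ?_
    exact mul_le_mul_of_nonneg_right (by linarith) (len_pos J).le
  have hcont : Filter.Tendsto (fun ε : ℝ => (4 * (A + ε)) ^ 2 * len J0)
      (nhdsWithin 0 (Set.Ioi 0)) (nhds ((4 * (A + 0)) ^ 2 * len J0)) := by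
    have : Continuous fun ε : ℝ => (4 * (A + ε)) ^ 2 * len J0 := by fun_prop
    exact (this.tendsto 0).mono_left nhdsWithin_le_nhds
  rw [add_zero] at hcont
  exact ge_of_tendsto hcont (Filter.eventually_of_mem self_mem_nhdsWithin fun ε hε => key ε hε)

/-- sub-regions of big regions are big -/
lemma big_of_subset {L : ℕ} {Cl : Sys → Finset Nd → Nd → Prop} {k : Sys} {W W' : Finset Nd}
    {J J' : Nd} {win : Nd → ℕ} (hB : Big L Cl k W J win) (hW : W' ⊆ W) (hR : IsRegion W' J') :
    Big L Cl k W' J' win where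
  reg := hR
  lt := fun p hp => hB.lt p (hW hp)
  mono := fun p hp q hq => hB.mono p (hW hp) q (hW hq)
  small := fun l w I hw hI => hB.small l w I
    (hw.trans (Finset.filter_subset_filter _ hW)) hI

lemma tf_eq (k : Sys) (p : Nd) (X Y : Fn) :
    tf k p X Y = ∑ x ∈ iv p, X x * S1 k p Y x := by
  unfold tf
  refine Finset.sum_congr rfl fun x hx => ?_
  unfold S1
  rw [if_pos hx, Finset.mul_sum]
  exact Finset.sum_congr rfl fun y _ => by ring

lemma tf_eq_tr (k : Sys) (p : Nd) (X Y : Fn) :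
    tf k p X Y = ∑ y ∈ iv p, Y y * S1 k.tr p X y := by
  unfold tf
  rw [Finset.sum_comm]
  refine Finset.sum_congr rfl fun y hy => ?_
  unfold S1 Sys.tr
  rw [if_pos hy, Finset.mul_sum]
  exact Finset.sum_congr rfl fun x _ => by ring

lemma S1_zero (k : Sys) (p : Nd) (Y : Fn) (x : ℤ) (hx : x ∉ iv p) : S1 k p Y x = 0 := by
  unfold S1
  rw [if_neg hx]

lemma TM_eq (L : ℕ) (k : Sys) (W : Finset Nd) (win : Nd → ℕ) (hlt : ∀ p ∈ W, win p < L)
    (X Y : ℕ → Fn) : TM L k W win X Y = ∑ p ∈ W, tf k p (X (win p)) (Y (win p)) := by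
  classical
  unfold TM T
  rw [← Finset.sum_fiberwise_of_maps_to (fun p hp => Finset.mem_range.2 (hlt p hp))]
  refine Finset.sum_congr rfl fun l _ => ?_
  refine Finset.sum_congr rfl fun p hp => ?_
  rw [Finset.mem_filter] at hp
  rw [hp.2]

/-- frozen tests -/
lemma dual_frozen (h : Nd → Fn) (hs : ∀ p x, x ∉ iv p → h p x = 0)
    (W0 : Finset Nd) (J0 : Nd) (hR : IsRegion W0 J0) (A : ℝ) (hA : 0 ≤ A)
    (H : ∀ W J, W ⊆ W0 → IsRegion W J → ∀ g : Fn, loc W g →
      ‖∑ p ∈ W, ∑ x ∈ iv p, g x * h p x‖ ≤ A * len J) :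
    ∑ x ∈ iv J0, ‖∑ p ∈ W0, h p x‖ ^ 2 ≤ (4 * A) ^ 2 * len J0 := by
  have h1 := dual_core 1 h hs (fun _ => 0) W0 J0 hR (fun _ _ => Nat.one_pos) A hA (by
    intro W J hW hreg g hg
    refine H W J hW hreg (g 0) ?_
    intro p hp
    have h2 := hg p hp
    have h3 : (range 1).filter (fun l => 0 ≤ l) = {0} := by decide
    simp only [h3, Finset.sum_singleton] at h2
    nlinarith [av_nonneg p (g 0)])
  have e : wn W0 (fun _ => 0) 0 = W0 := by
    unfold wn
    simp
  rw [Finset.sum_range_one, e] at h1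
  exact h1

/-- **G2** -/
theorem g2 : G2 := by
  intro L Cl A hA
  refine ⟨?_, ?_, ?_, ?_⟩
  · intro hb k W J win hB Y hY
    refine dual_frozen (fun p => S1 k p Y) (fun p x hx => S1_zero k p Y x hx) W J hB.reg A hA ?_
    intro W' J' hW' hreg g hg
    have := hb k W' J' win (big_of_subset hB hW' hreg) g Y hg (fun p hp => hY p (hW' hp))
    unfold T at this
    simp_rw [tf_eq] at this
    exact this
  · intro hb k W J win hB Y hY
    refine dual_core L (fun p => S1 k p Y) (fun p x hx => S1_zero k p Y x hx) win W J hB.reg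
      hB.lt A hA ?_
    intro W' J' hW' hreg g hg
    have := hb k W' J' win (big_of_subset hB hW' hreg) g Y hg (fun p hp => hY p (hW' hp))
    rw [TM_eq L k W' win (fun p hp => hB.lt p (hW' hp))] at this
    simp_rw [tf_eq] at this
    exact this
  · intro hb k W J win hB X hX
    refine dual_frozen (fun p => S1 k.tr p (X (win p)))
      (fun p x hx => S1_zero k.tr p (X (win p)) x hx) W J hB.reg A hA ?_
    intro W' J' hW' hreg g hg
    have := hb k W' J' win (big_of_subset hB hW' hreg) X g (fun p hp => hX p (hW' hp)) hg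
    rw [TM_eq L k W' win (fun p hp => hB.lt p (hW' hp))] at this
    simp_rw [tf_eq_tr] at this
    exact this
  · intro hb k W J win hB X hX
    have h1 := dual_core L (fun p => S1 k.tr p (X (win p)))
      (fun p x hx => S1_zero k.tr p (X (win p)) x hx) win W J hB.reg hB.lt A hA (by
        intro W' J' hW' hreg g hg
        have := hb k W' J' win (big_of_subset hB hW' hreg) X g (fun p hp => hX p (hW' hp)) hg
        rw [TM_eq L k W' win (fun p hp => hB.lt p (hW' hp))] at this
        simp_rw [tf_eq_tr] at this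
        exact this)
    refine le_trans (le_of_eq ?_) h1
    refine Finset.sum_congr rfl fun l _ => Finset.sum_congr rfl fun x _ => ?_
    congr 2
    refine Finset.sum_congr rfl fun p hp => ?_
    rw [mem_wn] at hp
    rw [hp.2]

end Crest.Agent.R079.Growth
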