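import Crest.Agent.R079.Growth_181
import Crest.Agent.R079.GrowthG2_450

/-! R079, SOFT LAYER: the GROWTH LEMMA (helper248's literal) is proved: `g1` (helper215), `g2`
(helper450), `Growth181.growthLemma` (helper181). -/

namespace Crest.Agent.R079.Growth

/-- **GROWTH LEMMA** -/
theorem growthLemma_proved : GrowthLemma := Growth181.growthLemma g1 g2

end Crest.Agent.R079.Growth
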