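import Crest.Agent.R079.Static_569

/-! R079, L0e (helper292), part 1: dyadic intervals, running maximum of the local `L²` averages,
and the maximal theorem `∑ M³ ≤ 8 ∑ |f|³` through the exact potential `3 M a² - M³`. -/

set_option autoImplicit false

namespace Crest.Agent.R079.L0e

open Finset Grid

lemma mem_dI {k : ℕ} {l y : ℤ} : y ∈ dI k l ↔ y / 2 ^ k = l := by
  unfold dI
  have h0 : (0 : ℤ) < 2 ^ k := by positivity
  rw [Finset.mem_Ico, ← Int.le_ediv_iff_mul_le h0, ← Int.ediv_lt_iff_lt_mul h0]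
  omega

lemma ediv_pow_pow (l : ℤ) (a b : ℕ) : l / 2 ^ a / 2 ^ b = l / 2 ^ (a + b) := by
  rw [Int.ediv_ediv_of_nonneg (by positivity), pow_add]

lemma dI_sub (k j : ℕ) (l : ℤ) : dI k l ⊆ dI (k + j) (l / 2 ^ j) := by
  intro y hy
  rw [mem_dI] at hy ⊢
  rw [← hy, ediv_pow_pow]

lemma dI_sub_imp {k k' : ℕ} {l l' : ℤ} (h : dI k l ⊆ dI k' l') :
    ∃ j, k' = k + j ∧ l' = l / 2 ^ j := by
  have h0 : (0 : ℤ) < 2 ^ k := by positivity
  have h0' : (0 : ℤ) < 2 ^ k' := by positivity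
  have hy : l * 2 ^ k ∈ dI k l := by
    rw [mem_dI, Int.mul_ediv_cancel _ h0.ne']
  have hz : l * 2 ^ k + (2 ^ k - 1) ∈ dI k l := by
    unfold dI
    rw [Finset.mem_Ico]
    constructor <;> nlinarith
  have hy' := h hy
  have hz' := h hz
  have hkk : k ≤ k' := by
    by_contra hc
    push Not at hc
    have h2 : (2 : ℤ) ^ k' * 2 ≤ 2 ^ k := by
      rw [← pow_succ]
      exact pow_le_pow_right₀ (by norm_num) hc
    unfold dI at hy' hz'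
    rw [Finset.mem_Ico] at hy' hz'
    have e : (l' + 1) * (2 : ℤ) ^ k' = l' * 2 ^ k' + 2 ^ k' := by ring
    rw [e] at hz'
    linarith [hy'.1, hz'.2]
  obtain ⟨j, rfl⟩ := Nat.exists_eq_add_of_le hkk
  refine ⟨j, rfl, ?_⟩
  rw [mem_dI] at hy hy'
  rw [← hy', ← ediv_pow_pow, hy]

lemma dI_disj {k : ℕ} {l l' : ℤ} (h : l ≠ l') : Disjoint (dI k l) (dI k l') := by
  rw [Finset.disjoint_left]
  intro y hy hy'
  rw [mem_dI] at hy hy'
  exact h (hy.symm.trans hy')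

lemma sum_two (A B : ℤ) (g : ℤ → ℝ) :
    ∑ l ∈ Finset.Ico (2 * A) (2 * B), g l = ∑ l ∈ Finset.Ico A B, (g (2 * l) + g (2 * l + 1)) := by
  classical
  have hm : ∀ l ∈ Finset.Ico (2 * A) (2 * B), l / 2 ∈ Finset.Ico A B := by
    intro l hl
    rw [Finset.mem_Ico] at hl ⊢
    omega
  rw [← Finset.sum_fiberwise_of_maps_to hm]
  refine Finset.sum_congr rfl fun l hl => ?_
  rw [Finset.mem_Ico] at hl
  have e : (Finset.Ico (2 * A) (2 * B)).filter (fun i => i / 2 = l) = {2 * l, 2 * l + 1} := by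
    ext i
    simp only [Finset.mem_filter, Finset.mem_Ico, Finset.mem_insert, Finset.mem_singleton]
    omega
  rw [e, Finset.sum_pair (by omega)]

lemma dI_succ (k : ℕ) (l : ℤ) : dI (k + 1) l = dI k (2 * l) ∪ dI k (2 * l + 1) := by
  ext y
  rw [Finset.mem_union, mem_dI, mem_dI, mem_dI, ← ediv_pow_pow, pow_one]
  omega

lemma sum_dI_succ (k : ℕ) (l : ℤ) (g : ℤ → ℝ) :
    ∑ y ∈ dI (k + 1) l, g y = ∑ y ∈ dI k (2 * l), g y + ∑ y ∈ dI k (2 * l + 1), g y := by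
  rw [dI_succ, Finset.sum_union (dI_disj (by omega))]

lemma av2_sq_succ (k : ℕ) (l : ℤ) (f : ℤ → ℂ) :
    2 * av2 (k + 1) l f ^ 2 = av2 k (2 * l) f ^ 2 + av2 k (2 * l + 1) f ^ 2 := by
  have h := sum_dI_succ k l (fun y => ‖f y‖ ^ 2)
  rw [sum_sq_eq, sum_sq_eq, sum_sq_eq, pow_succ] at h
  have h2 : (0 : ℝ) < 2 ^ k := by positivity
  have h3 : (2 : ℝ) ^ k * (2 * av2 (k + 1) l f ^ 2) =
      2 ^ k * (av2 k (2 * l) f ^ 2 + av2 k (2 * l + 1) f ^ 2) := by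
    linear_combination h
  exact mul_left_cancel₀ h2.ne' h3

/-- running maximum from level `T + 7` down to level `T - d + 7`. -/
noncomputable def Mr (T : ℕ) (f : ℤ → ℂ) : ℕ → ℤ → ℝ
  | 0, l => av2 (T + 7) l f
  | (d + 1), l => max (Mr T f d (l / 2)) (av2 (T - (d + 1) + 7) l f)

lemma av2_le_Mr (T : ℕ) (f : ℤ → ℂ) (d : ℕ) (l : ℤ) : av2 (T - d + 7) l f ≤ Mr T f d l := by
  cases d with
  | zero => exact le_refl _
  | succ d => exact le_max_right _ _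

lemma Mr_nonneg (T : ℕ) (f : ℤ → ℂ) (d : ℕ) (l : ℤ) : 0 ≤ Mr T f d l :=
  (av2_nonneg _ _ _).trans (av2_le_Mr T f d l)

lemma Mr_mono (T : ℕ) (f : ℤ → ℂ) (d k : ℕ) (l : ℤ) :
    Mr T f d (l / 2 ^ k) ≤ Mr T f (d + k) l := by
  induction k generalizing l with
  | zero => simp
  | succ k ih =>
    have e : l / 2 ^ (k + 1) = l / 2 / 2 ^ k := by
      rw [add_comm k 1, ← ediv_pow_pow, pow_one]
    rw [e]
    refine (ih (l / 2)).trans ?_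
    exact le_max_left _ _

lemma pot_child (M a : ℝ) (hM : 0 ≤ M) (ha : 0 ≤ a) :
    3 * M * a ^ 2 - M ^ 3 ≤ 3 * max M a * a ^ 2 - (max M a) ^ 3 := by
  rcases le_total M a with h | h
  · rw [max_eq_right h]
    nlinarith [mul_nonneg (sq_nonneg (a - M)) (by positivity : (0 : ℝ) ≤ 2 * a + M)]
  · rw [max_eq_left h]

/-- the potential -/
noncomputable def Wp (T : ℕ) (f : ℤ → ℂ) (A B : ℤ) (d : ℕ) : ℝ :=
  ∑ l ∈ Finset.Ico (A * 2 ^ d) (B * 2 ^ d),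
    2 ^ (T - d + 7) * (3 * Mr T f d l * av2 (T - d + 7) l f ^ 2 - Mr T f d l ^ 3)

lemma Wp_zero (T : ℕ) (f : ℤ → ℂ) (A B : ℤ) : 0 ≤ Wp T f A B 0 := by
  unfold Wp
  refine Finset.sum_nonneg fun l _ => ?_
  have h : (0 : ℝ) ≤ av2 (T + 7) l f := av2_nonneg _ _ _
  have e : 3 * Mr T f 0 l * av2 (T - 0 + 7) l f ^ 2 - Mr T f 0 l ^ 3 =
      2 * av2 (T + 7) l f ^ 3 := by
    simp only [Mr, Nat.sub_zero]
    ring
  rw [e]
  positivity

lemma Wp_succ (T : ℕ) (f : ℤ → ℂ) (A B : ℤ) (d : ℕ) (hd : d + 1 ≤ T) :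
    Wp T f A B d ≤ Wp T f A B (d + 1) := by
  unfold Wp
  have e1 : A * (2 : ℤ) ^ (d + 1) = 2 * (A * 2 ^ d) := by ring
  have e2 : B * (2 : ℤ) ^ (d + 1) = 2 * (B * 2 ^ d) := by ring
  rw [e1, e2, sum_two]
  refine Finset.sum_le_sum fun l _ => ?_
  obtain ⟨k, hk⟩ : ∃ k, T = d + 1 + k := Nat.exists_eq_add_of_le hd
  have k1 : T - d + 7 = (T - (d + 1) + 7) + 1 := by omega
  rw [k1]
  set n := T - (d + 1) + 7 with hn
  have hav := av2_sq_succ n l f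
  have m0 : Mr T f (d + 1) (2 * l) = max (Mr T f d l) (av2 n (2 * l) f) := by
    simp only [Mr]
    rw [show 2 * l / 2 = l by omega]
  have m1 : Mr T f (d + 1) (2 * l + 1) = max (Mr T f d l) (av2 n (2 * l + 1) f) := by
    simp only [Mr]
    rw [show (2 * l + 1) / 2 = l by omega]
  rw [m0, m1]
  have c0 := pot_child (Mr T f d l) (av2 n (2 * l) f) (Mr_nonneg _ _ _ _) (av2_nonneg _ _ _)
  have c1 := pot_child (Mr T f d l) (av2 n (2 * l + 1) f) (Mr_nonneg _ _ _ _) (av2_nonneg _ _ _)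
  have hp : (0 : ℝ) < 2 ^ n := by positivity
  rw [pow_succ, mul_assoc, ← mul_add]
  refine mul_le_mul_of_nonneg_left ?_ hp.le
  calc 2 * (3 * Mr T f d l * av2 (n + 1) l f ^ 2 - Mr T f d l ^ 3)
      = (3 * Mr T f d l * av2 n (2 * l) f ^ 2 - Mr T f d l ^ 3) +
        (3 * Mr T f d l * av2 n (2 * l + 1) f ^ 2 - Mr T f d l ^ 3) := by
        linear_combination 3 * Mr T f d l * hav
    _ ≤ _ := add_le_add c0 c1

lemma Wp_nonneg (T : ℕ) (f : ℤ → ℂ) (A B : ℤ) : ∀ d, d ≤ T → 0 ≤ Wp T f A B d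
  | 0, _ => Wp_zero T f A B
  | (d + 1), h => (Wp_nonneg T f A B d (by omega)).trans (Wp_succ T f A B d h)

lemma young (M t : ℝ) (hM : 0 ≤ M) (ht : 0 ≤ t) : 3 * M * t ^ 2 ≤ M ^ 3 / 2 + 4 * t ^ 3 := by
  nlinarith [mul_nonneg (by positivity : (0 : ℝ) ≤ M + 3 * t) (sq_nonneg (M - 3 / 2 * t)),
    mul_nonneg hM (sq_nonneg t), pow_nonneg ht 3]

/-- **maximal theorem**, one window of tops. -/
theorem max_thm (T : ℕ) (f : ℤ → ℂ) (A B : ℤ) :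
    ∑ l ∈ Finset.Ico (A * 2 ^ T) (B * 2 ^ T), 2 ^ 7 * Mr T f T l ^ 3 ≤
      8 * ∑ l ∈ Finset.Ico (A * 2 ^ T) (B * 2 ^ T), ∑ y ∈ dI 7 l, ‖f y‖ ^ 3 := by
  have h := Wp_nonneg T f A B T le_rfl
  unfold Wp at h
  rw [Nat.sub_self, zero_add] at h
  have h2 : ∀ l : ℤ, (2 : ℝ) ^ 7 * (3 * Mr T f T l * av2 7 l f ^ 2 - Mr T f T l ^ 3) ≤
      4 * ∑ y ∈ dI 7 l, ‖f y‖ ^ 3 - (1 / 2) * (2 ^ 7 * Mr T f T l ^ 3) := by
    intro l
    have hs := sum_sq_eq 7 l f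
    have hcard : ((dI 7 l).card : ℝ) = 2 ^ 7 := by
      unfold dI
      rw [Int.card_Ico]
      have : ((l + 1) * 2 ^ 7 - l * 2 ^ 7 : ℤ) = 128 := by ring
      rw [this, show Int.toNat 128 = 128 from rfl]
      norm_num
    have h3 : ∑ y ∈ dI 7 l, (3 * Mr T f T l * ‖f y‖ ^ 2) ≤
        ∑ y ∈ dI 7 l, (Mr T f T l ^ 3 / 2 + 4 * ‖f y‖ ^ 3) :=
      Finset.sum_le_sum fun y _ => young _ _ (Mr_nonneg _ _ _ _) (norm_nonneg _)
    rw [← Finset.mul_sum, hs, Finset.sum_add_distrib, Finset.sum_const, nsmul_eq_mul, hcard,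
      ← Finset.mul_sum] at h3
    linarith
  have h4 := h.trans (Finset.sum_le_sum fun l (_ : l ∈ Finset.Ico (A * 2 ^ T) (B * 2 ^ T)) => h2 l)
  rw [Finset.sum_sub_distrib, ← Finset.mul_sum, ← Finset.mul_sum] at h4
  have h5 : (0 : ℝ) ≤ 4 * ∑ i ∈ Finset.Ico (A * 2 ^ T) (B * 2 ^ T), ∑ y ∈ dI 7 i, ‖f y‖ ^ 3 -
      1 / 2 * ∑ i ∈ Finset.Ico (A * 2 ^ T) (B * 2 ^ T), 2 ^ 7 * Mr T f T i ^ 3 := h4
  generalize (∑ i ∈ Finset.Ico (A * 2 ^ T) (B * 2 ^ T), ∑ y ∈ dI 7 i, ‖f y‖ ^ 3) = X at h5 ⊢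
  generalize (∑ i ∈ Finset.Ico (A * 2 ^ T) (B * 2 ^ T), 2 ^ 7 * Mr T f T i ^ 3) = Y at h5 ⊢
  linarith

end Crest.Agent.R079.L0e
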