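import Crest.Agent.R079.GrowthDefs_248
import Crest.Agent.R079.Max_292

/-! R079, SOFT LAYER, leaf **G1** (helper215): moving/moving slots cost `log²` (256 NOTES #9 (1)).

Classes `(i,j)` = levels of the running maxima of `av (X l)`, `av (Y l)` inside the window `l`, cut at
`2^-n ≤ 1/L`; the tops of one class are disjoint and contained in the maximal nodes where the averages
exceed `2^(-i-1)` resp. `2^(-j-1)`. -/

set_option autoImplicit false

namespace Crest.Agent.R079.Growth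

open Finset Grid Crest.Agent.R079.L0e

/-! ### intervals of nodes -/

lemma iv_nonempty (p : Nd) : (iv p).Nonempty := by
  refine ⟨p.2 * 2 ^ (p.1 + 7), ?_⟩
  unfold iv
  rw [mem_dI, Int.mul_ediv_cancel _ (by positivity)]

lemma iv_nest {p q : Nd} {y : ℤ} (hp : y ∈ iv p) (hq : y ∈ iv q) : iv p ⊆ iv q ∨ iv q ⊆ iv p := by
  have key : ∀ {p q : Nd}, y ∈ iv p → y ∈ iv q → p.1 ≤ q.1 → iv p ⊆ iv q := by
    intro p q hp hq h
    unfold iv at hp hq ⊢
    obtain ⟨j, hj⟩ := Nat.exists_eq_add_of_le (Nat.add_le_add_right h 7)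
    rw [mem_dI] at hp hq
    have e : q.2 = p.2 / 2 ^ j := by
      rw [← hp, ediv_pow_pow, ← hj, hq]
    rw [e, hj]
    exact dI_sub _ _ _
  rcases le_total p.1 q.1 with h | h
  · exact Or.inl (key hp hq h)
  · exact Or.inr (key hq hp h)

lemma iv_level {p q : Nd} (h : iv p ⊆ iv q) : p.1 ≤ q.1 := by
  obtain ⟨j, hj, _⟩ := dI_sub_imp h
  omega

lemma iv_eq_of_level {p q : Nd} (h : iv p ⊆ iv q) (h' : q.1 ≤ p.1) : q = p := by
  obtain ⟨j, hj, hl⟩ := dI_sub_imp h
  have j0 : j = 0 := by omega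
  subst j0
  ext
  · omega
  · simpa using hl

lemma card_iv (p : Nd) : ((iv p).card : ℝ) = len p := by
  unfold iv dI len
  rw [Int.card_Ico]
  have : ((p.2 + 1) * 2 ^ (p.1 + 7) - p.2 * 2 ^ (p.1 + 7) : ℤ) = 2 ^ (p.1 + 7) := by ring
  rw [this]
  have h2 : ((2 : ℤ) ^ (p.1 + 7)) = (((2 : ℕ) ^ (p.1 + 7) : ℕ) : ℤ) := by push_cast; rfl
  rw [h2, Int.toNat_natCast]
  push_cast
  rfl

lemma len_pos (p : Nd) : 0 < len p := by unfold len; positivity

lemma av_nonneg (p : Nd) (X : Fn) : 0 ≤ av p X := Real.sqrt_nonneg _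

lemma sum_av (p : Nd) (X : Fn) : ∑ y ∈ iv p, ‖X y‖ ^ 2 = len p * av p X ^ 2 := by
  unfold av av2 iv len
  rw [Real.sq_sqrt (by positivity)]
  field_simp

lemma av_smul (p : Nd) (a : ℝ) (ha : 0 ≤ a) (X : Fn) :
    av p (fun x => (a : ℂ) * X x) = a * av p X := by
  unfold av av2
  have e : (1 / 2 ^ (p.1 + 7) * ∑ y ∈ dI (p.1 + 7) p.2, ‖(a : ℂ) * X y‖ ^ 2 : ℝ) =
      a ^ 2 * (1 / 2 ^ (p.1 + 7) * ∑ y ∈ dI (p.1 + 7) p.2, ‖X y‖ ^ 2) := by
    rw [mul_left_comm]
    congr 1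
    rw [Finset.mul_sum]
    refine Finset.sum_congr rfl fun y _ => ?_
    rw [norm_mul, mul_pow, Complex.norm_real, Real.norm_eq_abs, sq_abs]
  rw [e, Real.sqrt_mul (by positivity), Real.sqrt_sq ha]

/-! ### maximal nodes of a finite set -/

/-- maximal nodes -/
noncomputable def mx (S : Finset Nd) : Finset Nd :=
  S.filter (fun p => ∀ q ∈ S, iv p ⊆ iv q → q = p)

lemma mx_sub {S : Finset Nd} {p : Nd} (h : p ∈ mx S) : p ∈ S := (Finset.mem_filter.1 h).1

lemma exists_mx {S : Finset Nd} {p : Nd} (hp : p ∈ S) : ∃ q ∈ mx S, iv p ⊆ iv q := by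
  classical
  obtain ⟨q, hq, hmax⟩ := Finset.exists_max_image (S.filter (fun q => iv p ⊆ iv q)) (fun q => q.1)
    ⟨p, Finset.mem_filter.2 ⟨hp, Finset.Subset.refl _⟩⟩
  rw [Finset.mem_filter] at hq
  refine ⟨q, Finset.mem_filter.2 ⟨hq.1, ?_⟩, hq.2⟩
  intro r hr hqr
  exact iv_eq_of_level hqr (hmax r (Finset.mem_filter.2 ⟨hr, hq.2.trans hqr⟩))

lemma mx_eq {S : Finset Nd} {p q : Nd} {y : ℤ} (hp : p ∈ mx S) (hq : q ∈ mx S)
    (h1 : y ∈ iv p) (h2 : y ∈ iv q) : p = q := by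
  rcases iv_nest h1 h2 with h | h
  · exact ((Finset.mem_filter.1 hp).2 q (mx_sub hq) h).symm
  · exact (Finset.mem_filter.1 hq).2 p (mx_sub hp) h

lemma mx_disj (S : Finset Nd) : Set.PairwiseDisjoint (mx S : Set Nd) iv := by
  intro p hp q hq hne
  change Disjoint (iv p) (iv q)
  rw [Finset.disjoint_left]
  intro y h1 h2
  exact hne (mx_eq hp hq h1 h2)

lemma sum_mx {M : Type*} [AddCommMonoid M] (S : Finset Nd) (f : Nd → M) :
    ∑ p ∈ S, f p = ∑ F ∈ mx S, ∑ p ∈ S.filter (fun p => iv p ⊆ iv F), f p := by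
  classical
  rw [← Finset.sum_biUnion]
  · refine Finset.sum_congr ?_ fun _ _ => rfl
    ext p
    simp only [Finset.mem_biUnion, Finset.mem_filter]
    constructor
    · intro hp
      obtain ⟨q, hq, h⟩ := exists_mx hp
      exact ⟨q, hq, hp, h⟩
    · rintro ⟨q, _, hp, _⟩
      exact hp
  · intro F hF G hG hne
    change Disjoint _ _
    rw [Finset.disjoint_left]
    intro p h1 h2
    rw [Finset.mem_filter] at h1 h2
    obtain ⟨y, hy⟩ := iv_nonempty p
    exact hne (mx_eq hF hG (h1.2 hy) (h2.2 hy))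

lemma sum_len_mx (S : Finset Nd) : ∑ F ∈ mx S, len F = (((mx S).biUnion iv).card : ℝ) := by
  rw [Finset.card_biUnion (fun p hp q hq hne => mx_disj S hp hq hne)]
  push_cast
  exact Finset.sum_congr rfl fun F _ => (card_iv F).symm

lemma sum_len_mono (S S' : Finset Nd) (h : ∀ p ∈ S, ∃ q ∈ S', iv p ⊆ iv q) :
    ∑ F ∈ mx S, len F ≤ ∑ F ∈ mx S', len F := by
  rw [sum_len_mx, sum_len_mx]
  have hs : (mx S).biUnion iv ⊆ (mx S').biUnion iv := by
    intro y hy
    rw [Finset.mem_biUnion] at hy ⊢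
    obtain ⟨p, hp, hy⟩ := hy
    obtain ⟨q, hq, hpq⟩ := h p (mx_sub hp)
    obtain ⟨r, hr, hqr⟩ := exists_mx hq
    exact ⟨r, hr, hqr (hpq hy)⟩
  exact_mod_cast Finset.card_le_card hs

lemma sum_len_le (S : Finset Nd) (J : Nd) (h : ∀ p ∈ S, iv p ⊆ iv J) :
    ∑ F ∈ mx S, len F ≤ len J := by
  rw [sum_len_mx, ← card_iv J]
  have hs : (mx S).biUnion iv ⊆ iv J := by
    intro y hy
    rw [Finset.mem_biUnion] at hy
    obtain ⟨p, hp, hy⟩ := hy
    exact h p (mx_sub hp) hy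
  exact_mod_cast Finset.card_le_card hs

/-- Chebyshev for the maximal function of the averages -/
lemma cheb (S : Finset Nd) (J : Nd) (X : Fn) (t : ℝ) (ht : 0 < t)
    (h : ∀ p ∈ S, ∃ q, iv p ⊆ iv q ∧ iv q ⊆ iv J ∧ t < av q X) :
    t ^ 2 * ∑ F ∈ mx S, len F ≤ len J * av J X ^ 2 := by
  classical
  choose! g hg using h
  have h1 : ∑ F ∈ mx S, len F ≤ ∑ F ∈ mx (S.image g), len F :=
    sum_len_mono _ _ fun p hp => ⟨g p, Finset.mem_image_of_mem _ hp, (hg p hp).1⟩
  have h2 : ∀ F ∈ mx (S.image g), iv F ⊆ iv J ∧ t < av F X := by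
    intro F hF
    obtain ⟨p, hp, rfl⟩ := Finset.mem_image.1 (mx_sub hF)
    exact (hg p hp).2
  calc t ^ 2 * ∑ F ∈ mx S, len F ≤ t ^ 2 * ∑ F ∈ mx (S.image g), len F :=
        mul_le_mul_of_nonneg_left h1 (by positivity)
    _ = ∑ F ∈ mx (S.image g), len F * t ^ 2 := by
        rw [Finset.mul_sum]; exact Finset.sum_congr rfl fun _ _ => mul_comm _ _
    _ ≤ ∑ F ∈ mx (S.image g), ∑ y ∈ iv F, ‖X y‖ ^ 2 := by
        refine Finset.sum_le_sum fun F hF => ?_
        rw [sum_av]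
        exact mul_le_mul_of_nonneg_left (pow_le_pow_left₀ ht.le (h2 F hF).2.le 2) (len_pos F).le
    _ = ∑ y ∈ (mx (S.image g)).biUnion iv, ‖X y‖ ^ 2 :=
        (Finset.sum_biUnion (fun p hp q hq hne => mx_disj _ hp hq hne)).symm
    _ ≤ ∑ y ∈ iv J, ‖X y‖ ^ 2 := by
        refine Finset.sum_le_sum_of_subset_of_nonneg ?_ fun _ _ _ => by positivity
        intro y hy
        rw [Finset.mem_biUnion] at hy
        obtain ⟨F, hF, hy⟩ := hy
        exact (h2 F hF).1 hy
    _ = len J * av J X ^ 2 := sum_av J X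

/-! ### scaling -/

lemma T_smul (k : Sys) (w : Finset Nd) (X Y : Fn) (a b : ℂ) :
    T k w (fun x => a * X x) (fun x => b * Y x) = a * b * T k w X Y := by
  unfold T tf
  rw [Finset.mul_sum]
  refine Finset.sum_congr rfl fun p _ => ?_
  rw [Finset.mul_sum]
  refine Finset.sum_congr rfl fun x _ => ?_
  rw [Finset.mul_sum]
  refine Finset.sum_congr rfl fun y _ => ?_
  ring

lemma small_scaled {Cl : Sys → Finset Nd → Nd → Prop} {O : ℝ} (hS : Small Cl O)
    {k : Sys} {w : Finset Nd} {F : Nd} (hCl : Cl k w F) (hr : IsRegion w F) (X Y : Fn)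
    {a b : ℝ} (ha : 0 < a) (hb : 0 < b) (hX : ∀ p ∈ w, av p X ≤ a) (hY : ∀ p ∈ w, av p Y ≤ b) :
    ‖T k w X Y‖ ≤ O * (a * b) * len F := by
  have h := hS k w F hCl hr (fun x => ((a⁻¹ : ℝ) : ℂ) * X x) (fun x => ((b⁻¹ : ℝ) : ℂ) * Y x)
    (fun p hp => by
      rw [av_smul p _ (by positivity)]
      have := mul_le_mul_of_nonneg_left (hX p hp) (inv_nonneg.2 ha.le)
      rwa [inv_mul_cancel₀ ha.ne'] at this)
    (fun p hp => by
      rw [av_smul p _ (by positivity)]
      have := mul_le_mul_of_nonneg_left (hY p hp) (inv_nonneg.2 hb.le)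
      rwa [inv_mul_cancel₀ hb.ne'] at this)
  rw [T_smul, norm_mul, norm_mul, Complex.norm_real, Complex.norm_real, Real.norm_eq_abs,
    Real.norm_eq_abs, abs_of_pos (by positivity), abs_of_pos (by positivity)] at h
  have hab : 0 < a * b := mul_pos ha hb
  calc ‖T k w X Y‖ = (a * b) * (a⁻¹ * b⁻¹ * ‖T k w X Y‖) := by field_simp
    _ ≤ (a * b) * (O * len F) := mul_le_mul_of_nonneg_left h hab.le
    _ = O * (a * b) * len F := by ring

/-! ### classes -/

/-- class of a node inside the window `l`: the largest `i ≤ n` such that all averages of `X` on the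
nodes of the window above `p` are `≤ 2^-i` -/
noncomputable def cls (W : Finset Nd) (win : Nd → ℕ) (l n : ℕ) (X : Fn) (p : Nd) : ℕ :=
  @Nat.findGreatest (fun i => ∀ q ∈ wn W win l, iv p ⊆ iv q → av q X ≤ (1 / 2) ^ i)
    (Classical.decPred _) n

lemma cls_le (W : Finset Nd) (win : Nd → ℕ) (l n : ℕ) (X : Fn) (p : Nd) :
    cls W win l n X p ≤ n := @Nat.findGreatest_le _ (Classical.decPred _) n

lemma cls_spec (W : Finset Nd) (win : Nd → ℕ) (l n : ℕ) (X : Fn) (p : Nd)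
    (h : ∀ q ∈ wn W win l, av q X ≤ 1) :
    ∀ q ∈ wn W win l, iv p ⊆ iv q → av q X ≤ (1 / 2) ^ cls W win l n X p := by
  classical
  have := @Nat.findGreatest_spec 0 (fun i => ∀ q ∈ wn W win l, iv p ⊆ iv q → av q X ≤ (1 / 2) ^ i)
    (Classical.decPred _) n (Nat.zero_le _) (fun q hq _ => by simpa using h q hq)
  exact this

lemma cls_lt (W : Finset Nd) (win : Nd → ℕ) (l n : ℕ) (X : Fn) (p : Nd)
    (h : cls W win l n X p < n) :
    ∃ q ∈ wn W win l, iv p ⊆ iv q ∧ (1 / 2) ^ (cls W win l n X p + 1) < av q X := by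
  classical
  have := @Nat.findGreatest_is_greatest (cls W win l n X p + 1)
    (fun i => ∀ q ∈ wn W win l, iv p ⊆ iv q → av q X ≤ (1 / 2) ^ i)
    (Classical.decPred _) n (Nat.lt_succ_self _) h
  push Not at this
  exact this

lemma cls_mono (W : Finset Nd) (win : Nd → ℕ) (l n : ℕ) (X : Fn) {p q : Nd} (h : iv p ⊆ iv q) :
    cls W win l n X p ≤ cls W win l n X q := by
  unfold cls
  letI d1 : DecidablePred (fun i : ℕ => ∀ r ∈ wn W win l, iv p ⊆ iv r → av r X ≤ (1 / 2) ^ i) :=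
    Classical.decPred _
  letI d2 : DecidablePred (fun i : ℕ => ∀ r ∈ wn W win l, iv q ⊆ iv r → av r X ≤ (1 / 2) ^ i) :=
    Classical.decPred _
  refine Nat.findGreatest_mono ?_ le_rfl
  intro i hi r hr hqr
  exact hi r hr (h.trans hqr)

/-- nodes of class `(i,j)` in the window `l` -/
noncomputable def Sc (W : Finset Nd) (win : Nd → ℕ) (n : ℕ) (X Y : ℕ → Fn) (l : ℕ) (c : ℕ × ℕ) :
    Finset Nd :=
  (wn W win l).filter (fun p => (cls W win l n (X l) p, cls W win l n (Y l) p) = c)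

lemma mem_wn {W : Finset Nd} {win : Nd → ℕ} {l : ℕ} {p : Nd} :
    p ∈ wn W win l ↔ p ∈ W ∧ win p = l := by
  unfold wn
  rw [Finset.mem_filter]

/-- the part of one class below one of its tops is a region inside the window -/
lemma region_piece {L : ℕ} {Cl : Sys → Finset Nd → Nd → Prop} {k : Sys} {W : Finset Nd} {J : Nd}
    {win : Nd → ℕ} (hB : Big L Cl k W J win) (n : ℕ) (X Y : ℕ → Fn) (l : ℕ) (c : ℕ × ℕ) {F : Nd}
    (hF : F ∈ Sc W win n X Y l c) :
    IsRegion ((Sc W win n X Y l c).filter (fun p => iv p ⊆ iv F)) F := by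
  unfold Sc at hF ⊢
  rw [Finset.mem_filter, mem_wn] at hF
  obtain ⟨⟨hFW, hFl⟩, hFc⟩ := hF
  refine ⟨fun p hp => (Finset.mem_filter.1 hp).2, ?_⟩
  intro p hp q hpq hqF
  change iv p ⊆ iv q at hpq
  change iv q ⊆ iv F at hqF
  rw [Finset.mem_filter, Finset.mem_filter, mem_wn] at hp ⊢
  obtain ⟨⟨⟨hpW, hpl⟩, hpc⟩, hpF⟩ := hp
  have hqW : q ∈ W := hB.reg.2 p hpW q hpq (hqF.trans (hB.reg.1 F hFW))
  have w1 := hB.mono p hpW q hqW hpq
  have w2 := hB.mono q hqW F hFW hqF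
  have a1 := cls_mono W win l n (X l) hpq
  have a2 := cls_mono W win l n (X l) hqF
  have b1 := cls_mono W win l n (Y l) hpq
  have b2 := cls_mono W win l n (Y l) hqF
  rw [← hFc, Prod.mk.injEq] at hpc
  refine ⟨⟨⟨hqW, by omega⟩, ?_⟩, hqF⟩
  rw [← hFc, Prod.mk.injEq]
  exact ⟨by omega, by omega⟩

/-- bound of one class in one window by the lengths of its tops -/
lemma class_bound {L : ℕ} {Cl : Sys → Finset Nd → Nd → Prop} {O : ℝ} (hS : Small Cl O)
    {k : Sys} {W : Finset Nd} {J : Nd} {win : Nd → ℕ} (hB : Big L Cl k W J win) (n : ℕ)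
    (X Y : ℕ → Fn) (l : ℕ) (hX : ∀ q ∈ wn W win l, av q (X l) ≤ 1)
    (hY : ∀ q ∈ wn W win l, av q (Y l) ≤ 1) (c : ℕ × ℕ) :
    ‖T k (Sc W win n X Y l c) (X l) (Y l)‖ ≤
      O * ((1 / 2) ^ c.1 * (1 / 2) ^ c.2) * ∑ F ∈ mx (Sc W win n X Y l c), len F := by
  have e : T k (Sc W win n X Y l c) (X l) (Y l) = ∑ F ∈ mx (Sc W win n X Y l c),
      T k ((Sc W win n X Y l c).filter (fun p => iv p ⊆ iv F)) (X l) (Y l) := sum_mx _ _
  rw [e, Finset.mul_sum]
  refine (norm_sum_le _ _).trans (Finset.sum_le_sum fun F hF => ?_)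
  have hF' := mx_sub hF
  have hreg := region_piece hB n X Y l c hF'
  have hsub : (Sc W win n X Y l c).filter (fun p => iv p ⊆ iv F) ⊆ wn W win l :=
    (Finset.filter_subset _ _).trans (Finset.filter_subset _ _)
  refine small_scaled hS (hB.small l _ F hsub hreg) hreg _ _ (by positivity) (by positivity) ?_ ?_
  · intro p hp
    have hp' := (Finset.mem_filter.1 hp).1
    unfold Sc at hp'
    rw [Finset.mem_filter] at hp'
    have := cls_spec W win l n (X l) p hX p hp'.1 (Finset.Subset.refl _)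
    rwa [show cls W win l n (X l) p = c.1 from congrArg Prod.fst hp'.2] at this
  · intro p hp
    have hp' := (Finset.mem_filter.1 hp).1
    unfold Sc at hp'
    rw [Finset.mem_filter] at hp'
    have := cls_spec W win l n (Y l) p hY p hp'.1 (Finset.Subset.refl _)
    rwa [show cls W win l n (Y l) p = c.2 from congrArg Prod.snd hp'.2] at this

/-- Chebyshev for one class -/
lemma class_len {L : ℕ} {Cl : Sys → Finset Nd → Nd → Prop}
    {k : Sys} {W : Finset Nd} {J : Nd} {win : Nd → ℕ} (hB : Big L Cl k W J win) (n : ℕ)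
    (X Y : ℕ → Fn) (l : ℕ) (c : ℕ × ℕ) (h1 : c.1 ≤ n) (h2 : c.2 ≤ n) :
    ((1 / 2 : ℝ) ^ c.1 * (1 / 2) ^ c.2) * ∑ F ∈ mx (Sc W win n X Y l c), len F ≤
      (2 * (av J (X l) ^ 2 + av J (Y l) ^ 2) + (1 / 2) ^ n) * len J := by
  have hlen0 : 0 ≤ ∑ F ∈ mx (Sc W win n X Y l c), len F :=
    Finset.sum_nonneg fun F _ => (len_pos F).le
  have hlen : ∑ F ∈ mx (Sc W win n X Y l c), len F ≤ len J := by
    refine sum_len_le _ _ fun p hp => ?_
    unfold Sc at hp
    rw [Finset.mem_filter, mem_wn] at hp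
    exact hB.reg.1 p hp.1.1
  have hJ := len_pos J
  set Λ := ∑ F ∈ mx (Sc W win n X Y l c), len F with hΛ
  have px : (0 : ℝ) < (1 / 2) ^ c.1 := by positivity
  have py : (0 : ℝ) < (1 / 2) ^ c.2 := by positivity
  have px1 : ((1 : ℝ) / 2) ^ c.1 ≤ 1 := pow_le_one₀ (by norm_num) (by norm_num)
  have py1 : ((1 : ℝ) / 2) ^ c.2 ≤ 1 := pow_le_one₀ (by norm_num) (by norm_num)
  have pn : (0 : ℝ) < (1 / 2) ^ n := by positivity
  by_cases hc : c.1 < n ∧ c.2 < n
  · have kx : ((1 / 2 : ℝ) ^ (c.1 + 1)) ^ 2 * Λ ≤ len J * av J (X l) ^ 2 := by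
      refine cheb _ J (X l) _ (by positivity) fun p hp => ?_
      unfold Sc at hp
      rw [Finset.mem_filter, mem_wn] at hp
      have e1 : cls W win l n (X l) p = c.1 := congrArg Prod.fst hp.2
      obtain ⟨q, hq, hpq, hlt⟩ := cls_lt W win l n (X l) p (by omega)
      rw [e1] at hlt
      exact ⟨q, hpq, hB.reg.1 q (mem_wn.1 hq).1, hlt⟩
    have ky : ((1 / 2 : ℝ) ^ (c.2 + 1)) ^ 2 * Λ ≤ len J * av J (Y l) ^ 2 := by
      refine cheb _ J (Y l) _ (by positivity) fun p hp => ?_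
      unfold Sc at hp
      rw [Finset.mem_filter, mem_wn] at hp
      have e1 : cls W win l n (Y l) p = c.2 := congrArg Prod.snd hp.2
      obtain ⟨q, hq, hpq, hlt⟩ := cls_lt W win l n (Y l) p (by omega)
      rw [e1] at hlt
      exact ⟨q, hpq, hB.reg.1 q (mem_wn.1 hq).1, hlt⟩
    have kx' : ((1 / 2 : ℝ) ^ c.1) ^ 2 * Λ ≤ 4 * (len J * av J (X l) ^ 2) := by
      rw [pow_succ (1 / 2 : ℝ) c.1] at kx
      linarith
    have ky' : ((1 / 2 : ℝ) ^ c.2) ^ 2 * Λ ≤ 4 * (len J * av J (Y l) ^ 2) := by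
      rw [pow_succ (1 / 2 : ℝ) c.2] at ky
      linarith
    set a := (1 / 2 : ℝ) ^ c.1
    set b := (1 / 2 : ℝ) ^ c.2
    nlinarith [mul_nonneg (sq_nonneg (a - b)) hlen0, mul_pos pn hJ]
  · have hab : (1 / 2 : ℝ) ^ c.1 * (1 / 2) ^ c.2 ≤ (1 / 2) ^ n := by
      rcases Nat.lt_or_ge c.1 n with h | h
      · have e2 : c.2 = n := le_antisymm h2 (not_lt.1 fun h' => hc ⟨h, h'⟩)
        rw [e2] at py1 ⊢
        nlinarith
      · have e1 : c.1 = n := le_antisymm h1 h
        rw [e1] at px1 ⊢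
        nlinarith
    calc ((1 / 2 : ℝ) ^ c.1 * (1 / 2) ^ c.2) * Λ ≤ (1 / 2) ^ n * len J :=
          mul_le_mul hab hlen hlen0 pn.le
      _ ≤ _ := by nlinarith [sq_nonneg (av J (X l)), sq_nonneg (av J (Y l))]

/-- decomposition into classes -/
lemma T_classes (k : Sys) (W : Finset Nd) (win : Nd → ℕ) (n : ℕ) (X Y : ℕ → Fn) (l : ℕ) :
    T k (wn W win l) (X l) (Y l) =
      ∑ c ∈ range (n + 1) ×ˢ range (n + 1), T k (Sc W win n X Y l c) (X l) (Y l) := by
  classical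
  unfold T Sc
  exact (Finset.sum_fiberwise_of_maps_to (fun p _ => by
    rw [Finset.mem_product, Finset.mem_range, Finset.mem_range]
    exact ⟨Nat.lt_succ_of_le (cls_le _ _ _ _ _ _), Nat.lt_succ_of_le (cls_le _ _ _ _ _ _)⟩) _).symm

lemma log_bound (L : ℕ) (hL : 2 ≤ L) :
    ((Nat.clog 2 L : ℝ) + 1) ^ 2 ≤ 4 * (1 + Real.log L) ^ 2 := by
  have hL0 : (0 : ℝ) < L := by positivity
  have h1 : (2 : ℝ) ^ (Nat.clog 2 L) < 2 * L := by
    have := Nat.pow_pred_clog_lt_self (b := 2) (by norm_num) (x := L) (by omega)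
    have hpos : 0 < Nat.clog 2 L := Nat.clog_pos (by norm_num) hL
    obtain ⟨m, hm⟩ := Nat.exists_eq_succ_of_ne_zero hpos.ne'
    rw [hm] at this ⊢
    simp only [Nat.pred_succ, Nat.succ_eq_add_one] at this ⊢
    rw [pow_succ]
    have h' : ((2 : ℝ) ^ m) < L := by exact_mod_cast this
    linarith
  have h2 := Real.log_lt_log (by positivity) h1
  rw [Real.log_pow, Real.log_mul (by norm_num) hL0.ne'] at h2
  have hlog2 := Real.log_two_gt_d9
  have hlogL : Real.log 2 ≤ Real.log L := Real.log_le_log (by norm_num) (by exact_mod_cast hL)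
  have h3 : ((Nat.clog 2 L : ℝ) + 1) ≤ 2 * (1 + Real.log L) := by nlinarith
  calc ((Nat.clog 2 L : ℝ) + 1) ^ 2 ≤ (2 * (1 + Real.log L)) ^ 2 :=
        pow_le_pow_left₀ (by positivity) h3 2
    _ = _ := by ring

/-- **G1** -/
theorem g1 : G1 := by
  classical
  refine ⟨20, by norm_num, ?_⟩
  intro L hL Cl O hO hS k W J win hB X Y hX hY
  have hlog : 0 ≤ Real.log L := Real.log_natCast_nonneg L
  rcases W.eq_empty_or_nonempty with hW | ⟨p0, hp0⟩
  · subst hW
    have : TM L k ∅ win X Y = 0 := by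
      unfold TM T wn
      simp
    rw [this, norm_zero]
    have := len_pos J
    positivity
  have hJW : J ∈ W := hB.reg.2 p0 hp0 J (hB.reg.1 p0 hp0) (Finset.Subset.refl _)
  set n := Nat.clog 2 L with hn
  have hn2 : ((1 / 2 : ℝ)) ^ n ≤ 1 / L := by
    have : (L : ℝ) ≤ 2 ^ n := by exact_mod_cast Nat.le_pow_clog (by norm_num) L
    rw [one_div_pow]
    exact one_div_le_one_div_of_le (by positivity) this
  have hX1 : ∀ l < L, ∀ q ∈ wn W win l, av q (X l) ≤ 1 := by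
    intro l hl q hq
    rw [mem_wn] at hq
    have h := hX q hq.1
    have h2 : av q (X l) ^ 2 ≤ 1 :=
      (Finset.single_le_sum (f := fun l => av q (X l) ^ 2) (fun _ _ => sq_nonneg _)
        (Finset.mem_filter.2 ⟨Finset.mem_range.2 hl, hq.2.le⟩)).trans h
    nlinarith [av_nonneg q (X l)]
  have hY1 : ∀ l < L, ∀ q ∈ wn W win l, av q (Y l) ≤ 1 := by
    intro l hl q hq
    rw [mem_wn] at hq
    have h := hY q hq.1
    have h2 : av q (Y l) ^ 2 ≤ 1 :=
      (Finset.single_le_sum (f := fun l => av q (Y l) ^ 2) (fun _ _ => sq_nonneg _)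
        (Finset.mem_filter.2 ⟨Finset.mem_range.2 hl, hq.2.le⟩)).trans h
    nlinarith [av_nonneg q (Y l)]
  -- only the windows `l ≥ win J` are non-empty
  have hempty : ∀ l, ¬ win J ≤ l → wn W win l = ∅ := by
    intro l hl
    rw [Finset.eq_empty_iff_forall_notMem]
    intro p hp
    rw [mem_wn] at hp
    have := hB.mono p hp.1 J hJW (hB.reg.1 p hp.1)
    omega
  have hT : TM L k W win X Y = ∑ l ∈ (range L).filter (fun l => win J ≤ l),
      T k (wn W win l) (X l) (Y l) := by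
    unfold TM
    rw [Finset.sum_filter_of_ne]
    intro l _ hne
    by_contra hc
    apply hne
    rw [hempty l hc]
    unfold T
    simp
  have hterm : ∀ l ∈ (range L).filter (fun l => win J ≤ l),
      ‖T k (wn W win l) (X l) (Y l)‖ ≤ ((n : ℝ) + 1) ^ 2 * (O *
        ((2 * (av J (X l) ^ 2 + av J (Y l) ^ 2) + 1 / L) * len J)) := by
    intro l hl
    rw [Finset.mem_filter, Finset.mem_range] at hl
    rw [T_classes k W win n X Y l]
    refine (norm_sum_le _ _).trans ?_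
    have hc : ∀ c ∈ range (n + 1) ×ˢ range (n + 1), ‖T k (Sc W win n X Y l c) (X l) (Y l)‖ ≤
        O * ((2 * (av J (X l) ^ 2 + av J (Y l) ^ 2) + 1 / L) * len J) := by
      intro c hc
      rw [Finset.mem_product, Finset.mem_range, Finset.mem_range] at hc
      have b1 := class_bound hS hB n X Y l (hX1 l hl.1) (hY1 l hl.1) c
      have b2 := class_len hB n X Y l c (Nat.lt_succ_iff.1 hc.1) (Nat.lt_succ_iff.1 hc.2)
      rw [mul_assoc] at b1
      refine b1.trans (mul_le_mul_of_nonneg_left (b2.trans ?_) hO)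
      exact mul_le_mul_of_nonneg_right (by linarith) (len_pos J).le
    refine (Finset.sum_le_sum hc).trans (le_of_eq ?_)
    rw [Finset.sum_const, Finset.card_product, Finset.card_range, nsmul_eq_mul]
    push_cast
    ring
  have hsX := hX J hJW
  have hsY := hY J hJW
  have hcard : ∑ _l ∈ (range L).filter (fun l => win J ≤ l), (1 / L : ℝ) ≤ 1 := by
    rw [Finset.sum_const, nsmul_eq_mul]
    have hc : (((range L).filter (fun l => win J ≤ l)).card : ℝ) ≤ L := by
      have := Finset.card_filter_le (range L) (fun l => win J ≤ l)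
      rw [Finset.card_range] at this
      exact_mod_cast this
    rw [mul_one_div]
    exact (div_le_one (by positivity)).2 hc
  have hsum : ∑ l ∈ (range L).filter (fun l => win J ≤ l),
      (2 * (av J (X l) ^ 2 + av J (Y l) ^ 2) + 1 / L) ≤ 5 := by
    rw [Finset.sum_add_distrib, ← Finset.mul_sum, Finset.sum_add_distrib]
    linarith
  have hJ := len_pos J
  rw [hT]
  calc ‖∑ l ∈ (range L).filter (fun l => win J ≤ l), T k (wn W win l) (X l) (Y l)‖
      ≤ ∑ l ∈ (range L).filter (fun l => win J ≤ l), ((n : ℝ) + 1) ^ 2 * (O *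
        ((2 * (av J (X l) ^ 2 + av J (Y l) ^ 2) + 1 / L) * len J)) :=
        (norm_sum_le _ _).trans (Finset.sum_le_sum hterm)
    _ = ((n : ℝ) + 1) ^ 2 * O * len J * ∑ l ∈ (range L).filter (fun l => win J ≤ l),
        (2 * (av J (X l) ^ 2 + av J (Y l) ^ 2) + 1 / L) := by
        rw [Finset.mul_sum]
        exact Finset.sum_congr rfl fun _ _ => by ring
    _ ≤ ((n : ℝ) + 1) ^ 2 * O * len J * 5 :=
        mul_le_mul_of_nonneg_left hsum (by positivity)
    _ ≤ 20 * (1 + Real.log L) ^ 2 * O * len J := by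
        have h1 := log_bound L hL
        have h2 : ((n : ℝ) + 1) ^ 2 * (O * len J) ≤ 4 * (1 + Real.log L) ^ 2 * (O * len J) :=
          mul_le_mul_of_nonneg_right h1 (by positivity)
        nlinarith

end Crest.Agent.R079.Growth
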