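import Crest.Agent.R079.GrowthDefs_248
import Crest.Agent.R079.Max_292

/-! R079: the GROWTH LEMMA (helper248's literal, 256 NOTES #9 (3)-(5)) from `G1` and `G2` (helper181). -/

set_option autoImplicit false

namespace Crest.Agent.R079.Growth181

open Finset Grid Growth L0e

lemma mem_iv {p : Nd} {x : ℤ} : x ∈ iv p ↔ x / 2 ^ (p.1 + 7) = p.2 := mem_dI

lemma len_pos (p : Nd) : 0 < len p := by unfold len; positivity

/-- nestedness -/
lemma nest {p q : Nd} {x : ℤ} (hp : x ∈ iv p) (hq : x ∈ iv q) (h : p.1 ≤ q.1) :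
    iv p ⊆ iv q := by
  intro y hy
  rw [mem_iv] at hp hq hy ⊢
  obtain ⟨d, hd⟩ := Nat.exists_eq_add_of_le h
  have e : q.1 + 7 = (p.1 + 7) + d := by omega
  rw [e, ← ediv_pow_pow, hy, ← hp, ediv_pow_pow, ← e, hq]

lemma iv_card (p : Nd) : ((iv p).card : ℝ) = len p := by
  unfold iv dI len
  rw [Int.card_Ico]
  have e : (p.2 + 1) * 2 ^ (p.1 + 7) - p.2 * 2 ^ (p.1 + 7) = (2 : ℤ) ^ (p.1 + 7) := by ring
  rw [e]
  have : ((2 : ℤ) ^ (p.1 + 7)).toNat = 2 ^ (p.1 + 7) := by
    have h : ((2 : ℤ) ^ (p.1 + 7)) = ((2 ^ (p.1 + 7) : ℕ) : ℤ) := by push_cast; rfl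
    rw [h, Int.toNat_natCast]
  rw [this]
  push_cast
  rfl

lemma iv_nonempty (p : Nd) : (iv p).Nonempty := by
  rw [← Finset.card_pos]
  have := iv_card p
  have h := len_pos p
  rw [← this] at h
  exact_mod_cast h

lemma level_le {p q : Nd} (h : iv p ⊆ iv q) : p.1 ≤ q.1 := by
  have h1 : ((iv p).card : ℝ) ≤ (iv q).card := by exact_mod_cast Finset.card_le_card h
  rw [iv_card, iv_card] at h1
  unfold len at h1
  have := (pow_le_pow_iff_right₀ (by norm_num : (1 : ℝ) < 2)).1 h1
  omega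

lemma iv_inj {p q : Nd} (h1 : iv p ⊆ iv q) (h2 : q.1 ≤ p.1) : p = q := by
  have h3 := level_le h1
  have h4 : p.1 = q.1 := le_antisymm h3 h2
  obtain ⟨x, hx⟩ := iv_nonempty p
  have hq := h1 hx
  rw [mem_iv] at hx hq
  rw [h4, hq] at hx
  exact Prod.ext h4 hx.symm

lemma av_le_iff (p : Nd) (X : Fn) (B : ℝ) (hB : 0 ≤ B) :
    av p X ≤ B ↔ ∑ x ∈ iv p, ‖X x‖ ^ 2 ≤ B ^ 2 * len p := by
  unfold av av2 iv len
  rw [Real.sqrt_le_left hB, one_div, inv_mul_le_iff₀ (by positivity), mul_comm]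

/-- full subtree of `W` under `F` -/
noncomputable def sub (W : Finset Nd) (F : Nd) : Finset Nd := W.filter (fun q => iv q ⊆ iv F)

lemma mem_sub {W : Finset Nd} {F q : Nd} : q ∈ sub W F ↔ q ∈ W ∧ iv q ⊆ iv F := mem_filter

lemma big_sub {L : ℕ} {Cl : Sys → Finset Nd → Nd → Prop} {k : Sys} {W : Finset Nd} {J : Nd}
    {win : Nd → ℕ} (h : Big L Cl k W J win) {F : Nd} (hF : F ∈ W) :
    Big L Cl k (sub W F) F win where
  reg := by
    constructor
    · intro p hp
      exact (mem_sub.1 hp).2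
    · intro p hp q h1 h2
      exact mem_sub.2 ⟨h.reg.2 p (mem_sub.1 hp).1 q h1 (h2.trans (h.reg.1 F hF)), h2⟩
  lt := fun p hp => h.lt p (mem_sub.1 hp).1
  mono := fun p hp q hq => h.mono p (mem_sub.1 hp).1 q (mem_sub.1 hq).1
  small := fun l w I hw hI => h.small l w I
    (hw.trans (filter_subset_filter _ (filter_subset _ _))) hI

/-- local norms of the near type functions from the global-local bound on the subtrees -/
lemma local_bound (g : Nd → ℤ → ℂ) (hg : ∀ q x, x ∉ iv q → g q x = 0) {W : Finset Nd}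
    {win : Nd → ℕ} (mono : ∀ p ∈ W, ∀ q ∈ W, iv p ⊆ iv q → win q ≤ win p) (B : ℝ) (hB : 0 ≤ B)
    (hloc : ∀ F ∈ W, ∑ x ∈ iv F, ‖∑ q ∈ sub W F, g q x‖ ^ 2 ≤ B ^ 2 * len F)
    (i : ℕ) (p : Nd) (hp : p ∈ wn W win i) :
    av p (fun x => ∑ q ∈ wgt W win i, g q x) ≤ B := by
  classical
  rw [av_le_iff _ _ _ hB]
  have hpW : p ∈ W := (mem_filter.1 hp).1
  have hpi : win p = i := (mem_filter.1 hp).2
  set U : Finset Nd := W.filter (fun q => i < win q ∧ iv q ⊆ iv p) with hU
  set M : Finset Nd := U.filter (fun F => ∀ q ∈ U, iv F ⊆ iv q → q = F) with hM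
  have hMU : ∀ F ∈ M, F ∈ W ∧ i < win F ∧ iv F ⊆ iv p := fun F hF => by
    have := mem_filter.1 (mem_filter.1 hF).1
    exact ⟨this.1, this.2.1, this.2.2⟩
  -- every node of the later windows meeting `iv p` is below `p`
  have hin : ∀ x ∈ iv p, ∀ q ∈ wgt W win i, x ∈ iv q → q ∈ U := by
    intro x hx q hq hxq
    have h1 := mem_filter.1 hq
    refine mem_filter.2 ⟨h1.1, h1.2, ?_⟩
    by_contra hcon
    have h2 : p.1 ≤ q.1 := by
      by_contra h3
      exact hcon (nest hxq hx (by omega))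
    have h3 := mono p hpW q h1.1 (nest hx hxq h2)
    have h4 := h1.2
    omega
  -- pointwise
  have hpt : ∀ x ∈ iv p, ‖∑ q ∈ wgt W win i, g q x‖ ^ 2 ≤
      ∑ F ∈ M, if x ∈ iv F then ‖∑ q ∈ sub W F, g q x‖ ^ 2 else 0 := by
    intro x hx
    by_cases hex : ∃ q ∈ wgt W win i, x ∈ iv q
    · obtain ⟨q0, hq0, hxq0⟩ := hex
      have hne : (U.filter (fun q => x ∈ iv q)).Nonempty :=
        ⟨q0, mem_filter.2 ⟨hin x hx q0 hq0 hxq0, hxq0⟩⟩
      obtain ⟨F, hF, hmax⟩ := Finset.exists_max_image _ (fun q : Nd => q.1) hne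
      have hFU : F ∈ U := (mem_filter.1 hF).1
      have hxF : x ∈ iv F := (mem_filter.1 hF).2
      have hFM : F ∈ M := by
        refine mem_filter.2 ⟨hFU, ?_⟩
        intro q hq hsub
        have h1 := hmax q (mem_filter.2 ⟨hq, hsub hxF⟩)
        exact (iv_inj hsub h1).symm
      have heq : ∑ q ∈ wgt W win i, g q x = ∑ q ∈ sub W F, g q x := by
        symm
        apply Finset.sum_subset
        · intro q hq
          obtain ⟨hqW, hqF⟩ := mem_sub.1 hq
          refine mem_filter.2 ⟨hqW, ?_⟩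
          have h1 := mono q hqW F (hMU F hFM).1 hqF
          exact lt_of_lt_of_le (hMU F hFM).2.1 h1
        · intro q hq hnq
          apply hg
          intro hxq
          apply hnq
          have hqU := hin x hx q hq hxq
          have h1 := hmax q (mem_filter.2 ⟨hqU, hxq⟩)
          exact mem_sub.2 ⟨(mem_filter.1 hq).1, nest hxq hxF h1⟩
      rw [heq]
      have : ‖∑ q ∈ sub W F, g q x‖ ^ 2 =
          (if x ∈ iv F then ‖∑ q ∈ sub W F, g q x‖ ^ 2 else 0) := by rw [if_pos hxF]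
      rw [this]
      exact Finset.single_le_sum
        (f := fun F => if x ∈ iv F then ‖∑ q ∈ sub W F, g q x‖ ^ 2 else (0 : ℝ))
        (fun F _ => by split_ifs <;> positivity) hFM
    · push Not at hex
      have h0 : ∑ q ∈ wgt W win i, g q x = 0 :=
        Finset.sum_eq_zero fun q hq => hg q x (hex q hq)
      rw [h0]
      simp only [norm_zero, ne_eq, OfNat.ofNat_ne_zero, not_false_eq_true, zero_pow]
      exact Finset.sum_nonneg fun F _ => by split_ifs <;> positivity
  have hdis : ∀ F ∈ M, ∀ F' ∈ M, F ≠ F' → Disjoint (iv F) (iv F') := by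
    intro F hF F' hF' hne
    rw [Finset.disjoint_left]
    intro x hx hx'
    rcases le_total F.1 F'.1 with h | h
    · exact hne ((mem_filter.1 hF).2 F' (mem_filter.1 hF').1 (nest hx hx' h)).symm
    · exact hne ((mem_filter.1 hF').2 F (mem_filter.1 hF).1 (nest hx' hx h))
  have hlen : ∑ F ∈ M, len F ≤ len p := by
    have h1 : ∑ F ∈ M, len F = ((M.biUnion iv).card : ℝ) := by
      rw [Finset.card_biUnion hdis]
      push_cast
      exact Finset.sum_congr rfl fun F _ => (iv_card F).symm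
    rw [h1, ← iv_card p]
    have : M.biUnion iv ⊆ iv p := Finset.biUnion_subset.2 fun F hF => (hMU F hF).2.2
    exact_mod_cast Finset.card_le_card this
  calc ∑ x ∈ iv p, ‖∑ q ∈ wgt W win i, g q x‖ ^ 2
      ≤ ∑ x ∈ iv p, ∑ F ∈ M, (if x ∈ iv F then ‖∑ q ∈ sub W F, g q x‖ ^ 2 else 0) :=
        Finset.sum_le_sum hpt
    _ = ∑ F ∈ M, ∑ x ∈ iv p, (if x ∈ iv F then ‖∑ q ∈ sub W F, g q x‖ ^ 2 else 0) :=
        Finset.sum_comm
    _ ≤ ∑ F ∈ M, B ^ 2 * len F := by
        apply Finset.sum_le_sum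
        intro F hF
        refine le_trans ?_ (hloc F (hMU F hF).1)
        rw [← Finset.sum_filter]
        apply Finset.sum_le_sum_of_subset_of_nonneg
        · intro x hx
          exact (mem_filter.1 hx).2
        · intro x _ _
          positivity
    _ = B ^ 2 * ∑ F ∈ M, len F := by rw [Finset.mul_sum]
    _ ≤ B ^ 2 * len p := mul_le_mul_of_nonneg_left hlen (by positivity)

/-- square of a sum, ordered expansion -/
lemma sq_expand (a : ℕ → ℂ) : ∀ L : ℕ, ‖∑ l ∈ range L, a l‖ ^ 2 = ∑ l ∈ range L, ‖a l‖ ^ 2 +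
    2 * ∑ i ∈ range L, ((starRingEnd ℂ) (∑ l ∈ (range L).filter (fun l => i < l), a l) * a i).re
  | 0 => by simp
  | L + 1 => by
    have ih := sq_expand a L
    have h1 : ∀ i ∈ range L, (range (L + 1)).filter (fun l => i < l) =
        insert L ((range L).filter (fun l => i < l)) := by
      intro i hi
      rw [Finset.range_add_one, Finset.filter_insert, if_pos (mem_range.1 hi)]
    have h2 : (range (L + 1)).filter (fun l => L < l) = ∅ := by
      apply Finset.filter_false_of_mem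
      intro l hl
      have := mem_range.1 hl
      omega
    rw [Finset.sum_range_succ, Finset.sum_range_succ (fun l => ‖a l‖ ^ 2), Finset.sum_range_succ
      (fun i => ((starRingEnd ℂ) (∑ l ∈ (range (L + 1)).filter (fun l => i < l), a l) * a i).re),
      h2, Finset.sum_empty]
    have h3 : ∑ i ∈ range L,
        ((starRingEnd ℂ) (∑ l ∈ (range (L + 1)).filter (fun l => i < l), a l) * a i).re =
        ∑ i ∈ range L,
          ((starRingEnd ℂ) (∑ l ∈ (range L).filter (fun l => i < l), a l) * a i).re +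
        ((starRingEnd ℂ) (a L) * ∑ i ∈ range L, a i).re := by
      rw [Finset.mul_sum, Complex.re_sum, ← Finset.sum_add_distrib]
      apply Finset.sum_congr rfl
      intro i hi
      rw [h1 i hi, Finset.sum_insert (by simp), map_add, add_mul, Complex.add_re]
      ring
    rw [h3]
    have h4 : ‖∑ l ∈ range L, a l + a L‖ ^ 2 = ‖∑ l ∈ range L, a l‖ ^ 2 + ‖a L‖ ^ 2 +
        2 * ((starRingEnd ℂ) (a L) * ∑ l ∈ range L, a l).re := by
      rw [Complex.sq_norm, Complex.sq_norm, Complex.sq_norm, Complex.normSq_add,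
        mul_comm (∑ l ∈ range L, a l) ((starRingEnd ℂ) (a L))]
    rw [h4, ih]
    simp only [map_zero, zero_mul, Complex.zero_re, add_zero]
    ring

/-- extraction of one window -/
lemma extract (g : Nd → ℤ → ℂ) (W : Finset Nd) (win : Nd → ℕ) (L : ℕ) (hL : 0 < L)
    (lt : ∀ p ∈ W, win p < L) (S : Finset ℤ) (α β : ℝ)
    (hα : α ≤ ∑ x ∈ S, ‖∑ q ∈ W, g q x‖ ^ 2)
    (hβ : ∑ l ∈ range L, ∑ x ∈ S, ‖∑ q ∈ wn W win l, g q x‖ ^ 2 ≤ β) :
    ∃ i < L, (α - β) / (2 * L) ≤ ‖∑ x ∈ S, (starRingEnd ℂ) (∑ q ∈ wgt W win i, g q x) *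
      ∑ q ∈ wn W win i, g q x‖ := by
  classical
  have hdec : ∀ x, ∑ q ∈ W, g q x = ∑ l ∈ range L, ∑ q ∈ wn W win l, g q x := by
    intro x
    exact (Finset.sum_fiberwise_of_maps_to (fun p hp => mem_range.2 (lt p hp)) _).symm
  have hgt : ∀ i x, ∑ q ∈ wgt W win i, g q x =
      ∑ l ∈ (range L).filter (fun l => i < l), ∑ q ∈ wn W win l, g q x := by
    intro i x
    rw [← Finset.sum_fiberwise_of_maps_to (s := wgt W win i)
      (t := (range L).filter (fun l => i < l)) (g := win)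
      (fun p hp => mem_filter.2 ⟨mem_range.2 (lt p (mem_filter.1 hp).1), (mem_filter.1 hp).2⟩)]
    apply Finset.sum_congr rfl
    intro l hl
    apply Finset.sum_congr _ (fun _ _ => rfl)
    ext q
    simp only [wgt, wn, mem_filter]
    constructor
    · rintro ⟨⟨h1, _⟩, h3⟩
      exact ⟨h1, h3⟩
    · rintro ⟨h1, h3⟩
      exact ⟨⟨h1, by rw [h3]; exact (mem_filter.1 hl).2⟩, h3⟩
  by_contra hcon
  push Not at hcon
  have h1 : ∑ x ∈ S, ‖∑ q ∈ W, g q x‖ ^ 2 =
      ∑ l ∈ range L, ∑ x ∈ S, ‖∑ q ∈ wn W win l, g q x‖ ^ 2 +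
      2 * ∑ i ∈ range L, (∑ x ∈ S, (starRingEnd ℂ) (∑ q ∈ wgt W win i, g q x) *
        ∑ q ∈ wn W win i, g q x).re := by
    have h2 : ∀ x ∈ S, ‖∑ q ∈ W, g q x‖ ^ 2 =
        ∑ l ∈ range L, ‖∑ q ∈ wn W win l, g q x‖ ^ 2 +
        2 * ∑ i ∈ range L, ((starRingEnd ℂ) (∑ q ∈ wgt W win i, g q x) *
          ∑ q ∈ wn W win i, g q x).re := by
      intro x _
      rw [hdec x, sq_expand]
      congr 2
      apply Finset.sum_congr rfl
      intro i _
      rw [hgt]
    rw [Finset.sum_congr rfl h2, Finset.sum_add_distrib, Finset.sum_comm, ← Finset.mul_sum,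
      Finset.sum_comm (s := S)]
    simp only [Complex.re_sum]
  have h3 : ∑ i ∈ range L, (∑ x ∈ S, (starRingEnd ℂ) (∑ q ∈ wgt W win i, g q x) *
      ∑ q ∈ wn W win i, g q x).re < ∑ i ∈ range L, (α - β) / (2 * L) := by
    apply Finset.sum_lt_sum_of_nonempty
    · exact ⟨0, mem_range.2 hL⟩
    · intro i hi
      exact lt_of_le_of_lt (Complex.re_le_norm _) (hcon i (mem_range.1 hi))
  rw [Finset.sum_const, Finset.card_range, nsmul_eq_mul] at h3
  have hL' : (0 : ℝ) < L := by exact_mod_cast hL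
  have h4 : (L : ℝ) * ((α - β) / (2 * L)) = (α - β) / 2 := by field_simp
  rw [h4] at h3
  linarith

lemma S1_off (k : Sys) (p : Nd) (Y : Fn) (x : ℤ) (h : x ∉ iv p) : S1 k p Y x = 0 := by
  unfold S1
  rw [if_neg h]

lemma tf_eq (k : Sys) (p J : Nd) (X Y : Fn) (h : iv p ⊆ iv J) :
    tf k p X Y = ∑ x ∈ iv J, X x * S1 k p Y x := by
  have h1 : ∑ x ∈ iv J, X x * S1 k p Y x = ∑ x ∈ iv p, X x * S1 k p Y x := by
    symm
    apply Finset.sum_subset h
    intro x _ hx
    rw [S1_off k p Y x hx, mul_zero]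
  rw [h1]
  unfold tf
  apply Finset.sum_congr rfl
  intro x hx
  unfold S1
  rw [if_pos hx, Finset.mul_sum]
  apply Finset.sum_congr rfl
  intro y _
  ring

lemma tf_tr (k : Sys) (p : Nd) (X Y : Fn) : tf k.tr p Y X = tf k p X Y := by
  unfold tf Sys.tr
  rw [Finset.sum_comm]
  apply Finset.sum_congr rfl
  intro x _
  apply Finset.sum_congr rfl
  intro y _
  ring

lemma T_eq (k : Sys) (U : Finset Nd) (J : Nd) (X Y : Fn) (h : ∀ p ∈ U, iv p ⊆ iv J) :
    T k U X Y = ∑ x ∈ iv J, X x * ∑ p ∈ U, S1 k p Y x := by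
  unfold T
  rw [Finset.sum_congr rfl fun p hp => tf_eq k p J X Y (h p hp), Finset.sum_comm]
  apply Finset.sum_congr rfl
  intro x _
  rw [Finset.mul_sum]

lemma T_tr (k : Sys) (U : Finset Nd) (X Y : Fn) : T k.tr U Y X = T k U X Y := by
  unfold T
  exact Finset.sum_congr rfl fun p _ => tf_tr k p X Y

lemma cs (S : Finset ℤ) (X D : Fn) :
    ‖∑ x ∈ S, X x * D x‖ ^ 2 ≤ (∑ x ∈ S, ‖X x‖ ^ 2) * ∑ x ∈ S, ‖D x‖ ^ 2 := by
  have h1 : ‖∑ x ∈ S, X x * D x‖ ≤ ∑ x ∈ S, ‖X x‖ * ‖D x‖ := by
    refine (norm_sum_le _ _).trans (le_of_eq ?_)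
    exact Finset.sum_congr rfl fun x _ => norm_mul _ _
  calc ‖∑ x ∈ S, X x * D x‖ ^ 2 ≤ (∑ x ∈ S, ‖X x‖ * ‖D x‖) ^ 2 :=
        pow_le_pow_left₀ (norm_nonneg _) h1 2
    _ ≤ _ := Finset.sum_mul_sq_le_sq_mul_sq _ _ _

/-- lower bound for the dual function of a near extremal instance -/
lemma dual_lower (J : Nd) (X D : Fn) (A : ℝ) (hA : 0 ≤ A) (hX : av J X ≤ 1)
    (h : A * len J ≤ ‖∑ x ∈ iv J, X x * D x‖) : A ^ 2 * len J ≤ ∑ x ∈ iv J, ‖D x‖ ^ 2 := by
  have h1 := (av_le_iff J X 1 zero_le_one).1 hX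
  rw [one_pow, one_mul] at h1
  have h2 := cs (iv J) X D
  have h3 : (A * len J) ^ 2 ≤ ‖∑ x ∈ iv J, X x * D x‖ ^ 2 :=
    pow_le_pow_left₀ (mul_nonneg hA (len_pos J).le) h 2
  have h4 : (∑ x ∈ iv J, ‖X x‖ ^ 2) * ∑ x ∈ iv J, ‖D x‖ ^ 2 ≤
      len J * ∑ x ∈ iv J, ‖D x‖ ^ 2 :=
    mul_le_mul_of_nonneg_right h1 (Finset.sum_nonneg fun _ _ => by positivity)
  have h5 : len J * (A ^ 2 * len J) ≤ len J * ∑ x ∈ iv J, ‖D x‖ ^ 2 := by
    calc len J * (A ^ 2 * len J) = (A * len J) ^ 2 := by ring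
      _ ≤ _ := h3.trans (h2.trans h4)
  exact le_of_mul_le_mul_left h5 (len_pos J)

lemma top_mem {W : Finset Nd} {J : Nd} (h : IsRegion W J) (hne : W.Nonempty) : J ∈ W := by
  obtain ⟨p, hp⟩ := hne
  exact h.2 p hp J (h.1 p hp) (Finset.Subset.refl _)

theorem growthLemma (hG1 : G1) (hG2 : G2) : GrowthLemma := by
  classical
  obtain ⟨C1, hC1, hG1⟩ := hG1
  refine ⟨256 * C1, 3 / 32, by positivity, by norm_num, ?_⟩
  intro L hL Cl O A hO hA hsmall hB00 hext hex10 _
  obtain ⟨k, W, J, win, hbig, X, Y, hX, hY, hT⟩ := hext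
  -- the best moving/frozen constant
  set S : Set ℝ := {B : ℝ | B10 L Cl B} with hS
  have hlow : ∀ B ∈ S, 0 ≤ B := by
    intro B hB
    have h1 := hB k W J win hbig (fun _ _ => 0) (fun _ => 0)
      (by
        intro p _
        have h0 : av p (fun _ => (0 : ℂ)) = 0 := by
          unfold av av2
          simp
        simp [h0])
      (by
        intro p _
        have h0 : av p (fun _ => (0 : ℂ)) = 0 := by
          unfold av av2
          simp
        rw [h0]
        exact zero_le_one)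
    have h2 := (norm_nonneg _).trans h1
    by_contra h3
    push Not at h3
    have := mul_neg_of_neg_of_pos h3 (len_pos J)
    linarith
  have hSne : S.Nonempty := hex10
  have hSbd : BddBelow S := ⟨0, hlow⟩
  set A1 : ℝ := sInf S with hA1
  have hA1nn : 0 ≤ A1 := le_csInf hSne hlow
  have hB10 : B10 L Cl A1 := by
    intro k W J win hb X Y hX hY
    rw [← div_le_iff₀ (len_pos J)]
    apply le_csInf hSne
    intro B hB
    rw [div_le_iff₀ (len_pos J)]
    exact hB k W J win hb X Y hX hY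
  have hL0 : 0 < L := by omega
  have hLr : (0 : ℝ) < L := by exact_mod_cast hL0
  by_cases hcase : 16 * A1 ≤ A
  · -- case (b)
    right; left
    refine ⟨k, W, J, win, hbig, Y, hY, ?_⟩
    have hsubJ : ∀ p ∈ W, iv p ⊆ iv J := hbig.reg.1
    have hne : W.Nonempty := by
      rw [Finset.nonempty_iff_ne_empty]
      rintro rfl
      have h0 : T k ∅ X Y = 0 := by unfold T; simp
      rw [h0, norm_zero] at hT
      have := mul_pos (half_pos hA) (len_pos J)
      linarith
    have hJ := top_mem hbig.reg hne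
    have h1 : (A / 2) ^ 2 * len J ≤ ∑ x ∈ iv J, ‖∑ q ∈ W, S1 k q Y x‖ ^ 2 := by
      apply dual_lower J X _ (A / 2) (half_pos hA).le (hX J hJ)
      rw [← T_eq k W J X Y hsubJ]
      exact hT
    have h2 := (hG2 L Cl A1 hA1nn).2.1 hB10 k W J win hbig Y hY
    have h3 : (4 * A1) ^ 2 * len J ≤ (A / 4) ^ 2 * len J := by
      apply mul_le_mul_of_nonneg_right _ (len_pos J).le
      exact pow_le_pow_left₀ (by positivity) (by linarith) 2
    obtain ⟨i, hi, h4⟩ := extract (fun q x => S1 k q Y x) W win L hL0 hbig.lt (iv J) _ _ h1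
      (h2.trans h3)
    refine ⟨i, hi, ?_, ?_⟩
    · intro p hp
      apply local_bound (fun q x => S1 k q Y x) (fun q x => S1_off k q Y x) hbig.mono (4 * A)
        (by positivity) _ i p hp
      intro F hF
      exact (hG2 L Cl A hA.le).1 hB00 k (sub W F) F win (big_sub hbig hF) Y
        (fun p hp => hY p (mem_sub.1 hp).1)
    · have h5 : T k (wn W win i) (cj (Dgt k W win i Y)) Y =
          ∑ x ∈ iv J, (starRingEnd ℂ) (∑ q ∈ wgt W win i, S1 k q Y x) *
            ∑ q ∈ wn W win i, S1 k q Y x := by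
        rw [T_eq k (wn W win i) J _ Y fun p hp => hsubJ p (mem_filter.1 hp).1]
        rfl
      rw [h5]
      refine le_trans (le_of_eq ?_) h4
      field_simp
      ring
  · push Not at hcase
    have hA1pos : 0 < A1 := by linarith
    have hB11 := hG1 L hL Cl O hO hsmall
    set A11 : ℝ := C1 * (1 + Real.log L) ^ 2 * O with hA11
    have hA11nn : 0 ≤ A11 := by positivity
    by_cases hcase2 : 16 * A11 ≤ A1
    · -- case (c)
      right; right
      refine ⟨A1, by linarith, hB10, ?_⟩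
      have hnot : ¬ B10 L Cl (A1 / 2) := by
        intro h
        have := csInf_le hSbd (show A1 / 2 ∈ S from h)
        rw [← hA1] at this
        linarith
      unfold B10 at hnot
      push Not at hnot
      obtain ⟨k, W, J, win, hbig, X, Y, hX, hY, hT⟩ := hnot
      refine ⟨k, W, J, win, hbig, X, hX, ?_⟩
      have hsubJ : ∀ p ∈ W, iv p ⊆ iv J := hbig.reg.1
      have hTM : TM L k W win X (fun _ => Y) =
          ∑ y ∈ iv J, Y y * ∑ q ∈ W, S1 k.tr q (X (win q)) y := by
        unfold TM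
        have h1 : ∀ l ∈ range L, T k (wn W win l) (X l) Y =
            ∑ y ∈ iv J, Y y * ∑ q ∈ wn W win l, S1 k.tr q (X (win q)) y := by
          intro l _
          rw [← T_tr, T_eq k.tr (wn W win l) J Y (X l)
            fun p hp => hsubJ p (mem_filter.1 hp).1]
          apply Finset.sum_congr rfl
          intro y _
          congr 1
          apply Finset.sum_congr rfl
          intro q hq
          rw [(mem_filter.1 hq).2]
        rw [Finset.sum_congr rfl h1, Finset.sum_comm]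
        apply Finset.sum_congr rfl
        intro y _
        rw [← Finset.mul_sum]
        congr 1
        exact Finset.sum_fiberwise_of_maps_to
          (fun p hp => mem_range.2 (hbig.lt p hp)) _
      have hne : W.Nonempty := by
        rw [Finset.nonempty_iff_ne_empty]
        rintro rfl
        have h0 : TM L k ∅ win X (fun _ => Y) = 0 := by
          unfold TM T wn
          simp
        rw [h0, norm_zero] at hT
        have := mul_pos (half_pos hA1pos) (len_pos J)
        linarith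
      have hJ := top_mem hbig.reg hne
      have h1 : (A1 / 2) ^ 2 * len J ≤ ∑ y ∈ iv J, ‖∑ q ∈ W, S1 k.tr q (X (win q)) y‖ ^ 2 := by
        apply dual_lower J Y _ (A1 / 2) (half_pos hA1pos).le (hY J hJ)
        rw [← hTM]
        exact hT.le
      have h2 : ∑ l ∈ range L, ∑ x ∈ iv J,
          ‖∑ q ∈ wn W win l, S1 k.tr q (X (win q)) x‖ ^ 2 ≤ (4 * A11) ^ 2 * len J := by
        refine le_trans (le_of_eq ?_)
          ((hG2 L Cl A11 hA11nn).2.2.2 hB11 k W J win hbig X hX)
        apply Finset.sum_congr rfl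
        intro l _
        apply Finset.sum_congr rfl
        intro x _
        congr 2
        apply Finset.sum_congr rfl
        intro q hq
        rw [(mem_filter.1 hq).2]
      have h3 : (4 * A11) ^ 2 * len J ≤ (A1 / 4) ^ 2 * len J := by
        apply mul_le_mul_of_nonneg_right _ (len_pos J).le
        exact pow_le_pow_left₀ (by positivity) (by linarith) 2
      obtain ⟨i, hi, h4⟩ := extract (fun q y => S1 k.tr q (X (win q)) y) W win L hL0 hbig.lt
        (iv J) _ _ h1 (h2.trans h3)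
      refine ⟨i, hi, ?_, ?_⟩
      · intro p hp
        apply local_bound (fun q y => S1 k.tr q (X (win q)) y)
          (fun q x => S1_off k.tr q (X (win q)) x) hbig.mono (4 * A1) (by positivity) _ i p hp
        intro F hF
        exact (hG2 L Cl A1 hA1nn).2.2.1 hB10 k (sub W F) F win (big_sub hbig hF) X
          (fun p hp => hX p (mem_sub.1 hp).1)
      · have h5 : T k (wn W win i) (X i) (cj (Vgt k W win i X)) =
            ∑ x ∈ iv J, (starRingEnd ℂ) (∑ q ∈ wgt W win i, S1 k.tr q (X (win q)) x) *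
              ∑ q ∈ wn W win i, S1 k.tr q (X (win q)) x := by
          rw [← T_tr, T_eq k.tr (wn W win i) J _ (X i)
            fun p hp => hsubJ p (mem_filter.1 hp).1]
          apply Finset.sum_congr rfl
          intro y _
          unfold cj Vgt
          congr 1
          apply Finset.sum_congr rfl
          intro q hq
          rw [(mem_filter.1 hq).2]
        rw [h5]
        refine le_trans (le_of_eq ?_) h4
        field_simp
        ring
    · -- case (a)
      left
      push Not at hcase2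
      calc A ≤ 256 * A11 := by linarith
        _ = 256 * C1 * (1 + Real.log L) ^ 2 * O := by rw [hA11]; ring

end Crest.Agent.R079.Growth181
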