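import Crest.Agent.R079.BoxDefs_406

/-! R079, LAYER 0 (helper406), part A: `∫ Lb = ∫_q ep4 * H(t(q))`. -/

set_option autoImplicit false
set_option linter.unusedSectionVars false

open MeasureTheory Set Filter Topology

namespace Crest.Agent.R079.L0

/-- bounded, integrable, Lipschitz -/
structure Good (B : ℝ) (f : ℝ → ℂ) : Prop where
  cont : Continuous f
  int : Integrable f
  bd : ∀ x, ‖f x‖ ≤ B
  lip : ∀ x y, ‖f x - f y‖ ≤ B * |x - y|

lemma Good.nonneg {B : ℝ} {f : ℝ → ℂ} (h : Good B f) : 0 ≤ B := (norm_nonneg _).trans (h.bd 0)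

lemma Good.mono {B B' : ℝ} {f : ℝ → ℂ} (h : Good B f) (hB : B ≤ B') : Good B' f :=
  ⟨h.cont, h.int, fun x => (h.bd x).trans hB, fun x y => (h.lip x y).trans
    (mul_le_mul_of_nonneg_right hB (abs_nonneg _))⟩

lemma good_schwartz (f : SchwartzMap ℝ ℂ) : ∃ B : ℝ, Good B f := by
  let B1 := SchwartzMap.seminorm ℝ 0 0 f
  let B2 := SchwartzMap.seminorm ℝ 0 0 (SchwartzMap.derivCLM ℝ ℂ f)
  have h1 : ∀ x, ‖f x‖ ≤ B1 := fun x => SchwartzMap.norm_le_seminorm ℝ f x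
  have h2 : ∀ x, ‖deriv f x‖ ≤ B2 := fun x => by
    have := SchwartzMap.norm_le_seminorm ℝ (SchwartzMap.derivCLM ℝ ℂ f) x
    simpa using this
  have hB1 : 0 ≤ B1 := (norm_nonneg _).trans (h1 0)
  have hB2 : 0 ≤ B2 := (norm_nonneg _).trans (h2 0)
  refine ⟨B1 + B2, f.continuous, f.integrable, fun x => (h1 x).trans (by linarith),
    fun x y => ?_⟩
  have hd : Differentiable ℝ f := f.differentiable
  have h3 := Convex.norm_image_sub_le_of_norm_deriv_le (s := univ) (f := f) (C := B2)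
    (fun x _ => hd x) (fun x _ => h2 x) convex_univ (mem_univ y) (mem_univ x)
  rw [Real.norm_eq_abs] at h3
  exact h3.trans (mul_le_mul_of_nonneg_right (by linarith) (abs_nonneg _))

/-- the trilinear product -/
def Ph (f₁ f₂ f₃ : ℝ → ℂ) (x t : ℝ) : ℂ := f₁ (x - t) * f₂ (x - 2 * t) * f₃ (x - 3 * t)

/-- the pairing with `g` -/
noncomputable def Hf (f₁ f₂ f₃ g : ℝ → ℂ) (t : ℝ) : ℂ := ∫ x, g x * Ph f₁ f₂ f₃ x t

section
variable {B : ℝ} {f₁ f₂ f₃ g : ℝ → ℂ}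

lemma Ph_cont (h1 : Good B f₁) (h2 : Good B f₂) (h3 : Good B f₃) :
    Continuous fun p : ℝ × ℝ => Ph f₁ f₂ f₃ p.1 p.2 := by
  unfold Ph
  have c1 := h1.cont
  have c2 := h2.cont
  have c3 := h3.cont
  fun_prop

lemma Ph_bd (h1 : Good B f₁) (h2 : Good B f₂) (h3 : Good B f₃) (x t : ℝ) :
    ‖Ph f₁ f₂ f₃ x t‖ ≤ B ^ 2 * ‖f₁ (x - t)‖ := by
  have hB := h1.nonneg
  rw [Ph, norm_mul, norm_mul]
  have e2 := h2.bd (x - 2 * t)
  have e3 := h3.bd (x - 3 * t)
  calc ‖f₁ (x - t)‖ * ‖f₂ (x - 2 * t)‖ * ‖f₃ (x - 3 * t)‖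
      ≤ ‖f₁ (x - t)‖ * B * B := by gcongr
    _ = B ^ 2 * ‖f₁ (x - t)‖ := by ring

lemma Ph_bd3 (h1 : Good B f₁) (h2 : Good B f₂) (h3 : Good B f₃) (x t : ℝ) :
    ‖Ph f₁ f₂ f₃ x t‖ ≤ B ^ 3 := by
  refine (Ph_bd h1 h2 h3 x t).trans ?_
  have hB := h1.nonneg
  calc B ^ 2 * ‖f₁ (x - t)‖ ≤ B ^ 2 * B := by gcongr; exact h1.bd _
    _ = B ^ 3 := by ring

lemma int_gPh (h1 : Good B f₁) (h2 : Good B f₂) (h3 : Good B f₃) (hg : Measurable g)
    (hg1 : ∀ x, ‖g x‖ ≤ 1) (t : ℝ) : Integrable fun x => g x * Ph f₁ f₂ f₃ x t := by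
  have hi : Integrable fun x => f₁ (x - t) := h1.int.comp_sub_right t
  refine Integrable.mono' ((hi.norm).const_mul (B ^ 2)) ?_ (ae_of_all _ fun x => ?_)
  · have hc : Continuous fun x => Ph f₁ f₂ f₃ x t :=
      (Ph_cont h1 h2 h3).comp (continuous_id.prodMk continuous_const)
    exact (hg.mul hc.measurable).aestronglyMeasurable
  · rw [norm_mul]
    have := Ph_bd h1 h2 h3 x t
    calc ‖g x‖ * ‖Ph f₁ f₂ f₃ x t‖ ≤ 1 * (B ^ 2 * ‖f₁ (x - t)‖) := by
          gcongr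
          exact hg1 x
      _ = _ := one_mul _

lemma int_norm_gPh (h1 : Good B f₁) (h2 : Good B f₂) (h3 : Good B f₃) (hg : Measurable g)
    (hg1 : ∀ x, ‖g x‖ ≤ 1) (t : ℝ) :
    ∫ x, ‖g x * Ph f₁ f₂ f₃ x t‖ ≤ B ^ 2 * ∫ x, ‖f₁ x‖ := by
  have hi : Integrable fun x => f₁ (x - t) := h1.int.comp_sub_right t
  calc ∫ x, ‖g x * Ph f₁ f₂ f₃ x t‖ ≤ ∫ x, B ^ 2 * ‖f₁ (x - t)‖ := by
        refine integral_mono (int_gPh h1 h2 h3 hg hg1 t).norm (hi.norm.const_mul _) fun x => ?_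
        simp only [norm_mul]
        have := Ph_bd h1 h2 h3 x t
        calc ‖g x‖ * ‖Ph f₁ f₂ f₃ x t‖ ≤ 1 * (B ^ 2 * ‖f₁ (x - t)‖) := by
              gcongr
              exact hg1 x
          _ = _ := one_mul _
    _ = B ^ 2 * ∫ x, ‖f₁ x‖ := by
        rw [integral_const_mul]
        congr 1
        exact integral_sub_right_eq_self (fun x => ‖f₁ x‖) t

lemma Hf_bd (h1 : Good B f₁) (h2 : Good B f₂) (h3 : Good B f₃) (hg : Measurable g)
    (hg1 : ∀ x, ‖g x‖ ≤ 1) (t : ℝ) : ‖Hf f₁ f₂ f₃ g t‖ ≤ B ^ 2 * ∫ x, ‖f₁ x‖ :=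
  (norm_integral_le_integral_norm _).trans (int_norm_gPh h1 h2 h3 hg hg1 t)

lemma Hf_meas (h1 : Good B f₁) (h2 : Good B f₂) (h3 : Good B f₃) (hg : Measurable g) :
    StronglyMeasurable (Hf f₁ f₂ f₃ g) := by
  have : StronglyMeasurable (fun p : ℝ × ℝ => g p.2 * Ph f₁ f₂ f₃ p.2 p.1) := by
    refine Measurable.stronglyMeasurable ?_
    refine (hg.comp measurable_snd).mul ?_
    exact ((Ph_cont h1 h2 h3).comp (continuous_snd.prodMk continuous_fst)).measurable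
  exact this.integral_prod_right'

/-- a parameter integral: `∫_x g(x) ∫_z W(z) Φ_x(τ z) = ∫_z W(z) H(τ z)` -/
theorem fubini_param {Z : Type*} [MeasurableSpace Z] (ν : Measure Z) [IsFiniteMeasure ν]
    {W : Z → ℂ} {τ : Z → ℝ} (hW : Measurable W) (hτ : Measurable τ) {M : ℝ} (hM : 0 ≤ M)
    (hWM : ∀ᵐ z ∂ν, ‖W z‖ ≤ M)
    (h1 : Good B f₁) (h2 : Good B f₂) (h3 : Good B f₃) (hg : Measurable g)
    (hg1 : ∀ x, ‖g x‖ ≤ 1) :
    ∫ x : ℝ, g x * (∫ z, W z * Ph f₁ f₂ f₃ x (τ z) ∂ν) =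
      ∫ z, W z * Hf f₁ f₂ f₃ g (τ z) ∂ν := by
  have hmeas : Measurable (fun p : Z × ℝ => W p.1 * (g p.2 * Ph f₁ f₂ f₃ p.2 (τ p.1))) := by
    refine (hW.comp measurable_fst).mul ((hg.comp measurable_snd).mul ?_)
    exact (Ph_cont h1 h2 h3).measurable.comp
      (measurable_snd.prodMk (hτ.comp measurable_fst))
  have hint : Integrable (fun p : Z × ℝ => W p.1 * (g p.2 * Ph f₁ f₂ f₃ p.2 (τ p.1)))
      (ν.prod volume) := by
    rw [integrable_prod_iff hmeas.aestronglyMeasurable]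
    refine ⟨ae_of_all _ fun z => (int_gPh h1 h2 h3 hg hg1 (τ z)).const_mul (W z), ?_⟩
    refine Integrable.mono' (integrable_const (M * (B ^ 2 * ∫ x, ‖f₁ x‖)))
      hmeas.aestronglyMeasurable.norm.integral_prod_right' ?_
    filter_upwards [hWM] with z hz
    rw [Real.norm_of_nonneg (integral_nonneg fun x => norm_nonneg _)]
    simp only [norm_mul (W z)]
    rw [integral_const_mul]
    exact mul_le_mul hz (int_norm_gPh h1 h2 h3 hg hg1 (τ z))
      (integral_nonneg fun x => norm_nonneg _) hM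
  calc ∫ x : ℝ, g x * (∫ z, W z * Ph f₁ f₂ f₃ x (τ z) ∂ν)
      = ∫ x : ℝ, (∫ z, W z * (g x * Ph f₁ f₂ f₃ x (τ z)) ∂ν) := by
        refine integral_congr_ae (ae_of_all _ fun x => ?_)
        simp only
        rw [← integral_const_mul]
        refine integral_congr_ae (ae_of_all _ fun z => ?_)
        simp only
        ring
    _ = ∫ z, (∫ x : ℝ, W z * (g x * Ph f₁ f₂ f₃ x (τ z))) ∂ν := by
        rw [integral_integral_swap]
        exact hint.swap
    _ = _ := by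
        refine integral_congr_ae (ae_of_all _ fun z => ?_)
        simp only
        rw [integral_const_mul]
        rfl

lemma measurable_ep : Measurable ep := by
  unfold ep
  exact Measurable.ite measurableSet_Iio measurable_const measurable_const

lemma measurable_ep4 : Measurable ep4 := by
  unfold ep4
  exact Finset.measurable_prod _ fun i _ => measurable_ep.comp (measurable_pi_apply i)

lemma measurable_ep4c : Measurable (fun q => ((ep4 q : ℝ) : ℂ)) :=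
  Complex.measurable_ofReal.comp measurable_ep4

lemma ep_abs (x : ℝ) : |ep x| = 1 := by
  unfold ep
  split_ifs <;> simp

lemma ep4_abs (q : Fin 4 → ℝ) : |ep4 q| = 1 := by
  unfold ep4
  rw [Finset.abs_prod]
  exact Finset.prod_eq_one fun i _ => ep_abs _

lemma measurable_tq (β N : ℝ) : Measurable (tq β N) := by
  unfold tq
  fun_prop

instance : IsFiniteMeasure (volume.restrict cube) := by
  constructor
  rw [Measure.restrict_apply_univ]
  exact isCompact_Icc.measure_lt_top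

/-- the `x`-shift of a box point -/
noncomputable def fq (N : ℝ) (q : Fin 4 → ℝ) : ℝ := N * ∑ i, sl i * q i

lemma measurable_fq (N : ℝ) : Measurable (fq N) := by
  unfold fq
  fun_prop

lemma prod_eq (f₁ f₂ f₃ g : ℝ → ℂ) (β N s : ℝ) (q : Fin 4 → ℝ) :
    ∏ j, (![f₁, f₂, f₃, g] : Fin 4 → ℝ → ℂ) j (yq β N s q j) =
      g (s + fq N q) * Ph f₁ f₂ f₃ (s + fq N q) (tq β N q) := by
  have e0 : yq β N s q 0 = (s + fq N q) - tq β N q := by
    simp [yq, xq, fq, sl]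
  have e1 : yq β N s q 1 = (s + fq N q) - 2 * tq β N q := by
    simp [yq, xq, fq, sl]
  have e2 : yq β N s q 2 = (s + fq N q) - 3 * tq β N q := by
    simp [yq, xq, fq, sl]
  have e3 : yq β N s q 3 = (s + fq N q) := by
    simp [yq, xq, fq, sl]
  rw [Fin.prod_univ_four, e0, e1, e2, e3]
  simp only [Ph, Matrix.cons_val_zero, Matrix.cons_val_one, Matrix.cons_val]
  ring

lemma Lb_eq (f₁ f₂ f₃ g : ℝ → ℂ) (β N s : ℝ) :
    Lb β N s ![f₁, f₂, f₃, g] = ∫ q in cube, ((ep4 q : ℝ) : ℂ) *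
      (g (s + fq N q) * Ph f₁ f₂ f₃ (s + fq N q) (tq β N q)) := by
  unfold Lb
  refine integral_congr_ae (ae_of_all _ fun q => ?_)
  simp only
  rw [prod_eq]

set_option maxHeartbeats 1000000 in
/-- **the box integral** -/
theorem int_Lb (h1 : Good B f₁) (h2 : Good B f₂) (h3 : Good B f₃) (hg : Measurable g)
    (hg1 : ∀ x, ‖g x‖ ≤ 1) (β N : ℝ) :
    ∫ s : ℝ, Lb β N s ![f₁, f₂, f₃, g] =
      ∫ q in cube, ((ep4 q : ℝ) : ℂ) * Hf f₁ f₂ f₃ g (tq β N q) := by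
  have m1 : Measurable (fun p : (Fin 4 → ℝ) × ℝ => p.2 + fq N p.1) :=
    measurable_snd.add ((measurable_fq N).comp measurable_fst)
  have m2 : Measurable (fun p : (Fin 4 → ℝ) × ℝ => ((ep4 p.1 : ℝ) : ℂ)) :=
    measurable_ep4c.comp measurable_fst
  have m3 : Measurable (fun p : (Fin 4 → ℝ) × ℝ => tq β N p.1) :=
    (measurable_tq β N).comp measurable_fst
  have m4 : Measurable (fun p : (Fin 4 → ℝ) × ℝ => g (p.2 + fq N p.1)) := hg.comp m1
  have m5 : Measurable (fun p : (Fin 4 → ℝ) × ℝ => Ph f₁ f₂ f₃ (p.2 + fq N p.1) (tq β N p.1)) :=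
    (Ph_cont h1 h2 h3).measurable.comp (m1.prodMk m3)
  have hmeas : Measurable (fun p : (Fin 4 → ℝ) × ℝ => ((ep4 p.1 : ℝ) : ℂ) *
      (g (p.2 + fq N p.1) * Ph f₁ f₂ f₃ (p.2 + fq N p.1) (tq β N p.1))) :=
    m2.mul (m4.mul m5)
  have hint : Integrable (fun p : (Fin 4 → ℝ) × ℝ => ((ep4 p.1 : ℝ) : ℂ) *
      (g (p.2 + fq N p.1) * Ph f₁ f₂ f₃ (p.2 + fq N p.1) (tq β N p.1)))
      ((volume.restrict cube).prod volume) := by
    rw [integrable_prod_iff hmeas.aestronglyMeasurable]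
    refine ⟨ae_of_all _ fun q => ?_, ?_⟩
    · change Integrable (fun y : ℝ => ((ep4 q : ℝ) : ℂ) *
        (g (y + fq N q) * Ph f₁ f₂ f₃ (y + fq N q) (tq β N q))) volume
      exact ((int_gPh h1 h2 h3 hg hg1 (tq β N q)).comp_add_right (fq N q)).const_mul
        ((ep4 q : ℝ) : ℂ)
    · refine Integrable.mono' (integrable_const (B ^ 2 * ∫ x, ‖f₁ x‖))
        hmeas.aestronglyMeasurable.norm.integral_prod_right' (ae_of_all _ fun q => ?_)
      rw [Real.norm_of_nonneg (integral_nonneg fun x => norm_nonneg _)]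
      change ∫ y : ℝ, ‖((ep4 q : ℝ) : ℂ) *
        (g (y + fq N q) * Ph f₁ f₂ f₃ (y + fq N q) (tq β N q))‖ ≤ _
      simp only [norm_mul (((ep4 q : ℝ) : ℂ)), Complex.norm_real, Real.norm_eq_abs, ep4_abs,
        one_mul]
      rw [integral_add_right_eq_self (fun x => ‖g x * Ph f₁ f₂ f₃ x (tq β N q)‖) (fq N q)]
      exact int_norm_gPh h1 h2 h3 hg hg1 (tq β N q)
  calc ∫ s : ℝ, Lb β N s ![f₁, f₂, f₃, g]
      = ∫ s : ℝ, (∫ q in cube, ((ep4 q : ℝ) : ℂ) *
          (g (s + fq N q) * Ph f₁ f₂ f₃ (s + fq N q) (tq β N q))) := by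
        refine integral_congr_ae (ae_of_all _ fun s => ?_)
        exact Lb_eq f₁ f₂ f₃ g β N s
    _ = ∫ q in cube, (∫ s : ℝ, ((ep4 q : ℝ) : ℂ) *
          (g (s + fq N q) * Ph f₁ f₂ f₃ (s + fq N q) (tq β N q))) := by
        rw [integral_integral_swap]
        exact hint.swap
    _ = _ := by
        refine integral_congr_ae (ae_of_all _ fun q => ?_)
        simp only
        rw [integral_const_mul,
          integral_add_right_eq_self (fun x => g x * Ph f₁ f₂ f₃ x (tq β N q)) (fq N q)]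
        rfl

end

end Crest.Agent.R079.L0
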