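import Crest.Agent.R079.L0A_406

/-! R079, LAYER 0 (helper406), part B: the principal value as a limit of box averages. -/

set_option autoImplicit false
set_option linter.unusedSectionVars false

open MeasureTheory Set Filter Topology

namespace Crest.Agent.R079.L0

section
variable {B : ℝ} {f₁ f₂ f₃ : ℝ → ℂ}

lemma Ph_int (h1 : Good B f₁) (h2 : Good B f₂) (h3 : Good B f₃) (x : ℝ) :
    Integrable fun t => Ph f₁ f₂ f₃ x t := by
  have hi : Integrable fun t => f₁ (x - t) := h1.int.comp_sub_left x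
  refine Integrable.mono' ((hi.norm).const_mul (B ^ 2)) ?_ (ae_of_all _ fun t => ?_)
  · have hc : Continuous fun t => Ph f₁ f₂ f₃ x t :=
      (Ph_cont h1 h2 h3).comp (continuous_const.prodMk continuous_id)
    exact hc.aestronglyMeasurable
  · exact Ph_bd h1 h2 h3 x t

lemma Ph_cont' (h1 : Good B f₁) (h2 : Good B f₂) (h3 : Good B f₃) (x : ℝ) :
    Continuous fun t => Ph f₁ f₂ f₃ x t :=
  (Ph_cont h1 h2 h3).comp (continuous_const.prodMk continuous_id)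

lemma Ph_lip (h1 : Good B f₁) (h2 : Good B f₂) (h3 : Good B f₃) (x t u : ℝ) :
    ‖Ph f₁ f₂ f₃ x t - Ph f₁ f₂ f₃ x u‖ ≤ 6 * B ^ 3 * |t - u| := by
  have hB := h1.nonneg
  set a := f₁ (x - t)
  set b := f₂ (x - 2 * t)
  set c := f₃ (x - 3 * t)
  set a' := f₁ (x - u)
  set b' := f₂ (x - 2 * u)
  set c' := f₃ (x - 3 * u)
  have ea : ‖a - a'‖ ≤ B * |t - u| := by
    have := h1.lip (x - t) (x - u)
    rwa [show x - t - (x - u) = -(t - u) by ring, abs_neg] at this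
  have eb : ‖b - b'‖ ≤ 2 * B * |t - u| := by
    have := h2.lip (x - 2 * t) (x - 2 * u)
    rw [show x - 2 * t - (x - 2 * u) = -(2 * (t - u)) by ring, abs_neg, abs_mul,
      abs_of_pos (by norm_num : (0 : ℝ) < 2)] at this
    linarith
  have ec : ‖c - c'‖ ≤ 3 * B * |t - u| := by
    have := h3.lip (x - 3 * t) (x - 3 * u)
    rw [show x - 3 * t - (x - 3 * u) = -(3 * (t - u)) by ring, abs_neg, abs_mul,
      abs_of_pos (by norm_num : (0 : ℝ) < 3)] at this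
    linarith
  have key : Ph f₁ f₂ f₃ x t - Ph f₁ f₂ f₃ x u = (a - a') * b * c + a' * (b - b') * c +
      a' * b' * (c - c') := by
    show a * b * c - a' * b' * c' = _
    ring
  have nb : ‖b‖ ≤ B := h2.bd _
  have nc : ‖c‖ ≤ B := h3.bd _
  have na' : ‖a'‖ ≤ B := h1.bd _
  have nb' : ‖b'‖ ≤ B := h2.bd _
  rw [key]
  calc ‖(a - a') * b * c + a' * (b - b') * c + a' * b' * (c - c')‖
      ≤ ‖a - a'‖ * ‖b‖ * ‖c‖ + ‖a'‖ * ‖b - b'‖ * ‖c‖ + ‖a'‖ * ‖b'‖ * ‖c - c'‖ := by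
        refine (norm_add₃_le).trans ?_
        simp only [norm_mul]
        rfl
    _ ≤ (B * |t - u|) * B * B + B * (2 * B * |t - u|) * B + B * B * (3 * B * |t - u|) := by
        gcongr
    _ = 6 * B ^ 3 * |t - u| := by ring

/-- symmetric difference quotient -/
noncomputable def Dx (f₁ f₂ f₃ : ℝ → ℂ) (x t : ℝ) : ℂ :=
  (Ph f₁ f₂ f₃ x t - Ph f₁ f₂ f₃ x (-t)) / (t : ℂ)

lemma Dx_int (h1 : Good B f₁) (h2 : Good B f₂) (h3 : Good B f₃) (x : ℝ) :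
    IntegrableOn (Dx f₁ f₂ f₃ x) (Ioi 0) := by
  have hB := h1.nonneg
  have hmeas : Measurable (Dx f₁ f₂ f₃ x) := by
    unfold Dx
    have m1 := (Ph_cont' h1 h2 h3 x).measurable
    have m2 : Measurable fun t : ℝ => Ph f₁ f₂ f₃ x (-t) := m1.comp measurable_neg
    exact (m1.sub m2).div Complex.measurable_ofReal
  have hsplit : Ioi (0 : ℝ) = Ioc 0 1 ∪ Ioi 1 := (Ioc_union_Ioi_eq_Ioi zero_le_one).symm
  rw [hsplit]
  refine IntegrableOn.union ?_ ?_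
  · refine Integrable.mono' (g := fun _ => 12 * B ^ 3) ?_ hmeas.aestronglyMeasurable ?_
    · exact integrableOn_const (by simp) 
    · refine (ae_restrict_iff' measurableSet_Ioc).2 (ae_of_all _ fun t ht => ?_)
      rw [Dx, norm_div, Complex.norm_real, Real.norm_of_nonneg ht.1.le, div_le_iff₀ ht.1]
      refine (Ph_lip h1 h2 h3 x t (-t)).trans ?_
      rw [show t - -t = 2 * t by ring, abs_of_pos (by linarith [ht.1])]
      linarith
  · have hi := Ph_int h1 h2 h3 x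
    have hi2 : Integrable fun t => Ph f₁ f₂ f₃ x (-t) := hi.comp_neg
    refine Integrable.mono' (g := fun t => ‖Ph f₁ f₂ f₃ x t‖ + ‖Ph f₁ f₂ f₃ x (-t)‖)
      (hi.norm.add hi2.norm).integrableOn hmeas.aestronglyMeasurable ?_
    refine (ae_restrict_iff' measurableSet_Ioi).2 (ae_of_all _ fun t ht => ?_)
    have ht1 : (1 : ℝ) < t := ht
    have ht0 : (0 : ℝ) < t := by linarith
    rw [Dx, norm_div, Complex.norm_real, Real.norm_of_nonneg ht0.le, div_le_iff₀ ht0]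
    refine (norm_sub_le _ _).trans ?_
    have : 0 ≤ ‖Ph f₁ f₂ f₃ x t‖ + ‖Ph f₁ f₂ f₃ x (-t)‖ := by positivity
    nlinarith

/-- the principal value -/
noncomputable def PV (f₁ f₂ f₃ : ℝ → ℂ) (x : ℝ) : ℂ := ∫ t in Ioi (0 : ℝ), Dx f₁ f₂ f₃ x t

lemma trunc_eq (h1 : Good B f₁) (h2 : Good B f₂) (h3 : Good B f₃) (x : ℝ) {ε : ℝ}
    (hε : 0 < ε) :
    ∫ t in (Icc (-ε) ε)ᶜ, f₁ (x - t) * f₂ (x - 2 * t) * f₃ (x - 3 * t) / (t : ℂ) =
      ∫ t in Ioi ε, Dx f₁ f₂ f₃ x t := by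
  have hset : (Icc (-ε) ε)ᶜ = Iio (-ε) ∪ Ioi ε := by
    ext t
    simp only [mem_compl_iff, mem_Icc, not_and_or, not_le, mem_union, mem_Iio, mem_Ioi]
  have hi := Ph_int h1 h2 h3 x
  have hi2 : Integrable fun t => Ph f₁ f₂ f₃ x (-t) := hi.comp_neg
  have m1 := (Ph_cont' h1 h2 h3 x).measurable
  have hdiv : ∀ (F : ℝ → ℂ), Integrable F → Measurable F →
      ∀ s : Set ℝ, MeasurableSet s → (∀ t ∈ s, ε ≤ |t|) → IntegrableOn (fun t => F t / (t : ℂ)) s := by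
    intro F hF hFm s hs hse
    refine Integrable.mono' (g := fun t => ε⁻¹ * ‖F t‖) ((hF.norm.const_mul _).integrableOn)
      (hFm.div Complex.measurable_ofReal).aestronglyMeasurable ?_
    refine (ae_restrict_iff' hs).2 (ae_of_all _ fun t ht => ?_)
    have h := hse t ht
    rw [norm_div, Complex.norm_real, Real.norm_eq_abs, div_eq_inv_mul]
    gcongr
  have hI1 : IntegrableOn (fun t : ℝ => Ph f₁ f₂ f₃ x t / (t : ℂ)) (Iio (-ε)) :=
    hdiv _ hi m1 _ measurableSet_Iio fun t ht => by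
      have ht : t < -ε := ht
      rw [abs_of_neg (by linarith)]
      linarith
  have hI2 : IntegrableOn (fun t : ℝ => Ph f₁ f₂ f₃ x t / (t : ℂ)) (Ioi ε) :=
    hdiv _ hi m1 _ measurableSet_Ioi fun t ht => by
      have ht : ε < t := ht
      rw [abs_of_pos (by linarith)]
      linarith
  have hI3 : IntegrableOn (fun t : ℝ => Ph f₁ f₂ f₃ x (-t) / (t : ℂ)) (Ioi ε) :=
    hdiv _ hi2 (m1.comp measurable_neg) _ measurableSet_Ioi fun t ht => by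
      have ht : ε < t := ht
      rw [abs_of_pos (by linarith)]
      linarith
  change ∫ t in (Icc (-ε) ε)ᶜ, Ph f₁ f₂ f₃ x t / (t : ℂ) = _
  rw [hset, setIntegral_union (by
    rw [Set.disjoint_left]
    intro t h1 h2
    have h1 : t < -ε := h1
    have h2 : ε < t := h2
    linarith) measurableSet_Ioi hI1 hI2]
  have hneg : ∫ t in Iio (-ε), Ph f₁ f₂ f₃ x t / (t : ℂ) =
      ∫ t in Ioi ε, -(Ph f₁ f₂ f₃ x (-t) / (t : ℂ)) := by
    have h := integral_comp_neg_Ioi (-ε) (fun t : ℝ => Ph f₁ f₂ f₃ x t / (t : ℂ))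
    rw [neg_neg] at h
    have h2 := integral_comp_neg_Ioi ε (fun t : ℝ => Ph f₁ f₂ f₃ x t / (t : ℂ))
    rw [← integral_Iic_eq_integral_Iio, ← h2]
    refine setIntegral_congr_fun measurableSet_Ioi fun t _ => ?_
    push_cast
    rw [div_neg]
  have hI3' : IntegrableOn (fun t : ℝ => -(Ph f₁ f₂ f₃ x (-t) / (t : ℂ))) (Ioi ε) := hI3.neg
  rw [hneg, ← integral_add hI3' hI2]
  refine setIntegral_congr_fun measurableSet_Ioi fun t _ => ?_
  simp only [Dx]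
  ring

theorem eq_PV (h1 : Good B f₁) (h2 : Good B f₂) (h3 : Good B f₃) (x : ℝ) {T : ℂ}
    (hT : Tendsto (fun ε : ℝ => ∫ t in (Set.Icc (-ε) ε)ᶜ,
      f₁ (x - t) * f₂ (x - 2 * t) * f₃ (x - 3 * t) / (t : ℂ)) (𝓝[>] 0) (𝓝 T)) :
    T = PV f₁ f₂ f₃ x := by
  have h4 : Tendsto (fun ε : ℝ => ∫ t in Ioi ε, Dx f₁ f₂ f₃ x t) (𝓝[>] 0) (𝓝 T) := by
    refine hT.congr' ?_
    filter_upwards [self_mem_nhdsWithin] with ε hε
    exact trunc_eq h1 h2 h3 x hε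
  -- sequence 2^{-n}
  have h5 : Tendsto (fun n : ℕ => ((1 / 2 : ℝ) ^ n)) atTop (𝓝[>] 0) := by
    rw [tendsto_nhdsWithin_iff]
    refine ⟨tendsto_pow_atTop_nhds_zero_of_lt_one (by norm_num) (by norm_num), ?_⟩
    exact Eventually.of_forall fun n => by
      show (0 : ℝ) < (1 / 2) ^ n
      positivity
  have h6 := h4.comp h5
  have hU : (⋃ n : ℕ, Ioi ((1 / 2 : ℝ) ^ n)) = Ioi 0 := by
    ext t
    simp only [mem_iUnion, mem_Ioi]
    constructor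
    · rintro ⟨n, hn⟩
      exact lt_trans (by positivity) hn
    · intro ht
      exact exists_pow_lt_of_lt_one ht (by norm_num)
  have h7 := tendsto_setIntegral_of_monotone (μ := volume) (f := Dx f₁ f₂ f₃ x)
    (s := fun n : ℕ => Ioi ((1 / 2 : ℝ) ^ n)) (fun n => measurableSet_Ioi)
    (fun a b hab => Ioi_subset_Ioi (pow_le_pow_of_le_one (by norm_num) (by norm_num) hab))
    (by rw [hU]; exact Dx_int h1 h2 h3 x)
  rw [hU] at h7
  exact tendsto_nhds_unique h6 h7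


/-- scale integral -/
noncomputable def Jm (f₁ f₂ f₃ : ℝ → ℂ) (x : ℝ) (m : ℕ) (w : ℝ) : ℂ :=
  ∫ r in Ioo ((1 / 2 : ℝ) ^ m) (2 ^ m), (Ph f₁ f₂ f₃ x (r * w) - Ph f₁ f₂ f₃ x (-(r * w))) / (r : ℂ)

lemma quot_pos (x : ℝ) {w : ℝ} (hw : 0 < w) (r : ℝ) :
    (Ph f₁ f₂ f₃ x (r * w) - Ph f₁ f₂ f₃ x (-(r * w))) / (r : ℂ) =
      (w : ℂ) * Dx f₁ f₂ f₃ x (r * w) := by
  have hw' : (w : ℂ) ≠ 0 := by exact_mod_cast hw.ne'
  rw [Dx]
  rcases eq_or_ne r 0 with rfl | hr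
  · simp
  have hr' : (r : ℂ) ≠ 0 := by exact_mod_cast hr
  push_cast
  field_simp

lemma quot_int_pos (h1 : Good B f₁) (h2 : Good B f₂) (h3 : Good B f₃) (x : ℝ) {w : ℝ}
    (hw : 0 < w) :
    IntegrableOn (fun r : ℝ => (Ph f₁ f₂ f₃ x (r * w) - Ph f₁ f₂ f₃ x (-(r * w))) / (r : ℂ))
      (Ioi 0) ∧
    ∫ r in Ioi (0 : ℝ), (Ph f₁ f₂ f₃ x (r * w) - Ph f₁ f₂ f₃ x (-(r * w))) / (r : ℂ) =
      PV f₁ f₂ f₃ x ∧
    ∫ r in Ioi (0 : ℝ), ‖(Ph f₁ f₂ f₃ x (r * w) - Ph f₁ f₂ f₃ x (-(r * w))) / (r : ℂ)‖ =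
      ∫ r in Ioi (0 : ℝ), ‖Dx f₁ f₂ f₃ x r‖ := by
  have hD := Dx_int h1 h2 h3 x
  have hw' : (w : ℂ) ≠ 0 := by exact_mod_cast hw.ne'
  simp only [quot_pos x hw]
  have hi : IntegrableOn (fun r : ℝ => Dx f₁ f₂ f₃ x (r * w)) (Ioi 0) := by
    have := (integrableOn_Ioi_comp_mul_right_iff (Dx f₁ f₂ f₃ x) 0 hw).2
    rw [zero_mul] at this
    exact this hD
  refine ⟨hi.const_mul _, ?_, ?_⟩
  · rw [integral_const_mul, integral_comp_mul_right_Ioi (fun r => Dx f₁ f₂ f₃ x r) 0 hw,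
      zero_mul, Complex.real_smul, ← mul_assoc]
    rw [PV]
    push_cast
    rw [mul_inv_cancel₀ hw', one_mul]
  · simp only [norm_mul, Complex.norm_real, Real.norm_of_nonneg hw.le]
    rw [integral_const_mul, integral_comp_mul_right_Ioi (fun r => ‖Dx f₁ f₂ f₃ x r‖) 0 hw,
      zero_mul, smul_eq_mul, ← mul_assoc, mul_inv_cancel₀ hw.ne', one_mul]

lemma iUnion_Ioo : (⋃ n : ℕ, Ioo ((1 / 2 : ℝ) ^ n) (2 ^ n)) = Ioi 0 := by
  ext t
  simp only [mem_iUnion, mem_Ioi, mem_Ioo]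
  constructor
  · rintro ⟨n, hn, _⟩
    exact lt_trans (by positivity) hn
  · intro ht
    obtain ⟨a, ha⟩ := exists_pow_lt_of_lt_one ht (by norm_num : (1 / 2 : ℝ) < 1)
    obtain ⟨b, hb⟩ := pow_unbounded_of_one_lt t (by norm_num : (1 : ℝ) < 2)
    refine ⟨max a b, lt_of_le_of_lt ?_ ha, lt_of_lt_of_le hb ?_⟩
    · exact pow_le_pow_of_le_one (by norm_num) (by norm_num) (le_max_left _ _)
    · exact pow_le_pow_right₀ (by norm_num) (le_max_right _ _)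

lemma Ioo_mono : Monotone fun n : ℕ => Ioo ((1 / 2 : ℝ) ^ n) (2 ^ n) := by
  intro a b hab
  exact Ioo_subset_Ioo (pow_le_pow_of_le_one (by norm_num) (by norm_num) hab)
    (pow_le_pow_right₀ (by norm_num) hab)

lemma Ioo_sub_Ioi (m : ℕ) : Ioo ((1 / 2 : ℝ) ^ m) (2 ^ m) ⊆ Ioi 0 := fun r hr =>
  lt_trans (by positivity) hr.1

lemma Jm_pos (h1 : Good B f₁) (h2 : Good B f₂) (h3 : Good B f₃) (x : ℝ) {w : ℝ} (hw : 0 < w) :
    Tendsto (fun m => Jm f₁ f₂ f₃ x m w) atTop (𝓝 (PV f₁ f₂ f₃ x)) ∧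
    ∀ m, ‖Jm f₁ f₂ f₃ x m w‖ ≤ ∫ r in Ioi (0 : ℝ), ‖Dx f₁ f₂ f₃ x r‖ := by
  obtain ⟨hi, hv, hn⟩ := quot_int_pos h1 h2 h3 x hw
  constructor
  · have h7 := tendsto_setIntegral_of_monotone (μ := volume)
      (f := fun r : ℝ => (Ph f₁ f₂ f₃ x (r * w) - Ph f₁ f₂ f₃ x (-(r * w))) / (r : ℂ))
      (s := fun n : ℕ => Ioo ((1 / 2 : ℝ) ^ n) (2 ^ n)) (fun n => measurableSet_Ioo) Ioo_mono
      (by rw [iUnion_Ioo]; exact hi)
    rw [iUnion_Ioo, hv] at h7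
    exact h7
  · intro m
    rw [← hn]
    refine (norm_integral_le_integral_norm _).trans ?_
    exact setIntegral_mono_set hi.norm (ae_of_all _ fun r => norm_nonneg _)
      (HasSubset.Subset.eventuallyLE (Ioo_sub_Ioi m))

lemma Jm_neg (x : ℝ) (m : ℕ) (w : ℝ) : Jm f₁ f₂ f₃ x m (-w) = -Jm f₁ f₂ f₃ x m w := by
  rw [Jm, Jm, ← integral_neg]
  refine integral_congr_ae (ae_of_all _ fun r => ?_)
  simp only [mul_neg, neg_neg]
  ring

lemma Jm_zero (x : ℝ) (m : ℕ) : Jm f₁ f₂ f₃ x m 0 = 0 := by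
  simp [Jm]

theorem Jm_tendsto (h1 : Good B f₁) (h2 : Good B f₂) (h3 : Good B f₃) (x w : ℝ) :
    Tendsto (fun m => Jm f₁ f₂ f₃ x m w) atTop (𝓝 (((Real.sign w : ℝ) : ℂ) * PV f₁ f₂ f₃ x)) ∧
    ∀ m, ‖Jm f₁ f₂ f₃ x m w‖ ≤ ∫ r in Ioi (0 : ℝ), ‖Dx f₁ f₂ f₃ x r‖ := by
  rcases lt_trichotomy w 0 with hw | rfl | hw
  · obtain ⟨ha, hb⟩ := Jm_pos h1 h2 h3 x (neg_pos.2 hw)
    have e : ∀ m, Jm f₁ f₂ f₃ x m w = -Jm f₁ f₂ f₃ x m (-w) := fun m => by
      rw [Jm_neg, neg_neg]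
    constructor
    · simp only [e, Real.sign_of_neg hw]
      simpa using ha.neg
    · intro m
      rw [e, norm_neg]
      exact hb m
  · constructor
    · simp [Jm_zero]
    · intro m
      rw [Jm_zero, norm_zero]
      exact integral_nonneg fun r => norm_nonneg _
  · obtain ⟨ha, hb⟩ := Jm_pos h1 h2 h3 x hw
    refine ⟨?_, hb⟩
    simpa [Real.sign_of_pos hw] using ha

end

end Crest.Agent.R079.L0
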