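import Crest.Agent.R079.L0B_406

/-! R079, LAYER 0 (helper406), part C: the approximations `T_m` and the constant `c0`. -/

set_option autoImplicit false
set_option linter.unusedSectionVars false

open MeasureTheory Set Filter Topology

namespace Crest.Agent.R079.L0

/-! ### cube facts -/

lemma cube_refl (q : Fin 4 → ℝ) : (1 - q) ∈ cube ↔ q ∈ cube := by
  simp only [cube, mem_Icc, Pi.le_def, Pi.zero_apply, Pi.one_apply, Pi.sub_apply]
  constructor
  · rintro ⟨h1, h2⟩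
    exact ⟨fun i => by linarith [h2 i], fun i => by linarith [h1 i]⟩
  · rintro ⟨h1, h2⟩
    exact ⟨fun i => by linarith [h2 i], fun i => by linarith [h1 i]⟩

lemma ep_refl {x : ℝ} (hx : x ≠ 1 / 2) : ep (1 - x) = -ep x := by
  unfold ep
  rcases lt_or_gt_of_ne hx with h | h
  · rw [if_neg (by linarith), if_pos h]
  · rw [if_pos (by linarith), if_neg (by linarith)]
    norm_num

lemma ae_ne_half : ∀ᵐ q : Fin 4 → ℝ, ∀ i, q i ≠ 1 / 2 := by
  rw [ae_all_iff]
  intro i
  exact Measure.ae_eval_ne (μ := fun _ : Fin 4 => (volume : Measure ℝ)) i (1 / 2)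

lemma ep4_refl {q : Fin 4 → ℝ} (hq : ∀ i, q i ≠ 1 / 2) : ep4 (1 - q) = ep4 q := by
  unfold ep4
  simp only [Pi.sub_apply, Pi.one_apply, ep_refl (hq _), Fin.prod_univ_four]
  ring

/-- reflection in the centre of the cube -/
lemma cube_reflect (G : (Fin 4 → ℝ) → ℂ) :
    ∫ q in cube, ((ep4 q : ℝ) : ℂ) * G (1 - q) = ∫ q in cube, ((ep4 q : ℝ) : ℂ) * G q := by
  have hm : MeasurableSet cube := measurableSet_Icc
  rw [← integral_indicator hm, ← integral_indicator hm]
  rw [← integral_sub_left_eq_self (fun q => cube.indicator (fun q => ((ep4 q : ℝ) : ℂ) * G q) q)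
    volume (1 : Fin 4 → ℝ)]
  refine integral_congr_ae ?_
  filter_upwards [ae_ne_half] with q hq
  by_cases h : q ∈ cube
  · rw [indicator_of_mem h, indicator_of_mem ((cube_refl q).2 h), ep4_refl hq]
  · rw [indicator_of_notMem h, indicator_of_notMem (fun h' => h ((cube_refl q).1 h'))]

lemma integral_ep : ∫ x in Icc (0 : ℝ) 1, ep x = 0 := by
  have h1 : ∫ x in Icc (0 : ℝ) 1, ep x = ∫ x in (0 : ℝ)..1, ep x := by
    rw [integral_Icc_eq_integral_Ioc, intervalIntegral.integral_of_le zero_le_one]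
  have hii : ∀ a b : ℝ, IntervalIntegrable ep volume a b := fun a b => by
    refine (intervalIntegrable_const (c := (1 : ℝ))).mono_fun
      measurable_ep.aestronglyMeasurable (ae_of_all _ fun x => ?_)
    simp [Real.norm_eq_abs, ep_abs]
  rw [h1, ← intervalIntegral.integral_add_adjacent_intervals (hii 0 (1 / 2)) (hii (1 / 2) 1)]
  have h2 : ∫ x in (0 : ℝ)..(1 / 2), ep x = ∫ x in (0 : ℝ)..(1 / 2), (1 : ℝ) := by
    refine intervalIntegral.integral_congr_ae ?_
    have hne : ∀ᵐ x : ℝ, x ≠ 1 / 2 := by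
      rw [ae_iff]
      simp
    filter_upwards [hne] with x hx hx2
    rw [uIoc_of_le (by norm_num)] at hx2
    rw [ep, if_pos (lt_of_le_of_ne hx2.2 hx)]
  have h3 : ∫ x in (1 / 2 : ℝ)..1, ep x = ∫ x in (1 / 2 : ℝ)..1, (-1 : ℝ) := by
    refine intervalIntegral.integral_congr_ae (ae_of_all _ fun x hx => ?_)
    rw [uIoc_of_le (by norm_num)] at hx
    rw [ep, if_neg (not_lt.2 hx.1.le)]
  rw [h2, h3]
  simp
  norm_num

lemma cube_eq : cube = univ.pi fun _ : Fin 4 => Icc (0 : ℝ) 1 := by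
  rw [cube, ← pi_univ_Icc]
  rfl

lemma integral_ep4 : ∫ q in cube, ep4 q = 0 := by
  have h : (volume.restrict cube : Measure (Fin 4 → ℝ)) =
      Measure.pi fun _ : Fin 4 => (volume.restrict (Icc (0 : ℝ) 1)) := by
    rw [cube_eq, volume_pi, Measure.restrict_pi_pi]
  rw [h]
  have := integral_fintype_prod_eq_prod (𝕜 := ℝ) (ι := Fin 4) (E := fun _ => ℝ)
    (μ := fun _ => volume.restrict (Icc (0 : ℝ) 1)) (fun _ x => ep x)
  unfold ep4
  rw [this]
  simp [integral_ep]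

/-- `w(q)` -/
noncomputable def wq (q : Fin 4 → ℝ) : ℝ := -1 / 2 + ∑ i, q i

lemma measurable_wq : Measurable wq := by
  unfold wq
  fun_prop

/-- the constant -/
noncomputable def c0 : ℝ := ∫ q in cube, ep4 q * Real.sign (wq q)

lemma ae_wq_ne : ∀ᵐ q : Fin 4 → ℝ, wq q ≠ 0 := by
  let S : AffineSubspace ℝ (Fin 4 → ℝ) :=
    { carrier := {q | wq q = 0}
      smul_vsub_vadd_mem' := by
        intro c p1 p2 p3 h1 h2 h3
        simp only [mem_ofPred_eq, wq] at *
        simp only [vsub_eq_sub, vadd_eq_add, Pi.add_apply, Pi.smul_apply, Pi.sub_apply,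
          smul_eq_mul, Finset.sum_add_distrib, ← Finset.mul_sum, Finset.sum_sub_distrib]
        have e1 : ∑ i, p1 i = 1 / 2 := by linarith
        have e2 : ∑ i, p2 i = 1 / 2 := by linarith
        rw [e1, e2]
        linarith }
  have hS : S ≠ ⊤ := by
    intro h
    have : (0 : Fin 4 → ℝ) ∈ S := by rw [h]; trivial
    have h2 : wq 0 = 0 := this
    simp [wq] at h2
  have := Measure.addHaar_affineSubspace volume S hS
  rw [ae_iff]
  have hset : {a : Fin 4 → ℝ | ¬ wq a ≠ 0} = (S : Set (Fin 4 → ℝ)) := by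
    ext a
    show ¬ wq a ≠ 0 ↔ wq a = 0
    exact not_not
  rw [hset]
  exact this

lemma c0_neg : c0 < 0 := by
  have hm : MeasurableSet cube := measurableSet_Icc
  have hms : Measurable fun q : Fin 4 → ℝ => Real.sign (wq q) := by
    have : Measurable Real.sign := by
      unfold Real.sign
      exact Measurable.ite measurableSet_Iio measurable_const
        (Measurable.ite measurableSet_Ioi measurable_const measurable_const)
    exact this.comp measurable_wq
  have hb : ∀ w : ℝ, |Real.sign w| ≤ 1 := by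
    intro w
    rcases Real.sign_apply_eq w with h | h | h <;> simp [h]
  have i1 : Integrable (fun q => ep4 q * Real.sign (wq q)) (volume.restrict cube) := by
    refine Integrable.mono' (integrable_const (1 : ℝ))
      (measurable_ep4.mul hms).aestronglyMeasurable (ae_of_all _ fun q => ?_)
    rw [Real.norm_eq_abs, abs_mul, ep4_abs, one_mul]
    exact hb _
  have i2 : Integrable (fun q => ep4 q) (volume.restrict cube) := by
    refine Integrable.mono' (integrable_const (1 : ℝ)) measurable_ep4.aestronglyMeasurable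
      (ae_of_all _ fun q => ?_)
    rw [Real.norm_eq_abs, ep4_abs]
  let S : Set (Fin 4 → ℝ) := {q | wq q < 0}
  have hS : MeasurableSet S := measurableSet_lt measurable_wq measurable_const
  have h1 : c0 = ∫ q in cube, S.indicator (fun _ => (-2 : ℝ)) q := by
    have : c0 = ∫ q in cube, (ep4 q * Real.sign (wq q) - ep4 q) := by
      rw [integral_sub i1 i2, integral_ep4, sub_zero, c0]
    rw [this]
    refine integral_congr_ae ?_
    have hae : ∀ᵐ q ∂(volume.restrict cube), wq q ≠ 0 := ae_restrict_of_ae ae_wq_ne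
    filter_upwards [hae, ae_restrict_mem hm] with q hq hqc
    by_cases h : wq q < 0
    · rw [indicator_of_mem (show q ∈ S from h), Real.sign_of_neg h]
      have hq1 : ∀ i, q i < 1 / 2 := by
        intro i
        have hnn : ∀ j, 0 ≤ q j := fun j => hqc.1 j
        have := Finset.single_le_sum (f := q) (s := Finset.univ) (fun j _ => hnn j)
          (Finset.mem_univ i)
        unfold wq at h
        linarith
      have : ep4 q = 1 := by
        unfold ep4
        refine Finset.prod_eq_one fun i _ => ?_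
        rw [ep, if_pos (hq1 i)]
      rw [this]; norm_num
    · have h2 : 0 < wq q := lt_of_le_of_ne (not_lt.1 h) (Ne.symm hq)
      rw [indicator_of_notMem (show q ∉ S from h), Real.sign_of_pos h2]
      ring
  rw [h1, integral_indicator_const _ hS]
  have hpos : 0 < (volume.restrict cube S) := by
    rw [Measure.restrict_apply hS]
    have hO : IsOpen (univ.pi fun _ : Fin 4 => Ioo (0 : ℝ) (1 / 8)) :=
      isOpen_set_pi finite_univ fun i _ => isOpen_Ioo
    have hne : (univ.pi fun _ : Fin 4 => Ioo (0 : ℝ) (1 / 8)).Nonempty :=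
      ⟨fun _ => 1 / 16, fun i _ => ⟨by norm_num, by norm_num⟩⟩
    refine lt_of_lt_of_le (hO.measure_pos volume hne) (measure_mono fun q hq => ?_)
    have hq' : ∀ i, 0 < q i ∧ q i < 1 / 8 := fun i => hq i (mem_univ i)
    refine ⟨?_, ⟨fun i => (hq' i).1.le, fun i => by
      have := (hq' i).2
      simp only [Pi.one_apply]
      linarith⟩⟩
    show wq q < 0
    unfold wq
    rw [Fin.sum_univ_four]
    linarith [(hq' 0).2, (hq' 1).2, (hq' 2).2, (hq' 3).2]
  have hfin : (volume.restrict cube S) ≠ ⊤ := measure_ne_top _ _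
  have hr : 0 < (volume.restrict cube).real S := ENNReal.toReal_pos hpos.ne' hfin
  rw [smul_eq_mul]
  linarith

section
variable {B : ℝ} {f₁ f₂ f₃ : ℝ → ℂ}

/-- `∫ Φ(r w) dr / r` -/
noncomputable def Iv (f₁ f₂ f₃ : ℝ → ℂ) (x : ℝ) (m : ℕ) (w : ℝ) : ℂ :=
  ∫ r in Ioo ((1 / 2 : ℝ) ^ m) (2 ^ m), Ph f₁ f₂ f₃ x (r * w) / (r : ℂ)

lemma inv_le {m : ℕ} {r : ℝ} (hr : r ∈ Ioo ((1 / 2 : ℝ) ^ m) (2 ^ m)) : r⁻¹ ≤ 2 ^ m := by
  have h0 : (0 : ℝ) < (1 / 2) ^ m := by positivity
  have h1 : r⁻¹ ≤ ((1 / 2 : ℝ) ^ m)⁻¹ := inv_anti₀ h0 hr.1.le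
  refine h1.trans (le_of_eq ?_)
  rw [← inv_pow]
  norm_num

lemma Iv_int (h1 : Good B f₁) (h2 : Good B f₂) (h3 : Good B f₃) (x : ℝ) (m : ℕ) (w : ℝ) :
    IntegrableOn (fun r : ℝ => Ph f₁ f₂ f₃ x (r * w) / (r : ℂ)) (Ioo ((1 / 2 : ℝ) ^ m) (2 ^ m)) := by
  have hc := (Ph_cont' h1 h2 h3 x).measurable
  refine Integrable.mono' (g := fun _ => B ^ 3 * 2 ^ m) (integrableOn_const (by simp))
    ((hc.comp (measurable_id.mul_const w)).div Complex.measurable_ofReal).aestronglyMeasurable ?_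
  refine (ae_restrict_iff' measurableSet_Ioo).2 (ae_of_all _ fun r hr => ?_)
  have hr0 : 0 < r := Ioo_sub_Ioi m hr
  rw [norm_div, Complex.norm_real, Real.norm_of_nonneg hr0.le, div_eq_mul_inv]
  have hB := h1.nonneg
  exact mul_le_mul (Ph_bd3 h1 h2 h3 _ _) (inv_le hr) (by positivity) (by positivity)

lemma Iv_bd (h1 : Good B f₁) (h2 : Good B f₂) (h3 : Good B f₃) (x : ℝ) (m : ℕ) (w : ℝ) :
    ‖Iv f₁ f₂ f₃ x m w‖ ≤ B ^ 3 * 2 ^ m * (volume.real (Ioo ((1 / 2 : ℝ) ^ m) (2 ^ m))) := by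
  refine norm_setIntegral_le_of_norm_le_const (by simp) fun r hr => ?_
  have hr0 : 0 < r := Ioo_sub_Ioi m hr
  rw [norm_div, Complex.norm_real, Real.norm_of_nonneg hr0.le, div_eq_mul_inv]
  have hB := h1.nonneg
  exact mul_le_mul (Ph_bd3 h1 h2 h3 _ _) (inv_le hr) (by positivity) (by positivity)

lemma Iv_meas (h1 : Good B f₁) (h2 : Good B f₂) (h3 : Good B f₃) (x : ℝ) (m : ℕ) :
    Measurable (Iv f₁ f₂ f₃ x m) := by
  have hc := (Ph_cont' h1 h2 h3 x).measurable
  have : StronglyMeasurable (fun p : ℝ × ℝ => Ph f₁ f₂ f₃ x (p.2 * p.1) / (p.2 : ℂ)) := by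
    refine Measurable.stronglyMeasurable ?_
    exact (hc.comp (measurable_snd.mul measurable_fst)).div
      (Complex.measurable_ofReal.comp measurable_snd)
  exact (this.integral_prod_right' (ν := volume.restrict (Ioo ((1 / 2 : ℝ) ^ m) (2 ^ m)))).measurable

lemma Jm_eq (h1 : Good B f₁) (h2 : Good B f₂) (h3 : Good B f₃) (x : ℝ) (m : ℕ) (w : ℝ) :
    Jm f₁ f₂ f₃ x m w = Iv f₁ f₂ f₃ x m w - Iv f₁ f₂ f₃ x m (-w) := by
  rw [Jm, Iv, Iv, ← integral_sub (Iv_int h1 h2 h3 x m w) (Iv_int h1 h2 h3 x m (-w))]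
  refine integral_congr_ae (ae_of_all _ fun r => ?_)
  simp only [mul_neg, sub_div]

/-- the box average with shift `β` -/
noncomputable def Ab (f₁ f₂ f₃ : ℝ → ℂ) (β : ℝ) (m : ℕ) (x : ℝ) : ℂ :=
  ∫ q in cube, ((ep4 q : ℝ) : ℂ) * Iv f₁ f₂ f₃ x m (β + ∑ i, q i)

/-- approximation of the principal value -/
noncomputable def Tm (f₁ f₂ f₃ : ℝ → ℂ) (m : ℕ) (x : ℝ) : ℂ :=
  Ab f₁ f₂ f₃ (-1 / 2) m x - Ab f₁ f₂ f₃ (-7 / 2) m x

lemma epI_int (h1 : Good B f₁) (h2 : Good B f₂) (h3 : Good B f₃) (x : ℝ) (m : ℕ)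
    {w : (Fin 4 → ℝ) → ℝ} (hw : Measurable w) :
    Integrable (fun q => ((ep4 q : ℝ) : ℂ) * Iv f₁ f₂ f₃ x m (w q)) (volume.restrict cube) := by
  refine Integrable.mono' (integrable_const (B ^ 3 * 2 ^ m *
    (volume.real (Ioo ((1 / 2 : ℝ) ^ m) (2 ^ m)))))
    (measurable_ep4c.mul ((Iv_meas h1 h2 h3 x m).comp hw)).aestronglyMeasurable
    (ae_of_all _ fun q => ?_)
  rw [norm_mul, Complex.norm_real, Real.norm_eq_abs, ep4_abs, one_mul]
  exact Iv_bd h1 h2 h3 x m _

lemma Tm_eq (h1 : Good B f₁) (h2 : Good B f₂) (h3 : Good B f₃) (x : ℝ) (m : ℕ) :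
    Tm f₁ f₂ f₃ m x = ∫ q in cube, ((ep4 q : ℝ) : ℂ) * Jm f₁ f₂ f₃ x m (wq q) := by
  have e : Ab f₁ f₂ f₃ (-7 / 2) m x =
      ∫ q in cube, ((ep4 q : ℝ) : ℂ) * Iv f₁ f₂ f₃ x m (-(wq q)) := by
    rw [Ab, ← cube_reflect (fun q => Iv f₁ f₂ f₃ x m (-7 / 2 + ∑ i, q i))]
    refine integral_congr_ae (ae_of_all _ fun q => ?_)
    have : -7 / 2 + ∑ i, (1 - q) i = -(wq q) := by
      simp only [wq, Pi.sub_apply, Pi.one_apply, Fin.sum_univ_four]
      ring
    simp only [this]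
  rw [Tm, e, Ab]
  have i1 := epI_int h1 h2 h3 x m (w := fun q => -1 / 2 + ∑ i, q i) measurable_wq
  have i2 := epI_int h1 h2 h3 x m (w := fun q => -(wq q)) measurable_wq.neg
  rw [← integral_sub i1 i2]
  refine integral_congr_ae (ae_of_all _ fun q => ?_)
  simp only
  rw [Jm_eq h1 h2 h3]
  simp only [wq]
  ring

lemma Jm_meas (h1 : Good B f₁) (h2 : Good B f₂) (h3 : Good B f₃) (x : ℝ) (m : ℕ) :
    Measurable (Jm f₁ f₂ f₃ x m) := by
  have : Jm f₁ f₂ f₃ x m = fun w => Iv f₁ f₂ f₃ x m w - Iv f₁ f₂ f₃ x m (-w) := by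
    funext w
    exact Jm_eq h1 h2 h3 x m w
  rw [this]
  exact (Iv_meas h1 h2 h3 x m).sub ((Iv_meas h1 h2 h3 x m).comp measurable_neg)

theorem Tm_tendsto (h1 : Good B f₁) (h2 : Good B f₂) (h3 : Good B f₃) (x : ℝ) :
    Tendsto (fun m => Tm f₁ f₂ f₃ m x) atTop (𝓝 ((c0 : ℂ) * PV f₁ f₂ f₃ x)) := by
  have hlim : (c0 : ℂ) * PV f₁ f₂ f₃ x = ∫ q in cube, ((ep4 q : ℝ) : ℂ) *
      (((Real.sign (wq q) : ℝ) : ℂ) * PV f₁ f₂ f₃ x) := by
    rw [c0]
    simp only [← mul_assoc]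
    rw [integral_mul_const]
    congr 1
    rw [← integral_complex_ofReal]
    refine integral_congr_ae (ae_of_all _ fun q => ?_)
    simp
  rw [hlim]
  simp only [Tm_eq h1 h2 h3]
  refine tendsto_integral_of_dominated_convergence
    (fun _ => ∫ r in Ioi (0 : ℝ), ‖Dx f₁ f₂ f₃ x r‖) ?_ (integrable_const _) ?_ ?_
  · intro m
    exact (measurable_ep4c.mul ((Jm_meas h1 h2 h3 x m).comp measurable_wq)).aestronglyMeasurable
  · intro m
    refine ae_of_all _ fun q => ?_
    rw [norm_mul, Complex.norm_real, Real.norm_eq_abs, ep4_abs, one_mul]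
    exact (Jm_tendsto h1 h2 h3 x _).2 m
  · refine ae_of_all _ fun q => ?_
    exact ((Jm_tendsto h1 h2 h3 x _).1).const_mul _

end

end Crest.Agent.R079.L0
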