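import Crest.Agent.R079.L0C_406

/-! R079, LAYER 0 (helper406), main file: `S0106 ⇐ BoxBound (-1/2) ∧ BoxBound (-7/2)`. -/

set_option autoImplicit false
set_option linter.unusedSectionVars false

open MeasureTheory Set Filter Topology

namespace Crest.Agent.R079.L0

section
variable {B : ℝ} {f₁ f₂ f₃ g : ℝ → ℂ}

/-- parameter space of the box averages -/
noncomputable def nu (m : ℕ) : Measure (ℝ × (Fin 4 → ℝ)) :=
  (volume.restrict (Ioo ((1 / 2 : ℝ) ^ m) (2 ^ m))).prod (volume.restrict cube)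

instance finI (m : ℕ) : IsFiniteMeasure (volume.restrict (Ioo ((1 / 2 : ℝ) ^ m) (2 ^ m))) := by
  constructor
  rw [Measure.restrict_apply_univ]
  simp

instance (m : ℕ) : IsFiniteMeasure (nu m) := by
  unfold nu
  infer_instance

/-- weight -/
noncomputable def Wz (z : ℝ × (Fin 4 → ℝ)) : ℂ := ((ep4 z.2 : ℝ) : ℂ) / (z.1 : ℂ)

lemma measurable_Wz : Measurable Wz :=
  (measurable_ep4c.comp measurable_snd).div (Complex.measurable_ofReal.comp measurable_fst)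

lemma measurable_tz (β : ℝ) : Measurable (fun z : ℝ × (Fin 4 → ℝ) => tq β z.1 z.2) := by
  unfold tq
  fun_prop

lemma Wz_bd (m : ℕ) : ∀ᵐ z ∂(nu m), ‖Wz z‖ ≤ (2 : ℝ) ^ m := by
  have hcube : MeasurableSet cube := measurableSet_Icc
  rw [nu, Measure.prod_restrict, ae_restrict_iff' (measurableSet_Ioo.prod hcube)]
  refine ae_of_all _ fun z hz => ?_
  have hr : z.1 ∈ Ioo ((1 / 2 : ℝ) ^ m) (2 ^ m) := hz.1
  have hr0 : 0 < z.1 := Ioo_sub_Ioi m hr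
  rw [Wz, norm_div, Complex.norm_real, Complex.norm_real, Real.norm_eq_abs, ep4_abs,
    Real.norm_of_nonneg hr0.le, one_div]
  exact inv_le hr

lemma WPh_int (h1 : Good B f₁) (h2 : Good B f₂) (h3 : Good B f₃) (β : ℝ) (m : ℕ) (x : ℝ) :
    Integrable (fun z => Wz z * Ph f₁ f₂ f₃ x (tq β z.1 z.2)) (nu m) := by
  refine Integrable.mono' (integrable_const ((2 : ℝ) ^ m * B ^ 3))
    (measurable_Wz.mul (((Ph_cont' h1 h2 h3 x).measurable).comp
      (measurable_tz β))).aestronglyMeasurable ?_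
  filter_upwards [Wz_bd m] with z hz
  rw [norm_mul]
  exact mul_le_mul hz (Ph_bd3 h1 h2 h3 _ _) (norm_nonneg _) (by positivity)

/-- the box average as one integral -/
lemma Ab_eq (h1 : Good B f₁) (h2 : Good B f₂) (h3 : Good B f₃) (β : ℝ) (m : ℕ) (x : ℝ) :
    Ab f₁ f₂ f₃ β m x = ∫ z, Wz z * Ph f₁ f₂ f₃ x (tq β z.1 z.2) ∂(nu m) := by
  have hi := WPh_int h1 h2 h3 β m x
  unfold nu at hi ⊢
  rw [integral_prod_symm _ hi]
  unfold Ab Iv
  refine integral_congr_ae (ae_of_all _ fun q => ?_)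
  simp only
  rw [← integral_const_mul]
  refine integral_congr_ae (ae_of_all _ fun r => ?_)
  simp only [Wz, tq]
  ring

lemma Ab_int (h1 : Good B f₁) (h2 : Good B f₂) (h3 : Good B f₃) (β : ℝ) (m : ℕ) :
    Integrable (Ab f₁ f₂ f₃ β m) := by
  have hmeas : Measurable (fun p : (ℝ × (Fin 4 → ℝ)) × ℝ =>
      Wz p.1 * Ph f₁ f₂ f₃ p.2 (tq β p.1.1 p.1.2)) := by
    refine (measurable_Wz.comp measurable_fst).mul ?_
    exact (Ph_cont h1 h2 h3).measurable.comp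
      (measurable_snd.prodMk ((measurable_tz β).comp measurable_fst))
  have h1' : ∀ x : ℝ, ‖(fun _ : ℝ => (1 : ℂ)) x‖ ≤ 1 := fun x => by simp
  have i1 : ∀ t : ℝ, Integrable fun x => Ph f₁ f₂ f₃ x t := fun t => by
    have := int_gPh h1 h2 h3 (g := fun _ => 1) measurable_const h1' t
    simpa using this
  have i2 : ∀ t : ℝ, ∫ x, ‖Ph f₁ f₂ f₃ x t‖ ≤ B ^ 2 * ∫ x, ‖f₁ x‖ := fun t => by
    have := int_norm_gPh h1 h2 h3 (g := fun _ => 1) measurable_const h1' t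
    simpa using this
  have hint : Integrable (fun p : (ℝ × (Fin 4 → ℝ)) × ℝ =>
      Wz p.1 * Ph f₁ f₂ f₃ p.2 (tq β p.1.1 p.1.2)) ((nu m).prod volume) := by
    rw [integrable_prod_iff hmeas.aestronglyMeasurable]
    refine ⟨ae_of_all _ fun z => (i1 (tq β z.1 z.2)).const_mul (Wz z), ?_⟩
    refine Integrable.mono' (integrable_const ((2 : ℝ) ^ m * (B ^ 2 * ∫ x, ‖f₁ x‖)))
      hmeas.aestronglyMeasurable.norm.integral_prod_right' ?_
    filter_upwards [Wz_bd m] with z hz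
    rw [Real.norm_of_nonneg (integral_nonneg fun x => norm_nonneg _)]
    simp only [norm_mul (Wz z)]
    rw [integral_const_mul]
    exact mul_le_mul hz (i2 (tq β z.1 z.2)) (integral_nonneg fun x => norm_nonneg _)
      (by positivity)
  have h := hint.integral_prod_right
  refine h.congr (ae_of_all _ fun x => ?_)
  exact (Ab_eq h1 h2 h3 β m x).symm

lemma Tm_int (h1 : Good B f₁) (h2 : Good B f₂) (h3 : Good B f₃) (m : ℕ) :
    Integrable (Tm f₁ f₂ f₃ m) :=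
  (Ab_int h1 h2 h3 _ m).sub (Ab_int h1 h2 h3 _ m)

lemma Ab_meas (h1 : Good B f₁) (h2 : Good B f₂) (h3 : Good B f₃) (β : ℝ) (m : ℕ) :
    Measurable (Ab f₁ f₂ f₃ β m) := by
  have hmeas : StronglyMeasurable (fun p : ℝ × (ℝ × (Fin 4 → ℝ)) =>
      Wz p.2 * Ph f₁ f₂ f₃ p.1 (tq β p.2.1 p.2.2)) := by
    refine Measurable.stronglyMeasurable ?_
    refine (measurable_Wz.comp measurable_snd).mul ?_
    exact (Ph_cont h1 h2 h3).measurable.comp
      (measurable_fst.prodMk ((measurable_tz β).comp measurable_snd))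
  have h := (hmeas.integral_prod_right' (ν := nu m)).measurable
  have e : Ab f₁ f₂ f₃ β m = fun x => ∫ z, Wz z * Ph f₁ f₂ f₃ x (tq β z.1 z.2) ∂(nu m) := by
    funext x
    exact Ab_eq h1 h2 h3 β m x
  rw [e]
  exact h

lemma Tm_meas (h1 : Good B f₁) (h2 : Good B f₂) (h3 : Good B f₃) (m : ℕ) :
    Measurable (Tm f₁ f₂ f₃ m) :=
  (Ab_meas h1 h2 h3 _ m).sub (Ab_meas h1 h2 h3 _ m)

/-- the total box form at scale `r` -/
noncomputable def Gr (f₁ f₂ f₃ g : ℝ → ℂ) (β r : ℝ) : ℂ :=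
  ∫ q in cube, ((ep4 q : ℝ) : ℂ) * Hf f₁ f₂ f₃ g (tq β r q)

lemma Gr_meas (h1 : Good B f₁) (h2 : Good B f₂) (h3 : Good B f₃) (hg : Measurable g) (β : ℝ) :
    Measurable (Gr f₁ f₂ f₃ g β) := by
  have hmeas : StronglyMeasurable (fun p : ℝ × (Fin 4 → ℝ) =>
      ((ep4 p.2 : ℝ) : ℂ) * Hf f₁ f₂ f₃ g (tq β p.1 p.2)) := by
    refine Measurable.stronglyMeasurable ?_
    refine (measurable_ep4c.comp measurable_snd).mul ?_
    exact (Hf_meas h1 h2 h3 hg).measurable.comp (measurable_tz β)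
  exact (hmeas.integral_prod_right' (ν := volume.restrict cube)).measurable

lemma Gr_bd (h1 : Good B f₁) (h2 : Good B f₂) (h3 : Good B f₃) (hg : Measurable g)
    (hg1 : ∀ x, ‖g x‖ ≤ 1) (β r : ℝ) :
    ‖Gr f₁ f₂ f₃ g β r‖ ≤ (B ^ 2 * ∫ x, ‖f₁ x‖) * volume.real cube := by
  have hfin : volume cube < ⊤ := isCompact_Icc.measure_lt_top
  refine norm_setIntegral_le_of_norm_le_const hfin fun q _ => ?_
  rw [norm_mul, Complex.norm_real, Real.norm_eq_abs, ep4_abs, one_mul]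
  exact Hf_bd h1 h2 h3 hg hg1 _

lemma pair_Ab (h1 : Good B f₁) (h2 : Good B f₂) (h3 : Good B f₃) (hg : Measurable g)
    (hg1 : ∀ x, ‖g x‖ ≤ 1) (β : ℝ) (m : ℕ) :
    ∫ x : ℝ, g x * Ab f₁ f₂ f₃ β m x =
      ∫ r in Ioo ((1 / 2 : ℝ) ^ m) (2 ^ m), Gr f₁ f₂ f₃ g β r / (r : ℂ) := by
  have e1 : ∫ x : ℝ, g x * Ab f₁ f₂ f₃ β m x =
      ∫ z, Wz z * Hf f₁ f₂ f₃ g (tq β z.1 z.2) ∂(nu m) := by
    rw [← fubini_param (nu m) measurable_Wz (measurable_tz β) (by positivity) (Wz_bd m)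
      h1 h2 h3 hg hg1]
    refine integral_congr_ae (ae_of_all _ fun x => ?_)
    simp only
    rw [Ab_eq h1 h2 h3]
  have hi : Integrable (fun z => Wz z * Hf f₁ f₂ f₃ g (tq β z.1 z.2)) (nu m) := by
    refine Integrable.mono' (integrable_const ((2 : ℝ) ^ m * (B ^ 2 * ∫ x, ‖f₁ x‖)))
      (measurable_Wz.mul (((Hf_meas h1 h2 h3 hg).measurable).comp
        (measurable_tz β))).aestronglyMeasurable ?_
    filter_upwards [Wz_bd m] with z hz
    rw [norm_mul]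
    exact mul_le_mul hz (Hf_bd h1 h2 h3 hg hg1 _) (norm_nonneg _) (by positivity)
  rw [e1]
  unfold nu at hi ⊢
  rw [integral_prod _ hi]
  refine integral_congr_ae (ae_of_all _ fun r => ?_)
  simp only [Gr]
  rw [div_eq_mul_inv, ← integral_mul_const]
  refine integral_congr_ae (ae_of_all _ fun q => ?_)
  simp only [Wz]
  ring

/-! ### dyadic decomposition -/

lemma sum_Ico_eq {E : Type*} [AddCommMonoid E] (m : ℕ) (F : ℤ → E) :
    ∑ k ∈ Finset.Ico (-(m : ℤ)) m, F k = ∑ j ∈ Finset.range (2 * m), F ((j : ℤ) - m) := by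
  refine Finset.sum_nbij' (fun k => (k + m).toNat) (fun j => (j : ℤ) - m) ?_ ?_ ?_ ?_ ?_
  · intro k hk
    simp only [Finset.mem_Ico, Finset.mem_range] at hk ⊢
    omega
  · intro j hj
    simp only [Finset.mem_Ico, Finset.mem_range] at hj ⊢
    omega
  · intro k hk
    simp only [Finset.mem_Ico] at hk
    omega
  · intro j hj
    omega
  · intro k hk
    simp only [Finset.mem_Ico] at hk
    congr 1
    omega

/-- dyadic decomposition of `∫ G(r) dr/r` -/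
theorem dyadic {G : ℝ → ℂ} (hG : Measurable G) {M : ℝ} (hGM : ∀ r, ‖G r‖ ≤ M) (m : ℕ) :
    ∫ r in Ioo ((1 / 2 : ℝ) ^ m) (2 ^ m), G r / (r : ℂ) =
      ∫ ρ in (1 : ℝ)..2, (∑ k ∈ Finset.Ico (-(m : ℤ)) m, G (ρ * (2 : ℝ) ^ k)) / (ρ : ℂ) := by
  have hint : ∀ a b : ℝ, 0 < a → 0 < b → IntervalIntegrable (fun r : ℝ => G r / (r : ℂ))
      volume a b := by
    intro a b ha hb
    refine (intervalIntegrable_const (c := M / min a b)).mono_fun
      (hG.div Complex.measurable_ofReal).aestronglyMeasurable ?_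
    refine (ae_restrict_iff' measurableSet_uIoc).2 (ae_of_all _ fun r hr => ?_)
    have hr1 : min a b < r := hr.1
    have hm : 0 < min a b := lt_min ha hb
    have hr0 : 0 < r := hm.trans hr1
    have hM : 0 ≤ M := (norm_nonneg _).trans (hGM 0)
    show ‖G r / (r : ℂ)‖ ≤ ‖M / min a b‖
    rw [norm_div, Complex.norm_real, Real.norm_of_nonneg hr0.le, Real.norm_of_nonneg
      (div_nonneg hM hm.le)]
    exact div_le_div₀ hM (hGM r) hm hr1.le
  have h2p : ∀ k : ℤ, 0 < (2 : ℝ) ^ k := fun k => zpow_pos (by norm_num) k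
  have e0 : ((1 / 2 : ℝ) ^ m) = (2 : ℝ) ^ (((0 : ℕ) : ℤ) - m) := by
    rw [Nat.cast_zero, zero_sub, zpow_neg, zpow_natCast, one_div, inv_pow]
  have e1 : (2 : ℝ) ^ m = (2 : ℝ) ^ (((2 * m : ℕ) : ℤ) - m) := by
    rw [← zpow_natCast]
    congr 1
    push_cast
    ring
  have hle : ((1 / 2 : ℝ) ^ m) ≤ 2 ^ m := by
    have h1 : (1 / 2 : ℝ) ^ m ≤ 1 := pow_le_one₀ (by norm_num) (by norm_num)
    have h2 : (1 : ℝ) ≤ 2 ^ m := one_le_pow₀ (by norm_num)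
    exact h1.trans h2
  rw [← integral_Ioc_eq_integral_Ioo, ← intervalIntegral.integral_of_le hle]
  have hstep : ∀ k : ℤ, ∫ r in ((2 : ℝ) ^ k)..((2 : ℝ) ^ (k + 1)), G r / (r : ℂ) =
      ∫ ρ in (1 : ℝ)..2, G (ρ * (2 : ℝ) ^ k) / (ρ : ℂ) := by
    intro k
    have hc := h2p k
    have h := intervalIntegral.integral_comp_mul_right (a := 1) (b := 2)
      (fun r : ℝ => G r / (r : ℂ)) hc.ne'
    have h2 : (2 : ℝ) * 2 ^ k = 2 ^ (k + 1) := by
      rw [zpow_add₀ (by norm_num), zpow_one]; ring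
    rw [one_mul, h2] at h
    have h3 : ∫ r in ((2 : ℝ) ^ k)..((2 : ℝ) ^ (k + 1)), G r / (r : ℂ) =
        ((2 : ℝ) ^ k) • ∫ ρ in (1 : ℝ)..2, G (ρ * (2 : ℝ) ^ k) / ((ρ * (2 : ℝ) ^ k : ℝ) : ℂ) := by
      rw [h, smul_smul, mul_inv_cancel₀ hc.ne', one_smul]
    rw [h3, ← intervalIntegral.integral_smul]
    refine intervalIntegral.integral_congr_ae (ae_of_all _ fun ρ hρ => ?_)
    rw [uIoc_of_le (by norm_num)] at hρ
    have hρ0 : (ρ : ℂ) ≠ 0 := by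
      have : (0 : ℝ) < ρ := lt_trans one_pos hρ.1
      exact_mod_cast this.ne'
    have hc' : (((2 : ℝ) ^ k : ℝ) : ℂ) ≠ 0 := by exact_mod_cast hc.ne'
    rw [Complex.real_smul, Complex.ofReal_mul]
    field_simp
  have hsum := intervalIntegral.sum_integral_adjacent_intervals (μ := volume)
    (f := fun r : ℝ => G r / (r : ℂ)) (a := fun j : ℕ => (2 : ℝ) ^ ((j : ℤ) - m)) (n := 2 * m)
    (fun k _ => hint _ _ (h2p _) (h2p _))
  rw [e0, e1, ← hsum]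
  have hterm : ∀ k ∈ Finset.range (2 * m),
      ∫ r in ((2 : ℝ) ^ ((k : ℤ) - m))..((2 : ℝ) ^ (((k + 1 : ℕ) : ℤ) - m)), G r / (r : ℂ) =
        ∫ ρ in (1 : ℝ)..2, G (ρ * (2 : ℝ) ^ ((k : ℤ) - m)) / (ρ : ℂ) := by
    intro k _
    have : (((k + 1 : ℕ) : ℤ) - m) = ((k : ℤ) - m) + 1 := by push_cast; ring
    rw [this]
    exact hstep _
  rw [Finset.sum_congr rfl hterm]
  rw [← intervalIntegral.integral_finsetSum]
  · refine intervalIntegral.integral_congr_ae (ae_of_all _ fun ρ _ => ?_)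
    rw [sum_Ico_eq, Finset.sum_div]
  · intro k _
    refine (intervalIntegrable_const (c := M)).mono_fun
      ((hG.comp (measurable_id.mul_const _)).div
        Complex.measurable_ofReal).aestronglyMeasurable ?_
    refine (ae_restrict_iff' measurableSet_uIoc).2 (ae_of_all _ fun r hr => ?_)
    rw [uIoc_of_le (by norm_num)] at hr
    have hM : 0 ≤ M := (norm_nonneg _).trans (hGM 0)
    have hr0 : (0 : ℝ) < r := lt_trans one_pos hr.1
    show ‖G (r * (2 : ℝ) ^ ((k : ℤ) - m)) / (r : ℂ)‖ ≤ ‖M‖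
    rw [norm_div, Complex.norm_real, Real.norm_of_nonneg hr0.le, Real.norm_of_nonneg hM]
    exact (div_le_self (norm_nonneg _) hr.1.le).trans (hGM _)

lemma dyadic_bound {G : ℝ → ℂ} (hG : Measurable G) {M : ℝ} (hGM : ∀ r, ‖G r‖ ≤ M) (m : ℕ)
    {K : ℝ} (hK : ∀ ρ ∈ Icc (1 : ℝ) 2,
      ‖∑ k ∈ Finset.Ico (-(m : ℤ)) m, G (ρ * (2 : ℝ) ^ k)‖ ≤ K) :
    ‖∫ r in Ioo ((1 / 2 : ℝ) ^ m) (2 ^ m), G r / (r : ℂ)‖ ≤ K := by
  rw [dyadic hG hGM m]
  have h := intervalIntegral.norm_integral_le_of_norm_le_const (a := 1) (b := 2) (C := K)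
    (f := fun ρ : ℝ => (∑ k ∈ Finset.Ico (-(m : ℤ)) m, G (ρ * (2 : ℝ) ^ k)) / (ρ : ℂ))
    (fun ρ hρ => by
      rw [uIoc_of_le (by norm_num)] at hρ
      have hr0 : (0 : ℝ) < ρ := lt_trans one_pos hρ.1
      rw [norm_div, Complex.norm_real, Real.norm_of_nonneg hr0.le]
      exact (div_le_self (norm_nonneg _) hρ.1.le).trans (hK ρ ⟨hρ.1.le, hρ.2⟩))
  refine h.trans (le_of_eq ?_)
  norm_num

end

/-- one half of the pairing -/
lemma pair_bound {β C : ℝ} (f₁ f₂ f₃ : SchwartzMap ℝ ℂ) {B : ℝ}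
    (h1 : Good B f₁) (h2 : Good B f₂) (h3 : Good B f₃) {g : ℝ → ℂ} (hg : Measurable g)
    (hg1 : ∀ x, ‖g x‖ ≤ 1) (m : ℕ)
    (hC : ∀ ρ ∈ Icc (1 : ℝ) 2,
      ‖∑ k ∈ Finset.Ico (-(m : ℤ)) m, ∫ s : ℝ, Lb β (ρ * (2 : ℝ) ^ k) s ![f₁, f₂, f₃, g]‖ ≤ C) :
    ‖∫ x : ℝ, g x * Ab f₁ f₂ f₃ β m x‖ ≤ C := by
  rw [pair_Ab h1 h2 h3 hg hg1]
  refine dyadic_bound (Gr_meas h1 h2 h3 hg β) (Gr_bd h1 h2 h3 hg hg1 β) m fun ρ hρ => ?_
  have := hC ρ hρ
  simp only [int_Lb h1 h2 h3 hg hg1] at this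
  exact this

theorem s0106_of_boxBound (hB1 : BoxBound (-1 / 2)) (hB2 : BoxBound (-7 / 2)) : Target := by
  obtain ⟨C1, hC1, H1⟩ := hB1
  obtain ⟨C2, hC2, H2⟩ := hB2
  refine ⟨(C1 + C2) / |c0|, fun f₁ f₂ f₃ Tv hTv => ?_⟩
  obtain ⟨b1, g1⟩ := good_schwartz f₁
  obtain ⟨b2, g2⟩ := good_schwartz f₂
  obtain ⟨b3, g3⟩ := good_schwartz f₃
  let B : ℝ := max b1 (max b2 b3)
  have h1 : Good B f₁ := g1.mono (le_max_left _ _)
  have h2 : Good B f₂ := g2.mono ((le_max_left _ _).trans (le_max_right _ _))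
  have h3 : Good B f₃ := g3.mono ((le_max_right _ _).trans (le_max_right _ _))
  set F3 : ℝ := n3 f₁ * n3 f₂ * n3 f₃ with hF3
  have hF3' : 0 ≤ F3 := by
    have : ∀ f : ℝ → ℂ, 0 ≤ n3 f := fun f => ENNReal.toReal_nonneg
    exact mul_nonneg (mul_nonneg (this _) (this _)) (this _)
  have hPV : Tv = PV f₁ f₂ f₃ := by
    funext x
    exact eq_PV h1 h2 h3 x (hTv x)
  have hc0 : c0 ≠ 0 := c0_neg.ne
  have hc0' : 0 < |c0| := abs_pos.2 hc0
  -- uniform bound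
  have hT : ∀ m : ℕ, ∫ x, ‖Tm f₁ f₂ f₃ m x‖ ≤ (C1 + C2) * F3 := by
    intro m
    let g : ℝ → ℂ := fun x => (starRingEnd ℂ) (Tm f₁ f₂ f₃ m x) / ((‖Tm f₁ f₂ f₃ m x‖ : ℝ) : ℂ)
    have hTmm := Tm_meas h1 h2 h3 m
    have hg : Measurable g :=
      (Complex.continuous_conj.measurable.comp hTmm).div
        (Complex.measurable_ofReal.comp hTmm.norm)
    have hg1 : ∀ x, ‖g x‖ ≤ 1 := by
      intro x
      simp only [g, norm_div, RCLike.norm_conj, Complex.norm_real, norm_norm]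
      exact div_self_le_one _
    have hgT : ∀ x, g x * Tm f₁ f₂ f₃ m x = ((‖Tm f₁ f₂ f₃ m x‖ : ℝ) : ℂ) := by
      intro x
      simp only [g]
      by_cases h0 : Tm f₁ f₂ f₃ m x = 0
      · simp [h0]
      · have hn : ((‖Tm f₁ f₂ f₃ m x‖ : ℝ) : ℂ) ≠ 0 := by
          exact_mod_cast (norm_pos_iff.2 h0).ne'
        rw [div_mul_eq_mul_div, mul_comm, Complex.mul_conj, Complex.normSq_eq_norm_sq]
        push_cast
        field_simp
    have e : ((∫ x, ‖Tm f₁ f₂ f₃ m x‖ : ℝ) : ℂ) = ∫ x, g x * Tm f₁ f₂ f₃ m x := by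
      rw [← integral_complex_ofReal]
      exact integral_congr_ae (ae_of_all _ fun x => (hgT x).symm)
    have hi : ∀ β, Integrable fun x => g x * Ab f₁ f₂ f₃ β m x := fun β => by
      refine Integrable.mono' (Ab_int h1 h2 h3 β m).norm
        (hg.mul (Ab_meas h1 h2 h3 β m)).aestronglyMeasurable (ae_of_all _ fun x => ?_)
      rw [norm_mul]
      exact mul_le_of_le_one_left (norm_nonneg _) (hg1 x)
    have e2 : ∫ x, g x * Tm f₁ f₂ f₃ m x =
        (∫ x, g x * Ab f₁ f₂ f₃ (-1 / 2) m x) - ∫ x, g x * Ab f₁ f₂ f₃ (-7 / 2) m x := by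
      rw [← integral_sub (hi _) (hi _)]
      refine integral_congr_ae (ae_of_all _ fun x => ?_)
      simp only [Tm, mul_sub]
    have hnn : 0 ≤ ∫ x, ‖Tm f₁ f₂ f₃ m x‖ := integral_nonneg fun x => norm_nonneg _
    calc ∫ x, ‖Tm f₁ f₂ f₃ m x‖ = ‖((∫ x, ‖Tm f₁ f₂ f₃ m x‖ : ℝ) : ℂ)‖ := by
          rw [Complex.norm_real, Real.norm_of_nonneg hnn]
      _ = ‖(∫ x, g x * Ab f₁ f₂ f₃ (-1 / 2) m x) - ∫ x, g x * Ab f₁ f₂ f₃ (-7 / 2) m x‖ := by
          rw [e, e2]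
      _ ≤ ‖∫ x, g x * Ab f₁ f₂ f₃ (-1 / 2) m x‖ + ‖∫ x, g x * Ab f₁ f₂ f₃ (-7 / 2) m x‖ :=
          norm_sub_le _ _
      _ ≤ C1 * F3 + C2 * F3 := by
          refine add_le_add ?_ ?_
          · exact pair_bound f₁ f₂ f₃ h1 h2 h3 hg hg1 m fun ρ hρ => H1 f₁ f₂ f₃ g hg hg1 ρ hρ m
          · exact pair_bound f₁ f₂ f₃ h1 h2 h3 hg hg1 m fun ρ hρ => H2 f₁ f₂ f₃ g hg hg1 ρ hρ m
      _ = (C1 + C2) * F3 := by ring
  have hT' : ∀ m : ℕ, eLpNorm (Tm f₁ f₂ f₃ m) 1 volume ≤ ENNReal.ofReal ((C1 + C2) * F3) := by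
    intro m
    rw [eLpNorm_one_eq_lintegral_enorm]
    rw [← ofReal_integral_norm_eq_lintegral_enorm (Tm_int h1 h2 h3 m)]
    exact ENNReal.ofReal_le_ofReal (hT m)
  have hfat := Lp.eLpNorm_lim_le_liminf_eLpNorm (p := 1) (μ := volume)
    (f := fun m => Tm f₁ f₂ f₃ m)
    (fun m => (Tm_meas h1 h2 h3 m).aestronglyMeasurable)
    (fun x => (c0 : ℂ) * PV f₁ f₂ f₃ x)
    (ae_of_all _ fun x => Tm_tendsto h1 h2 h3 x)
  have hlim : eLpNorm (fun x => (c0 : ℂ) * PV f₁ f₂ f₃ x) 1 volume ≤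
      ENNReal.ofReal ((C1 + C2) * F3) := by
    refine hfat.trans ?_
    refine liminf_le_of_frequently_le' ?_
    exact Frequently.of_forall fun m => hT' m
  have hTvc : Tv = fun x => ((c0 : ℂ))⁻¹ • ((c0 : ℂ) * PV f₁ f₂ f₃ x) := by
    rw [hPV]
    funext x
    have : (c0 : ℂ) ≠ 0 := by exact_mod_cast hc0
    rw [smul_eq_mul]
    field_simp
  have hn3 : ∀ f : SchwartzMap ℝ ℂ, ENNReal.ofReal (n3 f) = eLpNorm (⇑f) 3 volume := fun f =>
    ENNReal.ofReal_toReal (f.eLpNorm_lt_top 3 volume).ne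
  have hn3' : ∀ f : ℝ → ℂ, 0 ≤ n3 f := fun f => ENNReal.toReal_nonneg
  calc eLpNorm Tv 1 volume
      = eLpNorm (((c0 : ℂ))⁻¹ • fun x => (c0 : ℂ) * PV f₁ f₂ f₃ x) 1 volume := by
        rw [hTvc]
        rfl
    _ = ‖((c0 : ℂ))⁻¹‖ₑ * eLpNorm (fun x => (c0 : ℂ) * PV f₁ f₂ f₃ x) 1 volume :=
        eLpNorm_const_smul _ _ _ _
    _ ≤ ENNReal.ofReal (|c0|⁻¹) * ENNReal.ofReal ((C1 + C2) * F3) := by
        refine mul_le_mul' (le_of_eq ?_) hlim
        rw [← ofReal_norm, norm_inv, Complex.norm_real, Real.norm_eq_abs]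
    _ = ENNReal.ofReal ((C1 + C2) / |c0| * F3) := by
        rw [← ENNReal.ofReal_mul (by positivity)]
        congr 1
        rw [div_eq_mul_inv]
        ring
    _ = ENNReal.ofReal ((C1 + C2) / |c0|) * (eLpNorm (⇑f₁) 3 volume * eLpNorm (⇑f₂) 3 volume *
          eLpNorm (⇑f₃) 3 volume) := by
        rw [ENNReal.ofReal_mul (div_nonneg (add_nonneg hC1 hC2) hc0'.le), hF3,
          ENNReal.ofReal_mul (mul_nonneg (hn3' _) (hn3' _)), ENNReal.ofReal_mul (hn3' _),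
          hn3, hn3, hn3]

end Crest.Agent.R079.L0
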