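import Crest.Agent.R079.BoxDefs_406
import Crest.Agent.R079.GridDefs_569
import Crest.Agent.R079.Grid_569

/-! R079 SPINE (helper796): literal `S0106` from the block Props.

Chain:
`BBFinite --(L0e, 944+292)--> GridBound --(L0d, 569: PROVED)--> Grid.LatBound
   --(L0z, 133)--> BoxBound (-1/2), (-7/2) --(L0a-c, 406)--> Target = S0106`. -/

set_option autoImplicit false

namespace Crest.Agent.R079.Spine

/-- **L0e** (944 + 292) -/
def L0eProp : Prop := Grid.BBFinite → Grid.GridBound

/-- **L0z** (133, second 815) -/
def L0zProp : Prop := Grid.LatBound → L0.BoxBound (-1 / 2) ∧ L0.BoxBound (-7 / 2)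

/-- **L0a-c** (406) -/
def L0aProp : Prop := L0.BoxBound (-1 / 2) → L0.BoxBound (-7 / 2) → L0.Target

/-- literal `S0106` from the local `L²` bound on all tree regions. -/
theorem target_of_BBFinite (he : L0eProp) (hz : L0zProp) (ha : L0aProp) (h : Grid.BBFinite) :
    L0.Target := by
  have h1 := hz (Grid.latBound_of_gridBound (he h))
  exact ha h1.1 h1.2

/-- literal `S0106` from `GridBound` (independent of the form of the local bound). -/
theorem target_of_GridBound (hz : L0zProp) (ha : L0aProp) (h : Grid.GridBound) :
    L0.Target := by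
  have h1 := hz (Grid.latBound_of_gridBound h)
  exact ha h1.1 h1.2

end Crest.Agent.R079.Spine
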