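import Crest.Agent.R079.LogDet_378

/-!
# R079: the log-det potential at threshold `t` and its Bregman divergence (helper378)
-/

set_option autoImplicit false
set_option linter.unusedSectionVars false
set_option linter.unusedVariables false
set_option linter.dupNamespace false

namespace Crest.Agent.R079.LD

open Matrix
open Crest.Agent.R072 Crest.Agent.R072.Nd Crest.Agent.R079.Path
open scoped MatrixOrder

variable {n m : Type*} [Fintype n] [DecidableEq n] [Fintype m] [DecidableEq m]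

/-- `M (t+M)⁻¹` -/
noncomputable def gt (t : ℝ) (M : Matrix n n ℝ) : Matrix n n ℝ := gm (t⁻¹ • M)

/-- Bregman divergence of `LD t` -/
noncomputable def bregLD (t : ℝ) (Y X : Matrix n n ℝ) : ℝ :=
  LD t Y - LD t X - trace (gt t X * (t⁻¹ • (Y - X)))

theorem inv_smul_nonneg {t : ℝ} (ht : 0 < t) {M : Matrix n n ℝ} (hM : 0 ≤ M) : 0 ≤ t⁻¹ • M :=
  psd_smul' hM (by positivity)

theorem LD_eq {t : ℝ} (M : Matrix n n ℝ) :
    LD t M = t⁻¹ * trace M - Real.log (det (1 + t⁻¹ • M)) := by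
  unfold LD LD1
  rw [trace_smul, smul_eq_mul]

theorem LD_nonneg {t : ℝ} (ht : 0 < t) {M : Matrix n n ℝ} (hM : 0 ≤ M) : 0 ≤ LD t M :=
  LD1_nonneg (inv_smul_nonneg ht hM)

theorem LD_zero (t : ℝ) : LD t (0 : Matrix n n ℝ) = 0 := by
  unfold LD
  rw [smul_zero, LD1_zero]

theorem LD_le_trace {t : ℝ} (ht : 0 < t) {M : Matrix n n ℝ} (hM : 0 ≤ M) :
    LD t M ≤ t⁻¹ * trace M := by
  have h := LD1_le_trace (inv_smul_nonneg ht hM)
  rwa [trace_smul, smul_eq_mul] at h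

theorem LD_le_sq {t : ℝ} (ht : 0 < t) {M : Matrix n n ℝ} (hM : 0 ≤ M) :
    LD t M ≤ (t⁻¹) ^ 2 * trace (M * M) := by
  have h := LD1_le_trace_sq (inv_smul_nonneg ht hM)
  rw [Matrix.smul_mul, Matrix.mul_smul, smul_smul, trace_smul, smul_eq_mul] at h
  rw [sq]
  exact h

theorem smul_mid {t : ℝ} (X Y : Matrix n n ℝ) :
    t⁻¹ • ((1 / 2 : ℝ) • (X + Y)) = (1 / 2 : ℝ) • (t⁻¹ • X + t⁻¹ • Y) := by
  rw [smul_comm, smul_add]

theorem LD_mid_le {t : ℝ} (ht : 0 < t) {X Y : Matrix n n ℝ} (hX : 0 ≤ X) (hY : 0 ≤ Y) :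
    LD t ((1 / 2 : ℝ) • (X + Y)) ≤ (1 / 2) * (LD t X + LD t Y) := by
  unfold LD
  rw [smul_mid]
  exact LD1_mid_le (inv_smul_nonneg ht hX) (inv_smul_nonneg ht hY)

theorem gapLD_nonneg {t : ℝ} (ht : 0 < t) {X Y : Matrix n n ℝ} (hX : 0 ≤ X) (hY : 0 ≤ Y) :
    0 ≤ gapLD t X Y := by
  have := LD_mid_le ht hX hY
  unfold gapLD
  linarith

theorem gapLD_comm (t : ℝ) (X Y : Matrix n n ℝ) : gapLD t X Y = gapLD t Y X := by
  unfold gapLD
  rw [add_comm X Y]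
  ring

theorem LD_two_le {t : ℝ} (ht : 0 < t) {M : Matrix n n ℝ} (hM : 0 ≤ M) :
    LD t ((2 : ℝ) • M) ≤ 4 * LD t M := by
  unfold LD
  rw [smul_comm]
  exact LD1_two_le (inv_smul_nonneg ht hM)

theorem LD_add_le {t : ℝ} (ht : 0 < t) {X Y : Matrix n n ℝ} (hX : 0 ≤ X) (hY : 0 ≤ Y) :
    LD t (X + Y) ≤ 2 * (LD t X + LD t Y) := by
  unfold LD
  rw [smul_add]
  exact LD1_add_le (inv_smul_nonneg ht hX) (inv_smul_nonneg ht hY)

theorem LD_mono {t : ℝ} (ht : 0 < t) {X Y : Matrix n n ℝ} (hX : 0 ≤ X) (h : X ≤ Y) :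
    LD t X ≤ LD t Y := by
  refine LD1_mono (inv_smul_nonneg ht hX) ?_
  rw [← sub_nonneg, ← smul_sub]
  exact inv_smul_nonneg ht (sub_nonneg.mpr h)

theorem LD_superadd_gap {t : ℝ} (ht : 0 < t) {M N : Matrix n n ℝ} (hM : 0 ≤ M) (hN : 0 ≤ N) :
    trace (gt t M * gt t N) ≤ LD t (M + N) - LD t M - LD t N := by
  unfold LD gt
  rw [smul_add]
  exact LD1_superadd_gap (inv_smul_nonneg ht hM) (inv_smul_nonneg ht hN)

theorem LD_superadd {t : ℝ} (ht : 0 < t) {M N : Matrix n n ℝ} (hM : 0 ≤ M) (hN : 0 ≤ N) :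
    LD t M + LD t N ≤ LD t (M + N) := by
  unfold LD
  rw [smul_add]
  exact LD1_superadd (inv_smul_nonneg ht hM) (inv_smul_nonneg ht hN)

theorem LD_conj {t : ℝ} {U M : Matrix n n ℝ} (hU2 : U * U = 1) : LD t (U * M * U) = LD t M := by
  unfold LD
  rw [show t⁻¹ • (U * M * U) = U * (t⁻¹ • M) * U by rw [Matrix.mul_smul, Matrix.smul_mul]]
  exact LD1_conj hU2

theorem LD_fromBlocks {t : ℝ} (ht : 0 < t) {P : Matrix n n ℝ} {S : Matrix m m ℝ} (hP : 0 ≤ P)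
    (hS : 0 ≤ S) : LD t (fromBlocks P 0 0 S) = LD t P + LD t S := by
  unfold LD
  rw [fromBlocks_smul, smul_zero, smul_zero]
  exact LD1_fromBlocks (inv_smul_nonneg ht hP) (inv_smul_nonneg ht hS)

theorem LD_submatrix (t : ℝ) (e : m ≃ n) (M : Matrix n n ℝ) :
    LD t (M.submatrix e e) = LD t M := by
  unfold LD
  exact LD1_submatrix e (t⁻¹ • M)

theorem half_inv_smul (t : ℝ) (M : Matrix n n ℝ) : (t / 2)⁻¹ • M = (2 : ℝ) • (t⁻¹ • M) := by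
  rw [smul_smul]
  congr 1
  rw [inv_div]
  ring

theorem LD_half_eq (t : ℝ) (M : Matrix n n ℝ) : LD (t / 2) M = LD t ((2 : ℝ) • M) := by
  unfold LD
  rw [half_inv_smul, smul_comm]

theorem LD_half_le {t : ℝ} (ht : 0 < t) {M : Matrix n n ℝ} (hM : 0 ≤ M) :
    LD (t / 2) M ≤ 4 * LD t M := by
  rw [LD_half_eq]
  exact LD_two_le ht hM

theorem gapLD_half (t : ℝ) (X Y : Matrix n n ℝ) :
    gapLD (t / 2) X Y = gap1 ((2 : ℝ) • (t⁻¹ • X)) ((2 : ℝ) • (t⁻¹ • Y)) := by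
  unfold gapLD gap1 LD
  rw [half_inv_smul, half_inv_smul, half_inv_smul]
  congr 3
  module

/-- gap of sums, thresholds `t` and `t/2` -/
theorem gapLD_add_le {t : ℝ} (ht : 0 < t) {a1 a2 b1 b2 : Matrix n n ℝ} (ha1 : 0 ≤ a1)
    (ha2 : 0 ≤ a2) (hb1 : 0 ≤ b1) (hb2 : 0 ≤ b2) :
    gapLD t (a1 + b1) (a2 + b2) ≤ gapLD (t / 2) a1 a2 + gapLD (t / 2) b1 b2 := by
  have h := gap1_add_le (inv_smul_nonneg ht ha1) (inv_smul_nonneg ht ha2)
    (inv_smul_nonneg ht hb1) (inv_smul_nonneg ht hb2)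
  rw [gapLD_half, gapLD_half]
  refine le_trans (le_of_eq ?_) h
  unfold gapLD gap1 LD
  rw [smul_mid, smul_add, smul_add]

/-- **mixed difference**, thresholds `t` and `t/2` -/
theorem LD_mixed_le {t : ℝ} (ht : 0 < t) {a1 a2 b1 b2 : Matrix n n ℝ} (ha1 : 0 ≤ a1)
    (ha2 : 0 ≤ a2) (hb1 : 0 ≤ b1) (hb2 : 0 ≤ b2) :
    |LD t (a1 + b1) + LD t (a2 + b2) - LD t (a1 + b2) - LD t (a2 + b1)| ≤
      gapLD (t / 2) a1 a2 + gapLD (t / 2) b1 b2 := by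
  have h := LD1_mixed_le (inv_smul_nonneg ht ha1) (inv_smul_nonneg ht ha2)
    (inv_smul_nonneg ht hb1) (inv_smul_nonneg ht hb2)
  rw [gapLD_half, gapLD_half]
  unfold LD
  rw [smul_add, smul_add, smul_add, smul_add]
  exact h

/-! ### Bregman divergence -/

theorem bregLD_nonneg {t : ℝ} (ht : 0 < t) {X Y : Matrix n n ℝ} (hX : 0 ≤ X) (hY : 0 ≤ Y) :
    0 ≤ bregLD t Y X := by
  have h := LD1_breg (inv_smul_nonneg ht hX) (inv_smul_nonneg ht hY)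
  unfold bregLD LD gt
  rw [smul_sub]
  linarith

theorem bregLD_add (t : ℝ) (X Y Z : Matrix n n ℝ) :
    bregLD t X Z + bregLD t Y Z = gapLD t X Y + 2 * bregLD t ((1 / 2 : ℝ) • (X + Y)) Z := by
  unfold bregLD gapLD
  have e : trace (gt t Z * (t⁻¹ • (X - Z))) + trace (gt t Z * (t⁻¹ • (Y - Z)))
      = 2 * trace (gt t Z * (t⁻¹ • ((1 / 2 : ℝ) • (X + Y) - Z))) := by
    have h1 : (2 : ℝ) * trace (gt t Z * (t⁻¹ • ((1 / 2 : ℝ) • (X + Y) - Z)))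
        = trace (gt t Z * ((2 : ℝ) • (t⁻¹ • ((1 / 2 : ℝ) • (X + Y) - Z)))) := by
      rw [Matrix.mul_smul (gt t Z) (2 : ℝ), trace_smul, smul_eq_mul]
    rw [h1, ← trace_add, ← Matrix.mul_add]
    congr 2
    module
  linarith

theorem gapLD_le_breg {t : ℝ} (ht : 0 < t) {X Y Z : Matrix n n ℝ} (hX : 0 ≤ X) (hY : 0 ≤ Y)
    (hZ : 0 ≤ Z) : gapLD t X Y ≤ bregLD t X Z + bregLD t Y Z := by
  rw [bregLD_add]
  have := bregLD_nonneg ht hZ (psd_smul' (add_nonneg hX hY) (by norm_num : (0 : ℝ) ≤ 1 / 2))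
  linarith

theorem bregLD_mid_le {t : ℝ} (ht : 0 < t) {X Y Z : Matrix n n ℝ} (hX : 0 ≤ X) (hY : 0 ≤ Y) :
    bregLD t ((1 / 2 : ℝ) • (X + Y)) Z ≤ (bregLD t X Z + bregLD t Y Z) / 2 := by
  rw [bregLD_add]
  have := gapLD_nonneg ht hX hY
  linarith

/-- sum of Bregman divergences to the average -/
theorem sum_bregLD_avg (t : ℝ) {ι : Type*} (s : Finset ι) (hs : s.Nonempty)
    (y : ι → Matrix n n ℝ) :
    ∑ i ∈ s, bregLD t (y i) ((1 / (s.card : ℝ)) • ∑ i ∈ s, y i) =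
      ∑ i ∈ s, LD t (y i) - s.card * LD t ((1 / (s.card : ℝ)) • ∑ i ∈ s, y i) := by
  set a := (1 / (s.card : ℝ)) • ∑ i ∈ s, y i with ha
  have hc : (s.card : ℝ) ≠ 0 := by
    have := hs.card_pos
    positivity
  have h1 : ∑ i ∈ s, (y i - a) = 0 := by
    rw [Finset.sum_sub_distrib, Finset.sum_const, ha, ← Nat.cast_smul_eq_nsmul ℝ, smul_smul,
      mul_one_div_cancel hc, one_smul, sub_self]
  have h2 : ∑ i ∈ s, trace (gt t a * (t⁻¹ • (y i - a))) = 0 := by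
    rw [← Matrix.trace_sum, ← Matrix.mul_sum, ← Finset.smul_sum, h1]
    simp
  unfold bregLD
  rw [Finset.sum_sub_distrib, h2, Finset.sum_sub_distrib, Finset.sum_const, nsmul_eq_mul]
  ring

end Crest.Agent.R079.LD
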