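import Crest.Agent.R079.PathStep_378

/-!
# R079: the log-det potential (helper378; potential proposed by helper491 #24559)

`LD1 M = tr M - log det (1+M)`, `LD t M = LD1 (t⁻¹ M)`, real positive semidefinite matrices.
* `LD1_superadd_gap`: `tr g(M) g(N) ≤ LD1 (M+N) - LD1 M - LD1 N`, `g(M) = M/(1+M)`.
* `LD1_mid_le`: midpoint convexity.
* `LD1_mixed_le`: mixed difference of `LD1 (a+b)` bounded by `gap1 (2a₁) (2a₂) + gap1 (2b₁) (2b₂)`.
-/

set_option autoImplicit false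
set_option linter.unusedSectionVars false
set_option linter.unusedVariables false
set_option linter.dupNamespace false

namespace Crest.Agent.R079.LD

open Matrix
open Crest.Agent.R072 Crest.Agent.R072.Nd Crest.Agent.R079.Path
open scoped MatrixOrder

variable {n m : Type*} [Fintype n] [DecidableEq n] [Fintype m] [DecidableEq m]

/-- `tr M - log det (1 + M)` -/
noncomputable def LD1 (M : Matrix n n ℝ) : ℝ := trace M - Real.log (det (1 + M))

/-- threshold `t` -/
noncomputable def LD (t : ℝ) (M : Matrix n n ℝ) : ℝ := LD1 (t⁻¹ • M)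

/-- midpoint gap -/
noncomputable def gapLD (t : ℝ) (X Y : Matrix n n ℝ) : ℝ :=
  LD t X + LD t Y - 2 * LD t ((1 / 2 : ℝ) • (X + Y))

/-- midpoint gap at threshold 1 -/
noncomputable def gap1 (X Y : Matrix n n ℝ) : ℝ :=
  LD1 X + LD1 Y - 2 * LD1 ((1 / 2 : ℝ) • (X + Y))

/-! ### the basic inequality `log det A - log det B ≤ tr (A B⁻¹) - n` -/

theorem log_det_le_trace {P : Matrix n n ℝ} (hP : P.PosDef) :
    Real.log (det P) ≤ trace P - Fintype.card n := by
  have h1 : det P = ∏ i, hP.isHermitian.eigenvalues i := by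
    simpa using hP.isHermitian.det_eq_prod_eigenvalues
  have h2 : trace P = ∑ i, hP.isHermitian.eigenvalues i := by
    simpa using hP.isHermitian.trace_eq_sum_eigenvalues
  have hpos : ∀ i, 0 < hP.isHermitian.eigenvalues i := hP.eigenvalues_pos
  rw [h1, h2, Real.log_prod fun i _ => (hpos i).ne']
  have h3 : (Fintype.card n : ℝ) = ∑ _i : n, (1 : ℝ) := by simp
  rw [h3, ← Finset.sum_sub_distrib]
  exact Finset.sum_le_sum fun i _ => Real.log_le_sub_one_of_pos (hpos i)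

theorem log_det_sub_le {A B : Matrix n n ℝ} (hA : A.PosDef) (hB : B.PosDef) :
    Real.log (det A) - Real.log (det B) ≤ trace (A * B⁻¹) - Fintype.card n := by
  have hBi := hB.inv
  set K := CFC.sqrt B⁻¹ with hK
  have hKK : K * K = B⁻¹ := rt_mul_rt hBi.posSemidef
  have hKt : Kᵀ = K := rt_transpose _
  have hdetB : det B ≠ 0 := hB.det_pos.ne'
  have hKdet : det K * det K = (det B)⁻¹ := by
    rw [← det_mul, hKK, det_nonsing_inv, Ring.inverse_eq_inv']
  have hKne : det K ≠ 0 := by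
    intro h
    rw [h, mul_zero] at hKdet
    exact (inv_ne_zero hdetB) hKdet.symm
  have hC : (K * A * K).PosDef := by
    have hu : IsUnit K := by
      rw [Matrix.isUnit_iff_isUnit_det]
      exact hKne.isUnit
    have h := (Matrix.IsUnit.posDef_star_right_conjugate_iff hu (x := A)).mpr hA
    rw [star_eq_conjTranspose, conjTranspose_eq_transpose_of_trivial, hKt] at h
    exact h
  have h := log_det_le_trace hC
  have e1 : det (K * A * K) = det A * (det B)⁻¹ := by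
    rw [det_mul, det_mul, ← hKdet]
    ring
  have e2 : trace (K * A * K) = trace (A * B⁻¹) := by
    rw [← hKK, Matrix.mul_assoc, trace_mul_comm]
    simp only [Matrix.mul_assoc]
  rw [e1, e2, Real.log_mul hA.det_pos.ne' (inv_ne_zero hdetB), Real.log_inv] at h
  linarith

/-- midpoint concavity of `log det` -/
theorem log_det_mid {A B : Matrix n n ℝ} (hA : A.PosDef) (hB : B.PosDef) :
    Real.log (det A) + Real.log (det B) ≤ 2 * Real.log (det ((1 / 2 : ℝ) • (A + B))) := by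
  have hM : ((1 / 2 : ℝ) • (A + B)).PosDef := (hA.add hB).smul (by norm_num)
  set M := (1 / 2 : ℝ) • (A + B) with hMd
  have h1 := log_det_sub_le hA hM
  have h2 := log_det_sub_le hB hM
  have h3 : trace (A * M⁻¹) + trace (B * M⁻¹) = 2 * Fintype.card n := by
    rw [← trace_add, ← Matrix.add_mul, show A + B = (2 : ℝ) • M by
      rw [hMd, smul_smul]; norm_num, Matrix.smul_mul,
      mul_nonsing_inv _ (PosDef.isUnit_det' hM), trace_smul, trace_one, smul_eq_mul]
  linarith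

/-- monotonicity of `log det` -/
theorem log_det_mono {A B : Matrix n n ℝ} (hA : A.PosDef) (hB : B.PosDef) (h : A ≤ B) :
    Real.log (det A) ≤ Real.log (det B) := by
  have h1 := log_det_sub_le hA hB
  have h2 : trace (A * B⁻¹) ≤ trace (B * B⁻¹) :=
    trace_mul_mono_left h hB.inv.posSemidef.nonneg
  rw [mul_nonsing_inv _ (PosDef.isUnit_det' hB), trace_one] at h2
  linarith

/-! ### basic properties of `LD1` -/

/-- Bregman inequality, gradient `g` -/
theorem LD1_breg {X Y : Matrix n n ℝ} (hX : 0 ≤ X) (hY : 0 ≤ Y) :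
    LD1 X + trace (gm X * (Y - X)) ≤ LD1 Y := by
  have h := log_det_sub_le (one_add_posDef hY) (one_add_posDef hX)
  have e1 : (1 + Y) * (1 + X)⁻¹ = 1 + (Y - X) * Hm X := by
    have h1 : (1 + X) * Hm X = 1 := mul_nonsing_inv _ (one_add_isUnit hX)
    calc (1 + Y) * (1 + X)⁻¹ = ((1 + X) + (Y - X)) * Hm X := by
          rw [show (1 + X) + (Y - X) = 1 + Y by abel]; rfl
      _ = _ := by rw [Matrix.add_mul, h1]
  rw [e1, trace_add, trace_one] at h
  have e2 : trace (gm X * (Y - X)) = trace (Y - X) - trace ((Y - X) * Hm X) := by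
    unfold gm
    rw [Matrix.sub_mul, Matrix.one_mul, trace_sub, trace_mul_comm (Hm X)]
  unfold LD1
  rw [e2, trace_sub]
  linarith

theorem LD1_zero : LD1 (0 : Matrix n n ℝ) = 0 := by
  unfold LD1
  simp

theorem gm_zero : gm (0 : Matrix n n ℝ) = 0 := by
  unfold gm
  rw [Hm_zero, sub_self]

theorem LD1_nonneg {M : Matrix n n ℝ} (hM : 0 ≤ M) : 0 ≤ LD1 M := by
  have h := LD1_breg (le_refl (0 : Matrix n n ℝ)) hM
  rw [LD1_zero, gm_zero, Matrix.zero_mul, trace_zero] at h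
  linarith

theorem LD1_le_Psi {M : Matrix n n ℝ} (hM : 0 ≤ M) : LD1 M ≤ Psi M := by
  have h := LD1_breg hM (le_refl (0 : Matrix n n ℝ))
  rw [LD1_zero, zero_sub, Matrix.mul_neg, trace_neg] at h
  have e : trace (gm M * M) = Psi M := by
    unfold Psi
    rw [← trace_sub]
    congr 1
    unfold gm
    rw [Matrix.sub_mul, Matrix.one_mul, Hm_mul hM]
  rw [e] at h
  linarith

theorem LD1_le_trace {M : Matrix n n ℝ} (hM : 0 ≤ M) : LD1 M ≤ trace M :=
  (LD1_le_Psi hM).trans (Psi_le_trace hM)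

theorem LD1_le_trace_sq {M : Matrix n n ℝ} (hM : 0 ≤ M) : LD1 M ≤ trace (M * M) :=
  (LD1_le_Psi hM).trans (Psi_le_trace_sq hM)

theorem LD1_mid_le {X Y : Matrix n n ℝ} (hX : 0 ≤ X) (hY : 0 ≤ Y) :
    LD1 ((1 / 2 : ℝ) • (X + Y)) ≤ (1 / 2) * (LD1 X + LD1 Y) := by
  have h := log_det_mid (one_add_posDef hX) (one_add_posDef hY)
  have e : (1 / 2 : ℝ) • ((1 + X) + (1 + Y)) = 1 + (1 / 2 : ℝ) • (X + Y) := by
    rw [show (1 + X) + (1 + Y) = (2 : ℝ) • (1 : Matrix n n ℝ) + (X + Y) by rw [two_smul]; abel,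
      smul_add, smul_smul]
    norm_num
  rw [e] at h
  unfold LD1
  rw [trace_smul, trace_add, smul_eq_mul]
  linarith

theorem gap1_nonneg {X Y : Matrix n n ℝ} (hX : 0 ≤ X) (hY : 0 ≤ Y) : 0 ≤ gap1 X Y := by
  have := LD1_mid_le hX hY
  unfold gap1
  linarith

/-- **superadditivity with gap** -/
theorem LD1_superadd_gap {M N : Matrix n n ℝ} (hM : 0 ≤ M) (hN : 0 ≤ N) :
    trace (gm M * gm N) ≤ LD1 (M + N) - LD1 M - LD1 N := by
  have hN' := Matrix.nonneg_iff_posSemidef.mp hN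
  set W := CFC.sqrt N with hW
  have hWW : W * W = N := rt_mul_rt hN'
  have hWt : Wᵀ = W := rt_transpose N
  set a := Hm M with ha
  have ha0 : 0 ≤ a := Hm_nonneg hM
  have haM : (1 + M) * a = 1 := mul_nonsing_inv _ (one_add_isUnit hM)
  set Z := W * a * W with hZ
  have hZ0 : 0 ≤ Z := by
    have := frob_psd_conj ha0 W
    rwa [hWt] at this
  have hdet : det (1 + (M + N)) = det (1 + M) * det (1 + Z) := by
    have h1 : 1 + (M + N) = (1 + M) * (1 + (a * W) * W) := by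
      rw [Matrix.mul_add, Matrix.mul_one, ← Matrix.mul_assoc, ← Matrix.mul_assoc, haM,
        Matrix.one_mul, hWW, add_assoc]
    rw [h1, det_mul, det_one_add_mul_comm, ← Matrix.mul_assoc]
  have hlog : Real.log (det (1 + (M + N))) = Real.log (det (1 + M)) + Real.log (det (1 + Z)) := by
    rw [hdet, Real.log_mul (one_add_posDef hM).det_pos.ne' (one_add_posDef hZ0).det_pos.ne']
  have h := log_det_sub_le (one_add_posDef hZ0) (one_add_posDef hN)
  have hWc : W * Hm N * W = gm N := by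
    have hcomm : W * (1 + N) = (1 + N) * W := by
      rw [← hWW]; noncomm_ring
    have h1 : Hm N * W = W * Hm N := by
      have h2 := mul_nonsing_inv _ (one_add_isUnit hN)
      have h3 := nonsing_inv_mul _ (one_add_isUnit hN)
      calc Hm N * W = Hm N * W * ((1 + N) * (1 + N)⁻¹) := by rw [h2, Matrix.mul_one]
        _ = Hm N * (W * (1 + N)) * (1 + N)⁻¹ := by noncomm_ring
        _ = (1 + N)⁻¹ * (1 + N) * W * (1 + N)⁻¹ := by rw [hcomm]; unfold Hm; noncomm_ring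
        _ = W * Hm N := by rw [h3, Matrix.one_mul]; rfl
    rw [Matrix.mul_assoc, h1, ← Matrix.mul_assoc, hWW, ← gm_eq hN]
  have e1 : trace ((1 + Z) * (1 + N)⁻¹) = Fintype.card n - trace (gm N) + trace (a * gm N) := by
    rw [Matrix.add_mul, Matrix.one_mul, trace_add]
    have e2 : trace (1 + N)⁻¹ = Fintype.card n - trace (gm N) := by
      unfold gm
      rw [trace_sub, trace_one]
      unfold Hm
      ring
    have e3 : trace (Z * (1 + N)⁻¹) = trace (a * gm N) := by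
      rw [hZ, ← hWc, show W * a * W * (1 + N)⁻¹ = W * (a * W * Hm N) by
        unfold Hm; simp only [Matrix.mul_assoc], trace_mul_comm]
      simp only [Matrix.mul_assoc]
    rw [e2, e3]
  have e4 : trace (gm M * gm N) = trace (gm N) - trace (a * gm N) := by
    rw [show gm M = 1 - a from rfl, Matrix.sub_mul, Matrix.one_mul, trace_sub]
  rw [e1] at h
  unfold LD1
  rw [hlog, trace_add, e4]
  linarith

theorem LD1_superadd {M N : Matrix n n ℝ} (hM : 0 ≤ M) (hN : 0 ≤ N) :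
    LD1 M + LD1 N ≤ LD1 (M + N) := by
  have h1 := LD1_superadd_gap hM hN
  have h2 := frob_trace_mul_nonneg (gm_nonneg hM) (gm_nonneg hN)
  linarith

/-! ### spectral form and scaling -/

theorem LD1_spec {V : Matrix n n ℝ} (hV : Vᵀ * V = 1) (hV' : V * Vᵀ = 1) {e : n → ℝ}
    (he : ∀ i, 0 ≤ e i) :
    LD1 (V * diagonal e * Vᵀ) = ∑ i, (e i - Real.log (1 + e i)) := by
  have h1 : 1 + V * diagonal e * Vᵀ = V * diagonal (fun i => 1 + e i) * Vᵀ := by
    have : diagonal (fun i => 1 + e i) = 1 + diagonal e := by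
      rw [← diagonal_one, diagonal_add]
    rw [this, Matrix.mul_add, Matrix.mul_one, Matrix.add_mul, hV']
  have h2 : det (V * diagonal (fun i => 1 + e i) * Vᵀ) = ∏ i, (1 + e i) := by
    rw [det_mul, det_mul, det_diagonal]
    have h3 : det V * det Vᵀ = 1 := by rw [← det_mul, hV', det_one]
    linear_combination (∏ i, (1 + e i)) * h3
  unfold LD1
  rw [h1, h2, spec_trace hV, Real.log_prod fun i _ => by have := he i; positivity,
    Finset.sum_sub_distrib]

theorem LD1_two_le {M : Matrix n n ℝ} (hM : 0 ≤ M) : LD1 ((2 : ℝ) • M) ≤ 4 * LD1 M := by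
  obtain ⟨V, e, hV, hV', he, rfl⟩ := exists_spec (Matrix.nonneg_iff_posSemidef.mp hM)
  have e1 : (2 : ℝ) • (V * diagonal e * Vᵀ) = V * diagonal (fun i => 2 * e i) * Vᵀ := by
    have : diagonal (fun i => 2 * e i) = (2 : ℝ) • diagonal e := by
      rw [← diagonal_smul]; rfl
    rw [this, Matrix.mul_smul, Matrix.smul_mul]
  rw [e1, LD1_spec hV hV' (fun i => by have := he i; positivity), LD1_spec hV hV' he,
    Finset.mul_sum]
  refine Finset.sum_le_sum fun i _ => ?_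
  have hx := he i
  set x := e i
  -- `4 log (1+x) ≤ 2 x + log (1+2x)`: monotonicity argument
  have hd : ∀ y : ℝ, 0 ≤ y → HasDerivAt (fun y => 2 * y + Real.log (1 + 2 * y) - 4 * Real.log (1 + y))
      (2 + 2 / (1 + 2 * y) - 4 * (1 / (1 + y))) y := by
    intro y hy
    have h1 : HasDerivAt (fun y : ℝ => 1 + 2 * y) 2 y := by
      simpa using ((hasDerivAt_id y).const_mul 2).const_add 1
    have h2 : HasDerivAt (fun y : ℝ => 1 + y) 1 y := (hasDerivAt_id y).const_add 1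
    have h3 := h1.log (by positivity)
    have h4 := h2.log (by positivity)
    have h5 : HasDerivAt (fun y : ℝ => 2 * y) 2 y := by
      simpa using (hasDerivAt_id y).const_mul 2
    exact (h5.add h3).sub (h4.const_mul 4)
  have hmono : MonotoneOn (fun y => 2 * y + Real.log (1 + 2 * y) - 4 * Real.log (1 + y))
      (Set.Ici 0) := by
    refine monotoneOn_of_deriv_nonneg (convex_Ici 0) ?_ ?_ ?_
    · intro y hy
      exact (hd y hy).continuousAt.continuousWithinAt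
    · intro y hy
      rw [interior_Ici] at hy
      exact (hd y (le_of_lt hy)).differentiableAt.differentiableWithinAt
    · intro y hy
      rw [interior_Ici] at hy
      have hy' : 0 < y := hy
      rw [(hd y hy'.le).deriv]
      have : 2 + 2 / (1 + 2 * y) - 4 * (1 / (1 + y)) = 4 * y ^ 2 / ((1 + 2 * y) * (1 + y)) := by
        field_simp
        ring
      rw [this]
      positivity
  have h := hmono (Set.self_mem_Ici) (show x ∈ Set.Ici 0 from hx) hx
  simp only [mul_zero, add_zero, Real.log_one, sub_zero] at h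
  linarith

theorem LD1_add_le {X Y : Matrix n n ℝ} (hX : 0 ≤ X) (hY : 0 ≤ Y) :
    LD1 (X + Y) ≤ 2 * (LD1 X + LD1 Y) := by
  have h := LD1_mid_le (psd_smul' hX (by norm_num : (0 : ℝ) ≤ 2))
    (psd_smul' hY (by norm_num : (0 : ℝ) ≤ 2))
  rw [← smul_add, smul_smul, show (1 / 2 : ℝ) * 2 = 1 by norm_num, one_smul] at h
  have h1 := LD1_two_le hX
  have h2 := LD1_two_le hY
  linarith

theorem LD1_mono {X Y : Matrix n n ℝ} (hX : 0 ≤ X) (h : X ≤ Y) : LD1 X ≤ LD1 Y := by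
  have hD : 0 ≤ Y - X := sub_nonneg.mpr h
  have h1 := LD1_superadd hX hD
  rw [add_sub_cancel] at h1
  have := LD1_nonneg hD
  linarith

/-! ### conjugation, blocks, reindexing -/

theorem LD1_conj {U M : Matrix n n ℝ} (hU2 : U * U = 1) : LD1 (U * M * U) = LD1 M := by
  unfold LD1
  have e : 1 + U * M * U = U * (1 + M) * U := by
    rw [Matrix.mul_add, Matrix.mul_one, Matrix.add_mul, hU2]
  have hd : det U * det U = 1 := by rw [← det_mul, hU2, det_one]
  rw [trace_conj hU2, e, det_mul, det_mul]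
  rw [show det U * det (1 + M) * det U = det (1 + M) * (det U * det U) by ring, hd, mul_one]

theorem LD1_fromBlocks {P : Matrix n n ℝ} {S : Matrix m m ℝ} (hP : 0 ≤ P) (hS : 0 ≤ S) :
    LD1 (fromBlocks P 0 0 S) = LD1 P + LD1 S := by
  unfold LD1
  have e : 1 + fromBlocks P 0 0 S = fromBlocks (1 + P) 0 0 (1 + S) := by
    rw [← fromBlocks_one, fromBlocks_add]
    simp only [add_zero]
  rw [e, tr_fromBlocks, det_fromBlocks_zero₂₁,
    Real.log_mul (one_add_posDef hP).det_pos.ne' (one_add_posDef hS).det_pos.ne']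
  ring

theorem LD1_submatrix (e : m ≃ n) (M : Matrix n n ℝ) : LD1 (M.submatrix e e) = LD1 M := by
  unfold LD1
  have h : 1 + M.submatrix e e = (1 + M).submatrix e e := by
    rw [show (1 + M).submatrix e e = (1 : Matrix n n ℝ).submatrix e e + M.submatrix e e from rfl,
      submatrix_one_equiv]
  rw [h, det_submatrix_equiv_self, trace_submatrix_equiv']

/-- node drop for the log-det potential -/
theorem LD1_gap {U M : Matrix n n ℝ} (hU : Uᵀ = U) (hU2 : U * U = 1) (hM : 0 ≤ M) :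
    trace (gm M * (U * gm M * U)) ≤ LD1 (M + U * M * U) - 2 * LD1 M := by
  have hN : 0 ≤ U * M * U := sandwich_nonneg hU hM
  have h := LD1_superadd_gap hM hN
  rw [gm_conj hU hU2 hM, LD1_conj hU2] at h
  linarith

theorem En_le_gm {U M : Matrix n n ℝ} (hU : Uᵀ = U) (hM : 0 ≤ M) :
    En U M ≤ trace (gm M * (U * gm M * U)) := by
  have h1 : U * hm M * U ≤ U * gm M * U := by
    have := le_conj (hm_le_gm hM) U
    rwa [hU] at this
  exact (trace_mul_mono_left (hm_le_gm hM) (sandwich_nonneg hU (hm_nonneg hM))).trans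
    (trace_mul_mono_right (gm_nonneg hM) h1)

theorem En_le_LD1 {U M : Matrix n n ℝ} (hU : Uᵀ = U) (hU2 : U * U = 1) (hM : 0 ≤ M) :
    En U M ≤ LD1 (M + U * M * U) - 2 * LD1 M :=
  (En_le_gm hU hM).trans (LD1_gap hU hU2 hM)

/-! ### mixed differences: joint convexity of `log det (P+Q) - log det P - log det Q` -/

/-- joint convexity of `X S⁻¹ X` -/
theorem frac_add_le {S1 S2 X1 X2 : Matrix n n ℝ} (h1 : S1.PosDef) (h2 : S2.PosDef)
    (hX1 : X1ᵀ = X1) (hX2 : X2ᵀ = X2) :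
    (X1 + X2) * (S1 + S2)⁻¹ * (X1 + X2) ≤ X1 * S1⁻¹ * X1 + X2 * S2⁻¹ * X2 := by
  have hS := h1.add h2
  set S := S1 + S2 with hSd
  set X := X1 + X2 with hXd
  obtain ⟨W, hW⟩ : ∃ W, W = S⁻¹ * X := ⟨_, rfl⟩
  have uS := PosDef.isUnit_det' hS
  have u1 := PosDef.isUnit_det' h1
  have u2 := PosDef.isUnit_det' h2
  have s1 : S1ᵀ = S1 := psd_transpose h1.posSemidef
  have s2 : S2ᵀ = S2 := psd_transpose h2.posSemidef
  have sS : (S⁻¹)ᵀ = S⁻¹ := psd_transpose hS.inv.posSemidef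
  have hXt : Xᵀ = X := by rw [hXd, transpose_add, hX1, hX2]
  have hWt : Wᵀ = X * S⁻¹ := by rw [hW, transpose_mul, sS, hXt]
  have hSW : S * W = X := by rw [hW, ← Matrix.mul_assoc, mul_nonsing_inv _ uS, Matrix.one_mul]
  have key : ∀ (Si Xi : Matrix n n ℝ), IsUnit Si.det → Siᵀ = Si → Xiᵀ = Xi →
      (Xi - Wᵀ * Si) * Si⁻¹ * (Xi - Wᵀ * Si)ᵀ
        = Xi * Si⁻¹ * Xi - Xi * W - Wᵀ * Xi + Wᵀ * Si * W := by
    intro Si Xi hu hs hx
    have a1 := mul_nonsing_inv _ hu
    have a2 := nonsing_inv_mul _ hu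
    rw [transpose_sub, transpose_mul, transpose_transpose, hs, hx, Matrix.sub_mul, Matrix.mul_assoc
      Wᵀ Si, a1, Matrix.mul_one, Matrix.sub_mul, Matrix.mul_sub, Matrix.mul_sub]
    rw [show Xi * Si⁻¹ * (Si * W) = Xi * (Si⁻¹ * Si) * W by simp only [Matrix.mul_assoc], a2,
      Matrix.mul_one, ← Matrix.mul_assoc Wᵀ Si W]
    abel
  have k1 := frob_psd_conj h1.inv.posSemidef.nonneg (X1 - Wᵀ * S1)
  have k2 := frob_psd_conj h2.inv.posSemidef.nonneg (X2 - Wᵀ * S2)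
  rw [key S1 X1 u1 s1 hX1] at k1
  rw [key S2 X2 u2 s2 hX2] at k2
  have k3 := add_nonneg k1 k2
  rw [← sub_nonneg]
  refine k3.trans (le_of_eq ?_)
  have e1 : X * S⁻¹ * X = Wᵀ * X := by rw [hWt]
  have e2 : Wᵀ * S1 * W + Wᵀ * S2 * W = Wᵀ * X := by
    rw [← Matrix.add_mul, ← Matrix.mul_add, ← hSd, Matrix.mul_assoc, hSW]
  have e3 : X1 * W + X2 * W = Wᵀ * X := by
    rw [← Matrix.add_mul, ← hXd, hWt, hW, Matrix.mul_assoc]
  have e4 : Wᵀ * X1 + Wᵀ * X2 = Wᵀ * X := by rw [← Matrix.mul_add]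
  rw [e1]
  calc X1 * S1⁻¹ * X1 - X1 * W - Wᵀ * X1 + Wᵀ * S1 * W
        + (X2 * S2⁻¹ * X2 - X2 * W - Wᵀ * X2 + Wᵀ * S2 * W)
      = X1 * S1⁻¹ * X1 + X2 * S2⁻¹ * X2 - (X1 * W + X2 * W) - (Wᵀ * X1 + Wᵀ * X2)
        + (Wᵀ * S1 * W + Wᵀ * S2 * W) := by abel
    _ = _ := by rw [e2, e3, e4]; abel

/-- parallel sum -/
noncomputable def par (P Q : Matrix n n ℝ) : Matrix n n ℝ := P - P * (P + Q)⁻¹ * P

theorem par_eq {P Q : Matrix n n ℝ} (hP : P.PosDef) (hQ : Q.PosDef) :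
    par P Q = P * (P + Q)⁻¹ * Q := by
  have u := PosDef.isUnit_det' (hP.add hQ)
  have h := nonsing_inv_mul _ u
  unfold par
  have : P = P * ((P + Q)⁻¹ * (P + Q)) := by rw [h, Matrix.mul_one]
  nth_rewrite 1 [this]
  noncomm_ring

theorem par_det {P Q : Matrix n n ℝ} (hP : P.PosDef) (hQ : Q.PosDef) :
    det (par P Q) = det P * det Q * (det (P + Q))⁻¹ := by
  rw [par_eq hP hQ, det_mul, det_mul, det_nonsing_inv, Ring.inverse_eq_inv']
  ring

theorem par_posDef {P Q : Matrix n n ℝ} (hP : P.PosDef) (hQ : Q.PosDef) : (par P Q).PosDef := by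
  have hS := hP.add hQ
  -- `par P Q = (P⁻¹ + Q⁻¹)⁻¹`
  have h1 : par P Q = (P⁻¹ + Q⁻¹)⁻¹ := by
    rw [par_eq hP hQ]
    symm
    refine inv_eq_right_inv ?_
    have uP := PosDef.isUnit_det' hP
    have uQ := PosDef.isUnit_det' hQ
    have uS := PosDef.isUnit_det' hS
    have a1 := nonsing_inv_mul _ uP
    have a2 := nonsing_inv_mul _ uQ
    have a3 := mul_nonsing_inv _ uS
    have e1 : (P⁻¹ + Q⁻¹) = Q⁻¹ * (P + Q) * P⁻¹ := by
      have b1 := mul_nonsing_inv _ uP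
      rw [Matrix.mul_add, Matrix.add_mul, Matrix.mul_assoc, b1, Matrix.mul_one, a2, Matrix.one_mul]
      abel
    rw [e1]
    calc Q⁻¹ * (P + Q) * P⁻¹ * (P * (P + Q)⁻¹ * Q)
        = Q⁻¹ * (P + Q) * (P⁻¹ * P) * (P + Q)⁻¹ * Q := by noncomm_ring
      _ = Q⁻¹ * ((P + Q) * (P + Q)⁻¹) * Q := by rw [a1, Matrix.mul_one]; noncomm_ring
      _ = 1 := by rw [a3, Matrix.mul_one, a2]
  rw [h1]
  exact (hP.inv.add hQ.inv).inv

theorem par_add_le {P1 P2 Q1 Q2 : Matrix n n ℝ} (hP1 : P1.PosDef) (hP2 : P2.PosDef)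
    (hQ1 : Q1.PosDef) (hQ2 : Q2.PosDef) :
    par P1 Q1 + par P2 Q2 ≤ par (P1 + P2) (Q1 + Q2) := by
  have h := frac_add_le (hP1.add hQ1) (hP2.add hQ2) (psd_transpose hP1.posSemidef)
    (psd_transpose hP2.posSemidef)
  unfold par
  have e : P1 + P2 + (Q1 + Q2) = P1 + Q1 + (P2 + Q2) := by abel
  rw [e, ← sub_nonneg]
  rw [← sub_nonneg] at h
  refine h.trans (le_of_eq ?_)
  abel

theorem par_smul {c : ℝ} (hc : 0 < c) {P Q : Matrix n n ℝ} (hP : P.PosDef) (hQ : Q.PosDef) :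
    par (c • P) (c • Q) = c • par P Q := by
  have hS := hP.add hQ
  unfold par
  have e : (c • P + c • Q)⁻¹ = c⁻¹ • (P + Q)⁻¹ := by
    refine inv_eq_right_inv ?_
    rw [← smul_add, Matrix.smul_mul, Matrix.mul_smul, smul_smul, mul_inv_cancel₀ hc.ne', one_smul,
      mul_nonsing_inv _ (PosDef.isUnit_det' hS)]
  rw [e]
  simp only [Matrix.smul_mul, Matrix.mul_smul, smul_smul, smul_sub]
  congr 2
  field_simp

/-- joint midpoint convexity of `log det (P+Q) - log det P - log det Q` -/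
theorem log_det_joint {P1 P2 Q1 Q2 : Matrix n n ℝ} (hP1 : P1.PosDef) (hP2 : P2.PosDef)
    (hQ1 : Q1.PosDef) (hQ2 : Q2.PosDef) :
    2 * Real.log (det ((1 / 2 : ℝ) • (P1 + P2 + (Q1 + Q2)))) - Real.log (det (P1 + Q1))
        - Real.log (det (P2 + Q2)) ≤
      (2 * Real.log (det ((1 / 2 : ℝ) • (P1 + P2))) - Real.log (det P1) - Real.log (det P2)) +
      (2 * Real.log (det ((1 / 2 : ℝ) • (Q1 + Q2))) - Real.log (det Q1) - Real.log (det Q2)) := by
  have hh : (0 : ℝ) < 1 / 2 := by norm_num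
  set p := (1 / 2 : ℝ) • (P1 + P2) with hp
  set q := (1 / 2 : ℝ) • (Q1 + Q2) with hq
  have hpP : p.PosDef := (hP1.add hP2).smul hh
  have hqP : q.PosDef := (hQ1.add hQ2).smul hh
  have e0 : (1 / 2 : ℝ) • (P1 + P2 + (Q1 + Q2)) = p + q := by rw [hp, hq, smul_add]
  rw [e0]
  have hA := par_posDef hP1 hQ1
  have hB := par_posDef hP2 hQ2
  have hC := par_posDef hpP hqP
  have h1 : (1 / 2 : ℝ) • (par P1 Q1 + par P2 Q2) ≤ par p q := by
    rw [hp, hq, par_smul hh (hP1.add hP2) (hQ1.add hQ2), ← sub_nonneg, ← smul_sub]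
    exact psd_smul' (sub_nonneg.mpr (par_add_le hP1 hP2 hQ1 hQ2)) hh.le
  have h2 := log_det_mid hA hB
  have h3 := log_det_mono ((hA.add hB).smul hh) hC h1
  have f : ∀ {P Q : Matrix n n ℝ}, P.PosDef → Q.PosDef → Real.log (det (par P Q))
      = Real.log (det P) + Real.log (det Q) - Real.log (det (P + Q)) := by
    intro P Q hP hQ
    have a1 := hP.det_pos.ne'
    have a2 := hQ.det_pos.ne'
    have a3 := (hP.add hQ).det_pos.ne'
    rw [par_det hP hQ, Real.log_mul (mul_ne_zero a1 a2) (inv_ne_zero a3), Real.log_mul a1 a2,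
      Real.log_inv]
    ring
  rw [f hP1 hQ1, f hP2 hQ2] at h2
  rw [f hpP hqP] at h3
  linarith

theorem log_det_two_smul {P : Matrix n n ℝ} (hP : P.PosDef) {c : ℝ} (hc : 0 < c) :
    Real.log (det (c • P)) = Fintype.card n * Real.log c + Real.log (det P) := by
  rw [det_smul, Real.log_mul (pow_pos hc _).ne' hP.det_pos.ne', Real.log_pow]

/-- gap of sums -/
theorem gap1_add_le {a1 a2 b1 b2 : Matrix n n ℝ} (ha1 : 0 ≤ a1) (ha2 : 0 ≤ a2) (hb1 : 0 ≤ b1)
    (hb2 : 0 ≤ b2) :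
    gap1 (a1 + b1) (a2 + b2) ≤ gap1 ((2 : ℝ) • a1) ((2 : ℝ) • a2)
      + gap1 ((2 : ℝ) • b1) ((2 : ℝ) • b2) := by
  have h2 : (0 : ℝ) ≤ 2 := by norm_num
  have pa1 := one_add_posDef (psd_smul' ha1 h2)
  have pa2 := one_add_posDef (psd_smul' ha2 h2)
  have pb1 := one_add_posDef (psd_smul' hb1 h2)
  have pb2 := one_add_posDef (psd_smul' hb2 h2)
  have h := log_det_joint pa1 pa2 pb1 pb2
  -- rewrite sums
  have s1 : (1 + (2 : ℝ) • a1) + (1 + (2 : ℝ) • b1) = (2 : ℝ) • (1 + (a1 + b1)) := by module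
  have s2 : (1 + (2 : ℝ) • a2) + (1 + (2 : ℝ) • b2) = (2 : ℝ) • (1 + (a2 + b2)) := by module
  have s3 : (1 / 2 : ℝ) • ((1 + (2 : ℝ) • a1) + (1 + (2 : ℝ) • a2)
      + ((1 + (2 : ℝ) • b1) + (1 + (2 : ℝ) • b2)))
      = (2 : ℝ) • (1 + (1 / 2 : ℝ) • (a1 + b1 + (a2 + b2))) := by module
  have s4 : (1 / 2 : ℝ) • ((1 + (2 : ℝ) • a1) + (1 + (2 : ℝ) • a2))
      = 1 + (1 / 2 : ℝ) • ((2 : ℝ) • a1 + (2 : ℝ) • a2) := by module
  have s5 : (1 / 2 : ℝ) • ((1 + (2 : ℝ) • b1) + (1 + (2 : ℝ) • b2))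
      = 1 + (1 / 2 : ℝ) • ((2 : ℝ) • b1 + (2 : ℝ) • b2) := by module
  have q1 := one_add_posDef (add_nonneg ha1 hb1)
  have q2 := one_add_posDef (add_nonneg ha2 hb2)
  have q3 : (1 + (1 / 2 : ℝ) • (a1 + b1 + (a2 + b2))).PosDef :=
    one_add_posDef (psd_smul' (add_nonneg (add_nonneg ha1 hb1) (add_nonneg ha2 hb2)) (by norm_num))
  rw [s3, s1, s2, s4, s5, log_det_two_smul q1 two_pos, log_det_two_smul q2 two_pos,
    log_det_two_smul q3 two_pos] at h
  unfold gap1 LD1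
  simp only [trace_smul, trace_add, smul_eq_mul]
  linarith

/-- **mixed difference** (threshold 1) -/
theorem LD1_mixed_le {a1 a2 b1 b2 : Matrix n n ℝ} (ha1 : 0 ≤ a1) (ha2 : 0 ≤ a2) (hb1 : 0 ≤ b1)
    (hb2 : 0 ≤ b2) :
    |LD1 (a1 + b1) + LD1 (a2 + b2) - LD1 (a1 + b2) - LD1 (a2 + b1)| ≤
      gap1 ((2 : ℝ) • a1) ((2 : ℝ) • a2) + gap1 ((2 : ℝ) • b1) ((2 : ℝ) • b2) := by
  have h1 := gap1_add_le ha1 ha2 hb1 hb2
  have h2 := gap1_add_le ha1 ha2 hb2 hb1
  have h3 := gap1_nonneg (add_nonneg ha1 hb1) (add_nonneg ha2 hb2)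
  have h4 := gap1_nonneg (add_nonneg ha1 hb2) (add_nonneg ha2 hb1)
  have h5 : gap1 ((2 : ℝ) • b2) ((2 : ℝ) • b1) = gap1 ((2 : ℝ) • b1) ((2 : ℝ) • b2) := by
    unfold gap1
    rw [add_comm ((2 : ℝ) • b2)]
    ring
  rw [h5] at h2
  have e : LD1 (a1 + b1) + LD1 (a2 + b2) - LD1 (a1 + b2) - LD1 (a2 + b1)
      = gap1 (a1 + b1) (a2 + b2) - gap1 (a1 + b2) (a2 + b1) := by
    unfold gap1
    rw [show a1 + b1 + (a2 + b2) = a1 + b2 + (a2 + b1) by abel]
    ring
  rw [e, abs_le]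
  constructor <;> linarith

end Crest.Agent.R079.LD
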