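import Crest.Agent.R079.RiemD_133
import Crest.Agent.R079.Spine_796

/-! R079, **L0z** (helper133): `Grid.LatBound → BoxBound (-1/2) ∧ BoxBound (-7/2)`.

No limit in the mesh: with `δ = ρ 2^{-(m+1)}` the box form of side `ρ 2^k` is EXACTLY the average over
the offsets `(θ, ξ) ∈ [0,1)^4 × (0,1]` of the lattice forms of the samples
`n ↦ f_j (δ (n + ξ + c_j(θ)))`, and Hölder in `ξ` gives back the `L³` norms. -/

set_option autoImplicit false

namespace Crest.Agent.R079.Riem133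

open Crest.Agent.R079.Grid MeasureTheory Set Filter Topology
open scoped ENNReal

lemma N3_psi {δ : ℝ} (hδ : 0 < δ) {f : Fin 4 → ℝ → ℂ} (hm : ∀ j, Measurable (f j)) (θ : Fin 4 → ℝ)
    (j : Fin 4) : N3 (psi δ f θ j) = (ENNReal.ofReal δ⁻¹) ^ (1 / 3 : ℝ) * N3 (f j) := by
  unfold N3 psi
  rw [← ENNReal.mul_rpow_of_nonneg _ _ (by norm_num)]
  congr 1
  have h1 : ∫⁻ y : ℝ, ‖f j (δ * (y + cj θ j))‖ₑ ^ 3 = ∫⁻ y : ℝ, ‖f j (δ * y)‖ₑ ^ 3 :=
    lintegral_add_right_eq_self (fun y => ‖f j (δ * y)‖ₑ ^ 3) _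
  rw [h1]
  have h2 : ∫⁻ y : ℝ, ‖f j (δ * y)‖ₑ ^ 3 = ∫⁻ y, ‖f j y‖ₑ ^ 3 ∂(Measure.map (δ * ·) volume) := by
    rw [lintegral_map ((hm j).enorm.pow_const 3) (measurable_const_mul δ)]
  rw [h2, Real.map_volume_mul_left hδ.ne', lintegral_smul_measure, abs_of_pos (by positivity)]
  rfl

theorem main {C : ℝ} (hC : 0 ≤ C) {b : ℤ} (H : LatB C b) {f : Fin 4 → ℝ → ℂ} {B : ℝ}
    (hm : ∀ j, Measurable (f j)) (hi : Integrable (f 0)) (hB : ∀ j y, ‖f j y‖ ≤ B)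
    (h3 : ∀ y, ‖f 3 y‖ ≤ 1) {ρ : ℝ} (hρ : 0 < ρ) (m : ℕ) :
    ‖∑ k ∈ Finset.Ico (-(m : ℤ)) m, ∫ s : ℝ, L0.Lb ((b : ℝ) / 2) (ρ * (2 : ℝ) ^ k) s f‖ₑ ≤
      ENNReal.ofReal C * (N3 (f 0) * N3 (f 1) * N3 (f 2)) := by
  set δ : ℝ := ρ * (2 : ℝ) ^ (-((m : ℤ) + 1)) with hδdef
  have hδ : 0 < δ := by positivity
  -- reindexing
  have hre : ∑ k ∈ Finset.Ico (-(m : ℤ)) m, ∫ s : ℝ, L0.Lb ((b : ℝ) / 2) (ρ * (2 : ℝ) ^ k) s f =
      ∑ i ∈ Finset.range (2 * m), ∫ s : ℝ, L0.Lb ((b : ℝ) / 2)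
        (δ * (((2 ^ i : ℕ) : ℝ) + ((2 ^ i : ℕ) : ℝ))) s f := by
    refine Finset.sum_nbij' (fun k => (k + m).toNat) (fun i => (i : ℤ) - m) ?_ ?_ ?_ ?_ ?_
    · intro k hk
      rw [Finset.mem_Ico] at hk
      rw [Finset.mem_range]
      omega
    · intro i hi
      rw [Finset.mem_range] at hi
      rw [Finset.mem_Ico]
      omega
    · intro k hk
      rw [Finset.mem_Ico] at hk
      omega
    · intro i hi
      simp
    · intro k hk
      rw [Finset.mem_Ico] at hk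
      have h1 : δ * (((2 ^ (k + m).toNat : ℕ) : ℝ) + ((2 ^ (k + m).toNat : ℕ) : ℝ)) = ρ * (2 : ℝ) ^ k := by
        have h2 : (((2 ^ (k + m).toNat : ℕ) : ℝ)) = (2 : ℝ) ^ (k + m) := by
          push_cast
          rw [← zpow_natCast]
          congr 1
          omega
        rw [h2, hδdef, ← two_mul, mul_assoc]
        congr 1
        rw [← mul_assoc, ← zpow_add_one₀ (by norm_num), ← zpow_add₀ (by norm_num)]
        congr 1
        ring
      rw [h1]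
  rw [hre]
  have hsc := fun i : ℕ => scale_eq hδ (N := 2 ^ i) (by positivity) b hm hi hB
  have h4 : ∑ i ∈ Finset.range (2 * m), ∫ s : ℝ, L0.Lb ((b : ℝ) / 2)
        (δ * (((2 ^ i : ℕ) : ℝ) + ((2 ^ i : ℕ) : ℝ))) s f =
      ∫ θ in Q, (δ : ℂ) * ∫ s : ℝ, ∑ i ∈ Finset.range (2 * m), Lr (2 ^ i) b (psi δ f θ) s := by
    rw [Finset.sum_congr rfl fun i _ => (hsc i).1, ← integral_finsetSum _ fun i _ => (hsc i).2]
    congr 1
    funext θ
    rw [← Finset.mul_sum, integral_finsetSum]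
    intro i _
    exact Lr_integrable _ _ (psi_measurable hm θ) (psi_integrable hδ hi θ) (fun j y => hB j _)
  rw [h4]
  refine le_trans (enorm_integral_le_lintegral_enorm _) ?_
  have hbd : ∀ θ : Fin 4 → ℝ,
      ‖(δ : ℂ) * ∫ s : ℝ, ∑ i ∈ Finset.range (2 * m), Lr (2 ^ i) b (psi δ f θ) s‖ₑ ≤
      ENNReal.ofReal C * (N3 (f 0) * N3 (f 1) * N3 (f 2)) := by
    intro θ
    rw [enorm_mul]
    have h5 := K1 hC H (psi δ f θ) (Finset.range (2 * m)) (psi_measurable hm θ)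
      (psi_integrable hδ hi θ) (fun j y => hB j _) (fun y => h3 _)
    refine le_trans (mul_le_mul_right h5 _) ?_
    rw [N3_psi hδ hm, N3_psi hδ hm, N3_psi hδ hm]
    have h6 : ‖(δ : ℂ)‖ₑ = ENNReal.ofReal δ := by
      rw [← ofReal_norm, Complex.norm_real, Real.norm_of_nonneg hδ.le]
    have h7 : ENNReal.ofReal δ * ((ENNReal.ofReal δ⁻¹) ^ (1 / 3 : ℝ) * (ENNReal.ofReal δ⁻¹) ^ (1 / 3 : ℝ) *
        (ENNReal.ofReal δ⁻¹) ^ (1 / 3 : ℝ)) = 1 := by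
      have h8 : (ENNReal.ofReal δ⁻¹) ^ (1 / 3 : ℝ) * (ENNReal.ofReal δ⁻¹) ^ (1 / 3 : ℝ) *
          (ENNReal.ofReal δ⁻¹) ^ (1 / 3 : ℝ) = ENNReal.ofReal δ⁻¹ := by
        rw [← ENNReal.rpow_add_of_nonneg _ _ (by norm_num) (by norm_num),
          ← ENNReal.rpow_add_of_nonneg _ _ (by norm_num) (by norm_num)]
        norm_num
      rw [h8, ← ENNReal.ofReal_mul hδ.le, mul_inv_cancel₀ hδ.ne', ENNReal.ofReal_one]
    rw [h6]
    apply le_of_eq
    calc _ = (ENNReal.ofReal δ * ((ENNReal.ofReal δ⁻¹) ^ (1 / 3 : ℝ) * (ENNReal.ofReal δ⁻¹) ^ (1 / 3 : ℝ) *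
        (ENNReal.ofReal δ⁻¹) ^ (1 / 3 : ℝ))) * (ENNReal.ofReal C * (N3 (f 0) * N3 (f 1) * N3 (f 2))) := by
          ring
      _ = _ := by rw [h7, one_mul]
  refine le_trans (lintegral_mono (μ := volume.restrict Q) hbd) ?_
  rw [lintegral_const, Measure.restrict_apply_univ]
  have hQ : volume Q = 1 := by
    unfold Q
    rw [Real.volume_pi_Ico]
    simp
  rw [hQ, mul_one]

lemma N3_schwartz (f : SchwartzMap ℝ ℂ) : N3 f = ENNReal.ofReal (L0.n3 f) := by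
  unfold L0.n3
  rw [ENNReal.ofReal_toReal (f.memLp 3 volume).2.ne]
  rw [eLpNorm_eq_lintegral_rpow_enorm_toReal (by norm_num) (by norm_num)]
  unfold N3
  have : (3 : ℝ≥0∞).toReal = 3 := by simp
  rw [this]
  congr 1
  apply lintegral_congr
  intro y
  norm_cast

theorem boxBound_of {C : ℝ} (hC : 0 ≤ C) {b : ℤ} (H : LatB C b) : L0.BoxBound ((b : ℝ) / 2) := by
  refine ⟨C, hC, ?_⟩
  intro f₁ f₂ f₃ g hg hg1 ρ hρ m
  obtain ⟨C1, _, h1⟩ := f₁.decay 0 0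
  obtain ⟨C2, _, h2⟩ := f₂.decay 0 0
  obtain ⟨C3, _, h3⟩ := f₃.decay 0 0
  have hmeas : ∀ j, Measurable ((![⇑f₁, ⇑f₂, ⇑f₃, g] : Fin 4 → ℝ → ℂ) j) := by
    intro j
    fin_cases j
    · exact f₁.continuous.measurable
    · exact f₂.continuous.measurable
    · exact f₃.continuous.measurable
    · exact hg
  have hbd : ∀ j y, ‖(![⇑f₁, ⇑f₂, ⇑f₃, g] : Fin 4 → ℝ → ℂ) j y‖ ≤ max (max C1 C2) (max C3 1) := by
    intro j y
    fin_cases j
    · exact le_trans (by simpa using h1 y) (le_trans (le_max_left _ _) (le_max_left _ _))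
    · exact le_trans (by simpa using h2 y) (le_trans (le_max_right _ _) (le_max_left _ _))
    · exact le_trans (by simpa using h3 y) (le_trans (le_max_left _ _) (le_max_right _ _))
    · exact le_trans (hg1 y) (le_trans (le_max_right _ _) (le_max_right _ _))
  have hmain := main hC H hmeas (f₁.integrable) hbd hg1 (lt_of_lt_of_le one_pos hρ.1) m
  rw [← ofReal_norm] at hmain
  have h0 : N3 ((![⇑f₁, ⇑f₂, ⇑f₃, g] : Fin 4 → ℝ → ℂ) 0) = ENNReal.ofReal (L0.n3 f₁) := N3_schwartz f₁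
  have h0' : N3 ((![⇑f₁, ⇑f₂, ⇑f₃, g] : Fin 4 → ℝ → ℂ) 1) = ENNReal.ofReal (L0.n3 f₂) := N3_schwartz f₂
  have h0'' : N3 ((![⇑f₁, ⇑f₂, ⇑f₃, g] : Fin 4 → ℝ → ℂ) 2) = ENNReal.ofReal (L0.n3 f₃) := N3_schwartz f₃
  have hn : ∀ f : ℝ → ℂ, 0 ≤ L0.n3 f := fun f => ENNReal.toReal_nonneg
  rw [h0, h0', h0'', ← ENNReal.ofReal_mul (hn _), ← ENNReal.ofReal_mul (mul_nonneg (hn _) (hn _)),
    ← ENNReal.ofReal_mul hC] at hmain
  exact (ENNReal.ofReal_le_ofReal_iff (by have := hn f₁; have := hn f₂; have := hn f₃; positivity)).1 hmain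

/-- **L0z** -/
theorem l0z : Spine.L0zProp := by
  rintro ⟨C, hC, H⟩
  have h1 : LatB C (-1) := fun M F S => H (-1) (Or.inl rfl) M F S
  have h2 : LatB C (-7) := fun M F S => H (-7) (Or.inr rfl) M F S
  constructor
  · have := boxBound_of hC h1
    simpa using this
  · have := boxBound_of hC h2
    simpa using this

end Crest.Agent.R079.Riem133
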