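import Crest.Agent.R079.Spine_796
import Crest.Agent.R079.L0Main_406
import Crest.Agent.R079.Riem_133
import Crest.Agent.R079.L0e_292

/-! R079 MAIN (helper796): the whole of Layer 0 plugged in: literal `S0106` from the lattice
tree bound `Grid.BBFinite` (or from `Grid.GridBound`). -/

set_option autoImplicit false

namespace Crest.Agent.R079.Main

/-- literal `S0106` (as `L0.Target`) from `Grid.BBFinite`. -/
theorem target_of_BBFinite' (h : Grid.BBFinite) : L0.Target :=
  Spine.target_of_BBFinite L0e.l0e Riem133.l0z L0.s0106_of_boxBound h

/-- literal `S0106` from `Grid.GridBound`. -/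
theorem target_of_GridBound' (h : Grid.GridBound) : L0.Target :=
  Spine.target_of_GridBound Riem133.l0z L0.s0106_of_boxBound h

/-- literal `S0106` from `Grid.LatBound`. -/
theorem target_of_LatBound' (h : Grid.LatBound) : L0.Target := by
  have h1 := Riem133.l0z h
  exact L0.s0106_of_boxBound h1.1 h1.2

end Crest.Agent.R079.Main
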