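import Crest.Agent.R079.NLat_133

/-! R079, K-free (N), part B (helper133): assembly, one scale estimate `NB_one`. -/

set_option autoImplicit false
set_option linter.unusedSectionVars false
set_option linter.unusedVariables false

namespace Crest.Agent.R079.NF

open Matrix Finset
open Crest.Agent.R072 Crest.Agent.R072.Nd Crest.Agent.R072.Lattice Crest.Agent.R079.Path
  Crest.Agent.R079.LD Crest.Agent.R079.Pot
open scoped MatrixOrder

section seq

theorem seq_av8 {f8 f4 f2 f1 : ℤ → ℝ} (h8 : ∀ t, f8 t ≤ (1 / 2) * (f4 t + f4 (t + 4)))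
    (h4 : ∀ t, f4 t ≤ (1 / 2) * (f2 t + f2 (t + 2)))
    (h2 : ∀ t, f2 t ≤ (1 / 2) * (f1 t + f1 (t + 1))) (t : ℤ) : f8 t ≤ av8 f1 t := by
  have e : av8 f1 t = (1 / 8) * (f1 t + f1 (t + 1) + f1 (t + 2) + f1 (t + 3) + f1 (t + 4) +
      f1 (t + 5) + f1 (t + 6) + f1 (t + 7)) := by
    unfold av8
    simp only [sum_range_succ, sum_range_zero]
    push_cast
    norm_num
  have a1 := h8 t
  have a2 := h4 t
  have a3 := h4 (t + 4)
  have a4 := h2 t
  have a5 := h2 (t + 2)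
  have a6 := h2 (t + 4)
  have a7 := h2 (t + 6)
  rw [show t + 4 + 2 = t + 6 by ring] at a3
  rw [show t + 2 + 1 = t + 3 by ring] at a5
  rw [show t + 4 + 1 = t + 5 by ring] at a6
  rw [show t + 6 + 1 = t + 7 by ring] at a7
  rw [e]
  linarith

theorem seq_av4 {f8 f4 f2 : ℤ → ℝ} (h8 : ∀ t, f8 t ≤ (1 / 2) * (f4 t + f4 (t + 4)))
    (h4 : ∀ t, f4 t ≤ (1 / 2) * (f2 t + f2 (t + 2))) (t : ℤ) : f8 t ≤ av4 f2 t := by
  have e : av4 f2 t = (1 / 4) * (f2 t + f2 (t + 2) + f2 (t + 4) + f2 (t + 6)) := by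
    unfold av4
    simp only [sum_range_succ, sum_range_zero]
    push_cast
    norm_num
  have a1 := h8 t
  have a2 := h4 t
  have a3 := h4 (t + 4)
  rw [show t + 4 + 2 = t + 6 by ring] at a3
  rw [e]
  linarith

/-- two term average -/
noncomputable def hf (f : ℤ → ℝ) (t : ℤ) : ℝ := (1 / 2) * (f t + f (t + 1))

theorem hf_mono {f g : ℤ → ℝ} (h : ∀ t, f t ≤ g t) (t : ℤ) : hf f t ≤ hf g t := by
  unfold hf
  have h1 := h t
  have h2 := h (t + 1)
  linarith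

theorem av4_hf (f : ℤ → ℝ) : av4 (hf f) = av8 f := funext fun t => av4_half f t

theorem av8_hf (f : ℤ → ℝ) : av8 (hf f) = hf (av8 f) := by
  funext t
  unfold av8 hf
  rw [← mul_sum, sum_add_distrib]
  have : ∀ i : ℕ, t + (i : ℤ) + 1 = t + 1 + (i : ℤ) := fun i => by ring
  simp only [this]
  ring

theorem av8_second {w : ℤ → ℝ} {M : ℝ} (t : ℤ)
    (h : ∀ i : ℕ, i ≤ 7 → w (t + i + 1) + w (t + i - 1) - 2 * w (t + i) ≤ M) :
    av8 w (t + 1) + av8 w (t - 1) - 2 * av8 w t ≤ M := by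
  have e : av8 w (t + 1) + av8 w (t - 1) - 2 * av8 w t =
      (1 / 8) * ∑ i ∈ range 8, (w (t + i + 1) + w (t + i - 1) - 2 * w (t + i)) := by
    unfold av8
    rw [sum_sub_distrib, sum_add_distrib, ← mul_sum]
    have e1 : ∀ i : ℕ, t + 1 + (i : ℤ) = t + i + 1 := fun i => by ring
    have e2 : ∀ i : ℕ, t - 1 + (i : ℤ) = t + i - 1 := fun i => by ring
    simp only [e1, e2]
    ring
  rw [e]
  have h1 : ∑ i ∈ range 8, (w (t + i + 1) + w (t + i - 1) - 2 * w (t + i)) ≤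
      ∑ _i ∈ range 8, M := sum_le_sum fun i hi => h i (by have := mem_range.mp hi; omega)
  rw [sum_const, card_range, nsmul_eq_mul] at h1
  have h8 : ((8 : ℕ) : ℝ) = 8 := by norm_num
  rw [h8] at h1
  linarith

/-- `av8⁴ w (-16) ≤ w (-2) + 12 M` -/
theorem av8_four {w : ℤ → ℝ} {M : ℝ} (hM : 0 ≤ M)
    (h : ∀ t : ℤ, -15 ≤ t → t ≤ 11 → w (t + 1) + w (t - 1) - 2 * w t ≤ M) :
    av8 (av8 (av8 (av8 w))) (-16) ≤ w (-2) + 12 * M := by
  have h1 : ∀ t : ℤ, -15 ≤ t → t ≤ 4 → av8 w (t + 1) + av8 w (t - 1) - 2 * av8 w t ≤ M := by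
    intro t ht1 ht2
    refine av8_second t fun i hi => h (t + i) (by omega) (by omega)
  have h2 : ∀ t : ℤ, -15 ≤ t → t ≤ -3 →
      av8 (av8 w) (t + 1) + av8 (av8 w) (t - 1) - 2 * av8 (av8 w) t ≤ M := by
    intro t ht1 ht2
    refine av8_second t fun i hi => h1 (t + i) (by omega) (by omega)
  have h3 := av8_sq_le (w := av8 (av8 w)) hM (-16) fun i hi1 hi2 =>
    h2 (-16 + i) (by omega) (by omega)
  have h4 := av8_sq_le (w := w) hM (-9) fun i hi1 hi2 => h (-9 + i) (by omega) (by omega)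
  norm_num at h3 h4
  linarith

/-- each value in the range is controlled, first type -/
theorem le_av_I {g : ℤ → ℝ} (hg : ∀ t, 0 ≤ g t) (t : ℤ) (h1 : -16 ≤ t) (h2 : t ≤ 11) :
    g t ≤ 2048 * av8 (av8 (av8 (av4 g))) (-16) := by
  obtain ⟨m, hm⟩ : ∃ m : ℕ, t = -16 + (m : ℤ) := ⟨(t + 16).toNat, by omega⟩
  have hm27 : m ≤ 27 := by omega
  obtain ⟨b, k, i, j, hb, hk, hi, hj, hsum⟩ : ∃ b k i j : ℕ, b < 8 ∧ k < 8 ∧ i < 8 ∧ j < 4 ∧
      m = b + k + i + 2 * j := by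
    refine ⟨min 7 (m - 2 * min 3 (m / 2)), min 7 (m - 2 * min 3 (m / 2) -
      min 7 (m - 2 * min 3 (m / 2))), m - 2 * min 3 (m / 2) -
      min 7 (m - 2 * min 3 (m / 2)) - min 7 (m - 2 * min 3 (m / 2) -
      min 7 (m - 2 * min 3 (m / 2))), min 3 (m / 2), ?_, ?_, ?_, ?_, ?_⟩ <;> omega
  have g1 : ∀ s, 0 ≤ av4 g s := av4_nonneg hg
  have g2 : ∀ s, 0 ≤ av8 (av4 g) s := av8_nonneg g1
  have g3 : ∀ s, 0 ≤ av8 (av8 (av4 g)) s := av8_nonneg g2
  have a1 := le_av8 g3 (-16) hb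
  have a2 := le_av8 g2 (-16 + b) hk
  have a3 := le_av8 g1 (-16 + b + k) hi
  have a4 := le_av4 hg (-16 + b + k + i) hj
  have e : t = -16 + b + k + i + 2 * (j : ℤ) := by rw [hm, hsum]; push_cast; ring
  rw [e]
  linarith

/-- second type -/
theorem le_av_II {g : ℤ → ℝ} (hg : ∀ t, 0 ≤ g t) (t : ℤ) (h1 : -16 ≤ t) (h2 : t ≤ 9) :
    g t ≤ 512 * av8 (av4 (av4 (av4 g))) (-16) := by
  obtain ⟨m, hm⟩ : ∃ m : ℕ, t = -16 + (m : ℤ) := ⟨(t + 16).toNat, by omega⟩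
  have hm27 : m ≤ 25 := by omega
  obtain ⟨b, k, i, j, hb, hk, hi, hj, hsum⟩ : ∃ b k i j : ℕ, b < 8 ∧ k < 4 ∧ i < 4 ∧ j < 4 ∧
      m = b + 2 * k + 2 * i + 2 * j := by
    refine ⟨m - 2 * min 3 (m / 2) - 2 * min 3 ((m - 2 * min 3 (m / 2)) / 2) -
      2 * min 3 ((m - 2 * min 3 (m / 2) - 2 * min 3 ((m - 2 * min 3 (m / 2)) / 2)) / 2),
      min 3 (m / 2), min 3 ((m - 2 * min 3 (m / 2)) / 2),
      min 3 ((m - 2 * min 3 (m / 2) - 2 * min 3 ((m - 2 * min 3 (m / 2)) / 2)) / 2),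
      ?_, ?_, ?_, ?_, ?_⟩ <;> omega
  have g1 : ∀ s, 0 ≤ av4 g s := av4_nonneg hg
  have g2 : ∀ s, 0 ≤ av4 (av4 g) s := av4_nonneg g1
  have g3 : ∀ s, 0 ≤ av4 (av4 (av4 g)) s := av4_nonneg g2
  have a1 := le_av8 g3 (-16) hb
  have a2 := le_av4 g2 (-16 + b) hk
  have a3 := le_av4 g1 (-16 + b + 2 * (k : ℤ)) hi
  have a4 := le_av4 hg (-16 + b + 2 * (k : ℤ) + 2 * (i : ℤ)) hj
  have e : t = -16 + b + 2 * (k : ℤ) + 2 * (i : ℤ) + 2 * (j : ℤ) := by
    rw [hm, hsum]; push_cast; ring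
  rw [e]
  linarith

end seq

variable {Q : ℕ} [NeZero Q]

section block

theorem bl_shift (f : ZMod Q → ℝ) (N : ℕ) (t : ℤ) {j c : ℕ} (hc : c = j * N) :
    bl (fun n => f (n + ((c : ℕ) : ZMod Q))) N t = bl f N (t + j) := by
  unfold bl
  congr 1
  refine sum_congr rfl fun i _ => ?_
  have e : (t : ZMod Q) * (N : ZMod Q) + (i : ZMod Q) + ((c : ℕ) : ZMod Q) =
      ((t + j : ℤ) : ZMod Q) * (N : ZMod Q) + (i : ZMod Q) := by
    rw [hc]
    push_cast
    ring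
  exact congrArg f e

theorem bl_shift_neg (f : ZMod Q → ℝ) (N : ℕ) (t : ℤ) :
    bl (fun n => f (n - ((N : ℕ) : ZMod Q))) N t = bl f N (t - 1) := by
  unfold bl
  congr 1
  refine sum_congr rfl fun i _ => ?_
  have e : (t : ZMod Q) * (N : ZMod Q) + (i : ZMod Q) - ((N : ℕ) : ZMod Q) =
      ((t - 1 : ℤ) : ZMod Q) * (N : ZMod Q) + (i : ZMod Q) := by
    push_cast
    ring
  exact congrArg f e

theorem bl_step {f g h : ZMod Q → ℝ} {κ : ℝ} (N : ℕ) {j c : ℕ} (hc : c = j * N)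
    (H : ∀ n, f n ≤ (1 / 2) * (g n + g (n + ((c : ℕ) : ZMod Q))) - κ * h n) (t : ℤ) :
    bl f N t ≤ (1 / 2) * (bl g N t + bl g N (t + j)) - κ * bl h N t := by
  rw [← bl_shift g N t hc]
  unfold bl
  have h1 : ∑ i ∈ range N, f ((t : ZMod Q) * (N : ZMod Q) + (i : ZMod Q)) ≤
      ∑ i ∈ range N, ((1 / 2) * (g ((t : ZMod Q) * (N : ZMod Q) + (i : ZMod Q)) +
        g ((t : ZMod Q) * (N : ZMod Q) + (i : ZMod Q) + ((c : ℕ) : ZMod Q))) -
        κ * h ((t : ZMod Q) * (N : ZMod Q) + (i : ZMod Q))) := sum_le_sum fun i _ => H _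
  rw [sum_sub_distrib, ← mul_sum, sum_add_distrib, ← mul_sum] at h1
  have h2 := mul_le_mul_of_nonneg_left h1 (by positivity : (0 : ℝ) ≤ 1 / (N : ℝ))
  refine h2.trans (le_of_eq ?_)
  ring

theorem bl_step' {f g : ZMod Q → ℝ} (N : ℕ) {j c : ℕ} (hc : c = j * N)
    (H : ∀ n, f n ≤ (1 / 2) * (g n + g (n + ((c : ℕ) : ZMod Q)))) (t : ℤ) :
    bl f N t ≤ (1 / 2) * (bl g N t + bl g N (t + j)) := by
  have := bl_step (f := f) (g := g) (h := fun _ => 0) (κ := 0) N hc (fun n => by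
    have := H n; linarith) t
  linarith

theorem bl_eight (f : ZMod Q → ℝ) (N : ℕ) :
    bl f (N + N + (N + N) + (N + N + (N + N))) (-2) = av8 (bl f N) (-16) := by
  have hN8 : N + N + (N + N) + (N + N + (N + N)) = 8 * N := by ring
  rw [hN8]
  unfold bl av8
  rcases Nat.eq_zero_or_pos N with h0 | h0
  · subst h0; simp
  · have h1 : ∑ i ∈ range (8 * N), f (((-2 : ℤ) : ZMod Q) * ((8 * N : ℕ) : ZMod Q) +
        (i : ZMod Q)) = ∑ j ∈ range 8, ∑ i ∈ range N,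
        f (((-16 + (j : ℤ) : ℤ) : ZMod Q) * (N : ZMod Q) + (i : ZMod Q)) := by
      rw [sum_range_mul_aux (fun i : ℕ => f (((-2 : ℤ) : ZMod Q) * ((8 * N : ℕ) : ZMod Q) +
        ((i : ℕ) : ZMod Q))) 8 N]
      refine sum_congr rfl fun j _ => sum_congr rfl fun i _ => ?_
      congr 1
      push_cast
      ring
    rw [h1, ← mul_sum]
    push_cast
    have : (N : ℝ) ≠ 0 := by positivity
    field_simp

end block

section main

variable {θ τ : ℝ} {X Z : ZMod Q → ZMod Q → ℝ}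

/-- the drop of the resolvent potential: `av8⁴ w (-16) - V(8N)` -/
noncomputable def Dr (θ τ : ℝ) (X Z : ZMod Q → ZMod Q → ℝ) (N : ℕ) : ℝ :=
  av8 (av8 (av8 (av8 (bl (WR θ τ X Z N N N) N)))) (-16) -
    bl (WR θ τ X Z (N + N + (N + N) + (N + N + (N + N))) (N + N + (N + N) + (N + N + (N + N)))
      (N + N + (N + N) + (N + N + (N + N)))) (N + N + (N + N) + (N + N + (N + N))) (-2)

theorem chain_r (hθ : 0 ≤ θ) (hθ4 : θ ≤ 1 / 4) (hτ : 0 ≤ τ) {a b r : ℕ} (hr : 0 < r)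
    (h : Lv Z b r) (n : ZMod Q) :
    WR θ τ X Z a b (r + r) n ≤ (1 / 2) * (WR θ τ X Z a b r n + WR θ τ X Z a b r (n + (r : ℕ))) := by
  have h1 := WR_dr (θ := θ) (τ := τ) (X := X) (Z := Z) (a := a) (b := b) hr n
  have h2 := GR_nonneg (X := X) (a := a) hθ hθ4 hτ hr h n
  linarith

theorem drop_K (hθ : 0 ≤ θ) (hθ4 : θ ≤ 1 / 4) (hτ : 0 ≤ τ) {N : ℕ} (hN : 0 < N)
    (h : Lv Z N N) :
    (3 / 16) * av8 (av8 (av8 (av4 (bl (GK θ τ X Z N N N) N)))) (-16) ≤ Dr θ τ X Z N := by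
  set N2 := N + N with hN2
  set N4 := N2 + N2 with hN4
  set N8 := N4 + N4 with hN8
  have p2 : 0 < N2 := by omega
  have p4 : 0 < N4 := by omega
  have p8 : 0 < N8 := by omega
  have c1 : N = 1 * N := by ring
  have c2 : N2 = 2 * N := by omega
  have c4 : N4 = 4 * N := by omega
  have c8 : N8 = 8 * N := by omega
  -- levels
  have l21 : Lv Z N2 N := h.db hN
  have l41 : Lv Z N4 N := l21.db p2
  have l81 : Lv Z N8 N := l41.db p4
  have l82 : Lv Z N8 N2 := l81.dr hN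
  have l84 : Lv Z N8 N4 := l82.dr p2
  -- r-chain
  have r1 : ∀ t, bl (WR θ τ X Z N8 N8 N8) N t ≤ av8 (bl (WR θ τ X Z N8 N8 N) N) t := by
    refine seq_av8 (f4 := bl (WR θ τ X Z N8 N8 N4) N) (f2 := bl (WR θ τ X Z N8 N8 N2) N) ?_ ?_ ?_
    · intro t
      exact bl_step' N c4 (fun n => chain_r (a := N8) hθ hθ4 hτ p4 l84 n) t
    · intro t
      exact bl_step' N c2 (fun n => chain_r (a := N8) hθ hθ4 hτ p2 l82 n) t
    · intro t
      exact bl_step' N c1 (fun n => chain_r (a := N8) hθ hθ4 hτ hN l81 n) t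
  -- a-chain
  have a1 : ∀ t, bl (WR θ τ X Z N8 N8 N) N t ≤ av8 (bl (WR θ τ X Z N N8 N) N) t := by
    refine seq_av8 (f4 := bl (WR θ τ X Z N4 N8 N) N) (f2 := bl (WR θ τ X Z N2 N8 N) N) ?_ ?_ ?_
    · intro t
      exact bl_step' N c4 (fun n => (WR_da (b := N8) (r := N) p4 n).le) t
    · intro t
      exact bl_step' N c2 (fun n => (WR_da (b := N8) (r := N) p2 n).le) t
    · intro t
      exact bl_step' N c1 (fun n => (WR_da (b := N8) (r := N) hN n).le) t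
  -- b-chain
  have b1 : ∀ t, bl (WR θ τ X Z N N8 N) N t ≤ av4 (bl (WR θ τ X Z N N2 N) N) t := by
    refine seq_av4 (f4 := bl (WR θ τ X Z N N4 N) N) ?_ ?_
    · intro t
      exact bl_step' N c4 (fun n => WR_db' (a := N) hθ hθ4 hτ p4 l41 n) t
    · intro t
      exact bl_step' N c2 (fun n => WR_db' (a := N) hθ hθ4 hτ p2 l21 n) t
  have b2 : ∀ t, bl (WR θ τ X Z N N2 N) N t ≤ hf (bl (WR θ τ X Z N N N) N) t -
      (3 / 16) * bl (GK θ τ X Z N N N) N t := by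
    intro t
    have := bl_step N c1 (fun n => WR_db (X := X) (a := N) hθ hθ4 hτ hN h n) t
    unfold hf
    exact_mod_cast this
  have k1 : ∀ t, bl (WR θ τ X Z N8 N8 N8) N t ≤
      av8 (av8 (av8 (bl (WR θ τ X Z N N N) N))) t -
        (3 / 16) * av8 (av8 (av4 (bl (GK θ τ X Z N N N) N))) t := by
    intro t
    have h1 : ∀ s, bl (WR θ τ X Z N N8 N) N s ≤ av8 (bl (WR θ τ X Z N N N) N) s -
        (3 / 16) * av4 (bl (GK θ τ X Z N N N) N) s := by
      intro s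
      refine (b1 s).trans ?_
      have := av4_mono b2 s
      rw [av4_sub, av4_hf] at this
      exact this
    have h2 : ∀ s, bl (WR θ τ X Z N8 N8 N) N s ≤
        av8 (av8 (bl (WR θ τ X Z N N N) N)) s -
        (3 / 16) * av8 (av4 (bl (GK θ τ X Z N N N) N)) s := by
      intro s
      refine (a1 s).trans ?_
      have := av8_mono h1 s
      rw [av8_sub] at this
      exact this
    refine (r1 t).trans ?_
    have := av8_mono h2 t
    rw [av8_sub] at this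
    exact this
  have k2 := av8_mono k1 (-16)
  rw [av8_sub] at k2
  have k3 : bl (WR θ τ X Z N8 N8 N8) N8 (-2) = av8 (bl (WR θ τ X Z N8 N8 N8) N) (-16) := by
    rw [hN8, hN4, hN2]
    exact bl_eight _ N
  unfold Dr
  rw [← hN2, ← hN4, ← hN8, k3]
  linarith

theorem drop_R (hθ : 0 ≤ θ) (hθ4 : θ ≤ 1 / 4) (hτ : 0 ≤ τ) {N : ℕ} (hN : 0 < N)
    (h : Lv Z N N) :
    (1 / 2) * av8 (av4 (av4 (av4 (bl (GR θ τ X Z (N + N) (N + N) N) N)))) (-16) ≤
      Dr θ τ X Z N := by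
  set N2 := N + N with hN2
  set N4 := N2 + N2 with hN4
  set N8 := N4 + N4 with hN8
  have p2 : 0 < N2 := by omega
  have p4 : 0 < N4 := by omega
  have p8 : 0 < N8 := by omega
  have c1 : N = 1 * N := by ring
  have c2 : N2 = 2 * N := by omega
  have c4 : N4 = 4 * N := by omega
  -- levels
  have l21 : Lv Z N2 N := h.db hN
  have l41 : Lv Z N4 N := l21.db p2
  have l81 : Lv Z N8 N := l41.db p4
  have l22 : Lv Z N2 N2 := l21.dr hN
  have l42 : Lv Z N4 N2 := l41.dr hN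
  have l82 : Lv Z N8 N2 := l81.dr hN
  have l84 : Lv Z N8 N4 := l82.dr p2
  have r1 : ∀ t, bl (WR θ τ X Z N8 N8 N8) N t ≤ av4 (bl (WR θ τ X Z N8 N8 N2) N) t := by
    refine seq_av4 (f4 := bl (WR θ τ X Z N8 N8 N4) N) ?_ ?_
    · intro t
      exact bl_step' N c4 (fun n => chain_r (a := N8) hθ hθ4 hτ p4 l84 n) t
    · intro t
      exact bl_step' N c2 (fun n => chain_r (a := N8) hθ hθ4 hτ p2 l82 n) t
  have b1 : ∀ t, bl (WR θ τ X Z N8 N8 N2) N t ≤ av4 (bl (WR θ τ X Z N8 N2 N2) N) t := by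
    refine seq_av4 (f4 := bl (WR θ τ X Z N8 N4 N2) N) ?_ ?_
    · intro t
      exact bl_step' N c4 (fun n => WR_db' (a := N8) hθ hθ4 hτ p4 l42 n) t
    · intro t
      exact bl_step' N c2 (fun n => WR_db' (a := N8) hθ hθ4 hτ p2 l22 n) t
  have a1 : ∀ t, bl (WR θ τ X Z N8 N2 N2) N t ≤ av4 (bl (WR θ τ X Z N2 N2 N2) N) t := by
    refine seq_av4 (f4 := bl (WR θ τ X Z N4 N2 N2) N) ?_ ?_
    · intro t
      exact bl_step' N c4 (fun n => (WR_da (b := N2) (r := N2) p4 n).le) t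
    · intro t
      exact bl_step' N c2 (fun n => (WR_da (b := N2) (r := N2) p2 n).le) t
  have g1 : ∀ t, bl (WR θ τ X Z N2 N2 N2) N t ≤ hf (bl (WR θ τ X Z N2 N2 N) N) t -
      (1 / 2) * bl (GR θ τ X Z N2 N2 N) N t := by
    intro t
    have := bl_step N c1 (fun n => (WR_dr (θ := θ) (τ := τ) (X := X) (Z := Z) (a := N2)
      (b := N2) hN n).le) t
    unfold hf
    exact_mod_cast this
  have g2 : ∀ t, bl (WR θ τ X Z N2 N2 N) N t ≤ hf (bl (WR θ τ X Z N2 N N) N) t := by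
    intro t
    have := bl_step' N c1 (fun n => WR_db' (X := X) (a := N2) hθ hθ4 hτ hN h n) t
    unfold hf
    exact_mod_cast this
  have g3 : ∀ t, bl (WR θ τ X Z N2 N N) N t ≤ hf (bl (WR θ τ X Z N N N) N) t := by
    intro t
    have := bl_step' N c1 (fun n => (WR_da (θ := θ) (τ := τ) (X := X) (Z := Z) (b := N)
      (r := N) hN n).le) t
    unfold hf
    exact_mod_cast this
  set w := bl (WR θ τ X Z N N N) N with hw
  set γ := bl (GR θ τ X Z N2 N2 N) N with hγ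
  have g4 : ∀ t, bl (WR θ τ X Z N2 N2 N2) N t ≤ hf (hf (hf w)) t - (1 / 2) * γ t := by
    intro t
    have e1 := hf_mono (fun s => (g2 s).trans (hf_mono g3 s)) t
    linarith [g1 t]
  have k1 : ∀ t, bl (WR θ τ X Z N8 N8 N8) N t ≤ av8 (av8 (av8 w)) t -
      (1 / 2) * av4 (av4 (av4 γ)) t := by
    intro t
    have h1 : ∀ s, bl (WR θ τ X Z N8 N2 N2) N s ≤ hf (hf (av8 w)) s - (1 / 2) * av4 γ s := by
      intro s
      refine (a1 s).trans ?_
      have := av4_mono g4 s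
      rw [av4_sub, av4_hf, av8_hf, av8_hf] at this
      exact this
    have h2 : ∀ s, bl (WR θ τ X Z N8 N8 N2) N s ≤ hf (av8 (av8 w)) s -
        (1 / 2) * av4 (av4 γ) s := by
      intro s
      refine (b1 s).trans ?_
      have := av4_mono h1 s
      rw [av4_sub, av4_hf, av8_hf] at this
      exact this
    refine (r1 t).trans ?_
    have := av4_mono h2 t
    rw [av4_sub, av4_hf] at this
    exact this
  have k2 := av8_mono k1 (-16)
  rw [av8_sub] at k2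
  have k3 : bl (WR θ τ X Z N8 N8 N8) N8 (-2) = av8 (bl (WR θ τ X Z N8 N8 N8) N) (-16) := by
    rw [hN8, hN4, hN2]
    exact bl_eight _ N
  unfold Dr
  rw [← hN2, ← hN4, ← hN8, k3]
  linarith

/-- second differences of the block averages -/
theorem bl_second (hθ : 0 ≤ θ) (hθ4 : θ ≤ 1 / 4) (hτ : 0 < τ) {N : ℕ} (hN : 0 < N)
    (h : Lv Z N N) {ε : ℝ} (hε : 0 < ε) (m : ℕ)
    (hm : ∀ q p : ZMod Q, abar X N N q p ≤ (2 ^ m * τ) • (1 : Matrix (Fin N) (Fin N) ℝ))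
    (t : ℤ) :
    bl (WR θ τ X Z N N N) N (t + 1) + bl (WR θ τ X Z N N N) N (t - 1) -
      2 * bl (WR θ τ X Z N N N) N t ≤
      ε * ((1 / 2) * (bl (GK θ τ X Z N N N) N (t - 1) + bl (GK θ τ X Z N N N) N t)) +
        (16 / ε) * SX τ m X N := by
  have c1 : N = 1 * N := by ring
  have e1 := bl_shift (WR θ τ X Z N N N) N t c1
  have e2 := bl_shift_neg (WR θ τ X Z N N N) N t
  have e3 := bl_shift_neg (GK θ τ X Z N N N) N t
  rw [Nat.cast_one] at e1
  rw [← e1, ← e2, ← e3]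
  unfold bl
  have hNr : (0 : ℝ) < N := by exact_mod_cast hN
  have h1 := sum_le_sum fun i (_ : i ∈ range N) =>
    WR_second (X := X) hθ hθ4 hτ hN h hε m hm ((t : ZMod Q) * (N : ZMod Q) + (i : ZMod Q))
  rw [sum_sub_distrib, sum_add_distrib, sum_add_distrib, ← mul_sum, ← mul_sum, ← mul_sum,
    sum_add_distrib, sum_const, card_range, nsmul_eq_mul] at h1
  have h2 := mul_le_mul_of_nonneg_left h1 (by positivity : (0 : ℝ) ≤ 1 / (N : ℝ))
  have h3 : (1 / (N : ℝ)) * ((N : ℝ) * (16 / ε * SX τ m X N)) = 16 / ε * SX τ m X N := by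
    field_simp
  rw [mul_add, h3] at h2
  linarith

theorem SX_nonneg {τ : ℝ} (hτ : 0 < τ) (m : ℕ) (X : ZMod Q → ZMod Q → ℝ) (N : ℕ) :
    0 ≤ SX τ m X N :=
  sum_nonneg fun _ _ => sum_nonneg fun _ _ => sum_nonneg fun k _ =>
    mul_nonneg (by positivity) (gapLD_nonneg (by positivity) (abar_nn _ _ _ _ _)
      (abar_nn _ _ _ _ _))

theorem bl_nn {f : ZMod Q → ℝ} (h : ∀ n, 0 ≤ f n) (N : ℕ) (t : ℤ) : 0 ≤ bl f N t :=
  bl_nonneg h N t

/-- **drop estimate** -/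
theorem Dr_le (hθ : 0 ≤ θ) (hθ4 : θ ≤ 1 / 4) (hτ : 0 < τ) {N : ℕ} (hN : 0 < N)
    (h : Lv Z N N) (m : ℕ)
    (hm : ∀ q p : ZMod Q, abar X N N q p ≤ (2 ^ m * τ) • (1 : Matrix (Fin N) (Fin N) ℝ)) :
    Dr θ τ X Z N ≤ 2 * (bl (WR θ τ X Z N N N) N (-2) -
      bl (WR θ τ X Z (N + N + (N + N) + (N + N + (N + N))) (N + N + (N + N) + (N + N + (N + N)))
      (N + N + (N + N) + (N + N + (N + N)))) (N + N + (N + N) + (N + N + (N + N))) (-2)) +
      100663296 * SX τ m X N := by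
  set D := Dr θ τ X Z N with hD
  set w := bl (WR θ τ X Z N N N) N with hw
  set g := bl (GK θ τ X Z N N N) N with hg
  set S := SX τ m X N with hS
  have hS0 : 0 ≤ S := SX_nonneg hτ m X N
  have hg0 : ∀ t, 0 ≤ g t := fun t => bl_nn (GK_nonneg hθ hθ4 hτ.le h) N t
  have h1 : (3 / 16) * av8 (av8 (av8 (av4 g))) (-16) ≤ D := drop_K hθ hθ4 hτ.le hN h
  have hav0 : 0 ≤ av8 (av8 (av8 (av4 g))) (-16) :=
    av8_nonneg (av8_nonneg (av8_nonneg (av4_nonneg hg0))) _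
  have hD0 : 0 ≤ D := le_trans (by positivity) h1
  have hgD : ∀ t : ℤ, -16 ≤ t → t ≤ 11 → g t ≤ 32768 / 3 * D := by
    intro t t1 t2
    have := le_av_I hg0 t t1 t2
    linarith
  have hM : ∀ t : ℤ, -15 ≤ t → t ≤ 11 → w (t + 1) + w (t - 1) - 2 * w t ≤
      (1 / 262144) * (32768 / 3 * D) + 4194304 * S := by
    intro t t1 t2
    have h2 := bl_second (X := X) hθ hθ4 hτ hN h (ε := 1 / 262144) (by norm_num) m hm t
    have h3 := hgD (t - 1) (by omega) (by omega)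
    have h4 := hgD t (by omega) t2
    have e : (16 : ℝ) / (1 / 262144) = 4194304 := by norm_num
    rw [e] at h2
    have h5 : (1 / 262144 : ℝ) * ((1 / 2) * (g (t - 1) + g t)) ≤
        (1 / 262144) * (32768 / 3 * D) := by
      apply mul_le_mul_of_nonneg_left _ (by norm_num)
      linarith
    linarith
  have h6 := av8_four (w := w) (M := (1 / 262144) * (32768 / 3 * D) + 4194304 * S)
    (by positivity) hM
  have h7 : D = av8 (av8 (av8 (av8 w))) (-16) -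
      bl (WR θ τ X Z (N + N + (N + N) + (N + N + (N + N))) (N + N + (N + N) + (N + N + (N + N)))
      (N + N + (N + N) + (N + N + (N + N)))) (N + N + (N + N) + (N + N + (N + N))) (-2) := rfl
  linarith

/-- **(NB) one scale estimate**: pinching gains of the resolvent potential at block `l` -/
theorem NB_one (hθ : 0 ≤ θ) (hθ4 : θ ≤ 1 / 4) (hτ : 0 < τ) {N : ℕ} (hN : 0 < N)
    (h : Lv Z N N) (m : ℕ)
    (hm : ∀ q p : ZMod Q, abar X N N q p ≤ (2 ^ m * τ) • (1 : Matrix (Fin N) (Fin N) ℝ))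
    (l : ℤ) (hl : |l| ≤ 7) :
    bl (GR θ τ X Z (N + N) (N + N) N) N l ≤ 2048 * (bl (WR θ τ X Z N N N) N (-2) -
      bl (WR θ τ X Z (N + N + (N + N) + (N + N + (N + N))) (N + N + (N + N) + (N + N + (N + N)))
      (N + N + (N + N) + (N + N + (N + N)))) (N + N + (N + N) + (N + N + (N + N))) (-2)) +
      103079215104 * SX τ m X N := by
  have h1 := Dr_le (X := X) hθ hθ4 hτ hN h m hm
  have h2 := drop_R (X := X) hθ hθ4 hτ.le hN h
  have hl' := abs_le.mp hl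
  have h3 : ∀ t, 0 ≤ bl (GR θ τ X Z (N + N) (N + N) N) N t := fun t =>
    bl_nn (GR_nonneg hθ hθ4 hτ.le hN (h.db hN)) N t
  have h4 := le_av_II h3 l (by omega) (by omega)
  linarith

end main

end Crest.Agent.R079.NF
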