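import Mathlib

/-! R079, K-FREE (N), leaf **NC** of helper133's #29202 (helper215): extraction identity.

`u_j = (j/n)²`, `c_j = 2 (-1)^(j+1) n!² / ((n-j)! (n+j)!)`, `|c_j| ≤ 2`, `∑_j c_j u_j^i = δ_{i0}` for `i < n`;
`1 = ∑ c_j R_j - ∑ c_j (u_j/4)^n K^n R_j` with `R_j = (1 - (u_j/4) K)⁻¹`, hence for PSD `P`, `Kt`
`tr P Kt ≤ 4 n ∑ |c_j| (tr P R_j Kt R_j + 16^-n tr P K^n R_j Kt R_j K^n)`. -/

set_option autoImplicit false
set_option linter.unusedSectionVars false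

namespace Crest.Agent.R079.NC

open Finset Matrix
open scoped MatrixOrder

/-! ### coefficients -/

/-- extraction coefficients -/
noncomputable def cN (n j : ℕ) : ℝ :=
  2 * (-1) ^ (j + 1) * ((n.factorial : ℝ) ^ 2 / ((n - j).factorial * (n + j).factorial))

lemma cN_eq (n j : ℕ) (h : j ≤ n) :
    cN n j = 2 * (-1) ^ (j + 1) * (((2 * n).choose (n + j) : ℝ) / (2 * n).choose n) := by
  unfold cN
  have e1 : ((2 * n).choose (n + j) : ℝ) =
      (2 * n).factorial / ((n + j).factorial * (n - j).factorial) := by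
    rw [Nat.cast_choose ℝ (by omega : n + j ≤ 2 * n), show 2 * n - (n + j) = n - j by omega]
  have e2 : ((2 * n).choose n : ℝ) = (2 * n).factorial / (n.factorial * n.factorial) := by
    rw [Nat.cast_choose ℝ (by omega : n ≤ 2 * n), show 2 * n - n = n by omega]
  rw [e1, e2]
  have h1 : ((2 * n).factorial : ℝ) ≠ 0 := by positivity
  have h2 : ((n + j).factorial : ℝ) ≠ 0 := by positivity
  have h3 : ((n - j).factorial : ℝ) ≠ 0 := by positivity
  have h4 : (n.factorial : ℝ) ≠ 0 := by positivity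
  field_simp

lemma abs_cN_le (n j : ℕ) (h : j ≤ n) : |cN n j| ≤ 2 := by
  rw [cN_eq n j h, abs_mul, abs_mul, abs_pow, abs_neg, abs_one, one_pow, mul_one,
    abs_of_pos (by norm_num : (0 : ℝ) < 2), abs_of_nonneg (by positivity)]
  have h0 : (0 : ℝ) < (2 * n).choose n := by
    exact_mod_cast Nat.choose_pos (by omega : n ≤ 2 * n)
  have h1 : ((2 * n).choose (n + j) : ℝ) ≤ (2 * n).choose n := by
    have := Nat.choose_le_centralBinom (n + j) n
    rw [Nat.centralBinom_eq_two_mul_choose] at this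
    exact_mod_cast this
  have h2 : ((2 * n).choose (n + j) : ℝ) / (2 * n).choose n ≤ 1 := (div_le_one h0).2 h1
  linarith

lemma sum_choose (n i : ℕ) (h : i < n) :
    2 * ∑ j ∈ range n, (-1 : ℝ) ^ j * (2 * n).choose (n + 1 + j) * ((j : ℝ) + 1) ^ (2 * i) =
      (2 * n).choose n * (0 : ℝ) ^ (2 * i) := by
  have h1 := fwdDiff_iter_eq_sum_shift (M := ℝ) (G := ℝ) (h := 1) (fun r : ℝ => r ^ (2 * i)) (2 * n)
    (-(n : ℝ))
  rw [fwdDiff_iter_pow_eq_zero_of_lt (by omega : 2 * i < 2 * n)] at h1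
  rw [show 2 * n + 1 = (n + 1) + n by omega, Finset.sum_range_add, Finset.sum_range_succ,
    ← Finset.sum_range_reflect] at h1
  have e1 : ∀ j ∈ range n, (((-1 : ℤ) ^ (2 * n - (n - 1 - j)) * (2 * n).choose (n - 1 - j)) •
      (-(n : ℝ) + (n - 1 - j) • (1 : ℝ)) ^ (2 * i)) =
      (-1 : ℝ) ^ (n + 1) * ((-1 : ℝ) ^ j * (2 * n).choose (n + 1 + j) * ((j : ℝ) + 1) ^ (2 * i)) := by
    intro j hj
    rw [Finset.mem_range] at hj
    have a1 : 2 * n - (n - 1 - j) = n + 1 + j := by omega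
    have a2 : (2 * n).choose (n - 1 - j) = (2 * n).choose (n + 1 + j) := by
      rw [← Nat.choose_symm (by omega : n + 1 + j ≤ 2 * n)]
      congr 1
      omega
    have a3 : (-(n : ℝ) + (n - 1 - j) • (1 : ℝ)) ^ (2 * i) = ((j : ℝ) + 1) ^ (2 * i) := by
      have : (-(n : ℝ) + (n - 1 - j) • (1 : ℝ)) = -((j : ℝ) + 1) := by
        rw [nsmul_eq_mul, mul_one]
        have : ((n - 1 - j : ℕ) : ℝ) = (n : ℝ) - 1 - j := by
          rw [Nat.cast_sub (by omega), Nat.cast_sub (by omega)]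
          simp
        rw [this]
        ring
      rw [this, (even_two_mul i).neg_pow]
    rw [a1, a2, a3, zsmul_eq_mul]
    push_cast
    rw [pow_add (-1 : ℝ) (n + 1) j]
    ring
  have e2 : ∀ j ∈ range n, (((-1 : ℤ) ^ (2 * n - (n + 1 + j)) * (2 * n).choose (n + 1 + j)) •
      (-(n : ℝ) + (n + 1 + j) • (1 : ℝ)) ^ (2 * i)) =
      (-1 : ℝ) ^ (n + 1) * ((-1 : ℝ) ^ j * (2 * n).choose (n + 1 + j) * ((j : ℝ) + 1) ^ (2 * i)) := by
    intro j hj
    rw [Finset.mem_range] at hj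
    have a1 : (-1 : ℝ) ^ (2 * n - (n + 1 + j)) = (-1 : ℝ) ^ (n + 1) * (-1 : ℝ) ^ j := by
      have : (-1 : ℝ) ^ (2 * n - (n + 1 + j)) * (-1 : ℝ) ^ (n + 1 + j) = 1 := by
        rw [← pow_add, show 2 * n - (n + 1 + j) + (n + 1 + j) = 2 * n by omega,
          (even_two_mul n).neg_one_pow]
      have h2 : (-1 : ℝ) ^ (n + 1 + j) * (-1 : ℝ) ^ (n + 1 + j) = 1 := by
        rw [← pow_add, ← two_mul, (even_two_mul _).neg_one_pow]
      calc (-1 : ℝ) ^ (2 * n - (n + 1 + j))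
          = (-1 : ℝ) ^ (2 * n - (n + 1 + j)) * ((-1 : ℝ) ^ (n + 1 + j) * (-1 : ℝ) ^ (n + 1 + j)) := by
            rw [h2, mul_one]
        _ = ((-1 : ℝ) ^ (2 * n - (n + 1 + j)) * (-1 : ℝ) ^ (n + 1 + j)) * (-1 : ℝ) ^ (n + 1 + j) := by
            ring
        _ = _ := by rw [this, one_mul, pow_add]
    have a3 : (-(n : ℝ) + (n + 1 + j) • (1 : ℝ)) ^ (2 * i) = ((j : ℝ) + 1) ^ (2 * i) := by
      congr 1
      rw [nsmul_eq_mul, mul_one]
      push_cast
      ring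
    rw [a3, zsmul_eq_mul]
    push_cast
    rw [a1]
    ring
  rw [Finset.sum_congr rfl e1, Finset.sum_congr rfl e2] at h1
  have e3 : (((-1 : ℤ) ^ (2 * n - n) * (2 * n).choose n) • (-(n : ℝ) + n • (1 : ℝ)) ^ (2 * i)) =
      (-1 : ℝ) ^ n * ((2 * n).choose n * (0 : ℝ) ^ (2 * i)) := by
    rw [zsmul_eq_mul, show 2 * n - n = n by omega, nsmul_eq_mul, mul_one, neg_add_cancel]
    push_cast
    ring
  rw [e3, ← Finset.mul_sum] at h1
  simp only [Pi.zero_apply] at h1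
  have hs : (-1 : ℝ) ^ n * (-1 : ℝ) ^ n = 1 := by
    rw [← pow_add, ← two_mul, (even_two_mul _).neg_one_pow]
  have h3 : (-1 : ℝ) ^ n * ((2 * n).choose n * (0 : ℝ) ^ (2 * i) -
      2 * ∑ j ∈ range n, (-1 : ℝ) ^ j * (2 * n).choose (n + 1 + j) * ((j : ℝ) + 1) ^ (2 * i)) = 0 := by
    rw [pow_succ] at h1
    linear_combination -h1
  have h4 : ((2 * n).choose n * (0 : ℝ) ^ (2 * i) -
      2 * ∑ j ∈ range n, (-1 : ℝ) ^ j * (2 * n).choose (n + 1 + j) * ((j : ℝ) + 1) ^ (2 * i)) = 0 := by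
    rcases mul_eq_zero.1 h3 with h | h
    · exact absurd h (pow_ne_zero _ (by norm_num))
    · exact h
  linarith

/-- moments of the extraction coefficients -/
theorem sum_cN (n i : ℕ) (h : i < n) :
    ∑ j ∈ Finset.Icc 1 n, cN n j * (((j : ℝ) / n) ^ 2) ^ i = if i = 0 then 1 else 0 := by
  have h0 : (0 : ℝ) < (2 * n).choose n := by
    exact_mod_cast Nat.choose_pos (by omega : n ≤ 2 * n)
  have hn : (0 : ℝ) < n := by exact_mod_cast (by omega : 0 < n)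
  have hI : Finset.Icc 1 n = Finset.Ico (0 + 1) (n + 1) := by
    ext x
    simp only [Finset.mem_Icc, Finset.mem_Ico]
    omega
  rw [hI, ← Finset.sum_Ico_add' (fun j : ℕ => cN n j * (((j : ℝ) / n) ^ 2) ^ i) 0 n 1,
    ← Finset.range_eq_Ico]
  have hs := sum_choose n i h
  have e : ∀ j ∈ range n, cN n (j + 1) * ((((j + 1 : ℕ) : ℝ) / n) ^ 2) ^ i =
      (1 / (((2 * n).choose n : ℝ) * (n : ℝ) ^ (2 * i))) *
        (2 * ((-1 : ℝ) ^ j * (2 * n).choose (n + 1 + j) * ((j : ℝ) + 1) ^ (2 * i))) := by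
    intro j hj
    rw [Finset.mem_range] at hj
    rw [cN_eq n (j + 1) (by omega), show n + (j + 1) = n + 1 + j by omega, ← pow_mul, div_pow,
      show j + 1 + 1 = j + 2 by omega, pow_add (-1 : ℝ) j 2]
    push_cast
    field_simp
  rw [Finset.sum_congr rfl e, ← Finset.mul_sum, ← Finset.mul_sum, hs]
  by_cases hi : i = 0
  · subst hi
    simp [h0.ne']
  · rw [if_neg hi, zero_pow (by omega)]
    ring

/-! ### the resolvents -/

variable {ι : Type*} [Fintype ι] [DecidableEq ι]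

/-- resolvent `(1 - (u/4) K)⁻¹` -/
noncomputable def RN (u : ℝ) (K : Matrix ι ι ℝ) : Matrix ι ι ℝ := (1 - (u / 4) • K)⁻¹

lemma posDef_one_sub {u : ℝ} (hu0 : 0 ≤ u) (hu : u ≤ 1) {K : Matrix ι ι ℝ} (h1 : K ≤ 1) :
    (1 - (u / 4) • K).PosDef := by
  have e : (1 - (u / 4) • K) = (1 - u / 4) • (1 : Matrix ι ι ℝ) + (u / 4) • (1 - K) := by
    rw [sub_smul, one_smul, smul_sub]
    abel
  rw [e]
  refine Matrix.PosDef.add_posSemidef ?_ ?_
  · exact (Matrix.PosDef.one (n := ι) (R := ℝ)).smul (by linarith)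
  · exact (Matrix.nonneg_iff_posSemidef.mp (sub_nonneg.2 h1)).smul (by positivity)

lemma RN_mul {u : ℝ} (hu0 : 0 ≤ u) (hu : u ≤ 1) {K : Matrix ι ι ℝ} (h1 : K ≤ 1) :
    RN u K * (1 - (u / 4) • K) = 1 := by
  unfold RN
  exact Matrix.nonsing_inv_mul _ ((Matrix.isUnit_iff_isUnit_det _).1
    (posDef_one_sub hu0 hu h1).isUnit)

lemma mul_RN {u : ℝ} (hu0 : 0 ≤ u) (hu : u ≤ 1) {K : Matrix ι ι ℝ} (h1 : K ≤ 1) :
    (1 - (u / 4) • K) * RN u K = 1 := by
  unfold RN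
  exact Matrix.mul_nonsing_inv _ ((Matrix.isUnit_iff_isUnit_det _).1
    (posDef_one_sub hu0 hu h1).isUnit)

lemma transpose_of_nonneg {K : Matrix ι ι ℝ} (h : 0 ≤ K) : Kᵀ = K := by
  have := (Matrix.nonneg_iff_posSemidef.mp h).isHermitian
  rwa [Matrix.IsHermitian, Matrix.conjTranspose_eq_transpose_of_trivial] at this

lemma RN_transpose (u : ℝ) {K : Matrix ι ι ℝ} (h : 0 ≤ K) : (RN u K)ᵀ = RN u K := by
  unfold RN
  rw [Matrix.transpose_nonsing_inv, Matrix.transpose_sub, Matrix.transpose_one,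
    Matrix.transpose_smul, transpose_of_nonneg h]

lemma RN_comm {u : ℝ} (hu0 : 0 ≤ u) (hu : u ≤ 1) {K : Matrix ι ι ℝ} (h1 : K ≤ 1) :
    RN u K * K = K * RN u K := by
  have hc : K * (1 - (u / 4) • K) = (1 - (u / 4) • K) * K := by
    rw [Matrix.mul_sub, Matrix.sub_mul, Matrix.mul_one, Matrix.one_mul, Matrix.mul_smul,
      Matrix.smul_mul]
  calc RN u K * K = RN u K * (K * ((1 - (u / 4) • K) * RN u K)) := by
        rw [mul_RN hu0 hu h1, Matrix.mul_one]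
    _ = RN u K * (K * (1 - (u / 4) • K)) * RN u K := by
        simp only [Matrix.mul_assoc]
    _ = RN u K * ((1 - (u / 4) • K) * K) * RN u K := by rw [hc]
    _ = (RN u K * (1 - (u / 4) • K)) * K * RN u K := by simp only [Matrix.mul_assoc]
    _ = K * RN u K := by rw [RN_mul hu0 hu h1, Matrix.one_mul]

lemma RN_comm_pow {u : ℝ} (hu0 : 0 ≤ u) (hu : u ≤ 1) {K : Matrix ι ι ℝ} (h1 : K ≤ 1) (n : ℕ) :
    RN u K * K ^ n = K ^ n * RN u K :=
  (show Commute (RN u K) K from RN_comm hu0 hu h1).pow_right n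

/-- truncated Neumann series -/
lemma RN_expand {u : ℝ} (hu0 : 0 ≤ u) (hu : u ≤ 1) {K : Matrix ι ι ℝ} (h1 : K ≤ 1) (n : ℕ) :
    RN u K = ∑ i ∈ range n, (u / 4) ^ i • K ^ i + (u / 4) ^ n • (K ^ n * RN u K) := by
  have hg : (∑ i ∈ range n, ((u / 4) • K) ^ i) * (1 - (u / 4) • K) = 1 - ((u / 4) • K) ^ n := by
    have := geom_sum_mul ((u / 4) • K) n
    calc (∑ i ∈ range n, ((u / 4) • K) ^ i) * (1 - (u / 4) • K)
        = -((∑ i ∈ range n, ((u / 4) • K) ^ i) * ((u / 4) • K - 1)) := by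
          rw [← Matrix.mul_neg]; congr 1; abel
      _ = _ := by rw [this]; abel
  have h2 : (∑ i ∈ range n, ((u / 4) • K) ^ i) = RN u K - ((u / 4) • K) ^ n * RN u K := by
    calc (∑ i ∈ range n, ((u / 4) • K) ^ i)
        = (∑ i ∈ range n, ((u / 4) • K) ^ i) * ((1 - (u / 4) • K) * RN u K) := by
          rw [mul_RN hu0 hu h1, Matrix.mul_one]
      _ = ((∑ i ∈ range n, ((u / 4) • K) ^ i) * (1 - (u / 4) • K)) * RN u K := by
          rw [Matrix.mul_assoc]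
      _ = _ := by rw [hg, Matrix.sub_mul, Matrix.one_mul]
  have e : ∀ i, ((u / 4) • K) ^ i = (u / 4) ^ i • K ^ i := fun i => smul_pow _ _ _
  simp only [e] at h2
  rw [h2, Matrix.smul_mul]
  abel

/-- the extraction identity -/
theorem one_eq (n : ℕ) (hn : 1 ≤ n) {K : Matrix ι ι ℝ} (h1 : K ≤ 1) :
    (1 : Matrix ι ι ℝ) = ∑ j ∈ Finset.Icc 1 n, cN n j • (RN (((j : ℝ) / n) ^ 2) K -
      ((((j : ℝ) / n) ^ 2) / 4) ^ n • (K ^ n * RN (((j : ℝ) / n) ^ 2) K)) := by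
  have hn' : (0 : ℝ) < n := by exact_mod_cast hn
  have hu : ∀ j ∈ Finset.Icc 1 n, ((j : ℝ) / n) ^ 2 ≤ 1 := by
    intro j hj
    rw [Finset.mem_Icc] at hj
    have : (j : ℝ) / n ≤ 1 := (div_le_one hn').2 (by exact_mod_cast hj.2)
    exact pow_le_one₀ (by positivity) this
  have e : ∀ j ∈ Finset.Icc 1 n, cN n j • (RN (((j : ℝ) / n) ^ 2) K -
      ((((j : ℝ) / n) ^ 2) / 4) ^ n • (K ^ n * RN (((j : ℝ) / n) ^ 2) K)) =
      ∑ i ∈ range n, (cN n j * (((j : ℝ) / n) ^ 2) ^ i) • ((1 / 4 : ℝ) ^ i • K ^ i) := by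
    intro j hj
    have h2 := RN_expand (sq_nonneg ((j : ℝ) / n)) (hu j hj) h1 n
    have h3 : RN (((j : ℝ) / n) ^ 2) K -
        ((((j : ℝ) / n) ^ 2) / 4) ^ n • (K ^ n * RN (((j : ℝ) / n) ^ 2) K) =
        ∑ i ∈ range n, ((((j : ℝ) / n) ^ 2) / 4) ^ i • K ^ i := by
      rw [sub_eq_iff_eq_add]
      exact h2
    rw [h3, Finset.smul_sum]
    refine Finset.sum_congr rfl fun i _ => ?_
    rw [smul_smul, smul_smul]
    congr 1
    rw [div_pow, one_div, inv_pow, div_eq_mul_inv]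
    ring
  rw [Finset.sum_congr rfl e, Finset.sum_comm]
  have e2 : ∀ i ∈ range n, ∑ j ∈ Finset.Icc 1 n,
      (cN n j * (((j : ℝ) / n) ^ 2) ^ i) • ((1 / 4 : ℝ) ^ i • K ^ i) =
      (if i = 0 then (1 : ℝ) else 0) • ((1 / 4 : ℝ) ^ i • K ^ i) := by
    intro i hi
    rw [← Finset.sum_smul, sum_cN n i (Finset.mem_range.1 hi)]
  rw [Finset.sum_congr rfl e2, Finset.sum_eq_single 0]
  · simp
  · intro i _ hi
    rw [if_neg hi, zero_smul]
  · intro h
    exact absurd (Finset.mem_range.2 hn) h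

/-! ### the quadratic form `X ↦ tr P X Kt Xᵀ` -/

/-- quadratic form -/
noncomputable def qf (P Kt X : Matrix ι ι ℝ) : ℝ := trace (P * X * Kt * Xᵀ)

/-- bilinear form -/
noncomputable def bf (P Kt X Y : Matrix ι ι ℝ) : ℝ := trace (P * X * Kt * Yᵀ)

lemma trace_mul_nonneg {P S : Matrix ι ι ℝ} (hP : 0 ≤ P) (hS : 0 ≤ S) : 0 ≤ trace (P * S) := by
  obtain ⟨B, rfl⟩ := (CStarAlgebra.nonneg_iff_eq_star_mul_self (a := P)).1 hP
  rw [Matrix.mul_assoc, Matrix.trace_mul_comm, Matrix.mul_assoc]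
  have h := (Matrix.nonneg_iff_posSemidef.mp hS).mul_mul_conjTranspose_same B
  rw [Matrix.mul_assoc] at h
  exact h.trace_nonneg

lemma qf_nonneg {P Kt : Matrix ι ι ℝ} (hP : 0 ≤ P) (hK : 0 ≤ Kt) (X : Matrix ι ι ℝ) :
    0 ≤ qf P Kt X := by
  unfold qf
  have h := (Matrix.nonneg_iff_posSemidef.mp hK).mul_mul_conjTranspose_same X
  rw [Matrix.conjTranspose_eq_transpose_of_trivial] at h
  have := trace_mul_nonneg hP h.nonneg
  simpa only [Matrix.mul_assoc] using this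

lemma bf_symm {P Kt : Matrix ι ι ℝ} (hP : 0 ≤ P) (hK : 0 ≤ Kt) (X Y : Matrix ι ι ℝ) :
    bf P Kt X Y = bf P Kt Y X := by
  unfold bf
  rw [← Matrix.trace_transpose]
  simp only [Matrix.transpose_mul, Matrix.transpose_transpose, transpose_of_nonneg hP,
    transpose_of_nonneg hK]
  rw [← Matrix.mul_assoc, ← Matrix.mul_assoc, Matrix.trace_mul_comm]
  simp only [Matrix.mul_assoc]

lemma bf_le {P Kt : Matrix ι ι ℝ} (hP : 0 ≤ P) (hK : 0 ≤ Kt) (X Y : Matrix ι ι ℝ) :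
    |bf P Kt X Y| ≤ (qf P Kt X + qf P Kt Y) / 2 := by
  have h1 := qf_nonneg hP hK (X + Y)
  have h2 := qf_nonneg hP hK (X - Y)
  have hs := bf_symm hP hK X Y
  have e1 : qf P Kt (X + Y) = qf P Kt X + qf P Kt Y + bf P Kt X Y + bf P Kt Y X := by
    unfold qf bf
    simp only [Matrix.transpose_add, Matrix.mul_add, Matrix.add_mul, Matrix.trace_add]
    ring
  have e2 : qf P Kt (X - Y) = qf P Kt X + qf P Kt Y - bf P Kt X Y - bf P Kt Y X := by
    unfold qf bf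
    simp only [Matrix.transpose_sub, Matrix.mul_sub, Matrix.sub_mul, Matrix.trace_sub]
    ring
  rw [e1] at h1
  rw [e2] at h2
  rw [abs_le]
  constructor <;> linarith

lemma qf_smul (P Kt X : Matrix ι ι ℝ) (a : ℝ) : qf P Kt (a • X) = a ^ 2 * qf P Kt X := by
  unfold qf
  rw [Matrix.transpose_smul]
  simp only [Matrix.mul_smul, Matrix.smul_mul, Matrix.trace_smul, smul_eq_mul]
  ring

/-- convexity of the quadratic form -/
lemma qf_sum_le {P Kt : Matrix ι ι ℝ} (hP : 0 ≤ P) (hK : 0 ≤ Kt) {σ : Type*} (S : Finset σ)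
    (a : σ → ℝ) (X : σ → Matrix ι ι ℝ) :
    qf P Kt (∑ s ∈ S, a s • X s) ≤ (∑ s ∈ S, |a s|) * ∑ s ∈ S, |a s| * qf P Kt (X s) := by
  have e : qf P Kt (∑ s ∈ S, a s • X s) = ∑ s ∈ S, ∑ t ∈ S, a s * a t * bf P Kt (X s) (X t) := by
    unfold qf bf
    rw [Matrix.transpose_sum, Matrix.mul_sum, Matrix.trace_sum, Finset.sum_comm]
    refine Finset.sum_congr rfl fun t _ => ?_
    rw [Matrix.mul_sum, Matrix.sum_mul, Matrix.sum_mul, Matrix.trace_sum]
    refine Finset.sum_congr rfl fun s _ => ?_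
    rw [Matrix.transpose_smul]
    simp only [Matrix.mul_smul, Matrix.smul_mul, Matrix.trace_smul, smul_eq_mul]
    ring
  have h1 : ∀ s ∈ S, ∀ t ∈ S, a s * a t * bf P Kt (X s) (X t) ≤
      |a s| * |a t| * ((qf P Kt (X s) + qf P Kt (X t)) / 2) := by
    intro s _ t _
    calc a s * a t * bf P Kt (X s) (X t) ≤ |a s * a t * bf P Kt (X s) (X t)| := le_abs_self _
      _ = |a s| * |a t| * |bf P Kt (X s) (X t)| := by rw [abs_mul, abs_mul]
      _ ≤ _ := mul_le_mul_of_nonneg_left (bf_le hP hK _ _) (by positivity)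
  rw [e]
  refine (Finset.sum_le_sum fun s hs => Finset.sum_le_sum fun t ht => h1 s hs t ht).trans
    (le_of_eq ?_)
  have e2 : ∀ s t, |a s| * |a t| * ((qf P Kt (X s) + qf P Kt (X t)) / 2) =
      (1 / 2) * (|a t| * (|a s| * qf P Kt (X s))) + (1 / 2) * (|a s| * (|a t| * qf P Kt (X t))) := by
    intro s t
    ring
  simp only [e2, Finset.sum_add_distrib, ← Finset.mul_sum]
  simp only [← Finset.sum_mul]
  rw [← Finset.mul_sum]
  ring

/-- **NC** (helper133 #29202 (C)) -/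
theorem nc (n : ℕ) {P K Kt : Matrix ι ι ℝ} (hn : 1 ≤ n) (hP : 0 ≤ P) (hK : 0 ≤ K) (h1 : K ≤ 1)
    (hKt : 0 ≤ Kt) :
    trace (P * Kt) ≤ 4 * n * ∑ j ∈ Finset.Icc 1 n, |cN n j| *
      (trace (P * RN (((j : ℝ) / n) ^ 2) K * Kt * RN (((j : ℝ) / n) ^ 2) K) +
        (1 / 16) ^ n * trace (P * K ^ n * RN (((j : ℝ) / n) ^ 2) K * Kt *
          RN (((j : ℝ) / n) ^ 2) K * K ^ n)) := by
  have hn' : (0 : ℝ) < n := by exact_mod_cast hn
  have hu : ∀ j ∈ Finset.Icc 1 n, ((j : ℝ) / n) ^ 2 ≤ 1 := by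
    intro j hj
    rw [Finset.mem_Icc] at hj
    have : (j : ℝ) / n ≤ 1 := (div_le_one hn').2 (by exact_mod_cast hj.2)
    exact pow_le_one₀ (by positivity) this
  have hq1 : trace (P * Kt) = qf P Kt 1 := by
    unfold qf
    rw [Matrix.transpose_one, Matrix.mul_one, Matrix.mul_one]
  have hKn : (K ^ n)ᵀ = K ^ n := by rw [Matrix.transpose_pow, transpose_of_nonneg hK]
  -- the two families
  set X : ℕ × Bool → Matrix ι ι ℝ := fun s => if s.2 then RN (((s.1 : ℝ) / n) ^ 2) K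
    else (-((((s.1 : ℝ) / n) ^ 2) / 4) ^ n) • (K ^ n * RN (((s.1 : ℝ) / n) ^ 2) K) with hX
  have hone : (1 : Matrix ι ι ℝ) = ∑ s ∈ Finset.Icc 1 n ×ˢ (Finset.univ : Finset Bool),
      cN n s.1 • X s := by
    rw [one_eq n hn h1, Finset.sum_product]
    refine Finset.sum_congr rfl fun j _ => ?_
    rw [Fintype.sum_bool]
    simp only [hX, if_true, Bool.false_eq_true, if_false]
    rw [← smul_add, neg_smul, sub_eq_add_neg]
  rw [hq1]
  conv_lhs => rw [hone]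
  refine (qf_sum_le hP hKt _ _ _).trans ?_
  have hs1 : ∑ s ∈ Finset.Icc 1 n ×ˢ (Finset.univ : Finset Bool), |cN n s.1| ≤ 4 * n := by
    rw [Finset.sum_product]
    simp only [Fintype.sum_bool]
    calc ∑ j ∈ Finset.Icc 1 n, (|cN n j| + |cN n j|) ≤ ∑ _j ∈ Finset.Icc 1 n, (4 : ℝ) := by
          refine Finset.sum_le_sum fun j hj => ?_
          have := abs_cN_le n j (Finset.mem_Icc.1 hj).2
          linarith
      _ = 4 * n := by
          rw [Finset.sum_const, Nat.card_Icc, nsmul_eq_mul]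
          simp
          ring
  have hs2 : ∑ s ∈ Finset.Icc 1 n ×ˢ (Finset.univ : Finset Bool), |cN n s.1| * qf P Kt (X s) ≤
      ∑ j ∈ Finset.Icc 1 n, |cN n j| *
      (trace (P * RN (((j : ℝ) / n) ^ 2) K * Kt * RN (((j : ℝ) / n) ^ 2) K) +
        (1 / 16) ^ n * trace (P * K ^ n * RN (((j : ℝ) / n) ^ 2) K * Kt *
          RN (((j : ℝ) / n) ^ 2) K * K ^ n)) := by
    rw [Finset.sum_product]
    refine Finset.sum_le_sum fun j hj => ?_
    rw [Fintype.sum_bool]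
    simp only [hX, if_true, Bool.false_eq_true, if_false]
    rw [← mul_add]
    refine mul_le_mul_of_nonneg_left ?_ (abs_nonneg _)
    have t1 : qf P Kt (RN (((j : ℝ) / n) ^ 2) K) =
        trace (P * RN (((j : ℝ) / n) ^ 2) K * Kt * RN (((j : ℝ) / n) ^ 2) K) := by
      unfold qf
      rw [RN_transpose _ hK]
    have t2 : qf P Kt (K ^ n * RN (((j : ℝ) / n) ^ 2) K) =
        trace (P * K ^ n * RN (((j : ℝ) / n) ^ 2) K * Kt * RN (((j : ℝ) / n) ^ 2) K * K ^ n) := by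
      unfold qf
      rw [Matrix.transpose_mul, RN_transpose _ hK, hKn]
      simp only [Matrix.mul_assoc]
    have t3 : qf P Kt ((-((((j : ℝ) / n) ^ 2) / 4) ^ n) • (K ^ n * RN (((j : ℝ) / n) ^ 2) K)) ≤
        (1 / 16) ^ n * qf P Kt (K ^ n * RN (((j : ℝ) / n) ^ 2) K) := by
      rw [qf_smul]
      refine mul_le_mul_of_nonneg_right ?_ (qf_nonneg hP hKt _)
      rw [neg_sq, ← pow_mul, mul_comm n 2, pow_mul]
      refine pow_le_pow_left₀ (by positivity) ?_ n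
      have h4 : (((j : ℝ) / n) ^ 2) / 4 ≤ 1 / 4 := by
        have := hu j hj
        linarith
      have h5 : (0 : ℝ) ≤ (((j : ℝ) / n) ^ 2) / 4 := by positivity
      nlinarith
    rw [t1, ← t2]
    linarith
  have hs0 : 0 ≤ ∑ s ∈ Finset.Icc 1 n ×ˢ (Finset.univ : Finset Bool),
      |cN n s.1| * qf P Kt (X s) :=
    Finset.sum_nonneg fun s _ => mul_nonneg (abs_nonneg _) (qf_nonneg hP hKt _)
  calc (∑ s ∈ Finset.Icc 1 n ×ˢ (Finset.univ : Finset Bool), |cN n s.1|) *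
        ∑ s ∈ Finset.Icc 1 n ×ˢ (Finset.univ : Finset Bool), |cN n s.1| * qf P Kt (X s)
      ≤ (4 * n) * ∑ s ∈ Finset.Icc 1 n ×ˢ (Finset.univ : Finset Bool),
          |cN n s.1| * qf P Kt (X s) := mul_le_mul_of_nonneg_right hs1 hs0
    _ ≤ _ := mul_le_mul_of_nonneg_left hs2 (by positivity)

end Crest.Agent.R079.NC
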