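import Crest.Agent.R079.PathDeriv_378

/-!
# R079, leaf ND (helper133 #29202 (D)): the trilinear trace per box against one bounded slot

Pure real matrices.  `T = tr (U3 A U4 B U2 C)`, `C Cᵀ ≤ s²`.
Vertex 4 is sandwiched at the dyadic levels `t_k = 2^k τ`, then `U3` and `U2` are inserted at
`M3 = AAᵀ/τ + CᵀC/s²`, `M2 = CCᵀ/s² + BᵀB/τ`; what remains is `Tt (1/τ) (1/τ) (1/s²)`.
-/

set_option autoImplicit false
set_option linter.unusedSectionVars false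

namespace Crest.Agent.R079.Path

open Matrix
open Crest.Agent.R072 Crest.Agent.R072.Nd
open scoped MatrixOrder

section basic

variable {n m p q : Type*} [Fintype n] [DecidableEq n] [Fintype m] [DecidableEq m]
  [Fintype p] [DecidableEq p] [Fintype q] [DecidableEq q]

/-- the energy `tr g(M) U g(M) U` -/
noncomputable def Eg (U M : Matrix n n ℝ) : ℝ := trace (gm M * (U * gm M * U))

theorem Eg_nonneg {U M : Matrix n n ℝ} (hU : Uᵀ = U) (hM : 0 ≤ M) : 0 ≤ Eg U M :=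
  frob_trace_mul_nonneg (gm_nonneg hM) (sandwich_nonneg hU (gm_nonneg hM))

theorem smul_le_smul' {P Q : Matrix n n ℝ} (h : P ≤ Q) {c : ℝ} (hc : 0 ≤ c) : c • P ≤ c • Q := by
  rw [← sub_nonneg, ← smul_sub]
  exact psd_smul' (sub_nonneg.mpr h) hc

/-- `|X U Y|² ≤ a b tr g U g U` -/
theorem fsq_gg {U M : Matrix n n ℝ} (hU : Uᵀ = U) (X : Matrix p n ℝ) (Y : Matrix n q ℝ)
    {a b : ℝ} (hX : Xᵀ * X ≤ a • gm M) (hY : Y * Yᵀ ≤ b • gm M) :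
    fsq (X * U * Y) ≤ a * b * Eg U M := by
  have h := fsq_sandwich_le X U Y hX hY
  rw [hU] at h
  refine h.trans (le_of_eq ?_)
  unfold Eg
  simp only [Matrix.smul_mul, Matrix.mul_smul, trace_smul, smul_eq_mul]
  ring

theorem psd_symm_sq' {M : Matrix n n ℝ} (hM : 0 ≤ M) : 0 ≤ Hm M * Hm M :=
  (psd_of_symm_sq (Hm_transpose hM)).nonneg

theorem gm_transpose {M : Matrix n n ℝ} (hM : 0 ≤ M) : (gm M)ᵀ = gm M := one_sub_Hm_transpose hM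

theorem gm_sq_le {M : Matrix n n ℝ} (hM : 0 ≤ M) : gm M * gm M ≤ gm M := by
  have h := gm_sub_hm hM
  have h2 : gm M * gm M = gm M - hm M := h.symm
  rw [h2]
  exact sub_le_self _ (hm_nonneg hM)

theorem gm_mono {M N : Matrix n n ℝ} (hM : 0 ≤ M) (h : M ≤ N) : gm M ≤ gm N :=
  sub_le_sub_left (Hm_anti hM h) _

theorem gm_le_one {M : Matrix n n ℝ} (hM : 0 ≤ M) : gm M ≤ 1 := by
  rw [← sub_nonneg]
  have : (1 : Matrix n n ℝ) - gm M = Hm M := by unfold gm; abel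
  rw [this]
  exact Hm_nonneg hM

/-- `N ≤ 1 → N ≤ 2 g(N)` -/
theorem le_two_gm {N : Matrix n n ℝ} (hN : 0 ≤ N) (h1 : N ≤ 1) : N ≤ (2 : ℝ) • gm N := by
  have hN' := Matrix.nonneg_iff_posSemidef.mp hN
  set W := CFC.sqrt N with hW
  have hWW : W * W = N := rt_mul_rt hN'
  have hWt : Wᵀ = W := rt_transpose N
  have h2 : N * N ≤ N := by
    have := le_conj h1 W
    rw [hWt, Matrix.mul_one, hWW] at this
    calc N * N = W * N * W := by rw [← hWW]; noncomm_ring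
      _ ≤ N := this
  have h3 : N * N * N ≤ N := by
    have := le_conj (h2.trans h1) W
    rw [hWt, Matrix.mul_one, hWW] at this
    calc N * N * N = W * (N * N) * W := by rw [← hWW]; noncomm_ring
      _ ≤ N := this
  have h4 : 0 ≤ N - N * N * N := sub_nonneg.mpr h3
  have h5 := frob_psd_conj h4 (Hm N)
  rw [Hm_transpose hN] at h5
  have e : Hm N * (N - N * N * N) * Hm N = (2 : ℝ) • gm N - N := by
    have a1 : N * Hm N = 1 - Hm N := mul_Hm hN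
    have a2 : Hm N * N = 1 - Hm N := Hm_mul hN
    have a3 : Hm N * (N - N * N * N) * Hm N
        = Hm N * (N * Hm N) - (Hm N * N) * N * (N * Hm N) := by noncomm_ring
    rw [a3, a1, a2]
    have a4 : (1 - Hm N) * N * (1 - Hm N) = N - N * Hm N - Hm N * N + Hm N * N * Hm N := by
      noncomm_ring
    rw [a4, a1, a2]
    unfold gm
    rw [two_smul]
    noncomm_ring
  rw [← sub_nonneg, ← e]
  exact h5

/-- `(H X)(H X)ᵀ ≤ c g(M)` if `X Xᵀ ≤ c M` -/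
theorem Hm_mul_gram {M : Matrix n n ℝ} (hM : 0 ≤ M) (X : Matrix n p ℝ) {c : ℝ} (hc : 0 ≤ c)
    (hX : X * Xᵀ ≤ c • M) : (Hm M * X) * (Hm M * X)ᵀ ≤ c • gm M := by
  rw [transpose_mul, Hm_transpose hM]
  have := le_conj hX (Hm M)
  rw [Hm_transpose hM] at this
  calc Hm M * X * (Xᵀ * Hm M) = Hm M * (X * Xᵀ) * Hm M := by simp only [Matrix.mul_assoc]
    _ ≤ Hm M * (c • M) * Hm M := this
    _ = c • hm M := by
      unfold hm
      simp only [Matrix.mul_smul, Matrix.smul_mul]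
    _ ≤ c • gm M := smul_le_smul' (hm_le_gm hM) hc

theorem mul_Hm_gram {M : Matrix n n ℝ} (hM : 0 ≤ M) (X : Matrix p n ℝ) {c : ℝ} (hc : 0 ≤ c)
    (hX : Xᵀ * X ≤ c • M) : (X * Hm M)ᵀ * (X * Hm M) ≤ c • gm M := by
  have h := Hm_mul_gram hM Xᵀ hc (by rwa [transpose_transpose])
  rw [transpose_mul, Hm_transpose hM]
  rwa [transpose_mul, transpose_transpose, Hm_transpose hM] at h

theorem gm_gram {M : Matrix n n ℝ} (hM : 0 ≤ M) : (gm M)ᵀ * gm M ≤ (1 : ℝ) • gm M := by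
  rw [gm_transpose hM, one_smul]
  exact gm_sq_le hM

theorem gm_gram' {M : Matrix n n ℝ} (hM : 0 ≤ M) : gm M * (gm M)ᵀ ≤ (1 : ℝ) • gm M := by
  rw [gm_transpose hM, one_smul]
  exact gm_sq_le hM

/-- push-through -/
theorem push_through (A : Matrix m n ℝ) {x : ℝ} (hx : 0 ≤ x) :
    x • (A * Hm (x • (Aᵀ * A)) * Aᵀ) = gm (x • (A * Aᵀ)) := by
  have p1 : 0 ≤ x • (Aᵀ * A) := psd_smul' (psd_transpose_mul_self A) hx
  have p2 : 0 ≤ x • (A * Aᵀ) := psd_smul' (psd_mul_transpose_self A) hx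
  have h1 : Hm (x • (A * Aᵀ)) * A = A * Hm (x • (Aᵀ * A)) := by
    have e1 : (1 + x • (A * Aᵀ)) * A = A * (1 + x • (Aᵀ * A)) := by
      rw [Matrix.add_mul, Matrix.mul_add, Matrix.one_mul, Matrix.mul_one, Matrix.smul_mul,
        Matrix.mul_smul, Matrix.mul_assoc]
    have e2 := nonsing_inv_mul _ (one_add_isUnit p2)
    have e3 := mul_nonsing_inv _ (one_add_isUnit p1)
    calc Hm (x • (A * Aᵀ)) * A
        = Hm (x • (A * Aᵀ)) * (A * ((1 + x • (Aᵀ * A)) * (1 + x • (Aᵀ * A))⁻¹)) := by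
          rw [e3, Matrix.mul_one]
      _ = Hm (x • (A * Aᵀ)) * ((A * (1 + x • (Aᵀ * A))) * Hm (x • (Aᵀ * A))) := by
          rw [← Matrix.mul_assoc A]
          rfl
      _ = (Hm (x • (A * Aᵀ)) * (1 + x • (A * Aᵀ))) * A * Hm (x • (Aᵀ * A)) := by
          rw [← e1]
          simp only [Matrix.mul_assoc]
      _ = A * Hm (x • (Aᵀ * A)) := by
          have : Hm (x • (A * Aᵀ)) * (1 + x • (A * Aᵀ)) = 1 := e2
          rw [this, Matrix.one_mul]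
  rw [← h1, Matrix.mul_assoc, ← Matrix.mul_smul, Hm_mul p2]
  rfl

/-- `(A H4)(A H4)ᵀ ≤ x⁻¹ g(x AAᵀ)` whenever `x AᵀA ≤ M4` -/
theorem AH_gram (A : Matrix m n ℝ) {x : ℝ} (hx : 0 < x) {M : Matrix n n ℝ} {M' : Matrix m m ℝ}
    (hM : x • (Aᵀ * A) ≤ M) (hM' : x • (A * Aᵀ) ≤ M') :
    (A * Hm M) * (A * Hm M)ᵀ ≤ x⁻¹ • gm M' := by
  have p1 : 0 ≤ x • (Aᵀ * A) := psd_smul' (psd_transpose_mul_self A) hx.le
  have p2 : 0 ≤ x • (A * Aᵀ) := psd_smul' (psd_mul_transpose_self A) hx.le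
  have hM0 : 0 ≤ M := p1.trans hM
  have h1 : Hm M * Hm M ≤ Hm (x • (Aᵀ * A)) := by
    have h : Hm M * Hm M ≤ Hm M := by
      rw [← sub_nonneg, ← hm_eq hM0]
      exact hm_nonneg hM0
    exact h.trans (Hm_anti p1 hM)
  have h2 := le_conj h1 A
  have h3 : A * Hm (x • (Aᵀ * A)) * Aᵀ = x⁻¹ • gm (x • (A * Aᵀ)) := by
    rw [← push_through A hx.le, smul_smul, inv_mul_cancel₀ hx.ne', one_smul]
  rw [h3] at h2
  calc (A * Hm M) * (A * Hm M)ᵀ = A * (Hm M * Hm M) * Aᵀ := by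
        rw [transpose_mul, Hm_transpose hM0]
        simp only [Matrix.mul_assoc]
    _ ≤ _ := h2
    _ ≤ _ := smul_le_smul' (gm_mono p2 hM') (inv_pos.mpr hx).le

/-- orthogonal/contraction on the left does not change gram bound of a product -/
theorem gram_mul_contraction (Q : Matrix m n ℝ) (S : Matrix n p ℝ) (hS : S * Sᵀ ≤ 1) :
    (Q * S) * (Q * S)ᵀ ≤ Q * Qᵀ := by
  have := le_conj hS Q
  rw [Matrix.mul_one] at this
  rw [transpose_mul]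
  calc Q * S * (Sᵀ * Qᵀ) = Q * (S * Sᵀ) * Qᵀ := by simp only [Matrix.mul_assoc]
    _ ≤ _ := this

end basic

section steps

variable {i3 i4 i2 : Type*} [Fintype i3] [DecidableEq i3] [Fintype i4] [DecidableEq i4]
  [Fintype i2] [DecidableEq i2]

theorem abs_trace_le' (P : Matrix i3 i4 ℝ) (Q : Matrix i4 i3 ℝ) {a b : ℝ} (ha : fsq P ≤ a)
    (hb : fsq Q ≤ b) : |trace (P * Q)| ≤ √a * √b :=
  (abs_trace_mul_le P Q).trans (mul_le_mul (Real.sqrt_le_sqrt ha) (Real.sqrt_le_sqrt hb)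
    (Real.sqrt_nonneg _) (Real.sqrt_nonneg _))

theorem sqrt_mul_le_amgm {a b c : ℝ} (ha : 0 ≤ a) (hb : 0 ≤ b) (hc : 0 < c) :
    √a * √b ≤ (c * a + b / c) / 2 := by
  have h1 := Real.sq_sqrt ha
  have h2 := Real.sq_sqrt hb
  have h3 : 0 ≤ (√c * √a - √b / √c) ^ 2 := sq_nonneg _
  have hc' : √c ≠ 0 := (Real.sqrt_pos.mpr hc).ne'
  have h4 : (√c * √a - √b / √c) ^ 2 = c * a + b / c - 2 * (√a * √b) := by
    have e1 : (√c * √a - √b / √c) ^ 2 = √c ^ 2 * √a ^ 2 + √b ^ 2 / √c ^ 2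
      - 2 * (√a * √b) * (√c / √c) := by ring
    rw [e1, Real.sq_sqrt hc.le, h1, h2, div_self hc', mul_one]
  linarith

theorem fsq_contraction_mul (S : Matrix i3 i3 ℝ) (Q : Matrix i3 i4 ℝ) (hS : Sᵀ * S ≤ 1) :
    fsq (S * Q) ≤ fsq Q := by
  rw [← fsq_transpose (S * Q), ← fsq_transpose Q, transpose_mul]
  exact fsq_mul_contraction _ _ (by rwa [transpose_transpose])

theorem term4a {U3 : Matrix i3 i3 ℝ} {U4 : Matrix i4 i4 ℝ} {U2 : Matrix i2 i2 ℝ}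
    (hU4 : U4ᵀ = U4) (hU2 : U2ᵀ = U2) (hU2' : U2 * U2 = 1)
    (A : Matrix i3 i4 ℝ) (B : Matrix i4 i2 ℝ) (C : Matrix i2 i3 ℝ) (D E : Matrix i4 i4 ℝ)
    {N : Matrix i4 i4 ℝ} {a b : ℝ} (hD : Dᵀ * D ≤ a • gm N)
    (hE : (E * B) * (E * B)ᵀ ≤ b • gm N) :
    |trace (U3 * A * (D * U4 * E) * B * U2 * C)| ≤ √(fsq (C * U3 * A)) * √(a * b * Eg U4 N) := by
  have e : trace (U3 * A * (D * U4 * E) * B * U2 * C)
      = trace ((C * U3 * A) * ((D * U4 * (E * B)) * U2)) := by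
    rw [trace_mul_comm (U3 * A * (D * U4 * E) * B * U2) C]
    simp only [Matrix.mul_assoc]
  rw [e]
  refine abs_trace_le' _ _ le_rfl ?_
  refine (fsq_mul_contraction _ _ (by rw [hU2, hU2'])).trans ?_
  exact fsq_gg hU4 _ _ hD hE

theorem term4b {U3 : Matrix i3 i3 ℝ} {U4 : Matrix i4 i4 ℝ} {U2 : Matrix i2 i2 ℝ}
    (hU4 : U4ᵀ = U4) (hU3 : U3ᵀ = U3) (hU3' : U3 * U3 = 1)
    (A : Matrix i3 i4 ℝ) (B : Matrix i4 i2 ℝ) (C : Matrix i2 i3 ℝ) (D E : Matrix i4 i4 ℝ)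
    {N : Matrix i4 i4 ℝ} {a b : ℝ} (hE : (A * E)ᵀ * (A * E) ≤ a • gm N)
    (hD : D * Dᵀ ≤ b • gm N) :
    |trace (U3 * A * (E * U4 * D) * B * U2 * C)| ≤ √(a * b * Eg U4 N) * √(fsq (B * U2 * C)) := by
  have e : trace (U3 * A * (E * U4 * D) * B * U2 * C)
      = trace ((U3 * ((A * E) * U4 * D)) * (B * U2 * C)) := by
    simp only [Matrix.mul_assoc]
  rw [e]
  refine abs_trace_le' _ _ ?_ le_rfl
  refine (fsq_contraction_mul _ _ (by rw [hU3, hU3'])).trans ?_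
  exact fsq_gg hU4 _ _ hE hD

theorem step4_fin {s t E F1 F2 X Y : ℝ} (hs : 0 < s) (ht : 0 < t) (hE : 0 ≤ E) (h1 : 0 ≤ F1)
    (h2 : 0 ≤ F2) (hX : X ≤ (s * (1 * (2 * t) * E) + F1 / s) / 2)
    (hY : Y ≤ (s * (t * 1 * E) + F2 / s) / 2) : X + Y ≤ 2 * s * (t * E) + (F1 + F2) / s := by
  have f3 : 0 ≤ F1 / s := div_nonneg h1 hs.le
  have f4 : 0 ≤ F2 / s := div_nonneg h2 hs.le
  have f5 : 0 ≤ s * (t * E) := by positivity
  have e1 : s * (1 * (2 * t) * E) = 2 * (s * (t * E)) := by ring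
  have e2 : s * (t * 1 * E) = s * (t * E) := by ring
  have e3 : 2 * s * (t * E) = 2 * (s * (t * E)) := by ring
  rw [e1] at hX
  rw [e2] at hY
  rw [e3, add_div]
  linarith

theorem tr_split (U3 : Matrix i3 i3 ℝ) (U2 : Matrix i2 i2 ℝ) (A : Matrix i3 i4 ℝ)
    (B : Matrix i4 i2 ℝ) (C : Matrix i2 i3 ℝ) {X X' P Q : Matrix i4 i4 ℝ} (h : X - X' = P + Q) :
    trace (U3 * A * X * B * U2 * C) - trace (U3 * A * X' * B * U2 * C)
      = trace (U3 * A * P * B * U2 * C) + trace (U3 * A * Q * B * U2 * C) := by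
  rw [← trace_sub, ← trace_add]
  congr 1
  rw [← Matrix.sub_mul, ← Matrix.sub_mul, ← Matrix.sub_mul, ← Matrix.mul_sub, h,
    Matrix.mul_add, Matrix.add_mul, Matrix.add_mul, Matrix.add_mul]

/-- the difference of two dyadic resolvents -/
theorem dyad_gram {N : Matrix i4 i4 ℝ} (pN : 0 ≤ N) :
    (Hm ((1 / 2 : ℝ) • N) - Hm N)ᵀ * (Hm ((1 / 2 : ℝ) • N) - Hm N) ≤ (1 : ℝ) • gm N := by
  have pN2 : 0 ≤ (1 / 2 : ℝ) • N := psd_smul' pN (by norm_num)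
  have hDe : Hm ((1 / 2 : ℝ) • N) - Hm N = (1 / 2 : ℝ) • (Hm ((1 / 2 : ℝ) • N) * gm N) := by
    rw [Hm_sub pN pN2, gm_eq pN]
    have hsub : (1 / 2 : ℝ) • N - N = (-(1 / 2) : ℝ) • N := by
      conv_lhs => rw [← one_smul ℝ N, smul_smul, ← sub_smul]
      norm_num
    rw [hsub]
    simp only [Matrix.mul_smul, Matrix.smul_mul, neg_smul, Matrix.neg_mul, neg_neg,
      Matrix.mul_assoc, Matrix.mul_neg]
  have h1 : (Hm ((1 / 2 : ℝ) • N) - Hm N)ᵀ * (Hm ((1 / 2 : ℝ) • N) - Hm N)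
      = (1 / 4 : ℝ) • (gm N * (Hm ((1 / 2 : ℝ) • N) * Hm ((1 / 2 : ℝ) • N)) * (gm N)ᵀ) := by
    rw [hDe, transpose_smul, transpose_mul, Hm_transpose pN2, gm_transpose pN,
      Matrix.smul_mul, Matrix.mul_smul, smul_smul]
    norm_num
    simp only [Matrix.mul_assoc]
  have h2 := le_conj (Hm_sq_le_one pN2) (gm N)
  rw [Matrix.mul_one, gm_transpose pN] at h2
  have h3 := h2.trans (gm_sq_le pN)
  rw [h1, one_smul, gm_transpose pN]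
  have h5 := smul_le_smul' h3 (c := (1 / 4 : ℝ)) (by norm_num)
  refine h5.trans ?_
  have h6 := psd_smul' (gm_nonneg pN) (c := (3 / 4 : ℝ)) (by norm_num)
  have h7 : gm N - (1 / 4 : ℝ) • gm N = (3 / 4 : ℝ) • gm N := by
    conv_lhs => rw [← one_smul ℝ (gm N), smul_smul, ← sub_smul]
    norm_num
  rw [← sub_nonneg, h7]
  exact h6

/-- one dyadic step at vertex 4 (normalised) -/
theorem step4N {U3 : Matrix i3 i3 ℝ} {U4 : Matrix i4 i4 ℝ} {U2 : Matrix i2 i2 ℝ}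
    (hU4 : U4ᵀ = U4)
    (A : Matrix i3 i4 ℝ) (B : Matrix i4 i2 ℝ) (C : Matrix i2 i3 ℝ) {N : Matrix i4 i4 ℝ}
    (pN : 0 ≤ N) {t s : ℝ} (ht : 0 < t) (hs : 0 < s)
    (hA : Aᵀ * A ≤ t • N) (hB : B * Bᵀ ≤ t • N)
    (hU3 : U3ᵀ = U3) (hU3' : U3 * U3 = 1) (hU2 : U2ᵀ = U2) (hU2' : U2 * U2 = 1) :
    |trace (U3 * A * sv U4 ((1 / 2 : ℝ) • N) * B * U2 * C) -
      trace (U3 * A * sv U4 N * B * U2 * C)| ≤
      2 * s * (t * Eg U4 N) + (fsq (C * U3 * A) + fsq (B * U2 * C)) / s := by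
  have pN2 : 0 ≤ (1 / 2 : ℝ) • N := psd_smul' pN (by norm_num)
  have hDt : (Hm ((1 / 2 : ℝ) • N) - Hm N)ᵀ = Hm ((1 / 2 : ℝ) • N) - Hm N := by
    rw [transpose_sub, Hm_transpose pN, Hm_transpose pN2]
  have hDD := dyad_gram pN
  have hDD' : (Hm ((1 / 2 : ℝ) • N) - Hm N) * (Hm ((1 / 2 : ℝ) • N) - Hm N)ᵀ ≤
      (1 : ℝ) • gm N := by
    have h := hDD
    rw [hDt] at h ⊢
    exact h
  have hNN : (1 / 2 : ℝ) • N ≤ N := by
    rw [← sub_nonneg]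
    have : N - (1 / 2 : ℝ) • N = (1 / 2 : ℝ) • N := by
      conv_lhs => rw [← one_smul ℝ N, smul_smul, ← sub_smul]
      norm_num
    rw [this]
    exact pN2
  have hB' : B * Bᵀ ≤ (2 * t) • ((1 / 2 : ℝ) • N) := by
    rw [smul_smul, show 2 * t * (1 / 2) = t by ring]
    exact hB
  have hGB : (Hm ((1 / 2 : ℝ) • N) * B) * (Hm ((1 / 2 : ℝ) • N) * B)ᵀ ≤ (2 * t) • gm N :=
    (Hm_mul_gram pN2 B (by positivity) hB').trans
      (smul_le_smul' (gm_mono pN2 hNN) (by positivity))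
  have hAG : (A * Hm N)ᵀ * (A * Hm N) ≤ t • gm N := mul_Hm_gram pN A ht.le hA
  have ha := term4a (U3 := U3) hU4 hU2 hU2' A B C _ (Hm ((1 / 2 : ℝ) • N)) hDD hGB
  have hb := term4b (U2 := U2) hU4 hU3 hU3' A B C _ (Hm N) hAG hDD'
  have hsv : sv U4 ((1 / 2 : ℝ) • N) - sv U4 N =
      (Hm ((1 / 2 : ℝ) • N) - Hm N) * U4 * Hm ((1 / 2 : ℝ) • N) +
        Hm N * U4 * (Hm ((1 / 2 : ℝ) • N) - Hm N) := by
    unfold sv
    noncomm_ring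
  rw [tr_split U3 U2 A B C hsv]
  have hE0 : 0 ≤ Eg U4 N := Eg_nonneg hU4 pN
  have f1 := fsq_nonneg (C * U3 * A)
  have f2 := fsq_nonneg (B * U2 * C)
  have g1 := sqrt_mul_le_amgm (a := 1 * (2 * t) * Eg U4 N) (b := fsq (C * U3 * A))
    (by positivity) f1 hs
  have g2 := sqrt_mul_le_amgm (a := t * 1 * Eg U4 N) (b := fsq (B * U2 * C))
    (by positivity) f2 hs
  rw [mul_comm (√(fsq (C * U3 * A)))] at ha
  exact (abs_add_le _ _).trans (step4_fin hs ht hE0 f1 f2 (ha.trans g1) (hb.trans g2))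

/-- the first step at vertex 4 (normalised) -/
theorem step4N_top {U3 : Matrix i3 i3 ℝ} {U4 : Matrix i4 i4 ℝ} {U2 : Matrix i2 i2 ℝ}
    (hU4 : U4ᵀ = U4)
    (A : Matrix i3 i4 ℝ) (B : Matrix i4 i2 ℝ) (C : Matrix i2 i3 ℝ) {N : Matrix i4 i4 ℝ}
    (pN : 0 ≤ N) (hN1 : N ≤ 1) {t s : ℝ} (ht : 0 < t) (hs : 0 < s)
    (hA : Aᵀ * A ≤ t • N) (hB : B * Bᵀ ≤ t • N)
    (hU3 : U3ᵀ = U3) (hU3' : U3 * U3 = 1) (hU2 : U2ᵀ = U2) (hU2' : U2 * U2 = 1) :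
    |trace (U3 * A * U4 * B * U2 * C) -
      trace (U3 * A * sv U4 N * B * U2 * C)| ≤
      2 * s * (t * Eg U4 N) + (fsq (C * U3 * A) + fsq (B * U2 * C)) / s := by
  have hGB : ((1 : Matrix i4 i4 ℝ) * B) * ((1 : Matrix i4 i4 ℝ) * B)ᵀ ≤ (2 * t) • gm N := by
    rw [Matrix.one_mul]
    refine hB.trans ?_
    rw [mul_comm 2 t, ← smul_smul]
    exact smul_le_smul' (le_two_gm pN hN1) ht.le
  have hAG : (A * Hm N)ᵀ * (A * Hm N) ≤ t • gm N := mul_Hm_gram pN A ht.le hA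
  have ha := term4a (U3 := U3) hU4 hU2 hU2' A B C (gm N) 1 (gm_gram pN) hGB
  have hb := term4b (U2 := U2) hU4 hU3 hU3' A B C (gm N) (Hm N) hAG (gm_gram' pN)
  have hsv : U4 - sv U4 N = gm N * U4 * 1 + Hm N * U4 * gm N := by
    unfold sv gm
    noncomm_ring
  rw [tr_split U3 U2 A B C hsv]
  have hE0 : 0 ≤ Eg U4 N := Eg_nonneg hU4 pN
  have f1 := fsq_nonneg (C * U3 * A)
  have f2 := fsq_nonneg (B * U2 * C)
  have g1 := sqrt_mul_le_amgm (a := 1 * (2 * t) * Eg U4 N) (b := fsq (C * U3 * A))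
    (by positivity) f1 hs
  have g2 := sqrt_mul_le_amgm (a := t * 1 * Eg U4 N) (b := fsq (B * U2 * C))
    (by positivity) f2 hs
  rw [mul_comm (√(fsq (C * U3 * A)))] at ha
  exact (abs_add_le _ _).trans (step4_fin hs ht hE0 f1 f2 (ha.trans g1) (hb.trans g2))

/-- all the steps at vertex 4 -/
theorem vertex4 {U3 : Matrix i3 i3 ℝ} {U4 : Matrix i4 i4 ℝ} {U2 : Matrix i2 i2 ℝ}
    (hU4 : U4ᵀ = U4)
    (A : Matrix i3 i4 ℝ) (B : Matrix i4 i2 ℝ) (C : Matrix i2 i3 ℝ) {M : Matrix i4 i4 ℝ}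
    (hA : Aᵀ * A ≤ M) (hB : B * Bᵀ ≤ M) {τ s : ℝ} (hτ : 0 < τ) (hs : 0 < s)
    (hU3 : U3ᵀ = U3) (hU3' : U3 * U3 = 1) (hU2 : U2ᵀ = U2) (hU2' : U2 * U2 = 1) (K : ℕ)
    (hM1 : M ≤ (2 ^ K * τ) • (1 : Matrix i4 i4 ℝ)) :
    |trace (U3 * A * U4 * B * U2 * C)| ≤ |trace (U3 * A * sv U4 (τ⁻¹ • M) * B * U2 * C)| +
      2 * s * ∑ k ∈ Finset.range (K + 1), (2 ^ k * τ) * Eg U4 ((2 ^ k * τ)⁻¹ • M) +
      ((K : ℝ) + 1) * ((fsq (C * U3 * A) + fsq (B * U2 * C)) / s) := by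
  have hM : 0 ≤ M := (psd_transpose_mul_self A).trans hA
  set F := (fsq (C * U3 * A) + fsq (B * U2 * C)) / s with hF
  set T : ℕ → ℝ := fun k => trace (U3 * A * sv U4 ((2 ^ k * τ)⁻¹ • M) * B * U2 * C) with hT
  set G : ℕ → ℝ := fun k => (2 ^ k * τ) * Eg U4 ((2 ^ k * τ)⁻¹ • M) with hG
  have htk : ∀ k : ℕ, (0 : ℝ) < 2 ^ k * τ := fun k => by positivity
  have hMk : ∀ k : ℕ, M = (2 ^ k * τ) • ((2 ^ k * τ)⁻¹ • M) := fun k => by
    rw [smul_smul, mul_inv_cancel₀ (htk k).ne', one_smul]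
  have hstep : ∀ k, |T (k + 1)| ≤ |T k| + 2 * s * G k + F := by
    intro k
    have h := step4N (U3 := U3) (U2 := U2) hU4 A B C (N := (2 ^ k * τ)⁻¹ • M)
      (psd_smul' hM (inv_pos.mpr (htk k)).le) (htk k) hs
      (by rw [← hMk k]; exact hA) (by rw [← hMk k]; exact hB) hU3 hU3' hU2 hU2'
    have e : (1 / 2 : ℝ) • ((2 ^ k * τ)⁻¹ • M) = (2 ^ (k + 1) * τ)⁻¹ • M := by
      rw [smul_smul]
      congr 1
      rw [pow_succ, mul_inv, mul_inv, mul_inv]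
      ring
    rw [e] at h
    have h2 := abs_sub_abs_le_abs_sub (T (k + 1)) (T k)
    have h3 : |T (k + 1) - T k| ≤ 2 * s * G k + F := h
    linarith
  have hall : ∀ k : ℕ, |T k| ≤ |T 0| + 2 * s * ∑ j ∈ Finset.range k, G j + k * F := by
    intro k
    induction k with
    | zero => simp
    | succ k ih =>
      rw [Finset.sum_range_succ]
      have := hstep k
      push_cast
      nlinarith
  have htop : |trace (U3 * A * U4 * B * U2 * C)| ≤ |T K| + 2 * s * G K + F := by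
    have hN1 : (2 ^ K * τ)⁻¹ • M ≤ 1 := by
      have := smul_le_smul' hM1 (inv_pos.mpr (htk K)).le
      rwa [smul_smul, inv_mul_cancel₀ (htk K).ne', one_smul] at this
    have h := step4N_top (U3 := U3) (U2 := U2) hU4 A B C (N := (2 ^ K * τ)⁻¹ • M)
      (psd_smul' hM (inv_pos.mpr (htk K)).le) hN1 (htk K) hs
      (by rw [← hMk K]; exact hA) (by rw [← hMk K]; exact hB) hU3 hU3' hU2 hU2'
    have h2 := abs_sub_abs_le_abs_sub (trace (U3 * A * U4 * B * U2 * C)) (T K)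
    have h3 : |trace (U3 * A * U4 * B * U2 * C) - T K| ≤ 2 * s * G K + F := h
    linarith
  have h0 : T 0 = trace (U3 * A * sv U4 (τ⁻¹ • M) * B * U2 * C) := by
    rw [hT]
    simp only [pow_zero, one_mul]
  rw [Finset.sum_range_succ, ← h0]
  have := hall K
  nlinarith

/-! ### insertions at vertices 3 and 2 -/

theorem sqrt_sqrt_le {a b c E F : ℝ} (hE : 0 ≤ E) (hF : 0 ≤ F) (hc : 0 ≤ c) (ha : 0 ≤ a)
    (hb : 0 ≤ b) (hab : a * b ≤ c ^ 2) : √(a * E) * √(b * F) ≤ c * (E + F) / 2 := by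
  have h1 : √(a * E) * √(b * F) = √(a * b) * √(E * F) := by
    rw [← Real.sqrt_mul (mul_nonneg ha hE), ← Real.sqrt_mul (mul_nonneg ha hb)]
    congr 1
    ring
  have h2 : √(a * b) ≤ c := by
    rw [show c = √(c ^ 2) by rw [Real.sqrt_sq hc]]
    exact Real.sqrt_le_sqrt hab
  have h3 : √(E * F) ≤ (E + F) / 2 := by
    rw [show (E + F) / 2 = √(((E + F) / 2) ^ 2) by rw [Real.sqrt_sq (by positivity)]]
    refine Real.sqrt_le_sqrt ?_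
    nlinarith [sq_nonneg (E - F)]
  rw [h1]
  calc √(a * b) * √(E * F) ≤ c * ((E + F) / 2) :=
        mul_le_mul h2 h3 (Real.sqrt_nonneg _) hc
    _ = _ := by ring

/-- (i),(ii): insertion at vertex 3 -/
theorem insert3 {U3 : Matrix i3 i3 ℝ} {U4 : Matrix i4 i4 ℝ} {U2 : Matrix i2 i2 ℝ}
    (hU3 : U3ᵀ = U3) (hU4 : U4ᵀ = U4) (hU2 : U2ᵀ = U2) (hU3' : U3 * U3 = 1) (hU4' : U4 * U4 = 1)
    (hU2' : U2 * U2 = 1)
    (A : Matrix i3 i4 ℝ) (B : Matrix i4 i2 ℝ) (C : Matrix i2 i3 ℝ) {τ s : ℝ} (hτ : 0 < τ)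
    (hs : 0 < s) {M3 : Matrix i3 i3 ℝ} {M4 : Matrix i4 i4 ℝ}
    (hA3 : A * Aᵀ ≤ τ • M3) (hC3 : Cᵀ * C ≤ (s ^ 2) • M3) (hA4 : Aᵀ * A ≤ τ • M4)
    (hB4 : B * Bᵀ ≤ τ • M4) (h3 : 0 ≤ M3) (h4 : 0 ≤ M4) :
    |trace (U3 * A * sv U4 M4 * B * U2 * C) - trace (sv U3 M3 * A * sv U4 M4 * B * U2 * C)| ≤
      s * τ * (Eg U3 M3 + Eg U4 M4) + fsq (B * U2 * C) / s := by
  have e0 : U3 - sv U3 M3 = gm M3 * U3 + Hm M3 * U3 * gm M3 := by
    unfold sv gm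
    noncomm_ring
  have e : trace (U3 * A * sv U4 M4 * B * U2 * C) - trace (sv U3 M3 * A * sv U4 M4 * B * U2 * C)
      = trace ((gm M3 * U3 * (A * sv U4 M4)) * (B * U2 * C)) +
        trace (((C * Hm M3) * U3 * gm M3) * ((A * sv U4 M4 * B) * U2)) := by
    have e1 : trace (((C * Hm M3) * U3 * gm M3) * ((A * sv U4 M4 * B) * U2))
        = trace ((Hm M3 * U3 * gm M3) * A * sv U4 M4 * B * U2 * C) := by
      rw [trace_mul_comm ((Hm M3 * U3 * gm M3) * A * sv U4 M4 * B * U2) C]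
      simp only [Matrix.mul_assoc]
    have e2 : trace ((gm M3 * U3 * (A * sv U4 M4)) * (B * U2 * C))
        = trace ((gm M3 * U3) * A * sv U4 M4 * B * U2 * C) := by
      simp only [Matrix.mul_assoc]
    rw [e1, e2, ← trace_sub, ← trace_add, ← Matrix.sub_mul, ← Matrix.sub_mul, ← Matrix.sub_mul,
      ← Matrix.sub_mul, ← Matrix.sub_mul, e0, Matrix.add_mul, Matrix.add_mul, Matrix.add_mul,
      Matrix.add_mul, Matrix.add_mul]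
  have hE3 : 0 ≤ Eg U3 M3 := Eg_nonneg hU3 h3
  have hE4 : 0 ≤ Eg U4 M4 := Eg_nonneg hU4 h4
  -- (i)
  have hAs : (A * sv U4 M4) * (A * sv U4 M4)ᵀ ≤ τ • gm M3 := by
    have h1 : A * sv U4 M4 = (A * Hm M4) * (U4 * Hm M4) := by
      unfold sv
      simp only [Matrix.mul_assoc]
    rw [h1]
    refine (gram_mul_contraction (A * Hm M4) (U4 * Hm M4) ?_).trans ?_
    · rw [transpose_mul, Hm_transpose h4, hU4]
      have h2 := le_conj (Hm_sq_le_one h4) U4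
      rw [Matrix.mul_one, hU4, hU4'] at h2
      calc U4 * Hm M4 * (Hm M4 * U4) = U4 * (Hm M4 * Hm M4) * U4 := by
            simp only [Matrix.mul_assoc]
        _ ≤ 1 := h2
    · have h5 := AH_gram A (x := τ⁻¹) (inv_pos.mpr hτ) (M := M4) (M' := M3) ?_ ?_
      · rwa [inv_inv] at h5
      · have := smul_le_smul' hA4 (inv_pos.mpr hτ).le
        rwa [smul_smul, inv_mul_cancel₀ hτ.ne', one_smul] at this
      · have := smul_le_smul' hA3 (inv_pos.mpr hτ).le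
        rwa [smul_smul, inv_mul_cancel₀ hτ.ne', one_smul] at this
  have b1 : |trace ((gm M3 * U3 * (A * sv U4 M4)) * (B * U2 * C))| ≤
      √(1 * τ * Eg U3 M3) * √(fsq (B * U2 * C)) :=
    abs_trace_le' _ _ (fsq_gg hU3 _ _ (gm_gram h3) hAs) le_rfl
  have b1' := sqrt_mul_le_amgm (a := 1 * τ * Eg U3 M3) (b := fsq (B * U2 * C))
    (by positivity) (fsq_nonneg _) hs
  -- (ii)
  have hAsB : fsq (A * sv U4 M4 * B) ≤ τ * τ * Eg U4 M4 := by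
    have h1 : A * sv U4 M4 * B = (A * Hm M4) * U4 * (Hm M4 * B) := by
      unfold sv
      simp only [Matrix.mul_assoc]
    rw [h1]
    exact fsq_gg hU4 _ _ (mul_Hm_gram h4 A hτ.le hA4) (Hm_mul_gram h4 B hτ.le hB4)
  have b2 : |trace (((C * Hm M3) * U3 * gm M3) * ((A * sv U4 M4 * B) * U2))| ≤
      √(s ^ 2 * 1 * Eg U3 M3) * √(τ * τ * Eg U4 M4) := by
    refine abs_trace_le' _ _ ?_ ?_
    · exact fsq_gg hU3 _ _ (mul_Hm_gram h3 C (by positivity) hC3) (gm_gram' h3)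
    · exact (fsq_mul_contraction _ _ (by rw [hU2, hU2'])).trans hAsB
  have b2' := sqrt_sqrt_le (a := s ^ 2 * 1) (b := τ * τ) (c := s * τ) hE3 hE4 (by positivity)
    (by positivity) (by positivity) (le_of_eq (by ring))
  rw [e]
  refine (abs_add_le _ _).trans ?_
  have f3 : 0 ≤ fsq (B * U2 * C) / s := div_nonneg (fsq_nonneg _) hs.le
  have f4 : 0 ≤ s * τ * Eg U3 M3 := by positivity
  have f5 : 0 ≤ s * τ * Eg U4 M4 := by positivity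
  have e3 : s * (1 * τ * Eg U3 M3) = s * τ * Eg U3 M3 := by ring
  rw [e3] at b1'
  have e4 : s * τ * (Eg U3 M3 + Eg U4 M4) = s * τ * Eg U3 M3 + s * τ * Eg U4 M4 := by ring
  rw [e4] at b2' ⊢
  linarith

/-- (iii),(iv): insertion at vertex 2 -/
theorem insert2 {U3 : Matrix i3 i3 ℝ} {U4 : Matrix i4 i4 ℝ} {U2 : Matrix i2 i2 ℝ}
    (hU3 : U3ᵀ = U3) (hU4 : U4ᵀ = U4) (hU2 : U2ᵀ = U2) (hU3' : U3 * U3 = 1) (hU4' : U4 * U4 = 1)
    (hU2' : U2 * U2 = 1)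
    (A : Matrix i3 i4 ℝ) (B : Matrix i4 i2 ℝ) (C : Matrix i2 i3 ℝ) {τ s : ℝ} (hτ : 0 < τ)
    (hs : 0 < s) {M3 : Matrix i3 i3 ℝ} {M4 : Matrix i4 i4 ℝ} {M2 : Matrix i2 i2 ℝ}
    (hA3 : A * Aᵀ ≤ τ • M3) (hC3 : Cᵀ * C ≤ (s ^ 2) • M3) (hA4 : Aᵀ * A ≤ τ • M4)
    (hB4 : B * Bᵀ ≤ τ • M4) (hB2 : Bᵀ * B ≤ τ • M2) (hC2 : C * Cᵀ ≤ (2 * s ^ 2) • gm M2)
    (h3 : 0 ≤ M3) (h4 : 0 ≤ M4) (h2 : 0 ≤ M2) :
    |trace (sv U3 M3 * A * sv U4 M4 * B * U2 * C) -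
      trace (sv U3 M3 * A * sv U4 M4 * B * sv U2 M2 * C)| ≤
      s * τ * (Eg U3 M3 + Eg U4 M4 + 2 * Eg U2 M2) := by
  have e0 : U2 - sv U2 M2 = gm M2 * U2 + Hm M2 * U2 * gm M2 := by
    unfold sv gm
    noncomm_ring
  have e : trace (sv U3 M3 * A * sv U4 M4 * B * U2 * C) -
      trace (sv U3 M3 * A * sv U4 M4 * B * sv U2 M2 * C)
      = trace ((A * sv U4 M4 * B) * ((gm M2 * U2 * C) * sv U3 M3)) +
        trace ((C * sv U3 M3 * A) * sv U4 M4 * ((B * Hm M2) * U2 * gm M2)) := by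
    have e1 : trace ((A * sv U4 M4 * B) * ((gm M2 * U2 * C) * sv U3 M3))
        = trace (sv U3 M3 * A * sv U4 M4 * B * (gm M2 * U2) * C) := by
      rw [← Matrix.mul_assoc, trace_mul_comm _ (sv U3 M3)]
      simp only [Matrix.mul_assoc]
    have e2 : trace ((C * sv U3 M3 * A) * sv U4 M4 * ((B * Hm M2) * U2 * gm M2))
        = trace (sv U3 M3 * A * sv U4 M4 * B * (Hm M2 * U2 * gm M2) * C) := by
      rw [trace_mul_comm (sv U3 M3 * A * sv U4 M4 * B * (Hm M2 * U2 * gm M2)) C]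
      simp only [Matrix.mul_assoc]
    rw [e1, e2, ← trace_sub, ← trace_add, ← Matrix.sub_mul, ← Matrix.mul_sub, e0,
      Matrix.mul_add, Matrix.add_mul]
  have hE3 : 0 ≤ Eg U3 M3 := Eg_nonneg hU3 h3
  have hE4 : 0 ≤ Eg U4 M4 := Eg_nonneg hU4 h4
  have hE2 : 0 ≤ Eg U2 M2 := Eg_nonneg hU2 h2
  have hAsB : fsq (A * sv U4 M4 * B) ≤ τ * τ * Eg U4 M4 := by
    have h1 : A * sv U4 M4 * B = (A * Hm M4) * U4 * (Hm M4 * B) := by
      unfold sv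
      simp only [Matrix.mul_assoc]
    rw [h1]
    exact fsq_gg hU4 _ _ (mul_Hm_gram h4 A hτ.le hA4) (Hm_mul_gram h4 B hτ.le hB4)
  -- (iii)
  have b1 : |trace ((A * sv U4 M4 * B) * ((gm M2 * U2 * C) * sv U3 M3))| ≤
      √(τ * τ * Eg U4 M4) * √(1 * (2 * s ^ 2) * Eg U2 M2) := by
    refine abs_trace_le' _ _ hAsB ?_
    refine (fsq_mul_contraction _ _ (sv_contraction hU3 hU3' h3)).trans ?_
    exact fsq_gg hU2 _ _ (gm_gram h2) hC2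
  have b1' := sqrt_sqrt_le (a := τ * τ) (b := 1 * (2 * s ^ 2)) (c := 2 * (s * τ)) hE4 hE2
    (by positivity) (by positivity) (by positivity) (by nlinarith [sq_nonneg (s * τ)])
  -- (iv)
  have b2 : |trace ((C * sv U3 M3 * A) * sv U4 M4 * ((B * Hm M2) * U2 * gm M2))| ≤
      √(s ^ 2 * τ * Eg U3 M3) * √(τ * 1 * Eg U2 M2) := by
    refine (abs_trace_mul_mul_le _ _ _ (sv_contraction hU4 hU4' h4)).trans ?_
    refine mul_le_mul (Real.sqrt_le_sqrt ?_) (Real.sqrt_le_sqrt ?_) (Real.sqrt_nonneg _)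
      (Real.sqrt_nonneg _)
    · have h1 : C * sv U3 M3 * A = (C * Hm M3) * U3 * (Hm M3 * A) := by
        unfold sv
        simp only [Matrix.mul_assoc]
      rw [h1]
      exact fsq_gg hU3 _ _ (mul_Hm_gram h3 C (by positivity) hC3) (Hm_mul_gram h3 A hτ.le hA3)
    · exact fsq_gg hU2 _ _ (mul_Hm_gram h2 B hτ.le hB2) (gm_gram' h2)
  have b2' := sqrt_sqrt_le (a := s ^ 2 * τ) (b := τ * 1) (c := s * τ) hE3 hE2 (by positivity)
    (by positivity) (by positivity) (le_of_eq (by ring))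
  rw [e]
  refine (abs_add_le _ _).trans ?_
  have f3 : 0 ≤ s * τ * Eg U3 M3 := by positivity
  have f4 : 0 ≤ s * τ * Eg U4 M4 := by positivity
  have f5 : 0 ≤ s * τ * Eg U2 M2 := by positivity
  have e3 : 2 * (s * τ) * (Eg U4 M4 + Eg U2 M2) / 2 = s * τ * Eg U4 M4 + s * τ * Eg U2 M2 := by
    ring
  have e4 : s * τ * (Eg U3 M3 + Eg U2 M2) / 2 = (s * τ * Eg U3 M3 + s * τ * Eg U2 M2) / 2 := by
    ring
  have e5 : s * τ * (Eg U3 M3 + Eg U4 M4 + 2 * Eg U2 M2)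
      = s * τ * Eg U3 M3 + s * τ * Eg U4 M4 + 2 * (s * τ * Eg U2 M2) := by ring
  rw [e3] at b1'
  rw [e4] at b2'
  rw [e5]
  linarith

/-- **ND**, one box -/
theorem ND_mat {U3 : Matrix i3 i3 ℝ} {U4 : Matrix i4 i4 ℝ} {U2 : Matrix i2 i2 ℝ}
    (hU3 : U3ᵀ = U3) (hU4 : U4ᵀ = U4) (hU2 : U2ᵀ = U2) (hU3' : U3 * U3 = 1) (hU4' : U4 * U4 = 1)
    (hU2' : U2 * U2 = 1)
    (A : Matrix i3 i4 ℝ) (B : Matrix i4 i2 ℝ) (C : Matrix i2 i3 ℝ) {τ s : ℝ} (hτ : 0 < τ)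
    (hs : 0 < s) (K : ℕ) (hM : Aᵀ * A + B * Bᵀ ≤ (2 ^ K * τ) • (1 : Matrix i4 i4 ℝ))
    (hC : C * Cᵀ ≤ (s ^ 2) • (1 : Matrix i2 i2 ℝ)) :
    |trace (U3 * A * U4 * B * U2 * C)| ≤
      |Tt U3 U4 U2 A B C τ⁻¹ τ⁻¹ (s ^ 2)⁻¹| +
      ((K : ℝ) + 2) * ((fsq (C * U3 * A) + fsq (B * U2 * C)) / s) +
      2 * s * ∑ k ∈ Finset.range (K + 1),
        (2 ^ k * τ) * Eg U4 ((2 ^ k * τ)⁻¹ • (Aᵀ * A + B * Bᵀ)) +
      2 * s * τ * (Eg U3 (Pv τ⁻¹ (s ^ 2)⁻¹ A C) + Eg U4 (Pv τ⁻¹ τ⁻¹ B A) +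
        Eg U2 (Pv (s ^ 2)⁻¹ τ⁻¹ C B)) := by
  have hx : 0 < τ⁻¹ := inv_pos.mpr hτ
  have hs2 : 0 < s ^ 2 := by positivity
  have hz : 0 < (s ^ 2)⁻¹ := inv_pos.mpr hs2
  have hP3 : 0 ≤ Pv τ⁻¹ (s ^ 2)⁻¹ A C := Pv_nonneg hx.le hz.le A C
  have hP4 : 0 ≤ Pv τ⁻¹ τ⁻¹ B A := Pv_nonneg hx.le hx.le B A
  have hP2 : 0 ≤ Pv (s ^ 2)⁻¹ τ⁻¹ C B := Pv_nonneg hz.le hx.le C B
  have e4 : τ⁻¹ • (Aᵀ * A + B * Bᵀ) = Pv τ⁻¹ τ⁻¹ B A := by
    unfold Pv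
    rw [smul_add, add_comm]
  have hA3 : A * Aᵀ ≤ τ • Pv τ⁻¹ (s ^ 2)⁻¹ A C := by
    unfold Pv
    rw [smul_add, smul_smul, mul_inv_cancel₀ hτ.ne', one_smul, smul_smul]
    exact le_add_of_nonneg_right (psd_smul' (psd_transpose_mul_self C) (by positivity))
  have hC3 : Cᵀ * C ≤ (s ^ 2) • Pv τ⁻¹ (s ^ 2)⁻¹ A C := by
    unfold Pv
    rw [smul_add, smul_smul, smul_smul, mul_inv_cancel₀ hs2.ne', one_smul]
    exact le_add_of_nonneg_left (psd_smul' (psd_mul_transpose_self A) (by positivity))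
  have hA4 : Aᵀ * A ≤ τ • Pv τ⁻¹ τ⁻¹ B A := by
    unfold Pv
    rw [smul_add, smul_smul, smul_smul, mul_inv_cancel₀ hτ.ne', one_smul, one_smul]
    exact le_add_of_nonneg_left (psd_mul_transpose_self B)
  have hB4 : B * Bᵀ ≤ τ • Pv τ⁻¹ τ⁻¹ B A := by
    unfold Pv
    rw [smul_add, smul_smul, smul_smul, mul_inv_cancel₀ hτ.ne', one_smul, one_smul]
    exact le_add_of_nonneg_right (psd_transpose_mul_self A)
  have hB2 : Bᵀ * B ≤ τ • Pv (s ^ 2)⁻¹ τ⁻¹ C B := by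
    unfold Pv
    rw [smul_add, smul_smul, smul_smul, mul_inv_cancel₀ hτ.ne', one_smul]
    exact le_add_of_nonneg_left (psd_smul' (psd_mul_transpose_self C) (by positivity))
  have hC2 : C * Cᵀ ≤ (2 * s ^ 2) • gm (Pv (s ^ 2)⁻¹ τ⁻¹ C B) := by
    have p : 0 ≤ (s ^ 2)⁻¹ • (C * Cᵀ) := psd_smul' (psd_mul_transpose_self C) hz.le
    have h1 : (s ^ 2)⁻¹ • (C * Cᵀ) ≤ 1 := by
      have := smul_le_smul' hC hz.le
      rwa [smul_smul, inv_mul_cancel₀ hs2.ne', one_smul] at this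
    have h2 := le_two_gm p h1
    have h3 : gm ((s ^ 2)⁻¹ • (C * Cᵀ)) ≤ gm (Pv (s ^ 2)⁻¹ τ⁻¹ C B) := by
      refine gm_mono p ?_
      unfold Pv
      exact le_add_of_nonneg_right (psd_smul' (psd_transpose_mul_self B) hx.le)
    have h4 := smul_le_smul' (h2.trans (smul_le_smul' h3 (by norm_num : (0 : ℝ) ≤ 2))) hs2.le
    rw [smul_smul, smul_smul, mul_inv_cancel₀ hs2.ne', one_smul, mul_comm (s ^ 2) 2] at h4
    exact h4
  have v4 := vertex4 (U3 := U3) (U2 := U2) hU4 A B C (M := Aᵀ * A + B * Bᵀ)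
    (le_add_of_nonneg_right (psd_mul_transpose_self B))
    (le_add_of_nonneg_left (psd_transpose_mul_self A)) hτ hs hU3 hU3' hU2 hU2' K hM
  rw [e4] at v4
  have i3' := insert3 hU3 hU4 hU2 hU3' hU4' hU2' A B C hτ hs hA3 hC3 hA4 hB4 hP3 hP4
  have i2' := insert2 hU3 hU4 hU2 hU3' hU4' hU2' A B C hτ hs hA3 hC3 hA4 hB4 hB2 hC2 hP3 hP4 hP2
  have a1 := abs_sub_abs_le_abs_sub
    (trace (U3 * A * sv U4 (Pv τ⁻¹ τ⁻¹ B A) * B * U2 * C))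
    (trace (sv U3 (Pv τ⁻¹ (s ^ 2)⁻¹ A C) * A * sv U4 (Pv τ⁻¹ τ⁻¹ B A) * B * U2 * C))
  have a2 := abs_sub_abs_le_abs_sub
    (trace (sv U3 (Pv τ⁻¹ (s ^ 2)⁻¹ A C) * A * sv U4 (Pv τ⁻¹ τ⁻¹ B A) * B * U2 * C))
    (trace (sv U3 (Pv τ⁻¹ (s ^ 2)⁻¹ A C) * A * sv U4 (Pv τ⁻¹ τ⁻¹ B A) * B *
      sv U2 (Pv (s ^ 2)⁻¹ τ⁻¹ C B) * C))
  have hT : Tt U3 U4 U2 A B C τ⁻¹ τ⁻¹ (s ^ 2)⁻¹ =
    trace (sv U3 (Pv τ⁻¹ (s ^ 2)⁻¹ A C) * A * sv U4 (Pv τ⁻¹ τ⁻¹ B A) * B *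
      sv U2 (Pv (s ^ 2)⁻¹ τ⁻¹ C B) * C) := rfl
  rw [hT]
  have f1 := fsq_nonneg (C * U3 * A)
  have f2 : fsq (B * U2 * C) / s ≤ (fsq (C * U3 * A) + fsq (B * U2 * C)) / s := by
    gcongr
    linarith
  have e5 : s * τ * (Eg U3 (Pv τ⁻¹ (s ^ 2)⁻¹ A C) + Eg U4 (Pv τ⁻¹ τ⁻¹ B A)) +
      s * τ * (Eg U3 (Pv τ⁻¹ (s ^ 2)⁻¹ A C) + Eg U4 (Pv τ⁻¹ τ⁻¹ B A) +
        2 * Eg U2 (Pv (s ^ 2)⁻¹ τ⁻¹ C B)) =
      2 * s * τ * (Eg U3 (Pv τ⁻¹ (s ^ 2)⁻¹ A C) + Eg U4 (Pv τ⁻¹ τ⁻¹ B A) +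
        Eg U2 (Pv (s ^ 2)⁻¹ τ⁻¹ C B)) := by ring
  rw [← e5]
  have e6 : ((K : ℝ) + 2) * ((fsq (C * U3 * A) + fsq (B * U2 * C)) / s) =
    ((K : ℝ) + 1) * ((fsq (C * U3 * A) + fsq (B * U2 * C)) / s) +
      (fsq (C * U3 * A) + fsq (B * U2 * C)) / s := by ring
  rw [e6]
  linarith

end steps

end Crest.Agent.R079.Path
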