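import Crest.Agent.R079.PathBox_378
import Crest.Agent.R079.NDMat_378

/-!
# R079, leaf ND (helper133 #29202 (D)): the box version `Lbox_ND`
-/

set_option autoImplicit false
set_option linter.unusedSectionVars false
set_option linter.unusedVariables false

namespace Crest.Agent.R079.Path

open Matrix Filter Topology
open Crest.Agent.R072 Crest.Agent.R072.Nd
open scoped MatrixOrder

section up

variable {i3 i4 i2 : Type*} [Fintype i3] [DecidableEq i3] [Fintype i4] [DecidableEq i4]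
  [Fintype i2] [DecidableEq i2]

theorem sqrt_four_pow (j : ℕ) : √((4 : ℝ) ^ j) = 2 ^ j := by
  rw [show (4 : ℝ) ^ j = (2 ^ j) ^ 2 by rw [← pow_mul, mul_comm, pow_mul]; norm_num]
  exact Real.sqrt_sq (by positivity)

theorem path_weight {τ s : ℝ} (hτ : 0 < τ) (hs : 0 < s) (j : ℕ) :
    (√(4 ^ j * τ⁻¹) * √(4 ^ j * τ⁻¹) * √(4 ^ j * (s ^ 2)⁻¹))⁻¹ = s * τ * (1 / 8) ^ j := by
  have h1 : √(4 ^ j * τ⁻¹) * √(4 ^ j * τ⁻¹) = 4 ^ j * τ⁻¹ :=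
    Real.mul_self_sqrt (by positivity)
  have h2 : √(4 ^ j * (s ^ 2)⁻¹) = 2 ^ j * s⁻¹ := by
    rw [Real.sqrt_mul (by positivity), sqrt_four_pow, Real.sqrt_inv, Real.sqrt_sq hs.le]
  rw [h1, h2]
  have h3 : (4 : ℝ) ^ j * 2 ^ j = 8 ^ j := by rw [← mul_pow]; norm_num
  rw [show (4 : ℝ) ^ j * τ⁻¹ * (2 ^ j * s⁻¹) = 8 ^ j * (τ⁻¹ * s⁻¹) by rw [← h3]; ring]
  rw [mul_inv, mul_inv, inv_inv, inv_inv, one_div, inv_pow]
  ring

/-- telescoping from level `0` upwards -/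
theorem Tt_up {U3 : Matrix i3 i3 ℝ} {U4 : Matrix i4 i4 ℝ} {U2 : Matrix i2 i2 ℝ}
    (hU3 : U3ᵀ = U3) (hU4 : U4ᵀ = U4) (hU2 : U2ᵀ = U2) (hU3' : U3 * U3 = 1) (hU4' : U4 * U4 = 1)
    (hU2' : U2 * U2 = 1)
    (A : Matrix i3 i4 ℝ) (B : Matrix i4 i2 ℝ) (C : Matrix i2 i3 ℝ) {τ s : ℝ} (hτ : 0 < τ)
    (hs : 0 < s) (J : ℕ) :
    |Tt U3 U4 U2 A B C τ⁻¹ τ⁻¹ (s ^ 2)⁻¹| ≤
      |Tt U3 U4 U2 A B C (4 ^ J * τ⁻¹) (4 ^ J * τ⁻¹) (4 ^ J * (s ^ 2)⁻¹)| +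
      76800 * ∑ j ∈ Finset.range J, s * τ * (1 / 8) ^ j *
        EE U3 U4 U2 A B C (4 ^ j * τ⁻¹) (4 ^ j * τ⁻¹) (4 ^ j * (s ^ 2)⁻¹) := by
  induction J with
  | zero => simp
  | succ J ih =>
    rw [Finset.sum_range_succ]
    have hp : (0 : ℝ) < 4 ^ J := by positivity
    have hx : 0 < 4 ^ J * τ⁻¹ := by positivity
    have hz : 0 < 4 ^ J * (s ^ 2)⁻¹ := by positivity
    have e : (4 : ℝ) ^ (J + 1) = 4 * 4 ^ J := by rw [pow_succ]; ring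
    have h := Tt_step hU3 hU4 hU2 hU3' hU4' hU2' A B C (x := 4 ^ J * τ⁻¹) (y := 4 ^ J * τ⁻¹)
      (z := 4 ^ J * (s ^ 2)⁻¹) (x' := 4 ^ (J + 1) * τ⁻¹) (y' := 4 ^ (J + 1) * τ⁻¹)
      (z' := 4 ^ (J + 1) * (s ^ 2)⁻¹) hx hx hz (by rw [e]; nlinarith) (by rw [e, mul_assoc])
      (by rw [e]; nlinarith) (by rw [e, mul_assoc]) (by rw [e]; nlinarith) (by rw [e, mul_assoc])
    rw [path_weight hτ hs J] at h
    have h3 := abs_sub_abs_le_abs_sub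
      (Tt U3 U4 U2 A B C (4 ^ J * τ⁻¹) (4 ^ J * τ⁻¹) (4 ^ J * (s ^ 2)⁻¹))
      (Tt U3 U4 U2 A B C (4 ^ (J + 1) * τ⁻¹) (4 ^ (J + 1) * τ⁻¹) (4 ^ (J + 1) * (s ^ 2)⁻¹))
    rw [abs_sub_comm] at h3
    linarith

end up

end Crest.Agent.R079.Path

namespace Crest.Agent.R079.Pot

open Matrix Finset Filter Topology Crest.Agent.R072 Crest.Agent.R072.Lattice Crest.Agent.R079.LD
  Crest.Agent.R079.Path Crest.Agent.R072.Nd
open scoped MatrixOrder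

variable {Q : ℕ} [NeZero Q]

theorem Eg_le_gam {N : ℕ} {M : Matrix (Fin (N + N)) (Fin (N + N)) ℝ} (hM : M.PosSemidef) :
    Eg (diagonal (hsgn N)) M ≤ gam (potLD 1).F N M := by
  have h := gam_LD_ge one_pos N hM
  unfold gt at h
  rw [inv_one, one_smul, one_smul, gm_conj (hsgn_symm N) (hsgn_sq N) hM.nonneg] at h
  exact h

/-- the pinching gain at vertex 4 -/
noncomputable def gam4 (F0 F1 : ZMod Q → ZMod Q → ℝ) (N : ℕ) (p0 p1 p2 : ZMod Q) (x : ℝ) : ℝ :=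
  gam (potLD 1).F N (x • abar (fun u v => F1 v u) (N + N) (N + N) p2 p1 +
      x • abar F0 (N + N) (N + N) p0 p1)

/-- the Hilbert-Schmidt energy of a box: `|C U3 A|² + |B U2 C|²` -/
noncomputable def hsE (F0 F1 F2 : ZMod Q → ZMod Q → ℝ) (N : ℕ) (p0 p1 p2 : ZMod Q) : ℝ :=
  fsq (nb F2 N p2 p0 * diagonal (hsgn N) * nb F0 N p0 p1) +
    fsq (nb F1 N p1 p2 * diagonal (hsgn N) * nb F2 N p2 p0)

/-- one box -/
theorem Lbox_ND_one (F0 F1 F2 : ZMod Q → ZMod Q → ℝ) {N : ℕ} (hN : 0 < N) (p0 p1 p2 : ZMod Q)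
    {τ s : ℝ} (hτ : 0 < τ) (hs : 0 < s) (K : ℕ)
    (hM : abar F0 (N + N) (N + N) p0 p1 + abar (fun u v => F1 v u) (N + N) (N + N) p2 p1 ≤
      (2 ^ K * τ) • (1 : Matrix (Fin (N + N)) (Fin (N + N)) ℝ))
    (hC : abar (fun u v => F2 v u) (N + N) (N + N) p0 p2 ≤
      (s ^ 2) • (1 : Matrix (Fin (N + N)) (Fin (N + N)) ℝ)) :
    |Lbox F0 F1 F2 N p0 p1 p2| ≤
      |Tt (diagonal (hsgn N)) (diagonal (hsgn N)) (diagonal (hsgn N)) (nb F0 N p0 p1)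
        (nb F1 N p1 p2) (nb F2 N p2 p0) τ⁻¹ τ⁻¹ (s ^ 2)⁻¹| +
      ((K : ℝ) + 2) * (hsE F0 F1 F2 N p0 p1 p2 / s) +
      2 * s * ∑ k ∈ Finset.range (K + 1), (2 ^ k * τ) * gam4 F0 F1 N p0 p1 p2 ((2 ^ k * τ)⁻¹) +
      2 * s * τ * gams F0 F1 F2 N p0 p1 p2 τ⁻¹ τ⁻¹ (s ^ 2)⁻¹ := by
  have hx : 0 < τ⁻¹ := inv_pos.mpr hτ
  have hz : 0 < (s ^ 2)⁻¹ := by positivity
  rw [← nb_transpose_mul F0 hN, ← nb_mul_transpose F1 hN] at hM
  rw [← nb_mul_transpose F2 hN] at hC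
  have h := ND_mat (hsgn_symm N) (hsgn_symm N) (hsgn_symm N) (hsgn_sq N) (hsgn_sq N) (hsgn_sq N)
    (nb F0 N p0 p1) (nb F1 N p1 p2) (nb F2 N p2 p0) hτ hs K hM hC
  rw [Lbox_nb F0 F1 F2 hN]
  refine h.trans ?_
  have g1 : ∑ k ∈ Finset.range (K + 1), (2 ^ k * τ) * Eg (diagonal (hsgn N))
        ((2 ^ k * τ)⁻¹ • ((nb F0 N p0 p1)ᵀ * nb F0 N p0 p1 + nb F1 N p1 p2 * (nb F1 N p1 p2)ᵀ)) ≤
      ∑ k ∈ Finset.range (K + 1), (2 ^ k * τ) * gam4 F0 F1 N p0 p1 p2 ((2 ^ k * τ)⁻¹) := by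
    refine Finset.sum_le_sum fun k _ => mul_le_mul_of_nonneg_left ?_ (by positivity)
    have e : (2 ^ k * τ)⁻¹ • ((nb F0 N p0 p1)ᵀ * nb F0 N p0 p1 +
        nb F1 N p1 p2 * (nb F1 N p1 p2)ᵀ) =
        (2 ^ k * τ)⁻¹ • abar (fun u v => F1 v u) (N + N) (N + N) p2 p1 +
          (2 ^ k * τ)⁻¹ • abar F0 (N + N) (N + N) p0 p1 := by
      rw [nb_transpose_mul F0 hN, nb_mul_transpose F1 hN, smul_add]
      exact add_comm _ _
    rw [e]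
    refine Eg_le_gam ?_
    rw [← e]
    exact Matrix.nonneg_iff_posSemidef.mp (psd_smul' (add_nonneg (psd_transpose_mul_self _)
      (psd_mul_transpose_self _)) (by positivity))
  have g3 := Eg_le_gam (N := N) (Matrix.nonneg_iff_posSemidef.mp
    (Pv_nonneg hx.le hz.le (nb F0 N p0 p1) (nb F2 N p2 p0)))
  have g4 := Eg_le_gam (N := N) (Matrix.nonneg_iff_posSemidef.mp
    (Pv_nonneg hx.le hx.le (nb F1 N p1 p2) (nb F0 N p0 p1)))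
  have g2 := Eg_le_gam (N := N) (Matrix.nonneg_iff_posSemidef.mp
    (Pv_nonneg hz.le hx.le (nb F2 N p2 p0) (nb F1 N p1 p2)))
  have e3 : Pv τ⁻¹ (s ^ 2)⁻¹ (nb F0 N p0 p1) (nb F2 N p2 p0) =
      τ⁻¹ • abar (fun u v => F0 v u) (N + N) (N + N) p1 p0 +
        (s ^ 2)⁻¹ • abar F2 (N + N) (N + N) p2 p0 := by
    unfold Pv
    rw [nb_mul_transpose F0 hN, nb_transpose_mul F2 hN]
  have e4 : Pv τ⁻¹ τ⁻¹ (nb F1 N p1 p2) (nb F0 N p0 p1) =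
      τ⁻¹ • abar (fun u v => F1 v u) (N + N) (N + N) p2 p1 +
        τ⁻¹ • abar F0 (N + N) (N + N) p0 p1 := by
    unfold Pv
    rw [nb_mul_transpose F1 hN, nb_transpose_mul F0 hN]
  have e2 : Pv (s ^ 2)⁻¹ τ⁻¹ (nb F2 N p2 p0) (nb F1 N p1 p2) =
      (s ^ 2)⁻¹ • abar (fun u v => F2 v u) (N + N) (N + N) p0 p2 +
        τ⁻¹ • abar F1 (N + N) (N + N) p1 p2 := by
    unfold Pv
    rw [nb_mul_transpose F2 hN, nb_transpose_mul F1 hN]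
  have hg : Eg (diagonal (hsgn N)) (Pv τ⁻¹ (s ^ 2)⁻¹ (nb F0 N p0 p1) (nb F2 N p2 p0)) +
      Eg (diagonal (hsgn N)) (Pv τ⁻¹ τ⁻¹ (nb F1 N p1 p2) (nb F0 N p0 p1)) +
      Eg (diagonal (hsgn N)) (Pv (s ^ 2)⁻¹ τ⁻¹ (nb F2 N p2 p0) (nb F1 N p1 p2)) ≤
      gams F0 F1 F2 N p0 p1 p2 τ⁻¹ τ⁻¹ (s ^ 2)⁻¹ := by
    unfold gams
    rw [← e3, ← e4, ← e2]
    linarith
  have hs1 : 0 ≤ 2 * s := by positivity
  have hs2 : 0 ≤ 2 * s * τ := by positivity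
  have k1 := mul_le_mul_of_nonneg_left g1 hs1
  have k2 := mul_le_mul_of_nonneg_left hg hs2
  unfold hsE
  linarith

/-- **ND**, a finite family of boxes with weights -/
theorem Lbox_ND {ι : Type*} (S : Finset ι) (w : ι → ℝ) (hw : ∀ i ∈ S, 0 ≤ w i)
    (F0 F1 F2 : ι → ZMod Q → ZMod Q → ℝ) (N : ι → ℕ) (hN : ∀ i ∈ S, 0 < N i)
    (p0 p1 p2 : ι → ZMod Q) {τ s : ℝ} (hτ : 0 < τ) (hs : 0 < s) (K : ℕ)
    (hM : ∀ i ∈ S, abar (F0 i) (N i + N i) (N i + N i) (p0 i) (p1 i) +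
        abar (fun u v => F1 i v u) (N i + N i) (N i + N i) (p2 i) (p1 i) ≤
      (2 ^ K * τ) • (1 : Matrix (Fin (N i + N i)) (Fin (N i + N i)) ℝ))
    (hC : ∀ i ∈ S, abar (fun u v => F2 i v u) (N i + N i) (N i + N i) (p0 i) (p2 i) ≤
      (s ^ 2) • (1 : Matrix (Fin (N i + N i)) (Fin (N i + N i)) ℝ))
    (BW B4 BJ : ℝ)
    (hBW : ∑ i ∈ S, w i * hsE (F0 i) (F1 i) (F2 i) (N i) (p0 i) (p1 i) (p2 i) ≤ BW)
    (hB4 : ∑ k ∈ Finset.range (K + 1), (2 ^ k * τ) *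
      ∑ i ∈ S, w i * gam4 (F0 i) (F1 i) (N i) (p0 i) (p1 i) (p2 i) ((2 ^ k * τ)⁻¹) ≤ B4)
    (hBJ : ∀ J : ℕ, ∑ j ∈ Finset.range J, s * τ * (1 / 8) ^ j *
      ∑ i ∈ S, w i * gams (F0 i) (F1 i) (F2 i) (N i) (p0 i) (p1 i) (p2 i) (4 ^ j * τ⁻¹)
        (4 ^ j * τ⁻¹) (4 ^ j * (s ^ 2)⁻¹) ≤ BJ) :
    ∑ i ∈ S, w i * |Lbox (F0 i) (F1 i) (F2 i) (N i) (p0 i) (p1 i) (p2 i)| ≤
      ((K : ℝ) + 2) * (BW / s) + 2 * s * B4 + 76802 * BJ := by
  set U : ∀ i, Matrix (Fin (N i + N i)) (Fin (N i + N i)) ℝ := fun i => diagonal (hsgn (N i))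
    with hU
  set T : ι → ℕ → ℝ := fun i j => Tt (U i) (U i) (U i) (nb (F0 i) (N i) (p0 i) (p1 i))
    (nb (F1 i) (N i) (p1 i) (p2 i)) (nb (F2 i) (N i) (p2 i) (p0 i)) (4 ^ j * τ⁻¹)
    (4 ^ j * τ⁻¹) (4 ^ j * (s ^ 2)⁻¹) with hT
  set G : ι → ℕ → ℝ := fun i j => gams (F0 i) (F1 i) (F2 i) (N i) (p0 i) (p1 i) (p2 i)
    (4 ^ j * τ⁻¹) (4 ^ j * τ⁻¹) (4 ^ j * (s ^ 2)⁻¹) with hG
  have hc : (√(τ⁻¹) * √(τ⁻¹) * √((s ^ 2)⁻¹))⁻¹ = s * τ := by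
    have := path_weight hτ hs 0
    simpa using this
  -- the remaining interpolant
  have hT0 : ∑ i ∈ S, w i * |T i 0| ≤ 76800 * BJ := by
    have htop : ∀ i ∈ S, Tendsto (fun J : ℕ => |T i J|) atTop (𝓝 0) := by
      intro i hi
      refine squeeze_zero (g := fun J : ℕ => s * τ * (1 / 8) ^ J *
        (√(Fintype.card (Fin (N i + N i))) * √(Fintype.card (Fin (N i + N i))))) ?_ ?_ ?_
      · intro J; exact abs_nonneg _
      · intro J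
        have h := Tt_tail (hsgn_symm (N i)) (hsgn_symm (N i)) (hsgn_symm (N i)) (hsgn_sq (N i))
          (hsgn_sq (N i)) (hsgn_sq (N i)) (nb (F0 i) (N i) (p0 i) (p1 i))
          (nb (F1 i) (N i) (p1 i) (p2 i)) (nb (F2 i) (N i) (p2 i) (p0 i))
          (x := 4 ^ J * τ⁻¹) (y := 4 ^ J * τ⁻¹) (z := 4 ^ J * (s ^ 2)⁻¹) (by positivity)
          (by positivity) (by positivity)
        rw [path_weight hτ hs J] at h
        exact h
      · have h1 : Tendsto (fun J : ℕ => ((1 : ℝ) / 8) ^ J) atTop (𝓝 0) :=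
          tendsto_pow_atTop_nhds_zero_of_lt_one (by norm_num) (by norm_num)
        simpa using (h1.const_mul (s * τ)).mul_const
          (√(Fintype.card (Fin (N i + N i)) : ℝ) * √(Fintype.card (Fin (N i + N i)) : ℝ))
    have hmain : ∀ J : ℕ, ∑ i ∈ S, w i * |T i 0| ≤ ∑ i ∈ S, w i * |T i J| + 76800 * BJ := by
      intro J
      have h1 : ∀ i ∈ S, w i * |T i 0| ≤ w i * |T i J| + 76800 *
          ∑ j ∈ Finset.range J, s * τ * (1 / 8) ^ j * (w i * G i j) := by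
        intro i hi
        have h2 := Tt_up (hsgn_symm (N i)) (hsgn_symm (N i)) (hsgn_symm (N i)) (hsgn_sq (N i))
          (hsgn_sq (N i)) (hsgn_sq (N i)) (nb (F0 i) (N i) (p0 i) (p1 i))
          (nb (F1 i) (N i) (p1 i) (p2 i)) (nb (F2 i) (N i) (p2 i) (p0 i)) hτ hs J
        have h3 : ∑ j ∈ Finset.range J, s * τ * (1 / 8) ^ j *
            Path.EE (diagonal (hsgn (N i))) (diagonal (hsgn (N i))) (diagonal (hsgn (N i)))
              (nb (F0 i) (N i) (p0 i) (p1 i)) (nb (F1 i) (N i) (p1 i) (p2 i))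
              (nb (F2 i) (N i) (p2 i) (p0 i)) (4 ^ j * τ⁻¹) (4 ^ j * τ⁻¹) (4 ^ j * (s ^ 2)⁻¹) ≤
            ∑ j ∈ Finset.range J, s * τ * (1 / 8) ^ j * G i j := by
          refine Finset.sum_le_sum fun j _ => mul_le_mul_of_nonneg_left
            (EE_le_gams _ _ _ (hN i hi) _ _ _ (by positivity) (by positivity) (by positivity))
            (by positivity)
        have h0 : |T i 0| = |Tt (diagonal (hsgn (N i))) (diagonal (hsgn (N i)))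
            (diagonal (hsgn (N i))) (nb (F0 i) (N i) (p0 i) (p1 i))
            (nb (F1 i) (N i) (p1 i) (p2 i)) (nb (F2 i) (N i) (p2 i) (p0 i)) τ⁻¹ τ⁻¹
            (s ^ 2)⁻¹| := by
          rw [hT]
          simp only [pow_zero, one_mul, hU]
        have h4 : w i * |T i 0| ≤ w i * (|T i J| + 76800 *
            ∑ j ∈ Finset.range J, s * τ * (1 / 8) ^ j * G i j) := by
          refine mul_le_mul_of_nonneg_left ?_ (hw i hi)
          rw [h0]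
          refine h2.trans ?_
          have h5 : |Tt (diagonal (hsgn (N i))) (diagonal (hsgn (N i)))
            (diagonal (hsgn (N i))) (nb (F0 i) (N i) (p0 i) (p1 i))
            (nb (F1 i) (N i) (p1 i) (p2 i)) (nb (F2 i) (N i) (p2 i) (p0 i)) (4 ^ J * τ⁻¹)
            (4 ^ J * τ⁻¹) (4 ^ J * (s ^ 2)⁻¹)| = |T i J| := rfl
          rw [h5]
          linarith
        refine h4.trans (le_of_eq ?_)
        rw [mul_add]
        congr 1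
        rw [mul_left_comm, Finset.mul_sum]
        congr 1
        refine Finset.sum_congr rfl fun j _ => ?_
        ring
      refine (Finset.sum_le_sum h1).trans ?_
      rw [Finset.sum_add_distrib, ← Finset.mul_sum, Finset.sum_comm]
      have h5 := hBJ J
      have h6 : ∑ j ∈ Finset.range J, ∑ i ∈ S, s * τ * (1 / 8) ^ j * (w i * G i j) =
          ∑ j ∈ Finset.range J, s * τ * (1 / 8) ^ j * ∑ i ∈ S, w i * G i j := by
        refine Finset.sum_congr rfl fun j _ => ?_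
        rw [Finset.mul_sum]
      rw [h6]
      linarith
    have hlim : Tendsto (fun J : ℕ => ∑ i ∈ S, w i * |T i J| + 76800 * BJ) atTop
        (𝓝 (∑ i ∈ S, w i * 0 + 76800 * BJ)) :=
      (tendsto_finsetSum _ fun i hi => (htop i hi).const_mul _).add_const _
    have h := ge_of_tendsto' hlim hmain
    simpa using h
  -- level zero gains
  have hG0 : s * τ * ∑ i ∈ S, w i * gams (F0 i) (F1 i) (F2 i) (N i) (p0 i) (p1 i) (p2 i) τ⁻¹ τ⁻¹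
      (s ^ 2)⁻¹ ≤ BJ := by
    have := hBJ 1
    simpa using this
  have hone : ∀ i ∈ S, w i * |Lbox (F0 i) (F1 i) (F2 i) (N i) (p0 i) (p1 i) (p2 i)| ≤
      w i * |T i 0| + ((K : ℝ) + 2) / s * (w i * hsE (F0 i) (F1 i) (F2 i) (N i) (p0 i) (p1 i)
        (p2 i)) + 2 * s * ∑ k ∈ Finset.range (K + 1), (2 ^ k * τ) *
          (w i * gam4 (F0 i) (F1 i) (N i) (p0 i) (p1 i) (p2 i) ((2 ^ k * τ)⁻¹)) +
      2 * (s * τ * (w i * gams (F0 i) (F1 i) (F2 i) (N i) (p0 i) (p1 i) (p2 i) τ⁻¹ τ⁻¹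
        (s ^ 2)⁻¹)) := by
    intro i hi
    have h := mul_le_mul_of_nonneg_left (Lbox_ND_one (F0 i) (F1 i) (F2 i) (hN i hi) (p0 i) (p1 i)
      (p2 i) hτ hs K (hM i hi) (hC i hi)) (hw i hi)
    have h0 : T i 0 = Tt (diagonal (hsgn (N i))) (diagonal (hsgn (N i)))
            (diagonal (hsgn (N i))) (nb (F0 i) (N i) (p0 i) (p1 i))
            (nb (F1 i) (N i) (p1 i) (p2 i)) (nb (F2 i) (N i) (p2 i) (p0 i)) τ⁻¹ τ⁻¹
            (s ^ 2)⁻¹ := by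
      rw [hT]
      simp only [pow_zero, one_mul, hU]
    rw [← h0] at h
    refine h.trans (le_of_eq ?_)
    have e : ∑ k ∈ Finset.range (K + 1), (2 ^ k * τ) *
          (w i * gam4 (F0 i) (F1 i) (N i) (p0 i) (p1 i) (p2 i) ((2 ^ k * τ)⁻¹)) =
        w i * ∑ k ∈ Finset.range (K + 1), (2 ^ k * τ) *
          gam4 (F0 i) (F1 i) (N i) (p0 i) (p1 i) (p2 i) ((2 ^ k * τ)⁻¹) := by
      rw [Finset.mul_sum]
      refine Finset.sum_congr rfl fun k _ => ?_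
      ring
    rw [e]
    have e' : w i * ((↑K + 2) * (hsE (F0 i) (F1 i) (F2 i) (N i) (p0 i) (p1 i) (p2 i) / s)) =
        ((K : ℝ) + 2) / s * (w i * hsE (F0 i) (F1 i) (F2 i) (N i) (p0 i) (p1 i) (p2 i)) := by
      rw [div_eq_mul_inv, div_eq_mul_inv]
      ring
    rw [← e']
    ring
  refine (Finset.sum_le_sum hone).trans ?_
  rw [Finset.sum_add_distrib, Finset.sum_add_distrib, Finset.sum_add_distrib, ← Finset.mul_sum,
    ← Finset.mul_sum, ← Finset.mul_sum, ← Finset.mul_sum, Finset.sum_comm]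
  have e1 : ∑ k ∈ Finset.range (K + 1), ∑ i ∈ S, 2 ^ k * τ *
      (w i * gam4 (F0 i) (F1 i) (N i) (p0 i) (p1 i) (p2 i) ((2 ^ k * τ)⁻¹)) =
      ∑ k ∈ Finset.range (K + 1), (2 ^ k * τ) *
        ∑ i ∈ S, w i * gam4 (F0 i) (F1 i) (N i) (p0 i) (p1 i) (p2 i) ((2 ^ k * τ)⁻¹) := by
    refine Finset.sum_congr rfl fun k _ => ?_
    rw [Finset.mul_sum]
  rw [e1]
  have a1 : ((K : ℝ) + 2) / s * ∑ i ∈ S, w i * hsE (F0 i) (F1 i) (F2 i) (N i) (p0 i) (p1 i)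
      (p2 i) ≤ ((K : ℝ) + 2) * (BW / s) := by
    have := mul_le_mul_of_nonneg_left hBW (by positivity : (0 : ℝ) ≤ ((K : ℝ) + 2) / s)
    refine this.trans (le_of_eq ?_)
    ring
  have a2 := mul_le_mul_of_nonneg_left hB4 (by positivity : (0 : ℝ) ≤ 2 * s)
  linarith

end Crest.Agent.R079.Pot
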