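import Crest.Agent.R079.NSum_133
import Crest.Agent.R079.NC_215
import Crest.Agent.R079.NDMat_378

/-! R079, K-free (N), extraction on boxes (helper133): the square function without resolvents. -/

set_option autoImplicit false
set_option linter.unusedSectionVars false
set_option linter.unusedVariables false

namespace Crest.Agent.R079.NF

open Matrix Finset
open Crest.Agent.R072 Crest.Agent.R072.Nd Crest.Agent.R072.Lattice Crest.Agent.R079.Path
  Crest.Agent.R079.LD Crest.Agent.R079.Pot Crest.Agent.R079.NC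
open Crest.Agent.R079.Glue (bx)
open scoped MatrixOrder

section mat

variable {n : Type*} [Fintype n] [DecidableEq n]

theorem spec_pow {V : Matrix n n ℝ} (hV : Vᵀ * V = 1) (hV' : V * Vᵀ = 1) (e : n → ℝ) (k : ℕ) :
    (V * diagonal e * Vᵀ) ^ k = V * diagonal (fun i => e i ^ k) * Vᵀ := by
  induction k with
  | zero =>
    have : (fun i => e i ^ 0) = fun _ => (1 : ℝ) := by funext i; simp
    rw [pow_zero, this, diagonal_one, Matrix.mul_one, hV']
  | succ k ih =>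
    rw [pow_succ, ih, spec_mul hV]
    simp only [pow_succ]

/-- `R Kᵐ Kᵐ R ≤ (16/9) K` for `m ≥ 1` -/
theorem RKKR_le {θ : ℝ} {K : Matrix n n ℝ} (hθ : 0 ≤ θ) (hθ4 : θ ≤ 1 / 4) (hK : 0 ≤ K)
    (hK1 : K ≤ 1) {m : ℕ} (hm : 1 ≤ m) :
    Rv θ K * K ^ m * K ^ m * Rv θ K ≤ (16 / 9 : ℝ) • K := by
  obtain ⟨V, e, hV, hV', he, he1, rfl⟩ := contr_spec hK hK1
  have hd := fun i => den_pos hθ hθ4 (he i) (he1 i)
  rw [Rv_spec hV hV' fun i => by linarith [(hd i).1], spec_pow hV hV', spec_mul hV, spec_mul hV,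
    spec_mul hV]
  have e2 : (16 / 9 : ℝ) • (V * diagonal e * Vᵀ) =
      V * diagonal (fun i => (16 / 9 : ℝ) * e i) * Vᵀ := by
    have : diagonal (fun i => (16 / 9 : ℝ) * e i) = (16 / 9 : ℝ) • diagonal e := by
      rw [← diagonal_smul]; rfl
    rw [this, Matrix.mul_smul, Matrix.smul_mul]
  rw [e2, ← sub_nonneg, ← Matrix.sub_mul, ← Matrix.mul_sub, diagonal_sub]
  refine spec_psd V fun i => ?_
  have h1 := hd i
  have hp : 0 < 1 - θ * e i := by linarith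
  have h3 : (1 - θ * e i)⁻¹ ≤ 4 / 3 := by
    rw [inv_le_comm₀ hp (by norm_num)]
    linarith
  have h3' : 0 ≤ (1 - θ * e i)⁻¹ := inv_nonneg.mpr hp.le
  have h4 : e i ^ m ≤ e i := pow_le_of_le_one (he i) (he1 i) (by omega)
  have h5 : 0 ≤ e i ^ m := pow_nonneg (he i) m
  have h6 : e i ^ m ≤ 1 := pow_le_one₀ (he i) (he1 i)
  show 0 ≤ (16 / 9 : ℝ) * e i - (1 - θ * e i)⁻¹ * e i ^ m * e i ^ m * (1 - θ * e i)⁻¹
  have h7 : (1 - θ * e i)⁻¹ * (1 - θ * e i)⁻¹ ≤ 4 / 3 * (4 / 3) :=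
    mul_le_mul h3 h3 h3' (by norm_num)
  have h8 : e i ^ m * e i ^ m ≤ e i * 1 := mul_le_mul h4 h6 h5 (he i)
  have h9 : (1 - θ * e i)⁻¹ * (1 - θ * e i)⁻¹ * (e i ^ m * e i ^ m) ≤
      4 / 3 * (4 / 3) * (e i * 1) := mul_le_mul h7 h8 (mul_nonneg h5 h5) (by norm_num)
  nlinarith

/-- `K ≤ 2 g(K)` for a contraction -/
theorem le_two_gm' {K : Matrix n n ℝ} (hK : 0 ≤ K) (hK1 : K ≤ 1) : K ≤ (2 : ℝ) • gm K := by
  obtain ⟨V, e, hV, hV', he, he1, rfl⟩ := contr_spec hK hK1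
  have h1 : 1 + V * diagonal e * Vᵀ = V * diagonal (fun i => 1 + e i) * Vᵀ := by
    have : diagonal (fun i => 1 + e i) = 1 + diagonal e := by
      rw [← diagonal_one, diagonal_add]
    rw [this, Matrix.mul_add, Matrix.mul_one, Matrix.add_mul, hV']
  have hne : ∀ i, 1 + e i ≠ 0 := fun i => by have := he i; positivity
  have h2 := spec_one_sub (V := V) hV' (fun i => (1 + e i)⁻¹) 1
  rw [one_smul] at h2
  unfold gm Hm
  rw [h1, spec_inv hV hV' hne, h2]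
  have e2 : (2 : ℝ) • (V * diagonal (fun i => 1 - (1 + e i)⁻¹) * Vᵀ) =
      V * diagonal (fun i => 2 * (1 - (1 + e i)⁻¹)) * Vᵀ := by
    have : diagonal (fun i => 2 * (1 - (1 + e i)⁻¹)) =
        (2 : ℝ) • diagonal (fun i => 1 - (1 + e i)⁻¹) := by
      rw [← diagonal_smul]; rfl
    rw [this, Matrix.mul_smul, Matrix.smul_mul]
  rw [e2, ← sub_nonneg, ← Matrix.sub_mul, ← Matrix.mul_sub, diagonal_sub]
  refine spec_psd V fun i => ?_
  have h3 := he i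
  have h4 := he1 i
  have h5 : 2 * (1 - (1 + e i)⁻¹) - e i = e i * (1 - e i) / (1 + e i) := by
    field_simp
    ring
  show 0 ≤ 2 * (1 - (1 + e i)⁻¹) - e i
  rw [h5]
  have : 0 ≤ 1 - e i := by linarith
  positivity

end mat

section box

variable (r : ℕ) {P K : Matrix (Fin (r + r)) (Fin (r + r)) ℝ}

/-- own energy of the level slot -/
theorem trace_pinch_le (hK : 0 ≤ K) (hK1 : K ≤ 1) :
    trace (K * (diagonal (hsgn r) * K * diagonal (hsgn r))) ≤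
      4 * gam (fun _ M => LD 1 M) r K := by
  set U := diagonal (hsgn r) with hU
  have hUs : Uᵀ = U := hsgn_symm r
  have hU2 : U * U = 1 := hsgn_sq r
  have h1 : K ≤ (2 : ℝ) • gm K := le_two_gm' hK hK1
  have h2 : U * K * U ≤ (2 : ℝ) • gm (U * K * U) := by
    refine le_two_gm' (sandwich_nonneg hUs hK) ?_
    have := le_conj hK1 U
    rwa [Matrix.mul_one, hUs, hU2] at this
  have h3 : 0 ≤ U * K * U := sandwich_nonneg hUs hK
  have g1 : 0 ≤ gm K := gm_nonneg hK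
  have h4 := trace_mul_mono_left h1 h3
  have h5 := trace_mul_mono_right (psd_smul' g1 (by norm_num : (0 : ℝ) ≤ 2)) h2
  refine h4.trans (h5.trans ?_)
  rw [Matrix.smul_mul, Matrix.mul_smul, trace_smul, trace_smul, smul_eq_mul, smul_eq_mul]
  have h6 := gam_LD_ge one_pos r (Matrix.nonneg_iff_posSemidef.mp hK)
  unfold gt at h6
  rw [inv_one, one_smul, one_smul] at h6
  linarith

theorem blkA_smul (c : ℝ) (M : Matrix (Fin (r + r)) (Fin (r + r)) ℝ) :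
    blkA r (c • M) = c • blkA r M := by
  unfold blkA
  rw [smul_comm]
  rfl

theorem blkB_smul (c : ℝ) (M : Matrix (Fin (r + r)) (Fin (r + r)) ℝ) :
    blkB r (c • M) = c • blkB r M := by
  unfold blkB
  rw [smul_comm]
  rfl

theorem smul_le_one_of {n : Type*} [Fintype n] [DecidableEq n] {M : Matrix n n ℝ} {c : ℝ}
    (hc : 0 < c) (h : M ≤ c • (1 : Matrix n n ℝ)) : c⁻¹ • M ≤ 1 := by
  rw [← sub_nonneg] at h ⊢
  have h1 := psd_smul' h (inv_nonneg.mpr hc.le)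
  rwa [smul_sub, smul_smul, inv_mul_cancel₀ hc.ne', one_smul] at h1

theorem of_smul_le_one {n : Type*} [Fintype n] [DecidableEq n] {M : Matrix n n ℝ} {c : ℝ}
    (hc : 0 < c) (h : c⁻¹ • M ≤ 1) : M ≤ c • (1 : Matrix n n ℝ) := by
  rw [← sub_nonneg] at h ⊢
  have h1 := psd_smul' h hc.le
  rwa [smul_sub, smul_smul, mul_inv_cancel₀ hc.ne', one_smul] at h1

theorem le_smul_of_blk {c : ℝ} (hc : 0 < c) (hP : 0 ≤ P)
    (hA : blkA r P ≤ c • (1 : Matrix (Fin r) (Fin r) ℝ))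
    (hB : blkB r P ≤ c • (1 : Matrix (Fin r) (Fin r) ℝ)) :
    P ≤ c • (1 : Matrix (Fin (r + r)) (Fin (r + r)) ℝ) := by
  refine of_smul_le_one hc (le_one_of_blk r (psd_smul' hP (inv_nonneg.mpr hc.le)) ?_ ?_)
  · rw [blkA_smul]; exact smul_le_one_of hc hA
  · rw [blkB_smul]; exact smul_le_one_of hc hB

/-- pointwise extraction -/
theorem ext_box {m : ℕ} (hm : 1 ≤ m) {c : ℝ} (hc : 0 ≤ c) (hP : 0 ≤ P)
    (hPc : P ≤ c • (1 : Matrix (Fin (r + r)) (Fin (r + r)) ℝ)) (hK : 0 ≤ K) (hK1 : K ≤ 1) :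
    trace (P * (diagonal (hsgn r) * K * diagonal (hsgn r))) ≤
      4 * m * ∑ j ∈ Finset.Icc 1 m, 2 *
        (trace (P * (Rv (((j : ℝ) / m) ^ 2 / 4) K * (diagonal (hsgn r) * K * diagonal (hsgn r)) *
          Rv (((j : ℝ) / m) ^ 2 / 4) K)) +
        (1 / 16) ^ m * (c * (64 / 9 * gam (fun _ M => LD 1 M) r K))) := by
  set U := diagonal (hsgn r) with hU
  have hUs : Uᵀ = U := hsgn_symm r
  have hKt : 0 ≤ U * K * U := sandwich_nonneg hUs hK
  have h := nc m hm hP hK hK1 hKt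
  refine h.trans ?_
  refine mul_le_mul_of_nonneg_left (sum_le_sum fun j hj => ?_) (by positivity)
  rw [Finset.mem_Icc] at hj
  have hm' : (0 : ℝ) < m := by exact_mod_cast hm
  have hu0 : 0 ≤ ((j : ℝ) / m) ^ 2 / 4 := by positivity
  have hu1 : ((j : ℝ) / m) ^ 2 / 4 ≤ 1 / 4 := by
    have : (j : ℝ) / m ≤ 1 := (div_le_one hm').2 (by exact_mod_cast hj.2)
    have h0 : 0 ≤ (j : ℝ) / m := by positivity
    nlinarith
  set u := ((j : ℝ) / m) ^ 2 with hudef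
  have eR : RN u K = Rv (u / 4) K := rfl
  rw [eR]
  set R := Rv (u / 4) K with hR
  have hRs : Rᵀ = R := Rv_symm hu0 hu1 hK hK1
  have t1 : trace (P * R * (U * K * U) * R) = trace (P * (R * (U * K * U) * R)) := by
    simp only [Matrix.mul_assoc]
  have q1 : 0 ≤ R * (U * K * U) * R := by
    have := frob_psd_conj hKt R
    rwa [hRs] at this
  have t1n : 0 ≤ trace (P * (R * (U * K * U) * R)) := frob_trace_mul_nonneg hP q1
  -- second term
  have hKm : (K ^ m)ᵀ = K ^ m := by rw [transpose_pow, psd_tr hK]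
  have q2 : 0 ≤ K ^ m * (R * (U * K * U) * R) * K ^ m := by
    have := frob_psd_conj q1 (K ^ m)
    rwa [hKm] at this
  have t2 : trace (P * K ^ m * R * (U * K * U) * R * K ^ m) =
      trace (P * (K ^ m * (R * (U * K * U) * R) * K ^ m)) := by
    simp only [Matrix.mul_assoc]
  have t2n : 0 ≤ trace (P * (K ^ m * (R * (U * K * U) * R) * K ^ m)) :=
    frob_trace_mul_nonneg hP q2
  have t2le : trace (P * (K ^ m * (R * (U * K * U) * R) * K ^ m)) ≤
      c * (64 / 9 * gam (fun _ M => LD 1 M) r K) := by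
    have a1 := trace_mul_mono_left hPc q2
    refine a1.trans ?_
    rw [Matrix.smul_mul, trace_smul, Matrix.one_mul, smul_eq_mul]
    refine mul_le_mul_of_nonneg_left ?_ hc
    have a2 : trace (K ^ m * (R * (U * K * U) * R) * K ^ m) =
        trace ((U * K * U) * (R * K ^ m * K ^ m * R)) := by
      calc trace (K ^ m * (R * (U * K * U) * R) * K ^ m)
          = trace ((K ^ m * R) * ((U * K * U) * R * K ^ m)) := by
            simp only [Matrix.mul_assoc]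
        _ = trace (((U * K * U) * R * K ^ m) * (K ^ m * R)) := trace_mul_comm _ _
        _ = _ := by simp only [Matrix.mul_assoc]
    rw [a2]
    have a3 := trace_mul_mono_right hKt (RKKR_le hu0 hu1 hK hK1 hm)
    refine a3.trans ?_
    rw [Matrix.mul_smul, trace_smul, smul_eq_mul, trace_mul_comm]
    have a4 := trace_pinch_le r hK hK1
    linarith
  rw [t1, t2]
  have hc2 : |cN m j| ≤ 2 := abs_cN_le m j hj.2
  have hb : 0 ≤ trace (P * (R * (U * K * U) * R)) +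
      (1 / 16) ^ m * trace (P * (K ^ m * (R * (U * K * U) * R) * K ^ m)) :=
    add_nonneg t1n (mul_nonneg (by positivity) t2n)
  refine (mul_le_mul_of_nonneg_right hc2 hb).trans ?_
  refine mul_le_mul_of_nonneg_left ?_ (by norm_num)
  refine add_le_add le_rfl (mul_le_mul_of_nonneg_left t2le (by positivity))

end box

section sum

variable {Q : ℕ} [NeZero Q]

/-- square function without resolvents -/
noncomputable def SQ0 (X Z : ZMod Q → ZMod Q → ℝ) (N : ℕ) (n : ZMod Q) : ℝ :=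
  ∑ p : ZMod Q, ∑ q : ZMod Q, trace (abar X (N + N) (N + N) q p *
    (diagonal (hsgn N) * abar Z (N + N) (N + N) (n - p - q) p * diagonal (hsgn N)))

theorem abar_le_up {X : ZMod Q → ZMod Q → ℝ} {N : ℕ} (hN : 0 < N) {c : ℝ} (hc : 0 < c)
    (h : ∀ q p : ZMod Q, abar X N N q p ≤ c • (1 : Matrix (Fin N) (Fin N) ℝ)) (q p : ZMod Q) :
    abar X (N + N) (N + N) q p ≤ c • (1 : Matrix (Fin (N + N)) (Fin (N + N)) ℝ) := by
  have h1 : ∀ q p : ZMod Q, abar X (N + N) N q p ≤ c • (1 : Matrix (Fin N) (Fin N) ℝ) := by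
    intro q p
    rw [abar_double X hN]
    refine of_smul_le_one hc ?_
    rw [smul_comm, smul_add]
    exact mid_le_one (smul_le_one_of hc (h _ _)) (smul_le_one_of hc (h _ _))
  refine le_smul_of_blk N hc (abar_nn _ _ _ _ _) ?_ ?_
  · rw [blkA_abar X hN]; exact h1 _ _
  · rw [blkB_abar X hN]; exact h1 _ _

/-- one scale -/
theorem SQ0_le {X Z : ZMod Q → ZMod Q → ℝ} {N : ℕ} (hN : 0 < N) {m : ℕ} (hm : 1 ≤ m) {c : ℝ}
    (hc : 0 < c) (hX : ∀ q p : ZMod Q, abar X N N q p ≤ c • (1 : Matrix (Fin N) (Fin N) ℝ))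
    (hZ : Lv Z N N) (n : ZMod Q) :
    SQ0 X Z N n ≤ 4 * m * ∑ j ∈ Finset.Icc 1 m, 2 * (SQ (((j : ℝ) / m) ^ 2 / 4) X Z N n +
      (1 / 16) ^ m * (c * (64 / 9 * ∑ p : ZMod Q, ∑ q : ZMod Q,
        gam (fun _ M => LD 1 M) N (abar Z (N + N) (N + N) q p)))) := by
  have hZ2 : Lv Z (N + N) (N + N) := (hZ.db hN).dr hN
  have h1 : ∀ p q : ZMod Q, trace (abar X (N + N) (N + N) q p *
      (diagonal (hsgn N) * abar Z (N + N) (N + N) (n - p - q) p * diagonal (hsgn N))) ≤ _ :=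
    fun p q => ext_box N hm hc.le (abar_nn X (N + N) (N + N) q p) (abar_le_up hN hc hX q p)
      (abar_nn Z (N + N) (N + N) (n - p - q) p) (hZ2 _ _)
  unfold SQ0
  refine (sum_le_sum fun p _ => sum_le_sum fun q _ => h1 p q).trans (le_of_eq ?_)
  have h2 : ∑ p : ZMod Q, ∑ q : ZMod Q,
        gam (fun _ M => LD 1 M) N (abar Z (N + N) (N + N) q p) = ∑ p : ZMod Q, ∑ q : ZMod Q,
        gam (fun _ M => LD 1 M) N (abar Z (N + N) (N + N) (n - p - q) p) := by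
    refine sum_congr rfl fun p _ => ?_
    exact (Equiv.sum_comp (Equiv.subLeft (n - p)) (fun q =>
      gam (fun _ M => LD 1 M) N (abar Z (N + N) (N + N) q p))).symm
  rw [h2]
  have h3 : ∀ j : ℕ, SQ (((j : ℝ) / m) ^ 2 / 4) X Z N n + (1 / 16) ^ m * (c * (64 / 9 *
      ∑ p : ZMod Q, ∑ q : ZMod Q,
        gam (fun _ M => LD 1 M) N (abar Z (N + N) (N + N) (n - p - q) p))) =
      ∑ p : ZMod Q, ∑ q : ZMod Q, (trace (abar X (N + N) (N + N) q p *
      (Rv (((j : ℝ) / m) ^ 2 / 4) (abar Z (N + N) (N + N) (n - p - q) p) *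
      (diagonal (hsgn N) * abar Z (N + N) (N + N) (n - p - q) p * diagonal (hsgn N)) *
      Rv (((j : ℝ) / m) ^ 2 / 4) (abar Z (N + N) (N + N) (n - p - q) p))) +
      (1 / 16) ^ m * (c * (64 / 9 *
        gam (fun _ M => LD 1 M) N (abar Z (N + N) (N + N) (n - p - q) p)))) := by
    intro j
    unfold SQ
    simp only [sum_add_distrib, mul_sum]
  simp only [h3]
  simp only [mul_sum]
  rw [sum_congr rfl fun p _ => sum_comm]
  rw [sum_comm]

/-- **K-free square function**, `Z` of level one -/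
theorem mask_SQ0 {τ : ℝ} (hτ : 0 < τ)
    (X Z : ℕ → ZMod Q → ZMod Q → ℝ) (hX0 : X 0 = fun _ _ => 0) (hZ0 : Z 0 = fun _ _ => 0)
    (M k : ℕ) (hZ : ∀ m < M, Lv (Z (m + 1)) (2 ^ m) (2 ^ m))
    (hX : ∀ m < M, ∀ q p : ZMod Q, abar (X (m + 1)) (2 ^ m) (2 ^ m) q p ≤
      (2 ^ k * τ) • (1 : Matrix (Fin (2 ^ m)) (Fin (2 ^ m)) ℝ)) (l : ℤ) (hl : |l| ≤ 7) :
    ∑ m ∈ range M, bl (SQ0 (X (m + 1)) (Z (m + 1)) (2 ^ m)) (2 ^ m) l ≤
      2 ^ 42 * ((k : ℝ) + 1) ^ 5 * (∑ j ∈ range 3, ∑ m ∈ range M,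
        XV τ (X (m + 1)) (Z (m + 1)) (X m) (Z m) (2 ^ (m + j)) +
      ∑ m ∈ range M, XE (X (m + 1)) (X m) (2 ^ m) +
      τ * ∑ m ∈ range M, XE (Z (m + 1)) (Z m) (2 ^ m)) := by
  set A := ∑ j ∈ range 3, ∑ m ∈ range M,
    XV τ (X (m + 1)) (Z (m + 1)) (X m) (Z m) (2 ^ (m + j)) with hA
  set B := ∑ m ∈ range M, XE (X (m + 1)) (X m) (2 ^ m) with hB
  set E := ∑ m ∈ range M, XE (Z (m + 1)) (Z m) (2 ^ m) with hE
  have hA0 : 0 ≤ A := sum_nonneg fun j _ => sum_nonneg fun m _ => XV_nonneg hτ.le _ _ _ _ _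
  have hB0 : 0 ≤ B := sum_nonneg fun m _ => XE_nonneg _ _ _
  have hE0 : 0 ≤ E := sum_nonneg fun m _ => XE_nonneg _ _ _
  set nn : ℕ := k + 1 with hnn
  have hn1 : 1 ≤ nn := by omega
  have hnpos : (0 : ℝ) < nn := by exact_mod_cast hn1
  have hc : 0 < 2 ^ k * τ := by positivity
  -- own gains of `Z`
  have hgamZ : ∑ m ∈ range M, ∑ p : ZMod Q, ∑ q : ZMod Q,
      gam (fun _ M => LD 1 M) (2 ^ m) (abar (Z (m + 1)) (2 ^ m + 2 ^ m) (2 ^ m + 2 ^ m) q p) ≤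
      2 * E := by
    have h1 := sum_le_sum fun m (_ : m ∈ range M) =>
      own_gam (goodPot_LD one_pos) (Z (m + 1)) (N := 2 ^ m) (by positivity)
    rw [← mul_sum] at h1
    have h2 := EG_tele (goodPot_LD one_pos) (fun r => Pot.LD_zero 1) Z hZ0 M
    have h3 : ∑ m ∈ range M, XG (fun _ M => LD 1 M) (Z (m + 1)) (Z m) (2 ^ m) ≤ E := by
      refine sum_le_sum fun m _ => ?_
      have := XG_LD_le one_pos (Z (m + 1)) (Z m) (2 ^ m)
      rwa [one_mul] at this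
    linarith
  -- each node
  have hnode : ∀ j ∈ Finset.Icc 1 nn, ∑ m ∈ range M,
      bl (SQ (((j : ℝ) / nn) ^ 2 / 4) (X (m + 1)) (Z (m + 1)) (2 ^ m)) (2 ^ m) l ≤
      2048 * A + 103079215104 * 4 * (nn : ℝ) ^ 3 * B := by
    intro j hj
    rw [Finset.mem_Icc] at hj
    have hj1 : (1 : ℝ) ≤ j := by exact_mod_cast hj.1
    have hθ : 0 < ((j : ℝ) / nn) ^ 2 / 4 := by positivity
    have hθ4 : ((j : ℝ) / nn) ^ 2 / 4 ≤ 1 / 4 := by
      have : (j : ℝ) / nn ≤ 1 := (div_le_one hnpos).2 (by exact_mod_cast hj.2)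
      have h0 : 0 ≤ (j : ℝ) / nn := by positivity
      nlinarith
    have h1 := mask_SQ hθ hθ4 hτ X Z hX0 hZ0 M k hZ hX l hl
    refine h1.trans (add_le_add le_rfl ?_)
    refine mul_le_mul_of_nonneg_right ?_ hB0
    have h2 : (103079215104 * ((k : ℝ) + 1) / (((j : ℝ) / nn) ^ 2 / 4)) =
        103079215104 * 4 * ((k : ℝ) + 1) * (nn : ℝ) ^ 2 / (j : ℝ) ^ 2 := by
      field_simp
    rw [h2]
    have h3 : ((k : ℝ) + 1) = nn := by rw [hnn]; push_cast; ring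
    rw [h3]
    have h4 : (1 : ℝ) ≤ (j : ℝ) ^ 2 := by nlinarith
    calc 103079215104 * 4 * (nn : ℝ) * (nn : ℝ) ^ 2 / (j : ℝ) ^ 2
        ≤ 103079215104 * 4 * (nn : ℝ) * (nn : ℝ) ^ 2 := div_le_self (by positivity) h4
      _ = _ := by ring
  -- one scale
  have hscale : ∀ m ∈ range M, bl (SQ0 (X (m + 1)) (Z (m + 1)) (2 ^ m)) (2 ^ m) l ≤
      4 * nn * ∑ j ∈ Finset.Icc 1 nn, 2 *
        (bl (SQ (((j : ℝ) / nn) ^ 2 / 4) (X (m + 1)) (Z (m + 1)) (2 ^ m)) (2 ^ m) l +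
        (1 / 16) ^ nn * ((2 ^ k * τ) * (64 / 9 * ∑ p : ZMod Q, ∑ q : ZMod Q,
          gam (fun _ M => LD 1 M) (2 ^ m)
            (abar (Z (m + 1)) (2 ^ m + 2 ^ m) (2 ^ m + 2 ^ m) q p)))) := by
    intro m hm
    have hm' := mem_range.mp hm
    have h1 := bl_mono (fun n => SQ0_le (X := X (m + 1)) (Z := Z (m + 1)) (N := 2 ^ m)
      (by positivity) hn1 hc (hX m hm') (hZ m hm') n) (2 ^ m) l
    refine h1.trans (le_of_eq ?_)
    have hconst : ∀ a : ℝ, bl (fun _ : ZMod Q => a) (2 ^ m) l = a := by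
      intro a
      unfold bl
      rw [sum_const, card_range, nsmul_eq_mul]
      have : ((2 ^ m : ℕ) : ℝ) ≠ 0 := by positivity
      field_simp
    rw [bl_const_mul, bl_sum]
    congr 1
    refine sum_congr rfl fun j _ => ?_
    rw [bl_const_mul, bl_add, hconst]
  refine (sum_le_sum hscale).trans ?_
  rw [← mul_sum, sum_comm]
  have h5 : ∀ j ∈ Finset.Icc 1 nn, ∑ m ∈ range M, 2 *
        (bl (SQ (((j : ℝ) / nn) ^ 2 / 4) (X (m + 1)) (Z (m + 1)) (2 ^ m)) (2 ^ m) l +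
        (1 / 16) ^ nn * ((2 ^ k * τ) * (64 / 9 * ∑ p : ZMod Q, ∑ q : ZMod Q,
          gam (fun _ M => LD 1 M) (2 ^ m)
            (abar (Z (m + 1)) (2 ^ m + 2 ^ m) (2 ^ m + 2 ^ m) q p)))) ≤
      2 * (2048 * A + 103079215104 * 4 * (nn : ℝ) ^ 3 * B + 15 * τ * E) := by
    intro j hj
    rw [← mul_sum, sum_add_distrib, ← mul_sum, ← mul_sum, ← mul_sum]
    refine mul_le_mul_of_nonneg_left (add_le_add (hnode j hj) ?_) (by norm_num)
    have h6 : (1 / 16 : ℝ) ^ nn * 2 ^ k ≤ 1 := by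
      have e1 : (1 / 16 : ℝ) ^ nn = (1 / 16) ^ k * (1 / 16) := by rw [hnn, pow_succ]
      have e2 : (1 / 16 : ℝ) ^ k * 2 ^ k = (1 / 8) ^ k := by rw [← mul_pow]; norm_num
      have e3 : (1 / 8 : ℝ) ^ k ≤ 1 := pow_le_one₀ (by norm_num) (by norm_num)
      have e4 : (0 : ℝ) ≤ (1 / 8 : ℝ) ^ k := by positivity
      rw [e1, mul_right_comm, e2]
      linarith
    set g := ∑ m ∈ range M, ∑ p : ZMod Q, ∑ q : ZMod Q,
      gam (fun _ M => LD 1 M) (2 ^ m) (abar (Z (m + 1)) (2 ^ m + 2 ^ m) (2 ^ m + 2 ^ m) q p)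
      with hg
    have h7 : (1 / 16 : ℝ) ^ nn * (2 ^ k * τ * (64 / 9 * g)) =
        ((1 / 16 : ℝ) ^ nn * 2 ^ k) * (τ * (64 / 9) * g) := by ring
    rw [h7]
    have h8 : τ * (64 / 9) * g ≤ τ * (64 / 9) * (2 * E) :=
      mul_le_mul_of_nonneg_left hgamZ (by positivity)
    have h9 : ((1 / 16 : ℝ) ^ nn * 2 ^ k) * (τ * (64 / 9) * g) ≤
        ((1 / 16 : ℝ) ^ nn * 2 ^ k) * (τ * (64 / 9) * (2 * E)) :=
      mul_le_mul_of_nonneg_left h8 (by positivity)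
    have h10 : ((1 / 16 : ℝ) ^ nn * 2 ^ k) * (τ * (64 / 9) * (2 * E)) ≤
        1 * (τ * (64 / 9) * (2 * E)) := mul_le_mul_of_nonneg_right h6 (by positivity)
    have h11 : 0 ≤ τ * E := by positivity
    linarith
  have h12 := sum_le_sum h5
  rw [sum_const, Nat.card_Icc, nsmul_eq_mul, Nat.add_sub_cancel] at h12
  have h13 := mul_le_mul_of_nonneg_left h12 (by positivity : (0 : ℝ) ≤ 4 * nn)
  refine h13.trans ?_
  have h3 : ((k : ℝ) + 1) = nn := by rw [hnn]; push_cast; ring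
  rw [h3]
  have hn1' : (1 : ℝ) ≤ nn := by exact_mod_cast hn1
  have p3 : (nn : ℝ) ^ 2 ≤ (nn : ℝ) ^ 5 := pow_le_pow_right₀ hn1' (by norm_num)
  have e : 4 * (nn : ℝ) * (nn * (2 * (2048 * A + 103079215104 * 4 * (nn : ℝ) ^ 3 * B +
      15 * τ * E))) = 16384 * ((nn : ℝ) ^ 2 * A) + 3298534883328 * ((nn : ℝ) ^ 5 * B) +
      120 * ((nn : ℝ) ^ 2 * (τ * E)) := by ring
  rw [e]
  have hτE : 0 ≤ τ * E := by positivity
  have i1 := mul_le_mul_of_nonneg_right p3 hA0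
  have i2 := mul_le_mul_of_nonneg_right p3 hτE
  have i3 : 0 ≤ (nn : ℝ) ^ 5 * A := by positivity
  have i4 : 0 ≤ (nn : ℝ) ^ 5 * B := by positivity
  have i5 : 0 ≤ (nn : ℝ) ^ 5 * (τ * E) := by positivity
  have e2 : (2 : ℝ) ^ 42 * (nn : ℝ) ^ 5 * (A + B + τ * E) = 4398046511104 *
      ((nn : ℝ) ^ 5 * A) + 4398046511104 * ((nn : ℝ) ^ 5 * B) +
      4398046511104 * ((nn : ℝ) ^ 5 * (τ * E)) := by ring
  rw [e2]
  linarith

end sum

end Crest.Agent.R079.NF
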