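import Mathlib

/-! R079, K-free (N), part B0 (helper133): averaging operators on sequences. -/

set_option autoImplicit false

namespace Crest.Agent.R079.NF

open Finset

/-- average over 8 consecutive terms -/
noncomputable def av8 (f : ℤ → ℝ) (t : ℤ) : ℝ := (1 / 8) * ∑ i ∈ range 8, f (t + (i : ℤ))

/-- average over 4 terms with step 2 -/
noncomputable def av4 (f : ℤ → ℝ) (t : ℤ) : ℝ := (1 / 4) * ∑ i ∈ range 4, f (t + 2 * (i : ℤ))

theorem av8_mono {f g : ℤ → ℝ} (h : ∀ t, f t ≤ g t) (t : ℤ) : av8 f t ≤ av8 g t :=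
  mul_le_mul_of_nonneg_left (sum_le_sum fun _ _ => h _) (by norm_num)

theorem av4_mono {f g : ℤ → ℝ} (h : ∀ t, f t ≤ g t) (t : ℤ) : av4 f t ≤ av4 g t :=
  mul_le_mul_of_nonneg_left (sum_le_sum fun _ _ => h _) (by norm_num)

theorem av8_sub (f g : ℤ → ℝ) (c : ℝ) (t : ℤ) :
    av8 (fun s => f s - c * g s) t = av8 f t - c * av8 g t := by
  unfold av8
  rw [sum_sub_distrib, ← mul_sum]
  ring

theorem av4_sub (f g : ℤ → ℝ) (c : ℝ) (t : ℤ) :
    av4 (fun s => f s - c * g s) t = av4 f t - c * av4 g t := by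
  unfold av4
  rw [sum_sub_distrib, ← mul_sum]
  ring

/-- `av4` of the two term average is `av8` -/
theorem av4_half (f : ℤ → ℝ) (t : ℤ) :
    av4 (fun s => (1 / 2) * (f s + f (s + 1))) t = av8 f t := by
  unfold av4 av8
  simp only [sum_range_succ, sum_range_zero]
  push_cast
  have e : ∀ a b c : ℤ, t + a + b = t + (a + b) := fun a b c => by ring
  norm_num [add_assoc]
  ring

theorem av8_nonneg {f : ℤ → ℝ} (h : ∀ t, 0 ≤ f t) (t : ℤ) : 0 ≤ av8 f t :=
  mul_nonneg (by norm_num) (sum_nonneg fun _ _ => h _)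

theorem av4_nonneg {f : ℤ → ℝ} (h : ∀ t, 0 ≤ f t) (t : ℤ) : 0 ≤ av4 f t :=
  mul_nonneg (by norm_num) (sum_nonneg fun _ _ => h _)

theorem le_av8 {f : ℤ → ℝ} (h : ∀ t, 0 ≤ f t) (t : ℤ) {i : ℕ} (hi : i < 8) :
    f (t + i) ≤ 8 * av8 f t := by
  unfold av8
  have := single_le_sum (f := fun i : ℕ => f (t + (i : ℤ))) (fun j _ => h _)
    (mem_range.mpr hi)
  linarith

theorem le_av4 {f : ℤ → ℝ} (h : ∀ t, 0 ≤ f t) (t : ℤ) {i : ℕ} (hi : i < 4) :
    f (t + 2 * (i : ℤ)) ≤ 4 * av4 f t := by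
  unfold av4
  have := single_le_sum (f := fun i : ℕ => f (t + 2 * (i : ℤ))) (fun j _ => h _)
    (mem_range.mpr hi)
  linarith

/-- second differences control `av8²` -/
theorem av8_sq_le {w : ℤ → ℝ} {M : ℝ} (hM : 0 ≤ M) (t : ℤ)
    (h : ∀ i : ℕ, 1 ≤ i → i ≤ 13 → w (t + i + 1) + w (t + i - 1) - 2 * w (t + i) ≤ M) :
    av8 (av8 w) t ≤ w (t + 7) + 6 * M := by
  have e : av8 (av8 w) t = (1 / 64) * (w t + 2 * w (t + 1) + 3 * w (t + 2) + 4 * w (t + 3) +
      5 * w (t + 4) + 6 * w (t + 5) + 7 * w (t + 6) + 8 * w (t + 7) + 7 * w (t + 8) +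
      6 * w (t + 9) + 5 * w (t + 10) + 4 * w (t + 11) + 3 * w (t + 12) + 2 * w (t + 13) +
      w (t + 14)) := by
    unfold av8
    simp only [sum_range_succ, sum_range_zero]
    push_cast
    norm_num [add_assoc]
    ring
  have k : ∀ i : ℕ, 1 ≤ i → i ≤ 13 → w (t + (i + 1 : ℤ)) + w (t + (i - 1 : ℤ)) -
      2 * w (t + i) ≤ M := by
    intro i h1 h2
    have := h i h1 h2
    have e1 : t + (i : ℤ) + 1 = t + (i + 1 : ℤ) := by ring
    have e2 : t + (i : ℤ) - 1 = t + (i - 1 : ℤ) := by ring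
    rw [e1, e2] at this
    exact this
  have k1 := k 1 (by norm_num) (by norm_num)
  have k2 := k 2 (by norm_num) (by norm_num)
  have k3 := k 3 (by norm_num) (by norm_num)
  have k4 := k 4 (by norm_num) (by norm_num)
  have k5 := k 5 (by norm_num) (by norm_num)
  have k6 := k 6 (by norm_num) (by norm_num)
  have k7 := k 7 (by norm_num) (by norm_num)
  have k8 := k 8 (by norm_num) (by norm_num)
  have k9 := k 9 (by norm_num) (by norm_num)
  have k10 := k 10 (by norm_num) (by norm_num)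
  have k11 := k 11 (by norm_num) (by norm_num)
  have k12 := k 12 (by norm_num) (by norm_num)
  have k13 := k 13 (by norm_num) (by norm_num)
  norm_num at k1 k2 k3 k4 k5 k6 k7 k8 k9 k10 k11 k12 k13
  rw [e]
  linarith

end Crest.Agent.R079.NF
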