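import Crest.Agent.R079.NMatC_133
import Crest.Agent.R079.NSeq_133
import Crest.Agent.R079.PotLat_491

/-! R079, K-free (N), part B (helper133): the resolvent potential on real boxes. -/

set_option autoImplicit false
set_option linter.unusedSectionVars false
set_option linter.unusedVariables false

namespace Crest.Agent.R079.NF

open Matrix Finset
open Crest.Agent.R072 Crest.Agent.R072.Nd Crest.Agent.R072.Lattice Crest.Agent.R079.Path
  Crest.Agent.R079.LD Crest.Agent.R079.Pot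
open scoped MatrixOrder

variable {Q : ℕ} [NeZero Q]

/-- resolvent potential, sizes `a` (of `X`), `b` (of `Z`), `r` (joint vertex) -/
noncomputable def WR (θ τ : ℝ) (X Z : ZMod Q → ZMod Q → ℝ) (a b r : ℕ) (n : ZMod Q) : ℝ :=
  ∑ p : ZMod Q, ∑ q : ZMod Q, LF θ τ (abar X a r q p) (abar Z b r (n - p - q) p)

/-- `K`-gap term -/
noncomputable def GK (θ τ : ℝ) (X Z : ZMod Q → ZMod Q → ℝ) (a b r : ℕ) (n : ZMod Q) : ℝ :=
  ∑ p : ZMod Q, ∑ q : ZMod Q, trace ((abar X a r q p + τ • (1 : Matrix (Fin r) (Fin r) ℝ)) *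
    ((Rv θ (abar Z b r (n - p - q) p) - Rv θ (abar Z b r (n - p - q + (b : ZMod Q)) p)) *
      (Rv θ (abar Z b r (n - p - q) p) - Rv θ (abar Z b r (n - p - q + (b : ZMod Q)) p))))

/-- pinching gains of boxes of side `r + r` -/
noncomputable def GR (θ τ : ℝ) (X Z : ZMod Q → ZMod Q → ℝ) (a b r : ℕ) (n : ZMod Q) : ℝ :=
  ∑ p : ZMod Q, ∑ q : ZMod Q,
    (LF θ τ (blkA r (abar X a (r + r) q p)) (blkA r (abar Z b (r + r) (n - p - q) p)) +
      LF θ τ (blkB r (abar X a (r + r) q p)) (blkB r (abar Z b (r + r) (n - p - q) p)) -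
      2 * LF θ τ (abar X a (r + r) q p) (abar Z b (r + r) (n - p - q) p))

/-- square function at the joint vertex, boxes of side `N + N` -/
noncomputable def SQ (θ : ℝ) (X Z : ZMod Q → ZMod Q → ℝ) (N : ℕ) (n : ZMod Q) : ℝ :=
  ∑ p : ZMod Q, ∑ q : ZMod Q, trace (abar X (N + N) (N + N) q p *
    (Rv θ (abar Z (N + N) (N + N) (n - p - q) p) *
      (diagonal (hsgn N) * abar Z (N + N) (N + N) (n - p - q) p * diagonal (hsgn N)) *
      Rv θ (abar Z (N + N) (N + N) (n - p - q) p)))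

/-- level one at sizes `b × r` -/
def Lv (Z : ZMod Q → ZMod Q → ℝ) (b r : ℕ) : Prop := ∀ q p : ZMod Q, abar Z b r q p ≤ 1

theorem abar_nn (X : ZMod Q → ZMod Q → ℝ) (a r : ℕ) (q p : ZMod Q) : 0 ≤ abar X a r q p :=
  (abar_posSemidef X a r q p).nonneg

theorem Lv.db {Z : ZMod Q → ZMod Q → ℝ} {b r : ℕ} (h : Lv Z b r) (hb : 0 < b) :
    Lv Z (b + b) r := by
  intro q p
  rw [abar_double Z hb]
  exact mid_le_one (h _ _) (h _ _)

theorem blkA_abar (X : ZMod Q → ZMod Q → ℝ) {a r : ℕ} (hr : 0 < r) (q p : ZMod Q) :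
    blkA r (abar X a (r + r) q p) = abar X a r q p := abar_submatrix_castAdd X hr q p

theorem blkB_abar (X : ZMod Q → ZMod Q → ℝ) {a r : ℕ} (hr : 0 < r) (q p : ZMod Q) :
    blkB r (abar X a (r + r) q p) = abar X a r q (p + r) := abar_submatrix_natAdd X hr q p

theorem Lv.dr {Z : ZMod Q → ZMod Q → ℝ} {b r : ℕ} (h : Lv Z b r) (hr : 0 < r) :
    Lv Z b (r + r) := by
  intro q p
  refine le_one_of_blk r (abar_nn _ _ _ _ _) ?_ ?_
  · rw [blkA_abar Z hr]; exact h _ _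
  · rw [blkB_abar Z hr]; exact h _ _

section steps

variable {θ τ : ℝ} {X Z : ZMod Q → ZMod Q → ℝ}

theorem WR_nonneg (hθ : 0 ≤ θ) (hθ4 : θ ≤ 1 / 4) (hτ : 0 ≤ τ) {a b r : ℕ} (h : Lv Z b r)
    (n : ZMod Q) : 0 ≤ WR θ τ X Z a b r n :=
  sum_nonneg fun _ _ => sum_nonneg fun _ _ =>
    LF_nonneg hθ hθ4 hτ (abar_nn _ _ _ _ _) (abar_nn _ _ _ _ _) (h _ _)

theorem GK_nonneg (hθ : 0 ≤ θ) (hθ4 : θ ≤ 1 / 4) (hτ : 0 ≤ τ) {a b r : ℕ} (h : Lv Z b r)
    (n : ZMod Q) : 0 ≤ GK θ τ X Z a b r n := by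
  refine sum_nonneg fun p _ => sum_nonneg fun q _ => ?_
  refine frob_trace_mul_nonneg (add_smul_one_nonneg (abar_nn _ _ _ _ _) hτ) ?_
  set A := Rv θ (abar Z b r (n - p - q) p) - Rv θ (abar Z b r (n - p - q + (b : ZMod Q)) p)
    with hA
  have hs : Aᵀ = A := by
    rw [hA, transpose_sub, Rv_symm hθ hθ4 (abar_nn _ _ _ _ _) (h _ _),
      Rv_symm hθ hθ4 (abar_nn _ _ _ _ _) (h _ _)]
  have := psd_mul_transpose_self A
  rwa [hs] at this

set_option maxHeartbeats 1600000 in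
/-- (Da) exact -/
theorem WR_da {a b r : ℕ} (ha : 0 < a) (n : ZMod Q) :
    WR θ τ X Z (a + a) b r n = (1 / 2) * (WR θ τ X Z a b r n + WR θ τ X Z a b r (n + (a : ℕ))) := by
  unfold WR
  have h1 : ∀ p q : ZMod Q, LF θ τ (abar X (a + a) r q p) (abar Z b r (n - p - q) p) =
      (1 / 2) * LF θ τ (abar X a r q p) (abar Z b r (n - p - q) p) +
      (1 / 2) * LF θ τ (abar X a r (q + a) p) (abar Z b r (n + (a : ℕ) - p - (q + a)) p) := by
    intro p q
    have e : n + (a : ℕ) - p - (q + a) = n - p - q := by ring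
    rw [e, abar_double X ha, LF_linear]
  have h2 : ∀ p : ZMod Q, ∑ q : ZMod Q,
      LF θ τ (abar X a r (q + a) p) (abar Z b r (n + (a : ℕ) - p - (q + a)) p) =
      ∑ q : ZMod Q, LF θ τ (abar X a r q p) (abar Z b r (n + (a : ℕ) - p - q) p) := fun p =>
    sum_shift (fun q => LF θ τ (abar X a r q p) (abar Z b r (n + (a : ℕ) - p - q) p)) a
  calc ∑ p : ZMod Q, ∑ q : ZMod Q, LF θ τ (abar X (a + a) r q p) (abar Z b r (n - p - q) p)
      = ∑ p : ZMod Q, ∑ q : ZMod Q, ((1 / 2) *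
          LF θ τ (abar X a r q p) (abar Z b r (n - p - q) p) + (1 / 2) *
          LF θ τ (abar X a r (q + a) p) (abar Z b r (n + (a : ℕ) - p - (q + a)) p)) :=
        sum_congr rfl fun p _ => sum_congr rfl fun q _ => h1 p q
    _ = (1 / 2) * ∑ p : ZMod Q, ∑ q : ZMod Q,
          LF θ τ (abar X a r q p) (abar Z b r (n - p - q) p) + (1 / 2) *
          ∑ p : ZMod Q, ∑ q : ZMod Q,
          LF θ τ (abar X a r (q + a) p) (abar Z b r (n + (a : ℕ) - p - (q + a)) p) := by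
        simp only [sum_add_distrib, mul_sum]
    _ = _ := by
        rw [sum_congr rfl fun p _ => h2 p]
        ring

/-- (Db) with gap -/
theorem WR_db (hθ : 0 ≤ θ) (hθ4 : θ ≤ 1 / 4) (hτ : 0 ≤ τ) {a b r : ℕ} (hb : 0 < b)
    (h : Lv Z b r) (n : ZMod Q) :
    WR θ τ X Z a (b + b) r n ≤ (1 / 2) * (WR θ τ X Z a b r n + WR θ τ X Z a b r (n + (b : ℕ))) -
      (3 / 16) * GK θ τ X Z a b r n := by
  unfold WR GK
  have h1 : ∀ p q : ZMod Q, LF θ τ (abar X a r q p) (abar Z (b + b) r (n - p - q) p) ≤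
      (1 / 2) * (LF θ τ (abar X a r q p) (abar Z b r (n - p - q) p) +
        LF θ τ (abar X a r q p) (abar Z b r (n + (b : ℕ) - p - q) p)) -
      (3 / 16) * trace ((abar X a r q p + τ • (1 : Matrix (Fin r) (Fin r) ℝ)) *
        ((Rv θ (abar Z b r (n - p - q) p) - Rv θ (abar Z b r (n - p - q + (b : ZMod Q)) p)) *
        (Rv θ (abar Z b r (n - p - q) p) -
          Rv θ (abar Z b r (n - p - q + (b : ZMod Q)) p)))) := by
    intro p q
    have e : n + (b : ℕ) - p - q = n - p - q + b := by ring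
    have h2 := LF_gapK hθ hθ4 hτ (abar_nn X a r q p) (abar_nn Z b r (n - p - q) p) (h _ _)
      (abar_nn Z b r (n - p - q + b) p) (h _ _)
    rw [e, abar_double Z hb]
    linarith
  refine (sum_le_sum fun p _ => sum_le_sum fun q _ => h1 p q).trans (le_of_eq ?_)
  simp only [sum_sub_distrib, sum_add_distrib, ← mul_sum]

theorem WR_db' (hθ : 0 ≤ θ) (hθ4 : θ ≤ 1 / 4) (hτ : 0 ≤ τ) {a b r : ℕ} (hb : 0 < b)
    (h : Lv Z b r) (n : ZMod Q) :
    WR θ τ X Z a (b + b) r n ≤ (1 / 2) * (WR θ τ X Z a b r n + WR θ τ X Z a b r (n + (b : ℕ))) := by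
  have h1 := WR_db (X := X) (a := a) hθ hθ4 hτ hb h n
  have h2 := GK_nonneg (X := X) (a := a) hθ hθ4 hτ h n
  linarith

/-- (Dr) exact with gain -/
theorem WR_dr {a b r : ℕ} (hr : 0 < r) (n : ZMod Q) :
    WR θ τ X Z a b (r + r) n = (1 / 2) * (WR θ τ X Z a b r n + WR θ τ X Z a b r (n + (r : ℕ))) -
      (1 / 2) * GR θ τ X Z a b r n := by
  have h1 : GR θ τ X Z a b r n = ∑ p : ZMod Q, ∑ q : ZMod Q,
      (LF θ τ (abar X a r q p) (abar Z b r (n - p - q) p) +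
        LF θ τ (abar X a r q (p + r)) (abar Z b r (n + (r : ℕ) - (p + r) - q) (p + r)) -
        2 * LF θ τ (abar X a (r + r) q p) (abar Z b (r + r) (n - p - q) p)) := by
    unfold GR
    refine sum_congr rfl fun p _ => sum_congr rfl fun q _ => ?_
    rw [blkA_abar X hr, blkA_abar Z hr, blkB_abar X hr, blkB_abar Z hr]
    have e : n + (r : ℕ) - (p + r) - q = n - p - q := by ring
    rw [e]
  have h2 : ∑ p : ZMod Q, ∑ q : ZMod Q,
      LF θ τ (abar X a r q (p + r)) (abar Z b r (n + (r : ℕ) - (p + r) - q) (p + r)) =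
      WR θ τ X Z a b r (n + (r : ℕ)) := by
    unfold WR
    exact sum_shift (fun p => ∑ q : ZMod Q,
      LF θ τ (abar X a r q p) (abar Z b r (n + (r : ℕ) - p - q) p)) r
  rw [h1]
  simp only [sum_sub_distrib, sum_add_distrib, ← mul_sum]
  rw [h2]
  unfold WR
  ring

theorem GR_ge (hθ : 0 ≤ θ) (hθ4 : θ ≤ 1 / 4) (hτ : 0 ≤ τ) {a b r : ℕ} (hr : 0 < r)
    (h : Lv Z b r) (p q n : ZMod Q) :
    2 * θ * trace (abar X a (r + r) q p * (Rv θ (abar Z b (r + r) (n - p - q) p) *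
      (diagonal (hsgn r) * abar Z b (r + r) (n - p - q) p * diagonal (hsgn r)) *
      Rv θ (abar Z b (r + r) (n - p - q) p))) ≤
    LF θ τ (blkA r (abar X a (r + r) q p)) (blkA r (abar Z b (r + r) (n - p - q) p)) +
      LF θ τ (blkB r (abar X a (r + r) q p)) (blkB r (abar Z b (r + r) (n - p - q) p)) -
      2 * LF θ τ (abar X a (r + r) q p) (abar Z b (r + r) (n - p - q) p) := by
  refine LF_gain r hθ hθ4 hτ (abar_nn _ _ _ _ _) (abar_nn _ _ _ _ _) ?_ ?_
  · rw [blkA_abar Z hr]; exact h _ _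
  · rw [blkB_abar Z hr]; exact h _ _

theorem sqterm_nonneg (hθ : 0 ≤ θ) (hθ4 : θ ≤ 1 / 4) {r : ℕ}
    {P K : Matrix (Fin (r + r)) (Fin (r + r)) ℝ} (hP : 0 ≤ P) (hK : 0 ≤ K) (hK1 : K ≤ 1) :
    0 ≤ trace (P * (Rv θ K * (diagonal (hsgn r) * K * diagonal (hsgn r)) * Rv θ K)) := by
  refine frob_trace_mul_nonneg hP ?_
  have := frob_psd_conj (pinch_nonneg r hK) (Rv θ K)
  rwa [Rv_symm hθ hθ4 hK hK1] at this

theorem GR_nonneg (hθ : 0 ≤ θ) (hθ4 : θ ≤ 1 / 4) (hτ : 0 ≤ τ) {a b r : ℕ} (hr : 0 < r)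
    (h : Lv Z b r) (n : ZMod Q) : 0 ≤ GR θ τ X Z a b r n := by
  refine sum_nonneg fun p _ => sum_nonneg fun q _ => ?_
  refine le_trans ?_ (GR_ge (X := X) (a := a) hθ hθ4 hτ hr h p q n)
  exact mul_nonneg (by positivity) (sqterm_nonneg hθ hθ4 (abar_nn _ _ _ _ _)
    (abar_nn _ _ _ _ _) (h.dr hr _ _))

theorem SQ_le (hθ : 0 ≤ θ) (hθ4 : θ ≤ 1 / 4) (hτ : 0 ≤ τ) {N : ℕ} (hN : 0 < N)
    (h : Lv Z (N + N) N) (n : ZMod Q) :
    2 * θ * SQ θ X Z N n ≤ GR θ τ X Z (N + N) (N + N) N n := by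
  unfold SQ GR
  rw [mul_sum]
  refine sum_le_sum fun p _ => ?_
  rw [mul_sum]
  exact sum_le_sum fun q _ => GR_ge hθ hθ4 hτ hN h p q n

/-- own log-det gaps with unit shift -/
noncomputable def SX (τ : ℝ) (m : ℕ) (X : ZMod Q → ZMod Q → ℝ) (N : ℕ) : ℝ :=
  ∑ p : ZMod Q, ∑ q : ZMod Q, ∑ k ∈ range (m + 1), (2 ^ k * τ) *
    gapLD (2 ^ k * τ) (abar X N N (q + (N : ZMod Q)) p) (abar X N N q p)

/-- second difference of the potential at unit shifts -/
theorem WR_second (hθ : 0 ≤ θ) (hθ4 : θ ≤ 1 / 4) (hτ : 0 < τ) {N : ℕ} (hN : 0 < N)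
    (h : Lv Z N N) {ε : ℝ} (hε : 0 < ε) (m : ℕ)
    (hm : ∀ q p : ZMod Q, abar X N N q p ≤ (2 ^ m * τ) • (1 : Matrix (Fin N) (Fin N) ℝ))
    (n : ZMod Q) :
    WR θ τ X Z N N N (n + (N : ℕ)) + WR θ τ X Z N N N (n - (N : ℕ)) - 2 * WR θ τ X Z N N N n ≤
      ε * ((1 / 2) * (GK θ τ X Z N N N (n - (N : ℕ)) + GK θ τ X Z N N N n)) +
        (16 / ε) * SX τ m X N := by
  -- pointwise
  have hpt : ∀ p q : ZMod Q,
      LF θ τ (abar X N N (q + N) p) (abar Z N N (n - p - q) p) +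
      LF θ τ (abar X N N q p) (abar Z N N (n - p - q - N) p) -
      LF θ τ (abar X N N (q + N) p) (abar Z N N (n - p - q - N) p) -
      LF θ τ (abar X N N q p) (abar Z N N (n - p - q) p) ≤
      ε * ((1 / 2) * (trace ((abar X N N q p + τ • (1 : Matrix (Fin N) (Fin N) ℝ)) *
          ((Rv θ (abar Z N N (n - (N : ℕ) - p - q) p) -
            Rv θ (abar Z N N (n - (N : ℕ) - p - q + (N : ZMod Q)) p)) *
          (Rv θ (abar Z N N (n - (N : ℕ) - p - q) p) -
            Rv θ (abar Z N N (n - (N : ℕ) - p - q + (N : ZMod Q)) p)))) +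
        trace ((abar X N N (q + N) p + τ • (1 : Matrix (Fin N) (Fin N) ℝ)) *
          ((Rv θ (abar Z N N (n - p - (q + N)) p) -
            Rv θ (abar Z N N (n - p - (q + N) + (N : ZMod Q)) p)) *
          (Rv θ (abar Z N N (n - p - (q + N)) p) -
            Rv θ (abar Z N N (n - p - (q + N) + (N : ZMod Q)) p)))))) +
      (16 / ε) * ∑ k ∈ range (m + 1), (2 ^ k * τ) *
        gapLD (2 ^ k * τ) (abar X N N (q + (N : ZMod Q)) p) (abar X N N q p) := by
    intro p q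
    have e1 : n - (N : ℕ) - p - q + (N : ZMod Q) = n - p - q := by ring
    have e2 : n - p - (q + N) + (N : ZMod Q) = n - p - q := by ring
    have e3 : n - (N : ℕ) - p - q = n - p - q - N := by ring
    have e4 : n - p - (q + N) = n - p - q - (N : ZMod Q) := by ring
    rw [e1, e2, e3, e4]
    set P1 := abar X N N (q + N) p with hP1
    set P2 := abar X N N q p with hP2
    set K1 := abar Z N N (n - p - q) p with hK1
    set K2 := abar Z N N (n - p - q - N) p with hK2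
    have p1 : 0 ≤ P1 := abar_nn _ _ _ _ _
    have p2 : 0 ≤ P2 := abar_nn _ _ _ _ _
    have k1 : 0 ≤ K1 := abar_nn _ _ _ _ _
    have k2 : 0 ≤ K2 := abar_nn _ _ _ _ _
    have k1' : K1 ≤ 1 := h _ _
    have k2' : K2 ≤ 1 := h _ _
    set A := Rv θ K1 - Rv θ K2 with hA
    have hAs : Aᵀ = A := by
      rw [hA, transpose_sub, Rv_symm hθ hθ4 k1 k1', Rv_symm hθ hθ4 k2 k2']
    have hmid : (1 / 2 : ℝ) • (P1 + P2) ≤ (2 ^ m * τ) • (1 : Matrix (Fin N) (Fin N) ℝ) := by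
      have h1 := add_le_add (hm (q + N) p) (hm q p)
      rw [← sub_nonneg] at h1 ⊢
      have h2 := psd_smul' h1 (by norm_num : (0 : ℝ) ≤ 1 / 2)
      have e : (1 / 2 : ℝ) • ((2 ^ m * τ) • (1 : Matrix (Fin N) (Fin N) ℝ) +
          (2 ^ m * τ) • (1 : Matrix (Fin N) (Fin N) ℝ) - (P1 + P2)) =
          (2 ^ m * τ) • (1 : Matrix (Fin N) (Fin N) ℝ) - (1 / 2 : ℝ) • (P1 + P2) := by
        rw [smul_sub, ← two_smul ℝ ((2 ^ m * τ) • (1 : Matrix (Fin N) (Fin N) ℝ)), smul_smul]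
        norm_num
      rwa [e] at h2
    have hown := own_bound p1 p2 hAs hτ hε m hmid
    have hmix : LF θ τ P1 K1 + LF θ τ P2 K2 - LF θ τ P1 K2 - LF θ τ P2 K1 =
      trace ((P1 - P2) * A) := LF_mixed
    rw [hmix]
    refine (le_abs_self _).trans (hown.trans (le_of_eq ?_))
    have e5 : (Rv θ K2 - Rv θ K1) * (Rv θ K2 - Rv θ K1) = A * A := by
      rw [hA]; noncomm_ring
    have e6 : (1 / 2 : ℝ) • (P1 + P2) + τ • (1 : Matrix (Fin N) (Fin N) ℝ) =
        (1 / 2 : ℝ) • ((P2 + τ • (1 : Matrix (Fin N) (Fin N) ℝ)) +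
          (P1 + τ • (1 : Matrix (Fin N) (Fin N) ℝ))) := by
      have : τ • (1 : Matrix (Fin N) (Fin N) ℝ) =
          (1 / 2 : ℝ) • (τ • (1 : Matrix (Fin N) (Fin N) ℝ) +
            τ • (1 : Matrix (Fin N) (Fin N) ℝ)) := by
        rw [← two_smul ℝ (τ • (1 : Matrix (Fin N) (Fin N) ℝ)), smul_smul]
        norm_num
      conv_lhs => rw [this]
      rw [← smul_add]
      congr 1
      abel
    rw [e5, e6, Matrix.smul_mul, trace_smul, smul_eq_mul, Matrix.add_mul, trace_add]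
  have s1 : WR θ τ X Z N N N (n + (N : ℕ)) = ∑ p : ZMod Q, ∑ q : ZMod Q,
      LF θ τ (abar X N N (q + N) p) (abar Z N N (n - p - q) p) := by
    unfold WR
    refine sum_congr rfl fun p _ => ?_
    rw [← sum_shift _ (N : ZMod Q)]
    refine sum_congr rfl fun q _ => ?_
    have e : n + (N : ℕ) - p - (q + N) = n - p - q := by ring
    rw [e]
  have s2 : WR θ τ X Z N N N (n - (N : ℕ)) = ∑ p : ZMod Q, ∑ q : ZMod Q,
      LF θ τ (abar X N N q p) (abar Z N N (n - p - q - N) p) := by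
    unfold WR
    refine sum_congr rfl fun p _ => sum_congr rfl fun q _ => ?_
    have e : n - (N : ℕ) - p - q = n - p - q - N := by ring
    rw [e]
  have s3 : WR θ τ X Z N N N n = ∑ p : ZMod Q, ∑ q : ZMod Q,
      LF θ τ (abar X N N (q + N) p) (abar Z N N (n - p - q - N) p) := by
    unfold WR
    refine sum_congr rfl fun p _ => ?_
    rw [← sum_shift _ (N : ZMod Q)]
    refine sum_congr rfl fun q _ => ?_
    have e : n - p - (q + N) = n - p - q - (N : ZMod Q) := by ring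
    rw [e]
  have s4 : GK θ τ X Z N N N n = ∑ p : ZMod Q, ∑ q : ZMod Q,
      trace ((abar X N N (q + N) p + τ • (1 : Matrix (Fin N) (Fin N) ℝ)) *
          ((Rv θ (abar Z N N (n - p - (q + N)) p) -
            Rv θ (abar Z N N (n - p - (q + N) + (N : ZMod Q)) p)) *
          (Rv θ (abar Z N N (n - p - (q + N)) p) -
            Rv θ (abar Z N N (n - p - (q + N) + (N : ZMod Q)) p)))) := by
    unfold GK
    refine sum_congr rfl fun p _ => ?_
    exact (sum_shift (fun q => trace ((abar X N N q p + τ • (1 : Matrix (Fin N) (Fin N) ℝ)) *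
          ((Rv θ (abar Z N N (n - p - q) p) -
            Rv θ (abar Z N N (n - p - q + (N : ZMod Q)) p)) *
          (Rv θ (abar Z N N (n - p - q) p) -
            Rv θ (abar Z N N (n - p - q + (N : ZMod Q)) p))))) (N : ZMod Q)).symm
  have hsum := sum_le_sum fun p (_ : p ∈ (univ : Finset (ZMod Q))) =>
    sum_le_sum fun q (_ : q ∈ (univ : Finset (ZMod Q))) => hpt p q
  simp only [sum_sub_distrib, sum_add_distrib, ← mul_sum] at hsum
  rw [← s1, ← s2, ← s3, ← s4] at hsum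
  unfold SX
  have s5 : WR θ τ X Z N N N n = ∑ p : ZMod Q, ∑ q : ZMod Q,
      LF θ τ (abar X N N q p) (abar Z N N (n - p - q) p) := rfl
  rw [← s5] at hsum
  have s6 : GK θ τ X Z N N N (n - (N : ℕ)) = ∑ p : ZMod Q, ∑ q : ZMod Q,
      trace ((abar X N N q p + τ • (1 : Matrix (Fin N) (Fin N) ℝ)) *
          ((Rv θ (abar Z N N (n - (N : ℕ) - p - q) p) -
            Rv θ (abar Z N N (n - (N : ℕ) - p - q + (N : ZMod Q)) p)) *
          (Rv θ (abar Z N N (n - (N : ℕ) - p - q) p) -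
            Rv θ (abar Z N N (n - (N : ℕ) - p - q + (N : ZMod Q)) p)))) := rfl
  rw [← s6] at hsum
  linarith

end steps

end Crest.Agent.R079.NF
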