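import Crest.Agent.R079.PotLD_378

/-! R079, K-free (N), part A (helper133): the resolvent `R θ K = (1 - θ K)⁻¹` of a contraction.

* `Rv_gap`: `R₁ + R₂ - 2 R(K̄) = (R₁ - R₂) (R₁ + R₂)⁻¹ (R₁ - R₂) ≥ (3/8) (R₁ - R₂)²`
* `Rv_add`: `R(K + Kt) ≥ R(K) + θ R(K) Kt R(K)`. -/

set_option autoImplicit false
set_option linter.unusedSectionVars false
set_option linter.unusedVariables false

namespace Crest.Agent.R079.NF

open Matrix
open Crest.Agent.R072 Crest.Agent.R072.Nd Crest.Agent.R079.Path Crest.Agent.R079.LD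
open scoped MatrixOrder

variable {n : Type*} [Fintype n] [DecidableEq n]

/-- resolvent `(1 - θ K)⁻¹` -/
noncomputable def Rv (θ : ℝ) (K : Matrix n n ℝ) : Matrix n n ℝ := (1 - θ • K)⁻¹

theorem psd_tr {M : Matrix n n ℝ} (hM : 0 ≤ M) : Mᵀ = M :=
  psd_transpose (Matrix.nonneg_iff_posSemidef.mp hM)

theorem spec_nonneg_iff {V : Matrix n n ℝ} (hV : Vᵀ * V = 1) {a : n → ℝ}
    (h : 0 ≤ V * diagonal a * Vᵀ) (i : n) : 0 ≤ a i := by
  have h1 := frob_psd_conjT h V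
  have e : Vᵀ * (V * diagonal a * Vᵀ) * V = diagonal a := by
    calc Vᵀ * (V * diagonal a * Vᵀ) * V = (Vᵀ * V) * diagonal a * (Vᵀ * V) := by
          simp only [Matrix.mul_assoc]
      _ = diagonal a := by rw [hV, Matrix.one_mul, Matrix.mul_one]
  rw [e] at h1
  have h2 := (Matrix.nonneg_iff_posSemidef.mp h1).diag_nonneg (i := i)
  simpa using h2

theorem spec_sub_smul_one {V : Matrix n n ℝ} (hV' : V * Vᵀ = 1) (a : n → ℝ) (c : ℝ) :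
    V * diagonal a * Vᵀ - c • (1 : Matrix n n ℝ) = V * diagonal (fun i => a i - c) * Vᵀ := by
  have h1 : diagonal (fun i => a i - c) = diagonal a - c • (1 : Matrix n n ℝ) := by
    ext i j
    rcases eq_or_ne i j with h | h
    · subst h; simp
    · simp [h]
  rw [h1, Matrix.mul_sub, Matrix.sub_mul, Matrix.mul_smul, Matrix.smul_mul, Matrix.mul_one, hV']

theorem spec_one_sub {V : Matrix n n ℝ} (hV' : V * Vᵀ = 1) (a : n → ℝ) (c : ℝ) :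
    c • (1 : Matrix n n ℝ) - V * diagonal a * Vᵀ = V * diagonal (fun i => c - a i) * Vᵀ := by
  have h1 : diagonal (fun i => c - a i) = c • (1 : Matrix n n ℝ) - diagonal a := by
    ext i j
    rcases eq_or_ne i j with h | h
    · subst h; simp
    · simp [h]
  rw [h1, Matrix.mul_sub, Matrix.sub_mul, Matrix.mul_smul, Matrix.smul_mul, Matrix.mul_one, hV']

theorem spec_le_smul {V : Matrix n n ℝ} (hV : Vᵀ * V = 1) (hV' : V * Vᵀ = 1) {a : n → ℝ} {c : ℝ}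
    (h : V * diagonal a * Vᵀ ≤ c • (1 : Matrix n n ℝ)) (i : n) : a i ≤ c := by
  rw [← sub_nonneg, spec_one_sub hV'] at h
  have := spec_nonneg_iff hV h i
  linarith

theorem spec_inv {V : Matrix n n ℝ} (hV : Vᵀ * V = 1) (hV' : V * Vᵀ = 1) {a : n → ℝ}
    (ha : ∀ i, a i ≠ 0) : (V * diagonal a * Vᵀ)⁻¹ = V * diagonal (fun i => (a i)⁻¹) * Vᵀ := by
  apply Matrix.inv_eq_right_inv
  rw [spec_mul hV]
  have : (fun i => a i * (a i)⁻¹) = fun _ => (1 : ℝ) := by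
    funext i
    exact mul_inv_cancel₀ (ha i)
  rw [this, diagonal_one, Matrix.mul_one, hV']

/-- data of a contraction -/
theorem contr_spec {K : Matrix n n ℝ} (hK : 0 ≤ K) (hK1 : K ≤ 1) :
    ∃ (V : Matrix n n ℝ) (e : n → ℝ), Vᵀ * V = 1 ∧ V * Vᵀ = 1 ∧ (∀ i, 0 ≤ e i) ∧
      (∀ i, e i ≤ 1) ∧ K = V * diagonal e * Vᵀ := by
  obtain ⟨V, e, hV, hV', he, h⟩ := exists_spec (Matrix.nonneg_iff_posSemidef.mp hK)
  refine ⟨V, e, hV, hV', he, fun i => ?_, h⟩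
  have h1 : V * diagonal e * Vᵀ ≤ (1 : ℝ) • (1 : Matrix n n ℝ) := by
    rw [one_smul, ← h]; exact hK1
  exact spec_le_smul hV hV' h1 i

theorem Rv_spec {V : Matrix n n ℝ} (hV : Vᵀ * V = 1) (hV' : V * Vᵀ = 1) {e : n → ℝ} {θ : ℝ}
    (h : ∀ i, 1 - θ * e i ≠ 0) :
    Rv θ (V * diagonal e * Vᵀ) = V * diagonal (fun i => (1 - θ * e i)⁻¹) * Vᵀ := by
  have h1 : 1 - θ • (V * diagonal e * Vᵀ) = V * diagonal (fun i => 1 - θ * e i) * Vᵀ := by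
    have h2 := spec_one_sub (V := V) hV' (fun i => θ * e i) 1
    rw [one_smul] at h2
    rw [← h2]
    congr 1
    have : diagonal (fun i => θ * e i) = θ • diagonal e := by
      rw [← diagonal_smul]; rfl
    rw [this, Matrix.mul_smul, Matrix.smul_mul]
  unfold Rv
  rw [h1, spec_inv hV hV' h]

section basic

variable {θ : ℝ} {K : Matrix n n ℝ}

theorem den_pos {θ x : ℝ} (hθ : 0 ≤ θ) (hθ4 : θ ≤ 1 / 4) (hx : 0 ≤ x) (hx1 : x ≤ 1) :
    3 / 4 ≤ 1 - θ * x ∧ 1 - θ * x ≤ 1 := by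
  constructor
  · nlinarith
  · have : 0 ≤ θ * x := mul_nonneg hθ hx
    linarith

theorem Rv_ge_one (hθ : 0 ≤ θ) (hθ4 : θ ≤ 1 / 4) (hK : 0 ≤ K) (hK1 : K ≤ 1) : 1 ≤ Rv θ K := by
  obtain ⟨V, e, hV, hV', he, he1, rfl⟩ := contr_spec hK hK1
  have hd := fun i => den_pos hθ hθ4 (he i) (he1 i)
  rw [Rv_spec hV hV' fun i => by linarith [(hd i).1], ← sub_nonneg]
  have := spec_sub_smul_one hV' (fun i => (1 - θ * e i)⁻¹) 1
  rw [one_smul] at this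
  rw [this]
  refine spec_psd V fun i => ?_
  have h1 := hd i
  have h2 : (1 : ℝ) ≤ (1 - θ * e i)⁻¹ := (one_le_inv₀ (by linarith)).mpr h1.2
  linarith

theorem Rv_le (hθ : 0 ≤ θ) (hθ4 : θ ≤ 1 / 4) (hK : 0 ≤ K) (hK1 : K ≤ 1) :
    Rv θ K ≤ (4 / 3 : ℝ) • (1 : Matrix n n ℝ) := by
  obtain ⟨V, e, hV, hV', he, he1, rfl⟩ := contr_spec hK hK1
  have hd := fun i => den_pos hθ hθ4 (he i) (he1 i)
  rw [Rv_spec hV hV' fun i => by linarith [(hd i).1], ← sub_nonneg, spec_one_sub hV']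
  refine spec_psd V fun i => ?_
  have h1 := hd i
  have h2 : (1 - θ * e i)⁻¹ ≤ 4 / 3 := by
    rw [inv_le_comm₀ (by linarith) (by norm_num)]
    linarith
  linarith

theorem Rv_nonneg (hθ : 0 ≤ θ) (hθ4 : θ ≤ 1 / 4) (hK : 0 ≤ K) (hK1 : K ≤ 1) : 0 ≤ Rv θ K :=
  le_trans zero_le_one (Rv_ge_one hθ hθ4 hK hK1)

theorem Rv_symm (hθ : 0 ≤ θ) (hθ4 : θ ≤ 1 / 4) (hK : 0 ≤ K) (hK1 : K ≤ 1) :
    (Rv θ K)ᵀ = Rv θ K := psd_tr (Rv_nonneg hθ hθ4 hK hK1)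

theorem Rv_comm (hθ : 0 ≤ θ) (hθ4 : θ ≤ 1 / 4) (hK : 0 ≤ K) (hK1 : K ≤ 1) :
    Rv θ K * K = K * Rv θ K := by
  obtain ⟨V, e, hV, hV', he, he1, rfl⟩ := contr_spec hK hK1
  have hd := fun i => den_pos hθ hθ4 (he i) (he1 i)
  rw [Rv_spec hV hV' fun i => by linarith [(hd i).1], spec_mul hV, spec_mul hV]
  simp only [mul_comm]

theorem Rv_mul (hθ : 0 ≤ θ) (hθ4 : θ ≤ 1 / 4) (hK : 0 ≤ K) (hK1 : K ≤ 1) :
    Rv θ K * (1 - θ • K) = 1 := by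
  obtain ⟨V, e, hV, hV', he, he1, rfl⟩ := contr_spec hK hK1
  have hd := fun i => den_pos hθ hθ4 (he i) (he1 i)
  have h1 : 1 - θ • (V * diagonal e * Vᵀ) = V * diagonal (fun i => 1 - θ * e i) * Vᵀ := by
    have h2 := spec_one_sub (V := V) hV' (fun i => θ * e i) 1
    rw [one_smul] at h2
    rw [← h2]
    congr 1
    have : diagonal (fun i => θ * e i) = θ • diagonal e := by
      rw [← diagonal_smul]; rfl
    rw [this, Matrix.mul_smul, Matrix.smul_mul]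
  rw [Rv_spec hV hV' fun i => by linarith [(hd i).1], h1, spec_mul hV]
  have : (fun i => (1 - θ * e i)⁻¹ * (1 - θ * e i)) = fun _ => (1 : ℝ) := by
    funext i
    exact inv_mul_cancel₀ (by linarith [(hd i).1])
  rw [this, diagonal_one, Matrix.mul_one, hV']

theorem mul_Rv (hθ : 0 ≤ θ) (hθ4 : θ ≤ 1 / 4) (hK : 0 ≤ K) (hK1 : K ≤ 1) :
    (1 - θ • K) * Rv θ K = 1 := by
  have h := Rv_mul hθ hθ4 hK hK1
  have h2 : (1 - θ • K) * Rv θ K = Rv θ K * (1 - θ • K) := by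
    rw [Matrix.mul_sub, Matrix.sub_mul, Matrix.mul_one, Matrix.one_mul, Matrix.mul_smul,
      Matrix.smul_mul, Rv_comm hθ hθ4 hK hK1]
  rw [h2, h]

/-- `R = 1 + θ R K` -/
theorem Rv_eq (hθ : 0 ≤ θ) (hθ4 : θ ≤ 1 / 4) (hK : 0 ≤ K) (hK1 : K ≤ 1) :
    Rv θ K = 1 + θ • (Rv θ K * K) := by
  have h := Rv_mul hθ hθ4 hK hK1
  rw [Matrix.mul_sub, Matrix.mul_one, Matrix.mul_smul] at h
  rw [← h]
  abel

theorem Rv_sub_one_nonneg (hθ : 0 ≤ θ) (hθ4 : θ ≤ 1 / 4) (hK : 0 ≤ K) (hK1 : K ≤ 1) :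
    0 ≤ Rv θ K - 1 := sub_nonneg.mpr (Rv_ge_one hθ hθ4 hK hK1)

/-- `R - 1 ≤ (4/3) θ K` -/
theorem Rv_sub_one_le (hθ : 0 ≤ θ) (hθ4 : θ ≤ 1 / 4) (hK : 0 ≤ K) (hK1 : K ≤ 1) :
    Rv θ K - 1 ≤ (4 / 3 * θ) • K := by
  obtain ⟨V, e, hV, hV', he, he1, rfl⟩ := contr_spec hK hK1
  have hd := fun i => den_pos hθ hθ4 (he i) (he1 i)
  have e1 := spec_sub_smul_one hV' (fun i => (1 - θ * e i)⁻¹) 1
  rw [one_smul] at e1
  have e2 : (4 / 3 * θ) • (V * diagonal e * Vᵀ) =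
      V * diagonal (fun i => (4 / 3 * θ) * e i) * Vᵀ := by
    have : diagonal (fun i => (4 / 3 * θ) * e i) = (4 / 3 * θ) • diagonal e := by
      rw [← diagonal_smul]; rfl
    rw [this, Matrix.mul_smul, Matrix.smul_mul]
  rw [Rv_spec hV hV' fun i => by linarith [(hd i).1], e1, e2, ← sub_nonneg, ← Matrix.sub_mul,
    ← Matrix.mul_sub, diagonal_sub]
  refine spec_psd V fun i => ?_
  have h1 := hd i
  have hp : 0 < 1 - θ * e i := by linarith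
  have h2 : (1 - θ * e i)⁻¹ - 1 = θ * e i * (1 - θ * e i)⁻¹ := by
    field_simp
    ring
  have h3 : (1 - θ * e i)⁻¹ ≤ 4 / 3 := by
    rw [inv_le_comm₀ hp (by norm_num)]
    linarith
  have h4 : 0 ≤ θ * e i := mul_nonneg hθ (he i)
  show 0 ≤ 4 / 3 * θ * e i - ((1 - θ * e i)⁻¹ - 1)
  rw [h2]
  nlinarith

end basic

/-- inverse of a matrix below `c` -/
theorem inv_ge {S : Matrix n n ℝ} (hS : S.PosDef) {c : ℝ} (hc : 0 < c)
    (h : S ≤ c • (1 : Matrix n n ℝ)) : c⁻¹ • (1 : Matrix n n ℝ) ≤ S⁻¹ := by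
  obtain ⟨V, e, hV, hV', he, hSe⟩ := exists_spec hS.posSemidef
  have hpos : ∀ i, 0 < e i := by
    intro i
    rcases (he i).lt_or_eq with h1 | h1
    · exact h1
    · exfalso
      have hdet : S.det = ∏ i, e i := by
        rw [hSe, det_mul, det_mul, det_diagonal]
        have h3 : det V * det Vᵀ = 1 := by rw [← det_mul, hV', det_one]
        linear_combination (∏ i, e i) * h3
      have h0 : S.det = 0 := by
        rw [hdet]
        exact Finset.prod_eq_zero (Finset.mem_univ i) h1.symm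
      exact absurd h0 hS.det_pos.ne'
  rw [hSe] at h
  rw [hSe, spec_inv hV hV' fun i => (hpos i).ne', ← sub_nonneg, spec_sub_smul_one hV']
  refine spec_psd V fun i => ?_
  have h1 := spec_le_smul hV hV' h i
  have h2 : c⁻¹ ≤ (e i)⁻¹ := inv_anti₀ (hpos i) h1
  linarith

theorem posDef_of_ge_one {S : Matrix n n ℝ} (h : 1 ≤ S) : S.PosDef := by
  have h1 : S = 1 + (S - 1) := by abel
  rw [h1]
  exact Matrix.PosDef.one.add_posSemidef (Matrix.nonneg_iff_posSemidef.mp (sub_nonneg.mpr h))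

section gap

variable {θ : ℝ} {K1 K2 : Matrix n n ℝ}

theorem mid_nonneg (h1 : 0 ≤ K1) (h2 : 0 ≤ K2) : 0 ≤ (1 / 2 : ℝ) • (K1 + K2) :=
  psd_smul' (add_nonneg h1 h2) (by norm_num)

theorem mid_le_one (h1 : K1 ≤ 1) (h2 : K2 ≤ 1) : (1 / 2 : ℝ) • (K1 + K2) ≤ 1 := by
  rw [← sub_nonneg]
  have : 1 - (1 / 2 : ℝ) • (K1 + K2) = (1 / 2 : ℝ) • ((1 - K1) + (1 - K2)) := by
    have h3 : (1 / 2 : ℝ) • ((1 : Matrix n n ℝ) + 1) = 1 := by
      rw [← two_smul ℝ (1 : Matrix n n ℝ), smul_smul]; norm_num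
    calc 1 - (1 / 2 : ℝ) • (K1 + K2)
        = (1 / 2 : ℝ) • ((1 : Matrix n n ℝ) + 1) - (1 / 2 : ℝ) • (K1 + K2) := by rw [h3]
      _ = _ := by rw [← smul_sub]; congr 1; abel
  rw [this]
  exact psd_smul' (add_nonneg (sub_nonneg.mpr h1) (sub_nonneg.mpr h2)) (by norm_num)

/-- exact gap identity -/
theorem Rv_gap_eq (hθ : 0 ≤ θ) (hθ4 : θ ≤ 1 / 4) (h1 : 0 ≤ K1) (h1' : K1 ≤ 1) (h2 : 0 ≤ K2)
    (h2' : K2 ≤ 1) :
    Rv θ K1 + Rv θ K2 - (2 : ℝ) • Rv θ ((1 / 2 : ℝ) • (K1 + K2)) =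
      (Rv θ K1 - Rv θ K2) * (Rv θ K1 + Rv θ K2)⁻¹ * (Rv θ K1 - Rv θ K2) := by
  set R1 := Rv θ K1 with hR1
  set R2 := Rv θ K2 with hR2
  set Km := (1 / 2 : ℝ) • (K1 + K2) with hKm
  have g1 : 1 ≤ R1 := Rv_ge_one hθ hθ4 h1 h1'
  have g2 : 1 ≤ R2 := Rv_ge_one hθ hθ4 h2 h2'
  have hS : (R1 + R2).PosDef := (posDef_of_ge_one g1).add (posDef_of_ge_one g2)
  have hSu : IsUnit (R1 + R2).det := hS.det_pos.ne'.isUnit
  have s1 : (R1 + R2) * (R1 + R2)⁻¹ = 1 := mul_nonsing_inv _ hSu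
  have s2 : (R1 + R2)⁻¹ * (R1 + R2) = 1 := nonsing_inv_mul _ hSu
  set T := (R1 + R2)⁻¹ with hT
  have y1 : (1 - θ • K1) * R1 = 1 := mul_Rv hθ hθ4 h1 h1'
  have y2 : (1 - θ • K2) * R2 = 1 := mul_Rv hθ hθ4 h2 h2'
  have ym : Rv θ Km * (1 - θ • Km) = 1 :=
    Rv_mul hθ hθ4 (mid_nonneg h1 h2) (mid_le_one h1' h2')
  have hYm : 1 - θ • Km = (1 / 2 : ℝ) • ((1 - θ • K1) + (1 - θ • K2)) := by
    have h3 : (1 / 2 : ℝ) • ((1 : Matrix n n ℝ) + 1) = 1 := by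
      rw [← two_smul ℝ (1 : Matrix n n ℝ), smul_smul]; norm_num
    calc 1 - θ • Km = (1 / 2 : ℝ) • ((1 : Matrix n n ℝ) + 1) - θ • Km := by rw [h3]
      _ = _ := by
        rw [hKm, smul_comm, ← smul_sub]
        congr 1
        rw [smul_add]
        abel
  -- `Rm = 2 R1 T R2`
  have hRm : Rv θ Km = (2 : ℝ) • (R1 * T * R2) := by
    have e1 : (1 - θ • Km) * ((2 : ℝ) • (R1 * T * R2)) = 1 := by
      rw [hYm, Matrix.smul_mul, Matrix.mul_smul, smul_smul,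
        show (1 / 2 : ℝ) * 2 = 1 by norm_num, one_smul]
      have e2 : ((1 - θ • K1) + (1 - θ • K2)) * R1 = (1 - θ • K2) * (R1 + R2) := by
        rw [Matrix.add_mul, y1, Matrix.mul_add, y2, add_comm]
      calc ((1 - θ • K1) + (1 - θ • K2)) * (R1 * T * R2)
          = (((1 - θ • K1) + (1 - θ • K2)) * R1) * T * R2 := by simp only [Matrix.mul_assoc]
        _ = (1 - θ • K2) * ((R1 + R2) * T) * R2 := by rw [e2]; simp only [Matrix.mul_assoc]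
        _ = 1 := by rw [s1, Matrix.mul_one, y2]
    calc Rv θ Km = Rv θ Km * ((1 - θ • Km) * ((2 : ℝ) • (R1 * T * R2))) := by
          rw [e1, Matrix.mul_one]
      _ = _ := by rw [← Matrix.mul_assoc, ym, Matrix.one_mul]
  have e3 : R1 * T * R2 = R1 - R1 * T * R1 := by
    have : R1 * T * (R1 + R2) = R1 := by rw [Matrix.mul_assoc, s2, Matrix.mul_one]
    rw [Matrix.mul_add] at this
    exact eq_sub_of_add_eq' this
  have e4 : R1 - R2 = (2 : ℝ) • R1 - (R1 + R2) := by rw [two_smul]; abel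
  rw [hRm, e3]
  rw [e4]
  have e5 : ((2 : ℝ) • R1 - (R1 + R2)) * T * ((2 : ℝ) • R1 - (R1 + R2)) =
      (4 : ℝ) • (R1 * T * R1) - (2 : ℝ) • (R1 * (T * (R1 + R2))) -
        (2 : ℝ) • (((R1 + R2) * T) * R1) + ((R1 + R2) * T) * (R1 + R2) := by
    have : (4 : ℝ) • (R1 * T * R1) = (2 : ℝ) • ((2 : ℝ) • (R1 * T * R1)) := by
      rw [smul_smul]; norm_num
    rw [this]
    have e7 : ∀ S : Matrix n n ℝ, ((2 : ℝ) • R1 - S) * T * ((2 : ℝ) • R1 - S) =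
        (2 : ℝ) • ((2 : ℝ) • (R1 * T * R1)) - (2 : ℝ) • (R1 * (T * S)) -
        (2 : ℝ) • ((S * T) * R1) + (S * T) * S := by
      intro S
      simp only [Matrix.sub_mul, Matrix.mul_sub, Matrix.smul_mul, Matrix.mul_smul,
        Matrix.mul_assoc, smul_sub]
      abel
    exact e7 (R1 + R2)
  rw [e5, s1, s2, Matrix.mul_one, Matrix.one_mul, Matrix.one_mul, smul_sub, smul_sub, smul_smul,
    smul_smul]
  norm_num
  have e6 : (4 : ℝ) • R1 = (2 : ℝ) • R1 + (2 : ℝ) • R1 := by rw [← add_smul]; norm_num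
  rw [e6]
  abel

theorem Rv_gap (hθ : 0 ≤ θ) (hθ4 : θ ≤ 1 / 4) (h1 : 0 ≤ K1) (h1' : K1 ≤ 1) (h2 : 0 ≤ K2)
    (h2' : K2 ≤ 1) :
    (3 / 8 : ℝ) • ((Rv θ K1 - Rv θ K2) * (Rv θ K1 - Rv θ K2)) ≤
      Rv θ K1 + Rv θ K2 - (2 : ℝ) • Rv θ ((1 / 2 : ℝ) • (K1 + K2)) := by
  rw [Rv_gap_eq hθ hθ4 h1 h1' h2 h2']
  set R1 := Rv θ K1 with hR1
  set R2 := Rv θ K2 with hR2
  have g1 : 1 ≤ R1 := Rv_ge_one hθ hθ4 h1 h1'
  have g2 : 1 ≤ R2 := Rv_ge_one hθ hθ4 h2 h2'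
  have l1 : R1 ≤ (4 / 3 : ℝ) • (1 : Matrix n n ℝ) := Rv_le hθ hθ4 h1 h1'
  have l2 : R2 ≤ (4 / 3 : ℝ) • (1 : Matrix n n ℝ) := Rv_le hθ hθ4 h2 h2'
  have hS : (R1 + R2).PosDef := (posDef_of_ge_one g1).add (posDef_of_ge_one g2)
  have l3 : R1 + R2 ≤ (8 / 3 : ℝ) • (1 : Matrix n n ℝ) := by
    have : (8 / 3 : ℝ) • (1 : Matrix n n ℝ) =
        (4 / 3 : ℝ) • (1 : Matrix n n ℝ) + (4 / 3 : ℝ) • (1 : Matrix n n ℝ) := by
      rw [← add_smul]; norm_num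
    rw [this]
    exact add_le_add l1 l2
  have l4 := inv_ge hS (by norm_num) l3
  have hsym : (R1 - R2)ᵀ = R1 - R2 := by
    rw [transpose_sub, Rv_symm hθ hθ4 h1 h1', Rv_symm hθ hθ4 h2 h2']
  have l5 := le_conj l4 (R1 - R2)
  rw [hsym] at l5
  refine le_trans (le_of_eq ?_) l5
  rw [Matrix.mul_smul, Matrix.smul_mul, Matrix.mul_one]
  norm_num

/-- first order lower bound -/
theorem Rv_add (hθ : 0 ≤ θ) (hθ4 : θ ≤ 1 / 4) (h1 : 0 ≤ K1) (h2 : 0 ≤ K2) (h : K1 + K2 ≤ 1) :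
    Rv θ K1 + θ • (Rv θ K1 * K2 * Rv θ K1) ≤ Rv θ (K1 + K2) := by
  have h1' : K1 ≤ 1 := le_trans (le_add_of_nonneg_right h2) h
  set R := Rv θ K1 with hR
  set R' := Rv θ (K1 + K2) with hR'
  have h12 : 0 ≤ K1 + K2 := add_nonneg h1 h2
  have a1 : (1 - θ • K1) * R = 1 := mul_Rv hθ hθ4 h1 h1'
  have a2 : R * (1 - θ • K1) = 1 := Rv_mul hθ hθ4 h1 h1'
  have b1 : (1 - θ • (K1 + K2)) * R' = 1 := mul_Rv hθ hθ4 h12 h
  have b2 : R' * (1 - θ • (K1 + K2)) = 1 := Rv_mul hθ hθ4 h12 h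
  have c1 : R' = R + θ • (R * K2 * R') := by
    have : R * ((1 - θ • (K1 + K2)) * R') = R := by rw [b1, Matrix.mul_one]
    have e : R * ((1 - θ • (K1 + K2)) * R') = R' - θ • (R * K2 * R') := by
      have e1 : 1 - θ • (K1 + K2) = (1 - θ • K1) - θ • K2 := by rw [smul_add]; abel
      rw [e1, Matrix.sub_mul, Matrix.mul_sub, ← Matrix.mul_assoc, a2, Matrix.one_mul,
        Matrix.smul_mul, Matrix.mul_smul, Matrix.mul_assoc]
    rw [e] at this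
    exact sub_eq_iff_eq_add.mp this
  have c2 : R' = R + θ • (R' * K2 * R) := by
    have hs : R'ᵀ = R' := Rv_symm hθ hθ4 h12 h
    have hsR : Rᵀ = R := Rv_symm hθ hθ4 h1 h1'
    have := congrArg Matrix.transpose c1
    rw [transpose_add, transpose_smul, transpose_mul, transpose_mul, hs, hsR, psd_tr h2] at this
    rw [Matrix.mul_assoc]
    exact this
  have c3 : R' = R + θ • (R * K2 * R) + (θ * θ) • ((R * K2) * R' * (R * K2)ᵀ) := by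
    have hsR : Rᵀ = R := Rv_symm hθ hθ4 h1 h1'
    rw [transpose_mul, hsR, psd_tr h2]
    calc R' = R + θ • (R * K2 * R') := c1
      _ = R + θ • (R * K2 * (R + θ • (R' * K2 * R))) := by rw [← c2]
      _ = _ := by
        rw [Matrix.mul_add, smul_add, Matrix.mul_smul, smul_smul]
        simp only [Matrix.mul_assoc, add_assoc]
  rw [← sub_nonneg]
  have e : R' - (R + θ • (R * K2 * R)) = (θ * θ) • ((R * K2) * R' * (R * K2)ᵀ) := by
    rw [sub_eq_iff_eq_add, add_comm]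
    exact c3
  rw [e]
  exact psd_smul' (frob_psd_conj (Rv_nonneg hθ hθ4 h12 h) _) (mul_nonneg hθ hθ)

theorem Rv_mono (hθ : 0 ≤ θ) (hθ4 : θ ≤ 1 / 4) (h1 : 0 ≤ K1) (h2 : 0 ≤ K2) (h : K1 + K2 ≤ 1) :
    Rv θ K1 ≤ Rv θ (K1 + K2) := by
  refine le_trans ?_ (Rv_add hθ hθ4 h1 h2 h)
  have h1' : K1 ≤ 1 := le_trans (le_add_of_nonneg_right h2) h
  refine le_add_of_nonneg_right (psd_smul' ?_ hθ)
  have := frob_psd_conj h2 (Rv θ K1)
  rwa [Rv_symm hθ hθ4 h1 h1'] at this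

end gap

end Crest.Agent.R079.NF
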