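import Crest.Agent.R079.NMatA_133

/-! R079, K-free (N), part A2 (helper133): lower bound of the log-det midpoint gaps and the mixed
difference estimate `own_bound` (replaces the Kubo-Mori / relative entropy estimate). -/

set_option autoImplicit false
set_option linter.unusedSectionVars false
set_option linter.unusedVariables false

namespace Crest.Agent.R079.NF

open Matrix
open Crest.Agent.R072 Crest.Agent.R072.Nd Crest.Agent.R079.Path Crest.Agent.R079.LD
open scoped MatrixOrder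

variable {n : Type*} [Fintype n] [DecidableEq n]

/-- `tr S⁻¹ D S⁻¹ D ≤ gap1 X Y`, `S = 1 + (X+Y)/2`, `D = (X-Y)/2` -/
theorem gap1_ge {X Y : Matrix n n ℝ} (hX : 0 ≤ X) (hY : 0 ≤ Y) :
    trace ((1 + (1 / 2 : ℝ) • (X + Y))⁻¹ * ((1 / 2 : ℝ) • (X - Y)) *
      (1 + (1 / 2 : ℝ) • (X + Y))⁻¹ * ((1 / 2 : ℝ) • (X - Y))) ≤ gap1 X Y := by
  set S := 1 + (1 / 2 : ℝ) • (X + Y) with hS
  set D := (1 / 2 : ℝ) • (X - Y) with hD
  have pX : (1 + X).PosDef := one_add_posDef hX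
  have pY : (1 + Y).PosDef := one_add_posDef hY
  have pS : S.PosDef := one_add_posDef (mid_nonneg hX hY)
  have h12 : ∀ M : Matrix n n ℝ, (1 / 2 : ℝ) • M + (1 / 2 : ℝ) • M = M := by
    intro M; rw [← add_smul]; norm_num
  have eX : 1 + X = S + D := by
    rw [hS, hD, smul_add, smul_sub]
    have := h12 X
    calc 1 + X = 1 + ((1 / 2 : ℝ) • X + (1 / 2 : ℝ) • X) := by rw [this]
      _ = _ := by abel
  have eY : 1 + Y = S - D := by
    rw [hS, hD, smul_add, smul_sub]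
    have := h12 Y
    calc 1 + Y = 1 + ((1 / 2 : ℝ) • Y + (1 / 2 : ℝ) • Y) := by rw [this]
      _ = _ := by abel
  have uS : IsUnit S.det := pS.det_pos.ne'.isUnit
  have uX : IsUnit (1 + X).det := pX.det_pos.ne'.isUnit
  have uY : IsUnit (1 + Y).det := pY.det_pos.ne'.isUnit
  have s1 : S * S⁻¹ = 1 := mul_nonsing_inv _ uS
  have s2 : S⁻¹ * S = 1 := nonsing_inv_mul _ uS
  set Q := S - D * S⁻¹ * D with hQ
  have eQ : (1 + X) * S⁻¹ * (1 + Y) = Q := by
    rw [eX, eY, hQ]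
    have : (S + D) * S⁻¹ * (S - D) = (S * S⁻¹) * (S - D) + D * (S⁻¹ * S) - D * S⁻¹ * D := by
      simp only [Matrix.add_mul, Matrix.mul_sub, Matrix.mul_assoc]
      abel
    rw [this, s1, s2, Matrix.one_mul, Matrix.mul_one]
    abel
  -- positivity of `Q`
  have pQ : Q.PosDef := by
    have h1 : ((1 + X)⁻¹ + (1 + Y)⁻¹).PosDef := pX.inv.add pY.inv
    have h2 : ((1 / 2 : ℝ) • ((1 + X)⁻¹ + (1 + Y)⁻¹)).PosDef := h1.smul (by norm_num)
    have x1 : (1 + X) * (1 + X)⁻¹ = 1 := mul_nonsing_inv _ uX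
    have x2 : (1 + X)⁻¹ * (1 + X) = 1 := nonsing_inv_mul _ uX
    have y1 : (1 + Y) * (1 + Y)⁻¹ = 1 := mul_nonsing_inv _ uY
    have y2 : (1 + Y)⁻¹ * (1 + Y) = 1 := nonsing_inv_mul _ uY
    have e1 : (1 / 2 : ℝ) • ((1 + X)⁻¹ + (1 + Y)⁻¹) = (1 + Y)⁻¹ * S * (1 + X)⁻¹ := by
      have e2 : S = (1 / 2 : ℝ) • ((1 + X) + (1 + Y)) := by
        rw [eX, eY]
        have := h12 S
        calc S = (1 / 2 : ℝ) • S + (1 / 2 : ℝ) • S := by rw [this]
          _ = _ := by rw [← smul_add]; congr 1; abel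
      rw [e2, Matrix.mul_smul, Matrix.smul_mul, Matrix.mul_add, Matrix.add_mul, y2,
        Matrix.mul_assoc, x1, Matrix.mul_one, Matrix.one_mul, add_comm ((1 + Y)⁻¹)]
    have e3 : Q = ((1 / 2 : ℝ) • ((1 + X)⁻¹ + (1 + Y)⁻¹))⁻¹ := by
      symm
      apply Matrix.inv_eq_right_inv
      rw [e1, ← eQ]
      calc (1 + Y)⁻¹ * S * (1 + X)⁻¹ * ((1 + X) * S⁻¹ * (1 + Y))
          = (1 + Y)⁻¹ * (S * (((1 + X)⁻¹ * (1 + X)) * S⁻¹)) * (1 + Y) := by
            simp only [Matrix.mul_assoc]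
        _ = 1 := by rw [x2, Matrix.one_mul, s1, Matrix.mul_one, y2]
    rw [e3]
    exact h2.inv
  have hdet : Real.log (det (1 + X)) + Real.log (det (1 + Y)) - Real.log (det S) =
      Real.log (det Q) := by
    rw [← eQ, det_mul, det_mul, det_nonsing_inv, Ring.inverse_eq_inv',
      Real.log_mul (mul_ne_zero pX.det_pos.ne' (inv_ne_zero pS.det_pos.ne')) pY.det_pos.ne',
      Real.log_mul pX.det_pos.ne' (inv_ne_zero pS.det_pos.ne'), Real.log_inv]
    ring
  have h1 := log_det_sub_le pQ pS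
  have h2 : trace (S⁻¹ * D * S⁻¹ * D) = trace (S⁻¹ * (S - Q)) := by
    rw [hQ, sub_sub_cancel]
    simp only [Matrix.mul_assoc]
  have h3 : gap1 X Y = Real.log (det S) - Real.log (det Q) := by
    unfold gap1 LD1
    rw [← hdet, ← hS]
    have : trace ((1 / 2 : ℝ) • (X + Y)) = (1 / 2) * (trace X + trace Y) := by
      rw [trace_smul, trace_add, smul_eq_mul]
    rw [this]
    ring
  rw [h2, h3]
  rw [Matrix.mul_sub, trace_sub]
  have h4 : trace (S⁻¹ * Q) = trace (Q * S⁻¹) := trace_mul_comm _ _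
  rw [s2, h4, trace_one]
  linarith

theorem trace_rot4 (V d D : Matrix n n ℝ) (c : ℝ) :
    trace (V * d * Vᵀ * (c • D) * (V * d * Vᵀ) * (c • D)) =
      c ^ 2 * trace (d * (Vᵀ * D * V) * d * (Vᵀ * D * V)) := by
  rw [Matrix.mul_smul, Matrix.mul_smul, Matrix.smul_mul, Matrix.smul_mul, trace_smul, trace_smul,
    smul_eq_mul, smul_eq_mul, ← mul_assoc, ← sq]
  congr 1
  calc trace (V * d * Vᵀ * D * (V * d * Vᵀ) * D)
      = trace (V * (d * Vᵀ * D * V * d * Vᵀ * D)) := by simp only [Matrix.mul_assoc]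
    _ = trace ((d * Vᵀ * D * V * d * Vᵀ * D) * V) := trace_mul_comm _ _
    _ = _ := by simp only [Matrix.mul_assoc]

theorem sum3_comm {ι κ : Type*} [Fintype ι] (s : Finset κ) (f : ι → ι → κ → ℝ) :
    ∑ i, ∑ j, ∑ k ∈ s, f i j k = ∑ k ∈ s, ∑ i, ∑ j, f i j k := by
  calc ∑ i, ∑ j, ∑ k ∈ s, f i j k = ∑ i, ∑ k ∈ s, ∑ j, f i j k :=
        Finset.sum_congr rfl fun i _ => Finset.sum_comm
    _ = _ := Finset.sum_comm

/-- spectral form of the lower bound, threshold `t` -/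
theorem gapLD_ge {t : ℝ} (ht : 0 < t) {X Y : Matrix n n ℝ} (hX : 0 ≤ X) (hY : 0 ≤ Y)
    {V : Matrix n n ℝ} {x : n → ℝ} (hV : Vᵀ * V = 1) (hV' : V * Vᵀ = 1) (hx : ∀ i, 0 ≤ x i)
    (hM : (1 / 2 : ℝ) • (X + Y) = V * diagonal x * Vᵀ) :
    ∑ i, ∑ j, (Vᵀ * ((1 / 2 : ℝ) • (X - Y)) * V) i j ^ 2 * (1 / ((t + x i) * (t + x j))) ≤
      gapLD t X Y := by
  have h0 : gapLD t X Y = gap1 (t⁻¹ • X) (t⁻¹ • Y) := by
    unfold gapLD gap1 LD
    rw [← smul_add, smul_comm]
  have h1 := gap1_ge (psd_smul' hX (inv_nonneg.mpr ht.le)) (psd_smul' hY (inv_nonneg.mpr ht.le))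
  rw [h0]
  refine le_trans (le_of_eq ?_) h1
  have e1 : 1 + (1 / 2 : ℝ) • (t⁻¹ • X + t⁻¹ • Y) =
      V * diagonal (fun i => 1 + t⁻¹ * x i) * Vᵀ := by
    rw [← smul_add, smul_comm, hM]
    have : diagonal (fun i => 1 + t⁻¹ * x i) = 1 + t⁻¹ • diagonal x := by
      rw [← diagonal_one, ← diagonal_smul, diagonal_add]; rfl
    rw [this, Matrix.mul_add, Matrix.mul_one, Matrix.add_mul, hV', Matrix.mul_smul,
      Matrix.smul_mul]
  have hpos : ∀ i, 0 < 1 + t⁻¹ * x i := fun i => by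
    have := hx i; positivity
  rw [e1, spec_inv hV hV' fun i => (hpos i).ne']
  have e2 : (1 / 2 : ℝ) • (t⁻¹ • X - t⁻¹ • Y) = t⁻¹ • ((1 / 2 : ℝ) • (X - Y)) := by
    rw [← smul_sub, smul_comm]
  rw [e2, trace_rot4]
  have hDs : ((1 / 2 : ℝ) • (X - Y))ᵀ = (1 / 2 : ℝ) • (X - Y) := by
    rw [transpose_smul, transpose_sub, psd_tr hX, psd_tr hY]
  set E := Vᵀ * ((1 / 2 : ℝ) • (X - Y)) * V with hE
  set d := diagonal (fun i => (1 + t⁻¹ * x i)⁻¹) with hd
  have hEs : Eᵀ = E := by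
    rw [hE, transpose_mul, transpose_mul, transpose_transpose, hDs, Matrix.mul_assoc]
  have e4 : trace (d * E * d * E) =
      ∑ i, ∑ j, (1 + t⁻¹ * x i)⁻¹ * (1 + t⁻¹ * x j)⁻¹ * E i j ^ 2 := by
    rw [hd]
    rw [trace]
    refine Finset.sum_congr rfl fun i _ => ?_
    rw [diag_apply, Matrix.mul_apply]
    refine Finset.sum_congr rfl fun j _ => ?_
    rw [Matrix.mul_diagonal, Matrix.diagonal_mul]
    have : E j i = E i j := by
      conv_lhs => rw [← hEs]
      rfl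
    rw [this]
    ring
  rw [e4, Finset.mul_sum]
  refine Finset.sum_congr rfl fun i _ => ?_
  rw [Finset.mul_sum]
  refine Finset.sum_congr rfl fun j _ => ?_
  have hi := hx i
  have hj := hx j
  have a1 : (1 + t⁻¹ * x i)⁻¹ = t / (t + x i) := by
    have : t + x i ≠ 0 := by positivity
    have : 1 + t⁻¹ * x i ≠ 0 := (hpos i).ne'
    field_simp
  have a2 : (1 + t⁻¹ * x j)⁻¹ = t / (t + x j) := by
    have : t + x j ≠ 0 := by positivity
    have : 1 + t⁻¹ * x j ≠ 0 := (hpos j).ne'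
    field_simp
  rw [a1, a2]
  have : t + x i ≠ 0 := by positivity
  have : t + x j ≠ 0 := by positivity
  field_simp

/-- scalar inequality -/
theorem dyadic_ge {τ x y : ℝ} (hτ : 0 < τ) (hx : 0 ≤ x) (hy : 0 ≤ y) (m : ℕ)
    (hxm : x ≤ 2 ^ m * τ) (hym : y ≤ 2 ^ m * τ) :
    1 / (x + y + 2 * τ) ≤
      8 * ∑ k ∈ Finset.range (m + 1), (2 ^ k * τ) * (1 / ((2 ^ k * τ + x) * (2 ^ k * τ + y))) := by
  -- the largest `k ≤ m` with `2^k τ ≤ max x y τ`
  set w := max (max x y) τ with hw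
  have hwx : x ≤ w := le_trans (le_max_left _ _) (le_max_left _ _)
  have hwy : y ≤ w := le_trans (le_max_right _ _) (le_max_left _ _)
  have hwt : τ ≤ w := le_max_right _ _
  have hwpos : 0 < w := lt_of_lt_of_le hτ hwt
  have hwsum : w ≤ x + y + 2 * τ := by
    rw [hw]
    refine max_le (max_le ?_ ?_) ?_ <;> linarith
  have hwm : w ≤ 2 ^ m * τ := by
    rw [hw]
    refine max_le (max_le hxm hym) ?_
    have : (1 : ℝ) ≤ 2 ^ m := one_le_pow₀ (by norm_num)
    nlinarith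
  have hex : ∃ k, k ≤ m ∧ 2 ^ k * τ ≤ w ∧ w ≤ 2 * (2 ^ k * τ) := by
    have h1 : ∀ m : ℕ, w ≤ 2 ^ m * τ → ∃ k, k ≤ m ∧ 2 ^ k * τ ≤ w ∧ w ≤ 2 * (2 ^ k * τ) := by
      intro m
      induction m with
      | zero =>
        intro h
        refine ⟨0, le_refl _, ?_, ?_⟩
        · simpa using hwt
        · simp only [pow_zero, one_mul] at h ⊢; linarith
      | succ m ih =>
        intro h
        rcases le_total w (2 ^ m * τ) with h2 | h2
        · obtain ⟨k, hk, h3⟩ := ih h2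
          exact ⟨k, by omega, h3⟩
        · refine ⟨m, by omega, h2, ?_⟩
          have : (2 : ℝ) ^ (m + 1) = 2 * 2 ^ m := by ring
          rw [this] at h
          linarith
    exact h1 m hwm
  obtain ⟨k, hk, hk1, hk2⟩ := hex
  have hterm : 1 / (8 * w) ≤ (2 ^ k * τ) * (1 / ((2 ^ k * τ + x) * (2 ^ k * τ + y))) := by
    set t := 2 ^ k * τ with ht
    have htpos : 0 < t := by positivity
    rw [mul_one_div, div_le_div_iff₀ (by positivity) (by positivity)]
    have h3 : (t + x) * (t + y) ≤ (2 * w) * (2 * w) :=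
      mul_le_mul (by linarith) (by linarith) (by positivity) (by positivity)
    nlinarith
  have hsum : (2 ^ k * τ) * (1 / ((2 ^ k * τ + x) * (2 ^ k * τ + y))) ≤
      ∑ k ∈ Finset.range (m + 1), (2 ^ k * τ) * (1 / ((2 ^ k * τ + x) * (2 ^ k * τ + y))) := by
    refine Finset.single_le_sum (f := fun k : ℕ =>
      (2 ^ k * τ) * (1 / ((2 ^ k * τ + x) * (2 ^ k * τ + y)))) (fun i _ => ?_)
      (Finset.mem_range.mpr (by omega))
    positivity
  have h5 : 1 / (x + y + 2 * τ) ≤ 1 / w := one_div_le_one_div_of_le hwpos hwsum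
  have h6 : 1 / w = 8 * (1 / (8 * w)) := by field_simp
  rw [h6] at h5
  linarith

/-- **mixed difference bound**: own log-det gaps of `P` and the weighted square of `A` -/
theorem own_bound {P1 P2 A : Matrix n n ℝ} (h1 : 0 ≤ P1) (h2 : 0 ≤ P2) (hA : Aᵀ = A)
    {τ ε : ℝ} (hτ : 0 < τ) (hε : 0 < ε) (m : ℕ)
    (hm : (1 / 2 : ℝ) • (P1 + P2) ≤ (2 ^ m * τ) • (1 : Matrix n n ℝ)) :
    |trace ((P1 - P2) * A)| ≤
      ε * trace (((1 / 2 : ℝ) • (P1 + P2) + τ • (1 : Matrix n n ℝ)) * (A * A)) +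
      (16 / ε) * ∑ k ∈ Finset.range (m + 1), (2 ^ k * τ) * gapLD (2 ^ k * τ) P1 P2 := by
  obtain ⟨V, x, hV, hV', hx, hM⟩ :=
    exists_spec (Matrix.nonneg_iff_posSemidef.mp (mid_nonneg h1 h2))
  have hxm : ∀ i, x i ≤ 2 ^ m * τ := by
    rw [hM] at hm
    exact spec_le_smul hV hV' hm
  set D := Vᵀ * ((1 / 2 : ℝ) • (P1 - P2)) * V with hD
  set B := Vᵀ * A * V with hB
  have hBs : Bᵀ = B := by
    rw [hB, transpose_mul, transpose_mul, transpose_transpose, hA, Matrix.mul_assoc]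
  have hBs' : ∀ i j, B j i = B i j := fun i j => by
    conv_lhs => rw [← hBs]
    rfl
  -- the left side
  have e1 : trace ((P1 - P2) * A) = ∑ i, ∑ j, 2 * (D i j * B i j) := by
    have e2 : P1 - P2 = (2 : ℝ) • (V * D * Vᵀ) := by
      rw [hD]
      have : V * (Vᵀ * ((1 / 2 : ℝ) • (P1 - P2)) * V) * Vᵀ = (1 / 2 : ℝ) • (P1 - P2) := by
        calc V * (Vᵀ * ((1 / 2 : ℝ) • (P1 - P2)) * V) * Vᵀ
            = (V * Vᵀ) * ((1 / 2 : ℝ) • (P1 - P2)) * (V * Vᵀ) := by
              simp only [Matrix.mul_assoc]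
          _ = _ := by rw [hV', Matrix.one_mul, Matrix.mul_one]
      rw [this, smul_smul]
      norm_num
    rw [e2, Matrix.smul_mul, trace_smul, smul_eq_mul]
    have e3 : trace (V * D * Vᵀ * A) = trace (D * B) := by
      rw [hB]
      calc trace (V * D * Vᵀ * A) = trace (V * (D * Vᵀ * A)) := by simp only [Matrix.mul_assoc]
        _ = trace ((D * Vᵀ * A) * V) := trace_mul_comm _ _
        _ = _ := by simp only [Matrix.mul_assoc]
    rw [e3, trace, Finset.mul_sum]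
    refine Finset.sum_congr rfl fun i _ => ?_
    rw [diag_apply, Matrix.mul_apply, Finset.mul_sum]
    refine Finset.sum_congr rfl fun j _ => ?_
    rw [hBs' i j]
  -- the weighted square
  have e4 : trace (((1 / 2 : ℝ) • (P1 + P2) + τ • (1 : Matrix n n ℝ)) * (A * A)) =
      ∑ i, ∑ j, (x i + x j + 2 * τ) / 2 * B i j ^ 2 := by
    have e5 : (1 / 2 : ℝ) • (P1 + P2) + τ • (1 : Matrix n n ℝ) =
        V * diagonal (fun i => x i + τ) * Vᵀ := by
      have := spec_sub_smul_one hV' x (-τ)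
      simp only [sub_neg_eq_add, neg_smul] at this
      rw [hM, this]
    have e6 : trace (V * diagonal (fun i => x i + τ) * Vᵀ * (A * A)) =
        trace (diagonal (fun i => x i + τ) * (B * B)) := by
      rw [hB]
      calc trace (V * diagonal (fun i => x i + τ) * Vᵀ * (A * A))
          = trace (V * (diagonal (fun i => x i + τ) * Vᵀ * (A * A))) := by
            simp only [Matrix.mul_assoc]
        _ = trace ((diagonal (fun i => x i + τ) * Vᵀ * (A * A)) * V) := trace_mul_comm _ _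
        _ = trace (diagonal (fun i => x i + τ) * (Vᵀ * A * 1 * A * V)) := by
            simp only [Matrix.mul_assoc, Matrix.one_mul]
        _ = _ := by rw [← hV']; simp only [Matrix.mul_assoc]
    rw [e5, e6]
    have e7 : trace (diagonal (fun i => x i + τ) * (B * B)) =
        ∑ i, ∑ j, (x i + τ) * B i j ^ 2 := by
      rw [trace]
      refine Finset.sum_congr rfl fun i _ => ?_
      rw [diag_apply, Matrix.diagonal_mul, Matrix.mul_apply, Finset.mul_sum]
      refine Finset.sum_congr rfl fun j _ => ?_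
      rw [hBs' i j]
      ring
    have e8 : ∑ i, ∑ j, (x i + τ) * B i j ^ 2 = ∑ i, ∑ j, (x j + τ) * B i j ^ 2 := by
      rw [Finset.sum_comm]
      refine Finset.sum_congr rfl fun i _ => Finset.sum_congr rfl fun j _ => ?_
      rw [hBs' i j]
    have e9 : ∑ i, ∑ j, (x i + τ) * B i j ^ 2 =
        (1 / 2) * (∑ i, ∑ j, (x i + τ) * B i j ^ 2 + ∑ i, ∑ j, (x j + τ) * B i j ^ 2) := by
      rw [← e8]; ring
    rw [e7, e9, ← Finset.sum_add_distrib, Finset.mul_sum]
    refine Finset.sum_congr rfl fun i _ => ?_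
    rw [← Finset.sum_add_distrib, Finset.mul_sum]
    refine Finset.sum_congr rfl fun j _ => ?_
    ring
  -- the gaps
  have hg : ∀ k : ℕ, (2 ^ k * τ) * ∑ i, ∑ j, D i j ^ 2 *
      (1 / ((2 ^ k * τ + x i) * (2 ^ k * τ + x j))) ≤ (2 ^ k * τ) * gapLD (2 ^ k * τ) P1 P2 :=
    fun k => mul_le_mul_of_nonneg_left (gapLD_ge (by positivity) h1 h2 hV hV' hx hM)
      (by positivity)
  have hsumg : ∑ i, ∑ j, D i j ^ 2 * (1 / (x i + x j + 2 * τ)) ≤
      8 * ∑ k ∈ Finset.range (m + 1), (2 ^ k * τ) * gapLD (2 ^ k * τ) P1 P2 := by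
    calc ∑ i, ∑ j, D i j ^ 2 * (1 / (x i + x j + 2 * τ))
        ≤ ∑ i, ∑ j, D i j ^ 2 * (8 * ∑ k ∈ Finset.range (m + 1),
            (2 ^ k * τ) * (1 / ((2 ^ k * τ + x i) * (2 ^ k * τ + x j)))) := by
          refine Finset.sum_le_sum fun i _ => Finset.sum_le_sum fun j _ =>
            mul_le_mul_of_nonneg_left (dyadic_ge hτ (hx i) (hx j) m (hxm i) (hxm j))
              (sq_nonneg _)
      _ = 8 * ∑ k ∈ Finset.range (m + 1), (2 ^ k * τ) * ∑ i, ∑ j, D i j ^ 2 *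
            (1 / ((2 ^ k * τ + x i) * (2 ^ k * τ + x j))) := by
          simp only [Finset.mul_sum]
          rw [sum3_comm]
          refine Finset.sum_congr rfl fun k _ => Finset.sum_congr rfl fun i _ =>
            Finset.sum_congr rfl fun j _ => ?_
          ring
      _ ≤ _ := by
          refine mul_le_mul_of_nonneg_left (Finset.sum_le_sum fun k _ => hg k) (by norm_num)
  rw [e1, e4]
  refine (Finset.abs_sum_le_sum_abs _ _).trans ?_
  have hpt : ∀ i j, |2 * (D i j * B i j)| ≤ ε * ((x i + x j + 2 * τ) / 2 * B i j ^ 2) +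
      (2 / ε) * (D i j ^ 2 * (1 / (x i + x j + 2 * τ))) := by
    intro i j
    set w := x i + x j + 2 * τ with hw
    have hwp : 0 < w := by have := hx i; have := hx j; positivity
    set a := D i j
    set b := B i j
    have h3 : 0 ≤ (ε * w * |b| - 2 * |a|) ^ 2 := sq_nonneg _
    have h4 : |2 * (a * b)| = 2 * (|a| * |b|) := by
      rw [abs_mul, abs_mul]; norm_num
    rw [h4]
    have ha : |a| ^ 2 = a ^ 2 := sq_abs a
    have hb : |b| ^ 2 = b ^ 2 := sq_abs b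
    rw [← ha, ← hb]
    have h5 : ε * (w / 2 * |b| ^ 2) + 2 / ε * (|a| ^ 2 * (1 / w)) - 2 * (|a| * |b|) =
        (ε * w * |b| - 2 * |a|) ^ 2 / (2 * ε * w) := by
      field_simp
      ring
    have h6 : 0 ≤ (ε * w * |b| - 2 * |a|) ^ 2 / (2 * ε * w) := by positivity
    linarith
  calc ∑ i, |∑ j, 2 * (D i j * B i j)|
      ≤ ∑ i, ∑ j, |2 * (D i j * B i j)| :=
        Finset.sum_le_sum fun i _ => Finset.abs_sum_le_sum_abs _ _
    _ ≤ ∑ i, ∑ j, (ε * ((x i + x j + 2 * τ) / 2 * B i j ^ 2) +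
          (2 / ε) * (D i j ^ 2 * (1 / (x i + x j + 2 * τ)))) :=
        Finset.sum_le_sum fun i _ => Finset.sum_le_sum fun j _ => hpt i j
    _ = ε * ∑ i, ∑ j, (x i + x j + 2 * τ) / 2 * B i j ^ 2 +
          (2 / ε) * ∑ i, ∑ j, D i j ^ 2 * (1 / (x i + x j + 2 * τ)) := by
        simp only [Finset.sum_add_distrib, Finset.mul_sum]
    _ ≤ _ := by
        have h7 : (2 / ε) * ∑ i, ∑ j, D i j ^ 2 * (1 / (x i + x j + 2 * τ)) ≤
            (2 / ε) * (8 * ∑ k ∈ Finset.range (m + 1), (2 ^ k * τ) * gapLD (2 ^ k * τ) P1 P2) :=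
          mul_le_mul_of_nonneg_left hsumg (by positivity)
        have h8 : (2 / ε) * (8 * ∑ k ∈ Finset.range (m + 1),
            (2 ^ k * τ) * gapLD (2 ^ k * τ) P1 P2) = (16 / ε) *
            ∑ k ∈ Finset.range (m + 1), (2 ^ k * τ) * gapLD (2 ^ k * τ) P1 P2 := by ring
        linarith

end Crest.Agent.R079.NF
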