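import Crest.Agent.R079.NMatB_133

/-! R079, K-free (N), part A3 (helper133): the two variable potential
`LF θ τ P K = tr (P + τ) (R_θ(K) - 1)`, linear in `P`, convex in `K`, pinching gain. -/

set_option autoImplicit false
set_option linter.unusedSectionVars false
set_option linter.unusedVariables false

namespace Crest.Agent.R079.NF

open Matrix
open Crest.Agent.R072 Crest.Agent.R072.Nd Crest.Agent.R079.Path Crest.Agent.R079.LD
  Crest.Agent.R079.Pot
open scoped MatrixOrder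

variable {n m : Type*} [Fintype n] [DecidableEq n] [Fintype m] [DecidableEq m]

/-- two variable potential -/
noncomputable def LF (θ τ : ℝ) (P K : Matrix n n ℝ) : ℝ :=
  trace ((P + τ • (1 : Matrix n n ℝ)) * (Rv θ K - 1))

theorem add_smul_one_nonneg {P : Matrix n n ℝ} (hP : 0 ≤ P) {τ : ℝ} (hτ : 0 ≤ τ) :
    0 ≤ P + τ • (1 : Matrix n n ℝ) :=
  add_nonneg hP (psd_smul' (PosSemidef.one.nonneg : (0 : Matrix n n ℝ) ≤ 1) hτ)

section basic

variable {θ τ : ℝ} {P P1 P2 K K1 K2 : Matrix n n ℝ}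

theorem LF_nonneg (hθ : 0 ≤ θ) (hθ4 : θ ≤ 1 / 4) (hτ : 0 ≤ τ) (hP : 0 ≤ P) (hK : 0 ≤ K)
    (hK1 : K ≤ 1) : 0 ≤ LF θ τ P K :=
  frob_trace_mul_nonneg (add_smul_one_nonneg hP hτ) (Rv_sub_one_nonneg hθ hθ4 hK hK1)

theorem LF_le (hθ : 0 ≤ θ) (hθ4 : θ ≤ 1 / 4) (hτ : 0 ≤ τ) (hP : 0 ≤ P) (hK : 0 ≤ K)
    (hK1 : K ≤ 1) : LF θ τ P K ≤ (4 / 3 * θ) * (trace P + τ * trace K) := by
  unfold LF
  have h1 := trace_mul_mono_right (add_smul_one_nonneg hP hτ) (Rv_sub_one_le hθ hθ4 hK hK1)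
  refine h1.trans ?_
  rw [Matrix.mul_smul, trace_smul, smul_eq_mul, Matrix.add_mul, trace_add, Matrix.smul_mul,
    Matrix.one_mul, trace_smul, smul_eq_mul]
  refine mul_le_mul_of_nonneg_left (add_le_add ?_ le_rfl) (by positivity)
  have h2 := trace_mul_mono_right hP hK1
  rwa [Matrix.mul_one] at h2

theorem LF_linear : LF θ τ ((1 / 2 : ℝ) • (P1 + P2)) K =
    (1 / 2) * LF θ τ P1 K + (1 / 2) * LF θ τ P2 K := by
  have e : (1 / 2 : ℝ) • (P1 + P2) + τ • (1 : Matrix n n ℝ) =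
      (1 / 2 : ℝ) • (P1 + τ • (1 : Matrix n n ℝ)) + (1 / 2 : ℝ) • (P2 + τ • (1 : Matrix n n ℝ)) := by
    rw [smul_add, smul_add, smul_add]
    have : τ • (1 : Matrix n n ℝ) = (1 / 2 : ℝ) • (τ • (1 : Matrix n n ℝ)) +
        (1 / 2 : ℝ) • (τ • (1 : Matrix n n ℝ)) := by
      rw [← add_smul]; norm_num
    conv_lhs => rw [this]
    abel
  unfold LF
  rw [e, Matrix.add_mul, Matrix.smul_mul, Matrix.smul_mul, trace_add, trace_smul, trace_smul,
    smul_eq_mul, smul_eq_mul]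

theorem LF_gapK (hθ : 0 ≤ θ) (hθ4 : θ ≤ 1 / 4) (hτ : 0 ≤ τ) (hP : 0 ≤ P) (h1 : 0 ≤ K1)
    (h1' : K1 ≤ 1) (h2 : 0 ≤ K2) (h2' : K2 ≤ 1) :
    (3 / 8) * trace ((P + τ • (1 : Matrix n n ℝ)) *
      ((Rv θ K1 - Rv θ K2) * (Rv θ K1 - Rv θ K2))) ≤
      LF θ τ P K1 + LF θ τ P K2 - 2 * LF θ τ P ((1 / 2 : ℝ) • (K1 + K2)) := by
  have h := trace_mul_mono_right (add_smul_one_nonneg hP hτ) (Rv_gap hθ hθ4 h1 h1' h2 h2')
  rw [Matrix.mul_smul, trace_smul, smul_eq_mul] at h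
  refine h.trans (le_of_eq ?_)
  unfold LF
  rw [Matrix.mul_sub, Matrix.mul_sub, Matrix.mul_sub, Matrix.mul_sub, Matrix.mul_add,
    Matrix.mul_smul]
  simp only [trace_sub, trace_add, trace_smul, smul_eq_mul]
  ring

theorem LF_mixed : LF θ τ P1 K1 + LF θ τ P2 K2 - LF θ τ P1 K2 - LF θ τ P2 K1 =
    trace ((P1 - P2) * (Rv θ K1 - Rv θ K2)) := by
  unfold LF
  have e : (P1 - P2) * (Rv θ K1 - Rv θ K2) =
      (P1 + τ • (1 : Matrix n n ℝ)) * (Rv θ K1 - 1) + (P2 + τ • (1 : Matrix n n ℝ)) * (Rv θ K2 - 1)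
      - (P1 + τ • (1 : Matrix n n ℝ)) * (Rv θ K2 - 1)
      - (P2 + τ • (1 : Matrix n n ℝ)) * (Rv θ K1 - 1) := by
    noncomm_ring
  rw [e]
  simp only [trace_sub, trace_add]

end basic

section blocks

theorem psd_fromBlocks {P : Matrix n n ℝ} {S : Matrix m m ℝ} (hP : 0 ≤ P) (hS : 0 ≤ S) :
    0 ≤ fromBlocks P 0 0 S := by
  obtain ⟨A, rfl⟩ := CStarAlgebra.nonneg_iff_eq_star_mul_self.mp hP
  obtain ⟨B, rfl⟩ := CStarAlgebra.nonneg_iff_eq_star_mul_self.mp hS
  have h := psd_transpose_mul_self (fromBlocks A 0 0 B)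
  rw [fromBlocks_transpose, fromBlocks_multiply] at h
  simp only [add_zero, zero_add, Matrix.mul_zero, Matrix.zero_mul, transpose_zero] at h
  rw [star_eq_conjTranspose, star_eq_conjTranspose, conjTranspose_eq_transpose_of_trivial,
    conjTranspose_eq_transpose_of_trivial]
  exact h

theorem psd_of_submatrix (e : m ≃ n) {M : Matrix n n ℝ} (h : 0 ≤ M.submatrix e e) : 0 ≤ M := by
  have h1 := ((Matrix.nonneg_iff_posSemidef.mp h).submatrix e.symm).nonneg
  simpa using h1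

theorem Rv_submatrix (θ : ℝ) (e : m ≃ n) (M : Matrix n n ℝ) :
    Rv θ (M.submatrix e e) = (Rv θ M).submatrix e e := by
  unfold Rv
  rw [← inv_submatrix_equiv]
  congr 1
  rw [show (1 - θ • M).submatrix e e = (1 : Matrix n n ℝ).submatrix e e -
    θ • M.submatrix e e from rfl, submatrix_one_equiv]

theorem LF_submatrix (θ τ : ℝ) (e : m ≃ n) (P K : Matrix n n ℝ) :
    LF θ τ (P.submatrix e e) (K.submatrix e e) = LF θ τ P K := by
  unfold LF
  rw [Rv_submatrix, ← submatrix_one_equiv e]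
  rw [show P.submatrix e e + τ • (1 : Matrix n n ℝ).submatrix e e =
    (P + τ • (1 : Matrix n n ℝ)).submatrix e e from rfl,
    show (Rv θ K).submatrix e e - (1 : Matrix n n ℝ).submatrix e e =
    (Rv θ K - 1).submatrix e e from rfl, submatrix_mul_equiv, trace_submatrix_equiv']

theorem Rv_fromBlocks {θ : ℝ} (hθ : 0 ≤ θ) (hθ4 : θ ≤ 1 / 4) {K : Matrix n n ℝ}
    {S : Matrix m m ℝ} (hK : 0 ≤ K) (hK1 : K ≤ 1) (hS : 0 ≤ S) (hS1 : S ≤ 1) :
    Rv θ (fromBlocks K 0 0 S) = fromBlocks (Rv θ K) 0 0 (Rv θ S) := by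
  have h1 := mul_Rv hθ hθ4 hK hK1
  have h2 := mul_Rv hθ hθ4 hS hS1
  refine inv_eq_right_inv ?_
  rw [← fromBlocks_one, fromBlocks_smul, sub_eq_add_neg, fromBlocks_neg, fromBlocks_add,
    fromBlocks_multiply]
  simp only [add_zero, zero_add, Matrix.mul_zero, Matrix.zero_mul, smul_zero, neg_zero,
    ← sub_eq_add_neg, h1, h2]

theorem LF_fromBlocks {θ τ : ℝ} (hθ : 0 ≤ θ) (hθ4 : θ ≤ 1 / 4) {P K : Matrix n n ℝ}
    {P' K' : Matrix m m ℝ} (hK : 0 ≤ K) (hK1 : K ≤ 1) (hS : 0 ≤ K') (hS1 : K' ≤ 1) :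
    LF θ τ (fromBlocks P 0 0 P') (fromBlocks K 0 0 K') = LF θ τ P K + LF θ τ P' K' := by
  unfold LF
  rw [Rv_fromBlocks hθ hθ4 hK hK1 hS hS1, ← fromBlocks_one, fromBlocks_smul, sub_eq_add_neg,
    fromBlocks_neg, fromBlocks_add, fromBlocks_add, fromBlocks_multiply, tr_fromBlocks]
  simp only [add_zero, zero_add, Matrix.mul_zero, Matrix.zero_mul, smul_zero, neg_zero,
    ← sub_eq_add_neg]

end blocks

section pinch

variable (r : ℕ) {P K : Matrix (Fin (r + r)) (Fin (r + r)) ℝ}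

theorem pinch_submatrix (M : Matrix (Fin (r + r)) (Fin (r + r)) ℝ) :
    (M + diagonal (hsgn r) * M * diagonal (hsgn r)).submatrix finSumFinEquiv
      finSumFinEquiv = fromBlocks (blkA r M) 0 0 (blkB r M) := by
  ext i j
  rw [Matrix.submatrix_apply, Matrix.add_apply, Matrix.mul_diagonal, Matrix.diagonal_mul]
  rcases i with i | i <;> rcases j with j | j
  · have h1 : ((i : ℕ)) < r := i.2
    have h1' : ((j : ℕ)) < r := j.2
    simp [hsgn, blkA, h1, h1', two_mul]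
  · have h1 : ((i : ℕ)) < r := i.2
    simp [hsgn, h1]
  · have h1 : ((j : ℕ)) < r := j.2
    simp [hsgn, h1]
  · simp [hsgn, blkB, two_mul]

/-- contraction of the half blocks gives contraction of the pinching -/
theorem pinch_le_one (hA : blkA r K ≤ 1) (hB : blkB r K ≤ 1) :
    K + diagonal (hsgn r) * K * diagonal (hsgn r) ≤ 1 := by
  rw [← sub_nonneg]
  apply psd_of_submatrix finSumFinEquiv
  rw [show (1 - (K + diagonal (hsgn r) * K * diagonal (hsgn r))).submatrix finSumFinEquiv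
    finSumFinEquiv = (1 : Matrix (Fin (r + r)) (Fin (r + r)) ℝ).submatrix finSumFinEquiv
    finSumFinEquiv - (K + diagonal (hsgn r) * K * diagonal (hsgn r)).submatrix finSumFinEquiv
    finSumFinEquiv from rfl, submatrix_one_equiv, pinch_submatrix, ← fromBlocks_one,
    sub_eq_add_neg, fromBlocks_neg, fromBlocks_add]
  simp only [neg_zero, add_zero, ← sub_eq_add_neg]
  exact psd_fromBlocks (sub_nonneg.mpr hA) (sub_nonneg.mpr hB)

theorem pinch_nonneg {M : Matrix (Fin (r + r)) (Fin (r + r)) ℝ} (hM : 0 ≤ M) :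
    0 ≤ diagonal (hsgn r) * M * diagonal (hsgn r) := sandwich_nonneg (hsgn_symm r) hM

theorem le_one_of_blk (hK : 0 ≤ K) (hA : blkA r K ≤ 1) (hB : blkB r K ≤ 1) : K ≤ 1 :=
  le_trans (le_add_of_nonneg_right (pinch_nonneg r hK)) (pinch_le_one r hA hB)

theorem blkA_nonneg {M : Matrix (Fin (r + r)) (Fin (r + r)) ℝ} (hM : 0 ≤ M) : 0 ≤ blkA r M :=
  (((Matrix.nonneg_iff_posSemidef.mp hM).submatrix _).smul (by norm_num)).nonneg

theorem blkB_nonneg {M : Matrix (Fin (r + r)) (Fin (r + r)) ℝ} (hM : 0 ≤ M) : 0 ≤ blkB r M :=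
  (((Matrix.nonneg_iff_posSemidef.mp hM).submatrix _).smul (by norm_num)).nonneg

theorem LF_pinch {θ τ : ℝ} (hθ : 0 ≤ θ) (hθ4 : θ ≤ 1 / 4) (hK : 0 ≤ K) (hA : blkA r K ≤ 1)
    (hB : blkB r K ≤ 1) :
    LF θ τ (P + diagonal (hsgn r) * P * diagonal (hsgn r))
      (K + diagonal (hsgn r) * K * diagonal (hsgn r)) =
    LF θ τ (blkA r P) (blkA r K) + LF θ τ (blkB r P) (blkB r K) := by
  rw [← LF_submatrix θ τ finSumFinEquiv, pinch_submatrix, pinch_submatrix,
    LF_fromBlocks hθ hθ4 (blkA_nonneg r hK) hA (blkB_nonneg r hK) hB]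

/-- conjugation invariance of the resolvent under a symmetry -/
theorem Rv_conj {U M : Matrix n n ℝ} (hU2 : U * U = 1) (θ : ℝ) :
    Rv θ (U * M * U) = U * Rv θ M * U := by
  have hUi : U⁻¹ = U := inv_eq_right_inv hU2
  have e : 1 - θ • (U * M * U) = U * (1 - θ • M) * U := by
    rw [Matrix.mul_sub, Matrix.sub_mul, Matrix.mul_one, hU2, Matrix.mul_smul, Matrix.smul_mul]
  unfold Rv
  rw [e, Matrix.mul_inv_rev, Matrix.mul_inv_rev, hUi, Matrix.mul_assoc]

/-- **pinching gain** -/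
theorem LF_gain {θ τ : ℝ} (hθ : 0 ≤ θ) (hθ4 : θ ≤ 1 / 4) (hτ : 0 ≤ τ) (hP : 0 ≤ P) (hK : 0 ≤ K)
    (hA : blkA r K ≤ 1) (hB : blkB r K ≤ 1) :
    2 * θ * trace (P * (Rv θ K * (diagonal (hsgn r) * K * diagonal (hsgn r)) * Rv θ K)) ≤
      LF θ τ (blkA r P) (blkA r K) + LF θ τ (blkB r P) (blkB r K) - 2 * LF θ τ P K := by
  rw [← LF_pinch r hθ hθ4 hK hA hB]
  set U := diagonal (hsgn r) with hU
  have hUs : Uᵀ = U := hsgn_symm r
  have hU2 : U * U = 1 := hsgn_sq r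
  set Kt := U * K * U with hKt
  have hKt0 : 0 ≤ Kt := sandwich_nonneg hUs hK
  have hK2 : K + Kt ≤ 1 := pinch_le_one r hA hB
  have hK1 : K ≤ 1 := le_one_of_blk r hK hA hB
  have hKt1 : Kt ≤ 1 := le_trans (le_add_of_nonneg_left hK) hK2
  have hs0 : 0 ≤ K + Kt := add_nonneg hK hKt0
  set R := Rv θ K with hR
  set R' := Rv θ (K + Kt) with hR'
  have hadd : R + θ • (R * Kt * R) ≤ R' := Rv_add hθ hθ4 hK hKt0 hK2
  have hRR' : R ≤ R' := Rv_mono hθ hθ4 hK hKt0 hK2
  -- `U R' U = R'`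
  have hconj : U * R' * U = R' := by
    rw [hR', ← Rv_conj hU2]
    congr 1
    have e0 : U * (U * K * U) * U = K := by
      calc U * (U * K * U) * U = (U * U) * K * (U * U) := by simp only [Matrix.mul_assoc]
        _ = K := by rw [hU2, Matrix.one_mul, Matrix.mul_one]
    rw [hKt, Matrix.mul_add, Matrix.add_mul, e0, add_comm (U * K * U) K]
  have hconjR : Rv θ Kt = U * R * U := by rw [hKt, Rv_conj hU2]
  -- P part
  have e1 : trace ((U * P * U) * (R' - 1)) = trace (P * (R' - 1)) := by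
    calc trace ((U * P * U) * (R' - 1)) = trace (U * (P * U * (R' - 1))) := by
          simp only [Matrix.mul_assoc]
      _ = trace ((P * U * (R' - 1)) * U) := trace_mul_comm _ _
      _ = trace (P * (U * R' * U - U * U)) := by
          rw [Matrix.mul_assoc, Matrix.mul_assoc, Matrix.sub_mul, Matrix.one_mul, Matrix.mul_sub,
            Matrix.mul_assoc]
      _ = _ := by rw [hconj, hU2]
  have e2 : LF θ τ (P + U * P * U) (K + Kt) =
      2 * trace (P * (R' - 1)) + τ * trace (R' - 1) := by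
    unfold LF
    rw [Matrix.add_mul, Matrix.add_mul, trace_add, trace_add, ← hR', e1, Matrix.smul_mul,
      Matrix.one_mul, trace_smul, smul_eq_mul]
    ring
  have e3 : LF θ τ P K = trace (P * (R - 1)) + τ * trace (R - 1) := by
    unfold LF
    rw [Matrix.add_mul, trace_add, ← hR, Matrix.smul_mul, Matrix.one_mul, trace_smul, smul_eq_mul]
  -- τ part
  have e4 : 2 * trace (R - 1) ≤ trace (R' - 1) := by
    have f1 : R' - 1 = θ • (R' * (K + Kt)) := by
      have := Rv_eq hθ hθ4 hs0 hK2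
      rw [← hR'] at this
      exact sub_eq_iff_eq_add'.mpr this
    have f2 : R - 1 = θ • (R * K) := by
      have := Rv_eq hθ hθ4 hK hK1
      rw [← hR] at this
      exact sub_eq_iff_eq_add'.mpr this
    have f3 : Rv θ Kt ≤ R' := by
      have := Rv_mono hθ hθ4 hKt0 hK (by rw [add_comm Kt K]; exact hK2)
      rwa [add_comm Kt K] at this
    have f4 : trace (R * K) ≤ trace (R' * K) := trace_mul_mono_left hRR' hK
    have f5 : trace (Rv θ Kt * Kt) ≤ trace (R' * Kt) := trace_mul_mono_left f3 hKt0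
    have f6 : trace (Rv θ Kt * Kt) = trace (R * K) := by
      rw [hconjR, hKt]
      calc trace (U * R * U * (U * K * U)) = trace (U * (R * (U * U) * K * U)) := by
            simp only [Matrix.mul_assoc]
        _ = trace ((R * (U * U) * K * U) * U) := trace_mul_comm _ _
        _ = trace (R * (U * U) * K * (U * U)) := by simp only [Matrix.mul_assoc]
        _ = _ := by rw [hU2, Matrix.mul_one, Matrix.mul_one]
    rw [f1, f2, trace_smul, trace_smul, Matrix.mul_add, trace_add, smul_eq_mul, smul_eq_mul]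
    nlinarith
  have e5 : θ * trace (P * (R * Kt * R)) ≤ trace (P * (R' - 1)) - trace (P * (R - 1)) := by
    have h1 := trace_mul_mono_right hP hadd
    rw [Matrix.mul_add, trace_add, Matrix.mul_smul, trace_smul, smul_eq_mul] at h1
    rw [Matrix.mul_sub, Matrix.mul_sub, trace_sub, trace_sub]
    linarith
  rw [e2, e3]
  have e6 := mul_le_mul_of_nonneg_left e4 hτ
  linarith

end pinch

end Crest.Agent.R079.NF
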