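import Crest.Agent.R079.NAsm_133
import Crest.Agent.R079.TriIso_378
import Crest.Agent.R079.PotMask_491

/-! R079, K-free (N), mask summation (helper133). -/

set_option autoImplicit false
set_option linter.unusedSectionVars false
set_option linter.unusedVariables false

namespace Crest.Agent.R079.NF

open Matrix Finset
open Crest.Agent.R072 Crest.Agent.R072.Nd Crest.Agent.R072.Lattice Crest.Agent.R079.Path
  Crest.Agent.R079.LD Crest.Agent.R079.Pot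
open Crest.Agent.R079.Glue (bx)
open scoped MatrixOrder

variable {Q : ℕ} [NeZero Q]

/-! ### own potentials -/

section own

/-- own potential of a function `G` on matrices -/
noncomputable def EG (G : (r : ℕ) → Matrix (Fin r) (Fin r) ℝ → ℝ) (X : ZMod Q → ZMod Q → ℝ)
    (a r : ℕ) : ℝ := ∑ p : ZMod Q, ∑ q : ZMod Q, G r (abar X a r q p)

variable {G : (r : ℕ) → Matrix (Fin r) (Fin r) ℝ → ℝ}

theorem EG_eq (X : ZMod Q → ZMod Q → ℝ) (a r : ℕ) : EG G X a r = EW ⟨G, G⟩ X a r := rfl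

theorem EG_nonneg (h : GoodPot G) (X : ZMod Q → ZMod Q → ℝ) (a r : ℕ) : 0 ≤ EG G X a r :=
  EW_nonneg (P := ⟨G, G⟩) h X a r

/-- gaps with unit shift -/
theorem own_gap (h : GoodPot G) (X : ZMod Q → ZMod Q → ℝ) {N : ℕ} (hN : 0 < N) :
    ∑ p : ZMod Q, ∑ q : ZMod Q, mgap G N (abar X N N (q + (N : ZMod Q)) p) (abar X N N q p) ≤
      2 * (EG G X N N - EG G X (N + N) (N + N)) := by
  have h1 : ∑ p : ZMod Q, ∑ q : ZMod Q,
      mgap G N (abar X N N (q + (N : ZMod Q)) p) (abar X N N q p) =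
      2 * EG G X N N - 2 * EG G X (N + N) N := by
    have hpt : ∀ p q : ZMod Q, mgap G N (abar X N N (q + (N : ZMod Q)) p) (abar X N N q p) =
        G N (abar X N N (q + (N : ZMod Q)) p) + G N (abar X N N q p) -
          2 * G N (abar X (N + N) N q p) := by
      intro p q
      unfold mgap
      rw [abar_double X hN, add_comm (abar X N N (q + (N : ZMod Q)) p)]
    have h2 : ∀ p : ZMod Q, ∑ q : ZMod Q, G N (abar X N N (q + (N : ZMod Q)) p) =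
        ∑ q : ZMod Q, G N (abar X N N q p) := fun p =>
      sum_shift (fun q => G N (abar X N N q p)) (N : ZMod Q)
    simp only [hpt, sum_sub_distrib, sum_add_distrib, ← mul_sum, h2]
    unfold EG
    ring
  have h3 := EW_double_r (P := ⟨G, G⟩) h X (a := N + N) hN
  rw [← EG_eq, ← EG_eq] at h3
  rw [h1]
  linarith

/-- pinching gains of one function -/
theorem own_gam (h : GoodPot G) (X : ZMod Q → ZMod Q → ℝ) {N : ℕ} (hN : 0 < N) :
    ∑ p : ZMod Q, ∑ q : ZMod Q, gam G N (abar X (N + N) (N + N) q p) ≤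
      2 * (EG G X N N - EG G X (N + N) (N + N)) := by
  have h1 : ∑ p : ZMod Q, ∑ q : ZMod Q, gam G N (abar X (N + N) (N + N) q p) =
      2 * EG G X (N + N) N - 2 * EG G X (N + N) (N + N) := by
    have hpt : ∀ p q : ZMod Q, gam G N (abar X (N + N) (N + N) q p) =
        G N (abar X (N + N) N q p) + G N (abar X (N + N) N q (p + N)) -
          2 * G (N + N) (abar X (N + N) (N + N) q p) := fun p q =>
      gam_abar_single G X hN q p
    have h2 : ∑ p : ZMod Q, ∑ q : ZMod Q, G N (abar X (N + N) N q (p + N)) =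
        ∑ p : ZMod Q, ∑ q : ZMod Q, G N (abar X (N + N) N q p) :=
      sum_shift (fun p => ∑ q : ZMod Q, G N (abar X (N + N) N q p)) (N : ZMod Q)
    simp only [hpt, sum_sub_distrib, sum_add_distrib, ← mul_sum]
    rw [h2]
    unfold EG
    ring
  have h3 := EW_double_a (P := ⟨G, G⟩) h X (r := N) hN
  rw [← EG_eq, ← EG_eq] at h3
  rw [h1]
  linarith

open Classical in
/-- exits of one function with budget `G` -/
noncomputable def XG (G : (r : ℕ) → Matrix (Fin r) (Fin r) ℝ → ℝ)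
    (X X' : ZMod Q → ZMod Q → ℝ) (N : ℕ) : ℝ :=
  ∑ q : ZMod Q, ∑ p : ZMod Q, if Sees X X' N q p then G N (abar X N N q p) else 0

open Classical in
/-- exits of one function, energy budget -/
noncomputable def XE (X X' : ZMod Q → ZMod Q → ℝ) (N : ℕ) : ℝ :=
  ∑ q : ZMod Q, ∑ p : ZMod Q, if Sees X X' N q p then bx X N q p else 0

theorem XE_nonneg (X X' : ZMod Q → ZMod Q → ℝ) (N : ℕ) : 0 ≤ XE X X' N := by
  classical
  unfold XE
  refine sum_nonneg fun q _ => sum_nonneg fun p _ => ?_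
  split_ifs
  · rw [← trace_abar]
    exact trace_nonneg_of_psd (abar_nn _ _ _ _ _)
  · exact le_refl _

theorem EG_touch (h : GoodPot G) (X X' : ZMod Q → ZMod Q → ℝ) (N : ℕ) :
    EG G X N N - EG G X' N N ≤ XG G X X' N := by
  classical
  unfold EG XG
  rw [sum_comm, sum_comm (f := fun p q => G N (abar X' N N q p)), ← sum_sub_distrib]
  refine sum_le_sum fun q _ => ?_
  rw [← sum_sub_distrib]
  refine sum_le_sum fun p _ => ?_
  split_ifs with hs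
  · have := h.nonneg N (abar X' N N q p) (abar_posSemidef _ _ _ _ _)
    linarith
  · rw [abar_congr hs, sub_self]

theorem EG_tele (h : GoodPot G) (h0 : ∀ r, G r 0 = 0) (X : ℕ → ZMod Q → ZMod Q → ℝ)
    (hX : X 0 = fun _ _ => 0) (M : ℕ) :
    ∑ m ∈ range M, (EG G (X (m + 1)) (2 ^ m) (2 ^ m) -
      EG G (X (m + 1)) (2 ^ m + 2 ^ m) (2 ^ m + 2 ^ m)) ≤
      ∑ m ∈ range M, XG G (X (m + 1)) (X m) (2 ^ m) := by
  have h1 := tele_diag (fun a b => EG G (X a) (2 ^ b) (2 ^ b)) M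
  have e : ∀ m : ℕ, 2 ^ m + 2 ^ m = 2 ^ (m + 1) := fun m => by ring
  simp only [e]
  rw [h1]
  have h2 : EG G (X 0) (2 ^ 0) (2 ^ 0) = 0 := by
    rw [hX]
    unfold EG
    simp [abar_zero, h0]
  have h3 := EG_nonneg h (X M) (2 ^ M) (2 ^ M)
  have h4 : ∑ m ∈ range M, (EG G (X (m + 1)) (2 ^ m) (2 ^ m) - EG G (X m) (2 ^ m) (2 ^ m)) ≤
      ∑ m ∈ range M, XG G (X (m + 1)) (X m) (2 ^ m) :=
    sum_le_sum fun m _ => EG_touch h _ _ _
  linarith

/-- log-det budgets: `t LD_t(M) ≤ tr M` -/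
theorem XG_LD_le {t : ℝ} (ht : 0 < t) (X X' : ZMod Q → ZMod Q → ℝ) (N : ℕ) :
    t * XG (fun _ M => LD t M) X X' N ≤ XE X X' N := by
  classical
  unfold XG XE
  rw [mul_sum]
  refine sum_le_sum fun q _ => ?_
  rw [mul_sum]
  refine sum_le_sum fun p _ => ?_
  split_ifs
  · have h1 := LD_le_trace ht (abar_nn X N N q p)
    have h2 := mul_le_mul_of_nonneg_left h1 ht.le
    rw [trace_abar] at h2
    refine h2.trans (le_of_eq ?_)
    field_simp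
  · simp

/-- total own gaps -/
theorem SX_sum {τ : ℝ} (hτ : 0 < τ) (k : ℕ) (X : ℕ → ZMod Q → ZMod Q → ℝ)
    (hX : X 0 = fun _ _ => 0) (M : ℕ) :
    ∑ m ∈ range M, SX τ k (X (m + 1)) (2 ^ m) ≤
      2 * (k + 1) * ∑ m ∈ range M, XE (X (m + 1)) (X m) (2 ^ m) := by
  have h1 : ∀ m : ℕ, SX τ k (X (m + 1)) (2 ^ m) ≤
      ∑ j ∈ range (k + 1), (2 ^ j * τ) * (2 * (EG (fun _ M => LD (2 ^ j * τ) M) (X (m + 1))
        (2 ^ m) (2 ^ m) - EG (fun _ M => LD (2 ^ j * τ) M) (X (m + 1)) (2 ^ m + 2 ^ m)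
          (2 ^ m + 2 ^ m))) := by
    intro m
    have e : SX τ k (X (m + 1)) (2 ^ m) = ∑ j ∈ range (k + 1), (2 ^ j * τ) *
        ∑ p : ZMod Q, ∑ q : ZMod Q, mgap (fun _ M => LD (2 ^ j * τ) M) (2 ^ m)
          (abar (X (m + 1)) (2 ^ m) (2 ^ m) (q + ((2 ^ m : ℕ) : ZMod Q)) p)
          (abar (X (m + 1)) (2 ^ m) (2 ^ m) q p) := by
      unfold SX
      simp only [mul_sum]
      rw [sum3_comm]
      rfl
    rw [e]
    refine sum_le_sum fun j _ => mul_le_mul_of_nonneg_left ?_ (by positivity)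
    exact own_gap (goodPot_LD (by positivity)) (X (m + 1)) (by positivity)
  refine (sum_le_sum fun m _ => h1 m).trans ?_
  rw [sum_comm]
  have h2 : ∀ j ∈ range (k + 1), ∑ m ∈ range M, (2 ^ j * τ) *
      (2 * (EG (fun _ M => LD (2 ^ j * τ) M) (X (m + 1)) (2 ^ m) (2 ^ m) -
        EG (fun _ M => LD (2 ^ j * τ) M) (X (m + 1)) (2 ^ m + 2 ^ m) (2 ^ m + 2 ^ m))) ≤
      2 * ∑ m ∈ range M, XE (X (m + 1)) (X m) (2 ^ m) := by
    intro j _
    have ht : 0 < 2 ^ j * τ := by positivity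
    rw [← mul_sum, ← mul_sum]
    have h3 := EG_tele (goodPot_LD ht) (fun r => Pot.LD_zero (2 ^ j * τ)) X hX M
    have h4 : (2 ^ j * τ) * (2 * ∑ m ∈ range M, (EG (fun _ M => LD (2 ^ j * τ) M) (X (m + 1))
        (2 ^ m) (2 ^ m) - EG (fun _ M => LD (2 ^ j * τ) M) (X (m + 1)) (2 ^ m + 2 ^ m)
          (2 ^ m + 2 ^ m))) ≤
        (2 ^ j * τ) * (2 * ∑ m ∈ range M,
          XG (fun _ M => LD (2 ^ j * τ) M) (X (m + 1)) (X m) (2 ^ m)) :=
      mul_le_mul_of_nonneg_left (mul_le_mul_of_nonneg_left h3 (by norm_num)) ht.le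
    refine h4.trans ?_
    rw [mul_left_comm, mul_sum]
    refine mul_le_mul_of_nonneg_left (sum_le_sum fun m _ => XG_LD_le ht _ _ _) (by norm_num)
  refine (sum_le_sum h2).trans (le_of_eq ?_)
  rw [sum_const, card_range, nsmul_eq_mul]
  push_cast
  ring

end own

/-! ### the resolvent potential with masks -/

section mask

/-- reference value -/
noncomputable def VR (θ τ : ℝ) (X Z : ZMod Q → ZMod Q → ℝ) (N : ℕ) : ℝ :=
  bl (WR θ τ X Z N N N) N (-2)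

open Classical in
/-- joint exits, energy budget `bx X + τ bx Z` -/
noncomputable def XV (τ : ℝ) (X Z X' Z' : ZMod Q → ZMod Q → ℝ) (N : ℕ) : ℝ :=
  bl (fun n => ∑ p : ZMod Q, ∑ q : ZMod Q,
    if Sees X X' N q p ∨ Sees Z Z' N (n - p - q) p then
      bx X N q p + τ * bx Z N (n - p - q) p else 0) N (-2)

theorem bx_nn (X : ZMod Q → ZMod Q → ℝ) (N : ℕ) (q p : ZMod Q) : 0 ≤ bx X N q p := by
  rw [← trace_abar]
  exact trace_nonneg_of_psd (abar_nn _ _ _ _ _)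

theorem XV_nonneg {τ : ℝ} (hτ : 0 ≤ τ) (X Z X' Z' : ZMod Q → ZMod Q → ℝ) (N : ℕ) :
    0 ≤ XV τ X Z X' Z' N := by
  classical
  refine bl_nn (fun n => sum_nonneg fun p _ => sum_nonneg fun q _ => ?_) N _
  split_ifs
  · exact add_nonneg (bx_nn _ _ _ _) (mul_nonneg hτ (bx_nn _ _ _ _))
  · exact le_refl _

theorem VR_touch {θ τ : ℝ} (hθ : 0 ≤ θ) (hθ4 : θ ≤ 1 / 4) (hτ : 0 ≤ τ)
    (X Z X' Z' : ZMod Q → ZMod Q → ℝ) (N : ℕ) (hZ : Lv Z N N) (hZ' : Lv Z' N N) :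
    VR θ τ X Z N - VR θ τ X' Z' N ≤ (4 / 3 * θ) * XV τ X Z X' Z' N := by
  classical
  unfold VR XV bl
  rw [← mul_sub, ← sum_sub_distrib, mul_left_comm]
  refine mul_le_mul_of_nonneg_left ?_ (by positivity)
  rw [mul_sum]
  refine sum_le_sum fun i _ => ?_
  unfold WR
  rw [← sum_sub_distrib, mul_sum]
  refine sum_le_sum fun p _ => ?_
  rw [← sum_sub_distrib, mul_sum]
  refine sum_le_sum fun q _ => ?_
  split_ifs with hs
  · refine (sub_le_self _ (LF_nonneg hθ hθ4 hτ (abar_nn _ _ _ _ _) (abar_nn _ _ _ _ _)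
      (hZ' _ _))).trans ?_
    refine (LF_le hθ hθ4 hτ (abar_nn _ _ _ _ _) (abar_nn _ _ _ _ _) (hZ _ _)).trans
      (le_of_eq ?_)
    rw [trace_abar, trace_abar]
  · rw [not_or] at hs
    rw [abar_congr hs.1, abar_congr hs.2, sub_self, mul_zero]

theorem Lv_zero (b r : ℕ) : Lv (fun _ _ => 0 : ZMod Q → ZMod Q → ℝ) b r := by
  intro q p
  rw [abar_zero]
  exact PosSemidef.one.nonneg

theorem Lv_up {Z : ZMod Q → ZMod Q → ℝ} {m : ℕ} (h : Lv Z (2 ^ m) (2 ^ m)) (j : ℕ) :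
    Lv Z (2 ^ (m + j)) (2 ^ (m + j)) := by
  induction j with
  | zero => simpa using h
  | succ j ih =>
    have hp : 0 < 2 ^ (m + j) := by positivity
    have := (ih.db hp).dr hp
    have e : 2 ^ (m + j) + 2 ^ (m + j) = 2 ^ (m + (j + 1)) := by ring
    rwa [e] at this

theorem VR_zero (θ τ : ℝ) (N : ℕ) :
    VR θ τ (fun _ _ => 0 : ZMod Q → ZMod Q → ℝ) (fun _ _ => 0) N = 0 := by
  unfold VR bl WR LF Rv
  simp [abar_zero]

/-- **mask summation of the resolvent gains** -/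
theorem mask_GR {θ τ : ℝ} (hθ : 0 ≤ θ) (hθ4 : θ ≤ 1 / 4) (hτ : 0 < τ)
    (X Z : ℕ → ZMod Q → ZMod Q → ℝ) (hX0 : X 0 = fun _ _ => 0) (hZ0 : Z 0 = fun _ _ => 0)
    (M k : ℕ) (hZ : ∀ m < M, Lv (Z (m + 1)) (2 ^ m) (2 ^ m))
    (hX : ∀ m < M, ∀ q p : ZMod Q, abar (X (m + 1)) (2 ^ m) (2 ^ m) q p ≤
      (2 ^ k * τ) • (1 : Matrix (Fin (2 ^ m)) (Fin (2 ^ m)) ℝ)) (l : ℤ) (hl : |l| ≤ 7) :
    ∑ m ∈ range M, bl (GR θ τ (X (m + 1)) (Z (m + 1)) (2 ^ m + 2 ^ m) (2 ^ m + 2 ^ m) (2 ^ m))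
      (2 ^ m) l ≤
      2048 * (4 / 3 * θ) * ∑ j ∈ range 3, ∑ m ∈ range M,
        XV τ (X (m + 1)) (Z (m + 1)) (X m) (Z m) (2 ^ (m + j)) +
      206158430208 * (k + 1) * ∑ m ∈ range M, XE (X (m + 1)) (X m) (2 ^ m) := by
  have h1 := sum_le_sum fun m (hm : m ∈ range M) =>
    NB_one (X := X (m + 1)) hθ hθ4 hτ (N := 2 ^ m) (by positivity) (hZ m (mem_range.mp hm)) k
      (hX m (mem_range.mp hm)) l hl
  refine h1.trans ?_
  rw [sum_add_distrib, ← mul_sum, ← mul_sum]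
  have e8 : ∀ m : ℕ, 2 ^ m + 2 ^ m + (2 ^ m + 2 ^ m) + (2 ^ m + 2 ^ m + (2 ^ m + 2 ^ m)) =
      2 ^ (m + 3) := fun m => by ring
  have h2 : ∑ m ∈ range M, (bl (WR θ τ (X (m + 1)) (Z (m + 1)) (2 ^ m) (2 ^ m) (2 ^ m)) (2 ^ m)
      (-2) - bl (WR θ τ (X (m + 1)) (Z (m + 1))
        (2 ^ m + 2 ^ m + (2 ^ m + 2 ^ m) + (2 ^ m + 2 ^ m + (2 ^ m + 2 ^ m)))
        (2 ^ m + 2 ^ m + (2 ^ m + 2 ^ m) + (2 ^ m + 2 ^ m + (2 ^ m + 2 ^ m)))
        (2 ^ m + 2 ^ m + (2 ^ m + 2 ^ m) + (2 ^ m + 2 ^ m + (2 ^ m + 2 ^ m))))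
        (2 ^ m + 2 ^ m + (2 ^ m + 2 ^ m) + (2 ^ m + 2 ^ m + (2 ^ m + 2 ^ m))) (-2)) =
      ∑ m ∈ range M, (VR θ τ (X (m + 1)) (Z (m + 1)) (2 ^ m) -
        VR θ τ (X (m + 1)) (Z (m + 1)) (2 ^ (m + 3))) := by
    refine sum_congr rfl fun m _ => ?_
    rw [e8]
    rfl
  rw [h2]
  have h3 := tele_diag_kappa (fun a b => VR θ τ (X a) (Z a) (2 ^ b)) 3 M
  rw [h3]
  -- levels of all functions
  have hlev : ∀ m ≤ M, ∀ j, Lv (Z m) (2 ^ (m + j)) (2 ^ (m + j)) := by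
    intro m hm j
    rcases Nat.eq_zero_or_pos m with h0 | h0
    · subst h0
      rw [hZ0]
      exact Lv_zero _ _
    · obtain ⟨m', rfl⟩ : ∃ m', m = m' + 1 := ⟨m - 1, by omega⟩
      have := Lv_up (hZ m' (by omega)) (1 + j)
      have e : m' + (1 + j) = m' + 1 + j := by ring
      rwa [e] at this
  have h4 : ∀ j ∈ range 3, (∑ m ∈ range M, (VR θ τ (X (m + 1)) (Z (m + 1)) (2 ^ (m + j)) -
      VR θ τ (X m) (Z m) (2 ^ (m + j))) + VR θ τ (X 0) (Z 0) (2 ^ j) -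
      VR θ τ (X M) (Z M) (2 ^ (M + j))) ≤ (4 / 3 * θ) * ∑ m ∈ range M,
        XV τ (X (m + 1)) (Z (m + 1)) (X m) (Z m) (2 ^ (m + j)) := by
    intro j _
    have a1 : VR θ τ (X 0) (Z 0) (2 ^ j) = 0 := by rw [hX0, hZ0]; exact VR_zero _ _ _
    have a2 : 0 ≤ VR θ τ (X M) (Z M) (2 ^ (M + j)) :=
      bl_nn (fun n => WR_nonneg hθ hθ4 hτ.le (hlev M le_rfl j) n) _ _
    have a3 : ∑ m ∈ range M, (VR θ τ (X (m + 1)) (Z (m + 1)) (2 ^ (m + j)) -
      VR θ τ (X m) (Z m) (2 ^ (m + j))) ≤ ∑ m ∈ range M, (4 / 3 * θ) *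
        XV τ (X (m + 1)) (Z (m + 1)) (X m) (Z m) (2 ^ (m + j)) := by
      refine sum_le_sum fun m hm => ?_
      have hm' := mem_range.mp hm
      exact VR_touch hθ hθ4 hτ.le _ _ _ _ _ (Lv_up (hZ m hm') j) (hlev m (by omega) j)
    rw [← mul_sum] at a3
    linarith
  have h5 := sum_le_sum h4
  rw [← mul_sum] at h5
  have h6 := SX_sum hτ k X hX0 M
  have h7 : 103079215104 * ∑ m ∈ range M, SX τ k (X (m + 1)) (2 ^ m) ≤
      206158430208 * (k + 1) * ∑ m ∈ range M, XE (X (m + 1)) (X m) (2 ^ m) := by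
    have := mul_le_mul_of_nonneg_left h6 (by norm_num : (0 : ℝ) ≤ 103079215104)
    refine this.trans (le_of_eq ?_)
    ring
  linarith

/-- **K-free square function with resolvents** -/
theorem mask_SQ {θ τ : ℝ} (hθ : 0 < θ) (hθ4 : θ ≤ 1 / 4) (hτ : 0 < τ)
    (X Z : ℕ → ZMod Q → ZMod Q → ℝ) (hX0 : X 0 = fun _ _ => 0) (hZ0 : Z 0 = fun _ _ => 0)
    (M k : ℕ) (hZ : ∀ m < M, Lv (Z (m + 1)) (2 ^ m) (2 ^ m))
    (hX : ∀ m < M, ∀ q p : ZMod Q, abar (X (m + 1)) (2 ^ m) (2 ^ m) q p ≤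
      (2 ^ k * τ) • (1 : Matrix (Fin (2 ^ m)) (Fin (2 ^ m)) ℝ)) (l : ℤ) (hl : |l| ≤ 7) :
    ∑ m ∈ range M, bl (SQ θ (X (m + 1)) (Z (m + 1)) (2 ^ m)) (2 ^ m) l ≤
      2048 * ∑ j ∈ range 3, ∑ m ∈ range M,
        XV τ (X (m + 1)) (Z (m + 1)) (X m) (Z m) (2 ^ (m + j)) +
      (103079215104 * (k + 1) / θ) * ∑ m ∈ range M, XE (X (m + 1)) (X m) (2 ^ m) := by
  have h1 := mask_GR hθ.le hθ4 hτ X Z hX0 hZ0 M k hZ hX l hl
  have h2 : 2 * θ * ∑ m ∈ range M, bl (SQ θ (X (m + 1)) (Z (m + 1)) (2 ^ m)) (2 ^ m) l ≤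
      ∑ m ∈ range M, bl (GR θ τ (X (m + 1)) (Z (m + 1)) (2 ^ m + 2 ^ m) (2 ^ m + 2 ^ m)
        (2 ^ m)) (2 ^ m) l := by
    rw [mul_sum]
    refine sum_le_sum fun m hm => ?_
    rw [← bl_const_mul]
    refine bl_mono (fun n => ?_) _ _
    exact SQ_le hθ.le hθ4 hτ.le (by positivity) ((hZ m (mem_range.mp hm)).db (by positivity)) n
  have h3 := h2.trans h1
  set A := ∑ j ∈ range 3, ∑ m ∈ range M,
    XV τ (X (m + 1)) (Z (m + 1)) (X m) (Z m) (2 ^ (m + j)) with hA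
  set B := ∑ m ∈ range M, XE (X (m + 1)) (X m) (2 ^ m) with hB
  set S := ∑ m ∈ range M, bl (SQ θ (X (m + 1)) (Z (m + 1)) (2 ^ m)) (2 ^ m) l with hS
  have hA0 : 0 ≤ A := sum_nonneg fun j _ => sum_nonneg fun m _ => XV_nonneg hτ.le _ _ _ _ _
  have h4 : S ≤ (2048 * (4 / 3 * θ) * A + 206158430208 * (k + 1) * B) / (2 * θ) := by
    rw [le_div_iff₀ (by positivity)]
    linarith
  refine h4.trans ?_
  have h5 : (2048 * (4 / 3 * θ) * A + 206158430208 * (k + 1) * B) / (2 * θ) =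
      2048 * (2 / 3) * A + (103079215104 * (k + 1) / θ) * B := by
    field_simp
    ring
  rw [h5]
  nlinarith

end mask

end Crest.Agent.R079.NF
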