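import Crest.Agent.R079.PotDefs_491
import Crest.Agent.R079.LogDetT_378

/-! R079, leaf PI2 (helper378): the log-det potential is a `Good` pair with constant `1`. -/

set_option autoImplicit false

namespace Crest.Agent.R079.Pot

open Matrix Finset Crest.Agent.R072 Crest.Agent.R072.Lattice Crest.Agent.R079.LD
  Crest.Agent.R079.Path Crest.Agent.R072.Nd
open scoped MatrixOrder

/-- the log-det pair at threshold `t` -/
noncomputable def potLD (t : ℝ) : TPot where
  F := fun _ M => LD t M
  E := fun _ M => LD (t / 2) M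

theorem LD_pinch {t : ℝ} (ht : 0 < t) (r : ℕ) {M : Matrix (Fin (r + r)) (Fin (r + r)) ℝ}
    (hM : M.PosSemidef) :
    LD t (M + diagonal (hsgn r) * M * diagonal (hsgn r)) = LD t (blkA r M) + LD t (blkB r M) := by
  have hA : (blkA r M).PosSemidef := (hM.submatrix _).smul (by norm_num)
  have hB : (blkB r M).PosSemidef := (hM.submatrix _).smul (by norm_num)
  have h2 : (M + diagonal (hsgn r) * M * diagonal (hsgn r)).submatrix finSumFinEquiv
      finSumFinEquiv = fromBlocks (blkA r M) 0 0 (blkB r M) := by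
    ext i j
    rw [Matrix.submatrix_apply, Matrix.add_apply, Matrix.mul_diagonal, Matrix.diagonal_mul]
    rcases i with i | i <;> rcases j with j | j
    · have h1 : ((i : ℕ)) < r := i.2
      have h1' : ((j : ℕ)) < r := j.2
      simp [hsgn, blkA, h1, h1', two_mul]
    · have h1 : ((i : ℕ)) < r := i.2
      simp [hsgn, h1]
    · have h1 : ((j : ℕ)) < r := j.2
      simp [hsgn, h1]
    · simp [hsgn, blkB, two_mul]
  rw [← LD_submatrix t finSumFinEquiv, h2, LD_fromBlocks ht hA.nonneg hB.nonneg]

theorem hsgn_symm (r : ℕ) : (diagonal (hsgn r))ᵀ = diagonal (hsgn r) := diagonal_transpose _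

theorem hsgn_sq (r : ℕ) : diagonal (hsgn r) * diagonal (hsgn r) = 1 := by
  rw [diagonal_mul_diagonal, ← diagonal_one]
  congr 1
  ext i
  exact hsgn_mul_self r i

/-- the pinching gain dominates `tr g(M) U g(M) U` -/
theorem gam_LD_ge {t : ℝ} (ht : 0 < t) (r : ℕ) {M : Matrix (Fin (r + r)) (Fin (r + r)) ℝ}
    (hM : M.PosSemidef) :
    trace (gt t M * gt t (diagonal (hsgn r) * M * diagonal (hsgn r))) ≤
      gam (fun _ M => LD t M) r M := by
  have hU : 0 ≤ diagonal (hsgn r) * M * diagonal (hsgn r) :=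
    sandwich_nonneg (hsgn_symm r) hM.nonneg
  have h := LD_superadd_gap ht hM.nonneg hU
  rw [LD_pinch ht r hM, LD_conj (hsgn_sq r)] at h
  show _ ≤ LD t (blkA r M) + LD t (blkB r M) - 2 * LD t M
  linarith

theorem goodPot_LD {t : ℝ} (ht : 0 < t) : GoodPot (fun _ M => LD t M) where
  nonneg := fun r M hM => LD_nonneg ht hM.nonneg
  supp := fun r Z hZ => by
    refine ⟨{ toFun := fun Y => trace (gt t Z * (t⁻¹ • Y))
              map_add' := fun Y Y' => by rw [smul_add, mul_add, trace_add]
              map_smul' := fun a Y => by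
                rw [smul_comm, mul_smul_comm, trace_smul, RingHom.id_apply] }, ?_⟩
    intro X hX
    have h := bregLD_nonneg ht hZ.nonneg hX.nonneg
    unfold bregLD at h
    show LD t Z + trace (gt t Z * (t⁻¹ • (X - Z))) ≤ LD t X
    linarith
  split := fun r M hM => by
    refine le_trans ?_ (gam_LD_ge ht r hM)
    have hU : 0 ≤ diagonal (hsgn r) * M * diagonal (hsgn r) :=
      sandwich_nonneg (hsgn_symm r) hM.nonneg
    exact frob_trace_mul_nonneg (gm_nonneg (inv_smul_nonneg ht hM.nonneg))
      (gm_nonneg (inv_smul_nonneg ht hU))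

/-- **(PI2)** -/
theorem instLD {t : ℝ} (ht : 0 < t) : Good (potLD t) 1 where
  c0 := zero_le_one
  F := goodPot_LD ht
  E := goodPot_LD (half_pos ht)
  mixed := fun r a₁ a₂ b₁ b₂ ha1 ha2 hb1 hb2 => by
    rw [one_mul]
    exact LD_mixed_le ht ha1.nonneg ha2.nonneg hb1.nonneg hb2.nonneg

end Crest.Agent.R079.Pot
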