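import Crest.Agent.R079.PathDisc_378
import Crest.Agent.R079.PotLD_378

/-!
# R079, leaf PN (helper378): PATH-R072 for one box, discrete path, and summed over boxes

`PathSeq x y z`, `gams`, **`Lbox_path`**.
-/

set_option autoImplicit false
set_option linter.unusedSectionVars false
set_option linter.unusedVariables false

namespace Crest.Agent.R079.Path

open Matrix Filter Topology
open Crest.Agent.R072 Crest.Agent.R072.Nd
open scoped MatrixOrder

section tail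

variable {n p : Type*} [Fintype n] [DecidableEq n] [Fintype p] [DecidableEq p]

theorem fsq_le_card (X : Matrix n p ℝ) (h : X * Xᵀ ≤ 1) : fsq X ≤ Fintype.card n := by
  rw [← trace_mul_transpose_self]
  have := trace_nonneg_of_psd (sub_nonneg.mpr h)
  rw [trace_sub, trace_one] at this
  linarith

theorem hm_le_one {M : Matrix n n ℝ} (hM : 0 ≤ M) : hm M ≤ 1 := by
  refine (hm_le_gm hM).trans ?_
  rw [← sub_nonneg]
  have : (1 : Matrix n n ℝ) - gm M = Hm M := by unfold gm; abel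
  rw [this]
  exact Hm_nonneg hM

theorem En_le_card {U M : Matrix n n ℝ} (hU : Uᵀ = U) (hU2 : U * U = 1) (hM : 0 ≤ M) :
    En U M ≤ Fintype.card n := by
  unfold En
  have h1 : U * hm M * U ≤ 1 := by
    have := le_conj (hm_le_one hM) U
    rwa [hU, Matrix.mul_one, hU2] at this
  calc trace (hm M * (U * hm M * U)) ≤ trace (hm M * 1) :=
        trace_mul_mono_right (hm_nonneg hM) h1
    _ ≤ trace (1 * (1 : Matrix n n ℝ)) :=
        trace_mul_mono_left (hm_le_one hM) (zero_le_one_mat)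
    _ = Fintype.card n := by rw [Matrix.mul_one, trace_one]
where
  zero_le_one_mat : (0 : Matrix n n ℝ) ≤ 1 := (PosSemidef.one (n := n) (R := ℝ)).nonneg

theorem tendsto_Hm_gen {ι : Type*} {l : Filter ι} {M : ι → Matrix n n ℝ} {M0 : Matrix n n ℝ}
    (h0 : ∀ s, 0 ≤ M s) (hM0 : 0 ≤ M0)
    (hc : ∀ i j, Tendsto (fun s => M s i j) l (𝓝 (M0 i j))) (i j : n) :
    Tendsto (fun s => Hm (M s) i j) l (𝓝 (Hm M0 i j)) := by
  have key : ∀ s, Hm (M s) i j - Hm M0 i j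
      = -∑ b, ∑ a, Hm (M s) i a * (M s a b - M0 a b) * Hm M0 b j := by
    intro s
    have h := congrFun (congrFun (Hm_sub hM0 (h0 s)) i) j
    rw [Matrix.sub_apply, Matrix.neg_apply, mul_apply] at h
    rw [h]
    congr 1
    refine Finset.sum_congr rfl fun b _ => ?_
    rw [mul_apply, Finset.sum_mul]
    rfl
  have h1 : Tendsto (fun s => Hm (M s) i j - Hm M0 i j) l (𝓝 0) := by
    have h2 : Tendsto (fun s => -∑ b, ∑ a, Hm (M s) i a * (M s a b - M0 a b) * Hm M0 b j) l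
        (𝓝 (-∑ _b : n, ∑ _a : n, (0 : ℝ))) := by
      refine (tendsto_finsetSum _ fun b _ => tendsto_finsetSum _ fun a _ => ?_).neg
      have h3 : Tendsto (fun s => M s a b - M0 a b) l (𝓝 0) := by
        simpa using (hc a b).sub_const (M0 a b)
      have h4 : Tendsto (fun s => Hm (M s) i a * (M s a b - M0 a b)) l (𝓝 0) := by
        refine squeeze_zero_norm (a := fun s => |M s a b - M0 a b|) (fun s => ?_) ?_
        · rw [norm_mul, Real.norm_eq_abs, Real.norm_eq_abs]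
          exact mul_le_of_le_one_left (abs_nonneg _) (Hm_entry_le (h0 s) i a)
        · simpa using h3.abs
      simpa using h4.mul_const (Hm M0 b j)
    simp only [Finset.sum_const_zero, neg_zero] at h2
    exact h2.congr fun s => (key s).symm
  simpa using h1.add_const (Hm M0 i j)

end tail

section lim

variable {ι : Type*} {l : Filter ι}

/-- entrywise limits, general index -/
def MT {m n : Type*} (X : ι → Matrix m n ℝ) (l : Filter ι) (L : Matrix m n ℝ) : Prop :=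
  ∀ i j, Tendsto (fun t => X t i j) l (𝓝 (L i j))

theorem MT.mul {m n p : Type*} [Fintype n] {X : ι → Matrix m n ℝ} {Y : ι → Matrix n p ℝ}
    {L : Matrix m n ℝ} {L' : Matrix n p ℝ} (hX : MT X l L)
    (hY : MT Y l L') : MT (fun t => X t * Y t) l (L * L') := by
  intro i k
  simp only [mul_apply]
  exact tendsto_finsetSum _ fun j _ => (hX i j).mul (hY j k)

theorem MT.const {m n : Type*} (A : Matrix m n ℝ) : MT (fun _ : ι => A) l A :=
  fun _ _ => tendsto_const_nhds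

theorem MT.trace {m : Type*} [Fintype m] {X : ι → Matrix m m ℝ}
    {L : Matrix m m ℝ} (hX : MT X l L) :
    Tendsto (fun t => Matrix.trace (X t)) l (𝓝 (Matrix.trace L)) := by
  simp only [Matrix.trace, diag_apply]
  exact tendsto_finsetSum _ fun i _ => hX i i

variable {i3 i4 i2 : Type*} [Fintype i3] [DecidableEq i3] [Fintype i4] [DecidableEq i4]
  [Fintype i2] [DecidableEq i2]

theorem MT.Pv {x z : ι → ℝ} {x0 z0 : ℝ} (hx : Tendsto x l (𝓝 x0)) (hz : Tendsto z l (𝓝 z0))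
    (A : Matrix i3 i4 ℝ) (C : Matrix i2 i3 ℝ) : MT (fun s => Pv (x s) (z s) A C) l (Pv x0 z0 A C) := by
  intro i j
  unfold Path.Pv
  simp only [Matrix.add_apply, Matrix.smul_apply, smul_eq_mul]
  exact (hx.mul_const _).add (hz.mul_const _)

theorem MT.sv {U : Matrix i3 i3 ℝ} {M : ι → Matrix i3 i3 ℝ} {M0 : Matrix i3 i3 ℝ}
    (h0 : ∀ s, 0 ≤ M s) (hM0 : 0 ≤ M0) (hM : MT M l M0) :
    MT (fun s => sv U (M s)) l (sv U M0) := by
  have h : MT (fun s => Hm (M s)) l (Hm M0) := fun i j => tendsto_Hm_gen h0 hM0 hM i j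
  exact (h.mul (MT.const U)).mul h

theorem Tt_tendsto (U3 : Matrix i3 i3 ℝ) (U4 : Matrix i4 i4 ℝ) (U2 : Matrix i2 i2 ℝ)
    (A : Matrix i3 i4 ℝ) (B : Matrix i4 i2 ℝ) (C : Matrix i2 i3 ℝ)
    {x y z : ι → ℝ} (hx : Tendsto x l (𝓝 0)) (hy : Tendsto y l (𝓝 0)) (hz : Tendsto z l (𝓝 0))
    (hx0 : ∀ s, 0 ≤ x s) (hy0 : ∀ s, 0 ≤ y s) (hz0 : ∀ s, 0 ≤ z s) :
    Tendsto (fun s => Tt U3 U4 U2 A B C (x s) (y s) (z s)) l
      (𝓝 (trace (U3 * A * U4 * B * U2 * C))) := by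
  rw [← Tt_zero]
  have p0 : (0 : ℝ) ≤ 0 := le_refl 0
  have h3 := MT.sv (U := U3) (fun s => Pv_nonneg (hx0 s) (hz0 s) A C) (Pv_nonneg p0 p0 A C)
    (MT.Pv hx hz A C)
  have h4 := MT.sv (U := U4) (fun s => Pv_nonneg (hy0 s) (hx0 s) B A) (Pv_nonneg p0 p0 B A)
    (MT.Pv hy hx B A)
  have h2 := MT.sv (U := U2) (fun s => Pv_nonneg (hz0 s) (hy0 s) C B) (Pv_nonneg p0 p0 C B)
    (MT.Pv hz hy C B)
  exact (((((h3.mul (MT.const A)).mul h4).mul (MT.const B)).mul h2).mul (MT.const C)).trace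

/-- tail bound -/
theorem Tt_tail {U3 : Matrix i3 i3 ℝ} {U4 : Matrix i4 i4 ℝ} {U2 : Matrix i2 i2 ℝ}
    (hU3 : U3ᵀ = U3) (hU4 : U4ᵀ = U4) (hU2 : U2ᵀ = U2) (hU3' : U3 * U3 = 1) (hU4' : U4 * U4 = 1)
    (hU2' : U2 * U2 = 1)
    (A : Matrix i3 i4 ℝ) (B : Matrix i4 i2 ℝ) (C : Matrix i2 i3 ℝ) {x y z : ℝ}
    (hx : 0 < x) (hy : 0 < y) (hz : 0 < z) :
    |Tt U3 U4 U2 A B C x y z| ≤
      (√x * √y * √z)⁻¹ * (√(Fintype.card i3) * √(Fintype.card i2)) := by
  set M3 := Pv x z A C with hM3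
  set M4 := Pv y x B A with hM4
  set M2 := Pv z y C B with hM2
  have p3 : 0 ≤ M3 := Pv_nonneg hx.le hz.le A C
  have p4 : 0 ≤ M4 := Pv_nonneg hy.le hx.le B A
  have p2 : 0 ≤ M2 := Pv_nonneg hz.le hy.le C B
  have sx : √x * √x = x := Real.mul_self_sqrt hx.le
  have sy : √y * √y = y := Real.mul_self_sqrt hy.le
  have sz : √z * √z = z := Real.mul_self_sqrt hz.le
  have hρ : 0 < √x * √y * √z := by positivity
  set A' := √x • A with hA'
  set B' := √y • B with hB'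
  set C' := √z • C with hC'
  have A3 : A' * A'ᵀ ≤ M3 := by
    rw [hA', transpose_smul, Matrix.smul_mul, Matrix.mul_smul, smul_smul, sx, hM3, Pv]
    exact le_add_of_nonneg_right (psd_smul' (psd_transpose_mul_self C) hz.le)
  have C2 : C' * C'ᵀ ≤ M2 := by
    rw [hC', transpose_smul, Matrix.smul_mul, Matrix.mul_smul, smul_smul, sz, hM2, Pv]
    exact le_add_of_nonneg_right (psd_smul' (psd_transpose_mul_self B) hy.le)
  have B2 : B'ᵀ * B' ≤ M2 := by
    rw [hB', transpose_smul, Matrix.smul_mul, Matrix.mul_smul, smul_smul, sy, hM2, Pv]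
    exact le_add_of_nonneg_left (psd_smul' (psd_mul_transpose_self C) hz.le)
  have e1 : Tt U3 U4 U2 A B C x y z = (√x * √y * √z)⁻¹ *
      trace ((sv U3 M3 * A') * sv U4 M4 * (B' * sv U2 M2 * C')) := by
    have : trace ((sv U3 M3 * A') * sv U4 M4 * (B' * sv U2 M2 * C'))
        = (√x * √y * √z) * Tt U3 U4 U2 A B C x y z := by
      unfold Tt
      rw [hA', hB', hC']
      simp only [Matrix.smul_mul, Matrix.mul_smul, trace_smul, smul_eq_mul, ← Matrix.mul_assoc]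
      ring
    rw [this, ← mul_assoc, inv_mul_cancel₀ hρ.ne', one_mul]
  rw [e1, abs_mul, abs_of_pos (inv_pos.mpr hρ)]
  refine mul_le_mul_of_nonneg_left ?_ (inv_pos.mpr hρ).le
  refine (abs_trace_mul_mul_le _ _ _ (sv_contraction hU4 hU4' p4)).trans ?_
  have f1 : fsq (sv U3 M3 * A') ≤ Fintype.card i3 := by
    refine fsq_le_card _ ?_
    have h1 : sv U3 M3 * A' * (sv U3 M3 * A')ᵀ
        = (Hm M3 * U3) * ((Hm M3 * A') * (Hm M3 * A')ᵀ) * (Hm M3 * U3)ᵀ := by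
      unfold sv
      simp only [transpose_mul, Matrix.mul_assoc]
    rw [h1]
    refine (le_conj (contraction_Hm_mul p3 A' A3) (Hm M3 * U3)).trans ?_
    rw [Matrix.mul_one, transpose_mul, hU3, Hm_transpose p3]
    have h3 : Hm M3 * U3 * (U3 * Hm M3) = Hm M3 * Hm M3 := by
      rw [Matrix.mul_assoc, ← Matrix.mul_assoc U3 U3, hU3', Matrix.one_mul]
    rw [h3]
    exact Hm_sq_le_one p3
  have f2 : fsq (B' * sv U2 M2 * C') ≤ Fintype.card i2 :=
    (fsq_sv_le hU2 p2 _ _ B2 C2).trans (En_le_card hU2 hU2' p2)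
  exact mul_le_mul (Real.sqrt_le_sqrt f1) (Real.sqrt_le_sqrt f2) (Real.sqrt_nonneg _)
    (Real.sqrt_nonneg _)

end lim

/-- admissible parameter sequences (`x = 1/a²`, `y = 1/b²`, `z = 1/c²`) -/
structure PathSeq (x y z : ℤ → ℝ) : Prop where
  xpos : ∀ j, 0 < x j
  ypos : ∀ j, 0 < y j
  zpos : ∀ j, 0 < z j
  xmono : ∀ j, x j ≤ x (j + 1)
  ymono : ∀ j, y j ≤ y (j + 1)
  zmono : ∀ j, z j ≤ z (j + 1)
  x4 : ∀ j, x (j + 1) ≤ 4 * x j
  y4 : ∀ j, y (j + 1) ≤ 4 * y j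
  z4 : ∀ j, z (j + 1) ≤ 4 * z j
  xbot : Tendsto x atBot (𝓝 0)
  ybot : Tendsto y atBot (𝓝 0)
  zbot : Tendsto z atBot (𝓝 0)
  top : Tendsto (fun j => x j * y j * z j) atTop atTop

section path

variable {i3 i4 i2 : Type*} [Fintype i3] [DecidableEq i3] [Fintype i4] [DecidableEq i4]
  [Fintype i2] [DecidableEq i2]

theorem Tt_telescope {U3 : Matrix i3 i3 ℝ} {U4 : Matrix i4 i4 ℝ} {U2 : Matrix i2 i2 ℝ}
    (hU3 : U3ᵀ = U3) (hU4 : U4ᵀ = U4) (hU2 : U2ᵀ = U2) (hU3' : U3 * U3 = 1) (hU4' : U4 * U4 = 1)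
    (hU2' : U2 * U2 = 1)
    (A : Matrix i3 i4 ℝ) (B : Matrix i4 i2 ℝ) (C : Matrix i2 i3 ℝ) {x y z : ℤ → ℝ}
    (hp : PathSeq x y z) (J : ℕ) :
    |Tt U3 U4 U2 A B C (x (-J)) (y (-J)) (z (-J))| ≤
      |Tt U3 U4 U2 A B C (x J) (y J) (z J)| +
      76800 * ∑ j ∈ Finset.Ico (-(J : ℤ)) J, (√(x j) * √(y j) * √(z j))⁻¹ *
        EE U3 U4 U2 A B C (x j) (y j) (z j) := by
  set T : ℤ → ℝ := fun j => Tt U3 U4 U2 A B C (x j) (y j) (z j) with hT
  have hstep : ∀ j, |T (j + 1) - T j| ≤ 76800 * ((√(x j) * √(y j) * √(z j))⁻¹ *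
        EE U3 U4 U2 A B C (x j) (y j) (z j)) := fun j =>
    Tt_step hU3 hU4 hU2 hU3' hU4' hU2' A B C (hp.xpos j) (hp.ypos j) (hp.zpos j) (hp.xmono j)
      (hp.x4 j) (hp.ymono j) (hp.y4 j) (hp.zmono j) (hp.z4 j)
  -- reindex by naturals
  have htel : ∀ (k : ℕ) (a : ℤ), |T a| ≤ |T (a + k)| +
      ∑ j ∈ Finset.Ico a (a + k), 76800 * ((√(x j) * √(y j) * √(z j))⁻¹ *
        EE U3 U4 U2 A B C (x j) (y j) (z j)) := by
    intro k a
    induction k with
    | zero => simp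
    | succ k ih =>
      have h1 : Finset.Ico a (a + ((k + 1 : ℕ) : ℤ)) = insert (a + k) (Finset.Ico a (a + k)) := by
        ext j
        simp only [Finset.mem_Ico, Finset.mem_insert]
        push_cast
        omega
      rw [h1, Finset.sum_insert (by simp)]
      have h2 := hstep (a + k)
      have h3 : |T (a + k)| ≤ |T (a + k + 1)| + |T (a + k + 1) - T (a + k)| := by
        have := abs_sub_abs_le_abs_sub (T (a + k)) (T (a + k + 1))
        rw [abs_sub_comm (T (a + k)) (T (a + k + 1))] at this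
        linarith
      have h4 : a + ((k + 1 : ℕ) : ℤ) = a + k + 1 := by push_cast; ring
      rw [h4]
      linarith
  have h := htel (J + J) (-(J : ℤ))
  have e : -(J : ℤ) + ((J + J : ℕ) : ℤ) = J := by push_cast; ring
  rw [e, ← Finset.mul_sum] at h
  exact h

end path

end Crest.Agent.R079.Path

namespace Crest.Agent.R079.Pot

open Matrix Finset Filter Topology Crest.Agent.R072 Crest.Agent.R072.Lattice Crest.Agent.R079.LD
  Crest.Agent.R079.Path Crest.Agent.R072.Nd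
open scoped MatrixOrder

variable {Q : ℕ} [NeZero Q]

theorem LD_one {n : Type*} [Fintype n] [DecidableEq n] (M : Matrix n n ℝ) : LD 1 M = LD1 M := by
  unfold LD
  rw [inv_one, one_smul]

theorem En_le_gam {N : ℕ} {M : Matrix (Fin (N + N)) (Fin (N + N)) ℝ} (hM : M.PosSemidef) :
    En (diagonal (hsgn N)) M ≤ gam (potLD 1).F N M := by
  have h1 := En_le_LD1 (hsgn_symm N) (hsgn_sq N) hM.nonneg
  have h2 := LD_pinch one_pos N hM
  rw [LD_one, LD_one, LD_one] at h2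
  show _ ≤ LD 1 (blkA N M) + LD 1 (blkB N M) - 2 * LD 1 M
  rw [LD_one, LD_one, LD_one]
  linarith

/-- the three joint pinching gains of a box at parameters `x, y, z` -/
noncomputable def gams (F0 F1 F2 : ZMod Q → ZMod Q → ℝ) (N : ℕ) (p0 p1 p2 : ZMod Q)
    (x y z : ℝ) : ℝ :=
  gam (potLD 1).F N (x • abar (fun u v => F0 v u) (N + N) (N + N) p1 p0 +
      z • abar F2 (N + N) (N + N) p2 p0) +
  gam (potLD 1).F N (y • abar (fun u v => F1 v u) (N + N) (N + N) p2 p1 +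
      x • abar F0 (N + N) (N + N) p0 p1) +
  gam (potLD 1).F N (z • abar (fun u v => F2 v u) (N + N) (N + N) p0 p2 +
      y • abar F1 (N + N) (N + N) p1 p2)

theorem smul_abar {x : ℝ} (hx : 0 ≤ x) (X : ZMod Q → ZMod Q → ℝ) (a r : ℕ) (q p : ZMod Q) :
    x • abar X a r q p = abar (fun u v => √x * X u v) a r q p := by
  ext j j'
  simp only [abar, Matrix.smul_apply, smul_eq_mul]
  rw [← mul_assoc, mul_comm x, mul_assoc, Finset.mul_sum]
  congr 1
  refine Finset.sum_congr rfl fun i _ => ?_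
  have := Real.mul_self_sqrt hx
  linear_combination (-X (q + (i : ZMod Q)) (p + ((j : ℕ) : ZMod Q)) *
      X (q + (i : ZMod Q)) (p + ((j' : ℕ) : ZMod Q))) * this

/-- normalised block -/
noncomputable def nb (F : ZMod Q → ZMod Q → ℝ) (N : ℕ) (p q : ZMod Q) :
    Matrix (Fin (N + N)) (Fin (N + N)) ℝ := (((N : ℝ) + N)⁻¹) • blkm F (N + N) p q

theorem nb_transpose_mul (F : ZMod Q → ZMod Q → ℝ) {N : ℕ} (hN : 0 < N) (p q : ZMod Q) :
    (nb F N q p)ᵀ * nb F N q p = abar F (N + N) (N + N) q p := by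
  have hc : ((N : ℝ) + N) ≠ 0 := by positivity
  unfold nb
  rw [transpose_smul, Matrix.smul_mul, Matrix.mul_smul, smul_smul,
    transpose_mul_blkm F (by omega : 0 < N + N), smul_smul]
  push_cast
  rw [show ((N : ℝ) + N)⁻¹ * ((N : ℝ) + N)⁻¹ * ((N : ℝ) + N) ^ 2 = 1 by field_simp, one_smul]

theorem nb_mul_transpose (F : ZMod Q → ZMod Q → ℝ) {N : ℕ} (hN : 0 < N) (p q : ZMod Q) :
    nb F N p q * (nb F N p q)ᵀ = abar (fun x y => F y x) (N + N) (N + N) q p := by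
  have hc : ((N : ℝ) + N) ≠ 0 := by positivity
  unfold nb
  rw [transpose_smul, Matrix.smul_mul, Matrix.mul_smul, smul_smul,
    mul_transpose_blkm F (by omega : 0 < N + N), smul_smul]
  push_cast
  rw [show ((N : ℝ) + N)⁻¹ * ((N : ℝ) + N)⁻¹ * ((N : ℝ) + N) ^ 2 = 1 by field_simp, one_smul]

theorem Lbox_nb (F0 F1 F2 : ZMod Q → ZMod Q → ℝ) {N : ℕ} (hN : 0 < N) (p0 p1 p2 : ZMod Q) :
    Lbox F0 F1 F2 N p0 p1 p2 =
      trace (diagonal (hsgn N) * nb F0 N p0 p1 * diagonal (hsgn N) * nb F1 N p1 p2 *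
        diagonal (hsgn N) * nb F2 N p2 p0) := by
  rw [Lbox_eq]
  unfold nb
  simp only [Matrix.mul_smul, Matrix.smul_mul, trace_smul, smul_eq_mul]
  rw [one_div]
  ring

theorem EE_le_gams (F0 F1 F2 : ZMod Q → ZMod Q → ℝ) {N : ℕ} (hN : 0 < N) (p0 p1 p2 : ZMod Q)
    {x y z : ℝ} (hx : 0 ≤ x) (hy : 0 ≤ y) (hz : 0 ≤ z) :
    Path.EE (diagonal (hsgn N)) (diagonal (hsgn N)) (diagonal (hsgn N)) (nb F0 N p0 p1)
      (nb F1 N p1 p2) (nb F2 N p2 p0) x y z ≤ gams F0 F1 F2 N p0 p1 p2 x y z := by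
  unfold Path.EE gams
  have h3 := En_le_gam (N := N) (Matrix.nonneg_iff_posSemidef.mp
    (Pv_nonneg hx hz (nb F0 N p0 p1) (nb F2 N p2 p0)))
  have h4 := En_le_gam (N := N) (Matrix.nonneg_iff_posSemidef.mp
    (Pv_nonneg hy hx (nb F1 N p1 p2) (nb F0 N p0 p1)))
  have h2 := En_le_gam (N := N) (Matrix.nonneg_iff_posSemidef.mp
    (Pv_nonneg hz hy (nb F2 N p2 p0) (nb F1 N p1 p2)))
  have e3 : Pv x z (nb F0 N p0 p1) (nb F2 N p2 p0) =
      x • abar (fun u v => F0 v u) (N + N) (N + N) p1 p0 + z • abar F2 (N + N) (N + N) p2 p0 := by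
    unfold Pv
    rw [nb_mul_transpose F0 hN, nb_transpose_mul F2 hN]
  have e4 : Pv y x (nb F1 N p1 p2) (nb F0 N p0 p1) =
      y • abar (fun u v => F1 v u) (N + N) (N + N) p2 p1 + x • abar F0 (N + N) (N + N) p0 p1 := by
    unfold Pv
    rw [nb_mul_transpose F1 hN, nb_transpose_mul F0 hN]
  have e2 : Pv z y (nb F2 N p2 p0) (nb F1 N p1 p2) =
      z • abar (fun u v => F2 v u) (N + N) (N + N) p0 p2 + y • abar F1 (N + N) (N + N) p1 p2 := by
    unfold Pv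
    rw [nb_mul_transpose F2 hN, nb_transpose_mul F1 hN]
  rw [← e3, ← e4, ← e2]
  linarith

/-- **(PN)** path bound for a finite family of boxes (functions, sides and corners may depend on
the box), with weights. -/
theorem Lbox_path {ι : Type*} (S : Finset ι) (w : ι → ℝ) (hw : ∀ i ∈ S, 0 ≤ w i)
    (F0 F1 F2 : ι → ZMod Q → ZMod Q → ℝ) (N : ι → ℕ) (hN : ∀ i ∈ S, 0 < N i)
    (p0 p1 p2 : ι → ZMod Q) {x y z : ℤ → ℝ} (hp : PathSeq x y z) (B : ℝ)
    (hB : ∀ J : ℕ, ∑ j ∈ Finset.Ico (-(J : ℤ)) J, (√(x j) * √(y j) * √(z j))⁻¹ *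
      ∑ i ∈ S, w i * gams (F0 i) (F1 i) (F2 i) (N i) (p0 i) (p1 i) (p2 i) (x j) (y j) (z j) ≤ B) :
    ∑ i ∈ S, w i * |Lbox (F0 i) (F1 i) (F2 i) (N i) (p0 i) (p1 i) (p2 i)| ≤ 76800 * B := by
  -- interpolants
  set T : ι → ℤ → ℝ := fun i j => Tt (diagonal (hsgn (N i))) (diagonal (hsgn (N i)))
    (diagonal (hsgn (N i))) (nb (F0 i) (N i) (p0 i) (p1 i)) (nb (F1 i) (N i) (p1 i) (p2 i))
    (nb (F2 i) (N i) (p2 i) (p0 i)) (x j) (y j) (z j) with hT
  set L : ι → ℝ := fun i => Lbox (F0 i) (F1 i) (F2 i) (N i) (p0 i) (p1 i) (p2 i) with hL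
  have hbot : ∀ i ∈ S, Tendsto (fun J : ℕ => T i (-(J : ℤ))) atTop (𝓝 (L i)) := by
    intro i hi
    have h := Tt_tendsto (l := atBot) (diagonal (hsgn (N i))) (diagonal (hsgn (N i)))
      (diagonal (hsgn (N i))) (nb (F0 i) (N i) (p0 i) (p1 i)) (nb (F1 i) (N i) (p1 i) (p2 i))
      (nb (F2 i) (N i) (p2 i) (p0 i)) hp.xbot hp.ybot hp.zbot (fun j => (hp.xpos j).le)
      (fun j => (hp.ypos j).le) (fun j => (hp.zpos j).le)
    rw [← Lbox_nb _ _ _ (hN i hi)] at h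
    exact h.comp (tendsto_neg_atTop_atBot.comp tendsto_natCast_atTop_atTop)
  have htop : ∀ i ∈ S, Tendsto (fun J : ℕ => |T i (J : ℤ)|) atTop (𝓝 0) := by
    intro i hi
    refine squeeze_zero (g := fun J : ℕ => (√(x J * y J * z J))⁻¹ *
      (√(Fintype.card (Fin (N i + N i))) * √(Fintype.card (Fin (N i + N i))))) ?_ ?_ ?_
    · intro J; exact abs_nonneg _
    · intro J
      have h := Tt_tail (hsgn_symm (N i)) (hsgn_symm (N i)) (hsgn_symm (N i)) (hsgn_sq (N i))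
        (hsgn_sq (N i)) (hsgn_sq (N i)) (nb (F0 i) (N i) (p0 i) (p1 i))
        (nb (F1 i) (N i) (p1 i) (p2 i)) (nb (F2 i) (N i) (p2 i) (p0 i)) (hp.xpos J) (hp.ypos J)
        (hp.zpos J)
      rw [Real.sqrt_mul (mul_pos (hp.xpos J) (hp.ypos J)).le, Real.sqrt_mul (hp.xpos J).le]
      exact h
    · have h1 : Tendsto (fun J : ℕ => √(x J * y J * z J)) atTop atTop :=
        Real.tendsto_sqrt_atTop.comp (hp.top.comp tendsto_natCast_atTop_atTop)
      simpa using h1.inv_tendsto_atTop.mul_const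
        (√(Fintype.card (Fin (N i + N i)) : ℝ) * √(Fintype.card (Fin (N i + N i)) : ℝ))
  have hmain : ∀ J : ℕ, ∑ i ∈ S, w i * |T i (-(J : ℤ))| ≤
      ∑ i ∈ S, w i * |T i (J : ℤ)| + 76800 * B := by
    intro J
    have h1 : ∀ i ∈ S, w i * |T i (-(J : ℤ))| ≤ w i * |T i (J : ℤ)| + 76800 *
        ∑ j ∈ Finset.Ico (-(J : ℤ)) J, (√(x j) * √(y j) * √(z j))⁻¹ *
          (w i * gams (F0 i) (F1 i) (F2 i) (N i) (p0 i) (p1 i) (p2 i) (x j) (y j) (z j)) := by
      intro i hi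
      have h2 := Tt_telescope (hsgn_symm (N i)) (hsgn_symm (N i)) (hsgn_symm (N i))
        (hsgn_sq (N i)) (hsgn_sq (N i)) (hsgn_sq (N i)) (nb (F0 i) (N i) (p0 i) (p1 i))
        (nb (F1 i) (N i) (p1 i) (p2 i)) (nb (F2 i) (N i) (p2 i) (p0 i)) hp J
      have h3 : ∑ j ∈ Finset.Ico (-(J : ℤ)) J, (√(x j) * √(y j) * √(z j))⁻¹ *
          Path.EE (diagonal (hsgn (N i))) (diagonal (hsgn (N i))) (diagonal (hsgn (N i)))
            (nb (F0 i) (N i) (p0 i) (p1 i)) (nb (F1 i) (N i) (p1 i) (p2 i))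
            (nb (F2 i) (N i) (p2 i) (p0 i)) (x j) (y j) (z j) ≤
          ∑ j ∈ Finset.Ico (-(J : ℤ)) J, (√(x j) * √(y j) * √(z j))⁻¹ *
            gams (F0 i) (F1 i) (F2 i) (N i) (p0 i) (p1 i) (p2 i) (x j) (y j) (z j) := by
        refine Finset.sum_le_sum fun j _ => mul_le_mul_of_nonneg_left
          (EE_le_gams _ _ _ (hN i hi) _ _ _ (hp.xpos j).le (hp.ypos j).le (hp.zpos j).le)
          (by positivity)
      have h4 : w i * |T i (-(J : ℤ))| ≤ w i * (|T i (J : ℤ)| + 76800 *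
          ∑ j ∈ Finset.Ico (-(J : ℤ)) J, (√(x j) * √(y j) * √(z j))⁻¹ *
            gams (F0 i) (F1 i) (F2 i) (N i) (p0 i) (p1 i) (p2 i) (x j) (y j) (z j)) := by
        refine mul_le_mul_of_nonneg_left (h2.trans ?_) (hw i hi)
        linarith
      refine h4.trans (le_of_eq ?_)
      rw [mul_add]
      congr 1
      rw [mul_left_comm, Finset.mul_sum]
      congr 1
      refine Finset.sum_congr rfl fun j _ => ?_
      ring
    refine (Finset.sum_le_sum h1).trans ?_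
    rw [Finset.sum_add_distrib, ← Finset.mul_sum, Finset.sum_comm]
    have h5 := hB J
    have h6 : ∑ j ∈ Finset.Ico (-(J : ℤ)) J, ∑ i ∈ S, (√(x j) * √(y j) * √(z j))⁻¹ *
          (w i * gams (F0 i) (F1 i) (F2 i) (N i) (p0 i) (p1 i) (p2 i) (x j) (y j) (z j)) =
        ∑ j ∈ Finset.Ico (-(J : ℤ)) J, (√(x j) * √(y j) * √(z j))⁻¹ *
      ∑ i ∈ S, w i * gams (F0 i) (F1 i) (F2 i) (N i) (p0 i) (p1 i) (p2 i) (x j) (y j) (z j) := by
      refine Finset.sum_congr rfl fun j _ => ?_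
      rw [Finset.mul_sum]
    rw [h6]
    linarith
  have hlim1 : Tendsto (fun J : ℕ => ∑ i ∈ S, w i * |T i (-(J : ℤ))|) atTop
      (𝓝 (∑ i ∈ S, w i * |L i|)) :=
    tendsto_finsetSum _ fun i hi => ((hbot i hi).abs).const_mul _
  have hlim2 : Tendsto (fun J : ℕ => ∑ i ∈ S, w i * |T i (J : ℤ)| + 76800 * B) atTop
      (𝓝 (∑ i ∈ S, w i * 0 + 76800 * B)) :=
    (tendsto_finsetSum _ fun i hi => (htop i hi).const_mul _).add_const _
  have h := le_of_tendsto_of_tendsto' hlim1 hlim2 hmain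
  simpa using h

end Crest.Agent.R079.Pot
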