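import Crest.Agent.R079.PathNode_378

/-!
# R079: PATH-R072, node level, part 3: the interpolant and its derivative (helper378)

`Pv x z A C = x A Aᵀ + z Cᵀ C`, `Tt x y z = tr (s3 A s4 B s2 C)`, `s_v = H_v U_v H_v`,
`H_v = (1+M_v)⁻¹`, `M_3 = Pv x z A C`, `M_4 = Pv y x B A`, `M_2 = Pv z y C B`.
At `x=y=z=0` it is `tr (U3 A U4 B U2 C)`.
-/

set_option autoImplicit false
set_option linter.unusedSectionVars false
set_option linter.unusedVariables false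

namespace Crest.Agent.R079.Path

open Matrix Filter Topology
open Crest.Agent.R072 Crest.Agent.R072.Nd
open scoped MatrixOrder

variable {i3 i4 i2 : Type*} [Fintype i3] [DecidableEq i3] [Fintype i4] [DecidableEq i4]
  [Fintype i2] [DecidableEq i2]

/-- vertex matrix -/
noncomputable def Pv (x z : ℝ) (A : Matrix i3 i4 ℝ) (C : Matrix i2 i3 ℝ) : Matrix i3 i3 ℝ :=
  x • (A * Aᵀ) + z • (Cᵀ * C)

/-- the interpolant -/
noncomputable def Tt (U3 : Matrix i3 i3 ℝ) (U4 : Matrix i4 i4 ℝ) (U2 : Matrix i2 i2 ℝ)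
    (A : Matrix i3 i4 ℝ) (B : Matrix i4 i2 ℝ) (C : Matrix i2 i3 ℝ) (x y z : ℝ) : ℝ :=
  trace (sv U3 (Pv x z A C) * A * sv U4 (Pv y x B A) * B * sv U2 (Pv z y C B) * C)

/-- the total energy -/
noncomputable def EE (U3 : Matrix i3 i3 ℝ) (U4 : Matrix i4 i4 ℝ) (U2 : Matrix i2 i2 ℝ)
    (A : Matrix i3 i4 ℝ) (B : Matrix i4 i2 ℝ) (C : Matrix i2 i3 ℝ) (x y z : ℝ) : ℝ :=
  En U3 (Pv x z A C) + En U4 (Pv y x B A) + En U2 (Pv z y C B)

theorem psd_smul' {n : Type*} [Fintype n] [DecidableEq n] {P : Matrix n n ℝ} (hP : 0 ≤ P) {c : ℝ}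
    (hc : 0 ≤ c) : 0 ≤ c • P :=
  ((Matrix.nonneg_iff_posSemidef.mp hP).smul hc).nonneg

theorem Pv_nonneg {x z : ℝ} (hx : 0 ≤ x) (hz : 0 ≤ z) (A : Matrix i3 i4 ℝ) (C : Matrix i2 i3 ℝ) :
    0 ≤ Pv x z A C :=
  add_nonneg (psd_smul' (psd_mul_transpose_self A) hx) (psd_smul' (psd_transpose_mul_self C) hz)

theorem Hm_zero : Hm (0 : Matrix i3 i3 ℝ) = 1 := by
  unfold Hm
  rw [add_zero, inv_one]

theorem Tt_zero (U3 : Matrix i3 i3 ℝ) (U4 : Matrix i4 i4 ℝ) (U2 : Matrix i2 i2 ℝ)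
    (A : Matrix i3 i4 ℝ) (B : Matrix i4 i2 ℝ) (C : Matrix i2 i3 ℝ) :
    Tt U3 U4 U2 A B C 0 0 0 = trace (U3 * A * U4 * B * U2 * C) := by
  unfold Tt Pv sv
  simp only [zero_smul, add_zero, Hm_zero, Matrix.one_mul, Matrix.mul_one]

theorem Tt_rot (U3 : Matrix i3 i3 ℝ) (U4 : Matrix i4 i4 ℝ) (U2 : Matrix i2 i2 ℝ)
    (A : Matrix i3 i4 ℝ) (B : Matrix i4 i2 ℝ) (C : Matrix i2 i3 ℝ) (x y z : ℝ) :
    Tt U3 U4 U2 A B C x y z = Tt U4 U2 U3 B C A y z x := by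
  unfold Tt
  rw [show sv U3 (Pv x z A C) * A * sv U4 (Pv y x B A) * B * sv U2 (Pv z y C B) * C
    = (sv U3 (Pv x z A C) * A) * (sv U4 (Pv y x B A) * B * sv U2 (Pv z y C B) * C) by
      simp only [Matrix.mul_assoc], trace_mul_comm]
  simp only [Matrix.mul_assoc]

theorem EE_rot (U3 : Matrix i3 i3 ℝ) (U4 : Matrix i4 i4 ℝ) (U2 : Matrix i2 i2 ℝ)
    (A : Matrix i3 i4 ℝ) (B : Matrix i4 i2 ℝ) (C : Matrix i2 i3 ℝ) (x y z : ℝ) :
    EE U3 U4 U2 A B C x y z = EE U4 U2 U3 B C A y z x := by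
  unfold EE
  ring

theorem EE_nonneg {U3 : Matrix i3 i3 ℝ} {U4 : Matrix i4 i4 ℝ} {U2 : Matrix i2 i2 ℝ}
    (hU3 : U3ᵀ = U3) (hU4 : U4ᵀ = U4) (hU2 : U2ᵀ = U2)
    (A : Matrix i3 i4 ℝ) (B : Matrix i4 i2 ℝ) (C : Matrix i2 i3 ℝ) {x y z : ℝ}
    (hx : 0 ≤ x) (hy : 0 ≤ y) (hz : 0 ≤ z) : 0 ≤ EE U3 U4 U2 A B C x y z :=
  add_nonneg (add_nonneg (En_nonneg hU3 (Pv_nonneg hx hz A C)) (En_nonneg hU4 (Pv_nonneg hy hx B A)))
    (En_nonneg hU2 (Pv_nonneg hz hy C B))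

/-- vertex contribution to the derivative -/
noncomputable def dsv (U M M' : Matrix i3 i3 ℝ) : Matrix i3 i3 ℝ :=
  -(Hm M * M' * sv U M + sv U M * M' * Hm M)

theorem MDeriv.sv' {U : Matrix i3 i3 ℝ} {M : ℝ → Matrix i3 i3 ℝ} {M' : Matrix i3 i3 ℝ} {t : ℝ}
    (hM : MDeriv M M' t) (h0 : ∀ s, 0 ≤ M s) :
    MDeriv (fun s => sv U (M s)) (dsv U (M t) M') t := by
  have h1 := MDeriv.Hm' hM h0
  have h2 := (h1.mul_const U).mul h1
  have e : -(Hm (M t) * M' * Hm (M t)) * U * Hm (M t)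
      + Hm (M t) * U * -(Hm (M t) * M' * Hm (M t)) = dsv U (M t) M' := by
    unfold dsv sv
    noncomm_ring
  rw [e] at h2
  exact h2

theorem MDeriv.Pv' {x z : ℝ → ℝ} {x' z' t : ℝ} (hx : HasDerivAt x x' t) (hz : HasDerivAt z z' t)
    (A : Matrix i3 i4 ℝ) (C : Matrix i2 i3 ℝ) :
    MDeriv (fun s => Pv (x s) (z s) A C) (Pv x' z' A C) t := by
  intro i j
  unfold Pv
  simp only [Matrix.add_apply, Matrix.smul_apply, smul_eq_mul]
  exact (hx.mul_const _).add (hz.mul_const _)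

/-- vertex term -/
noncomputable def vt (U3 : Matrix i3 i3 ℝ) (U4 : Matrix i4 i4 ℝ) (U2 : Matrix i2 i2 ℝ)
    (A : Matrix i3 i4 ℝ) (B : Matrix i4 i2 ℝ) (C : Matrix i2 i3 ℝ) (x y z x' z' : ℝ) : ℝ :=
  trace (dsv U3 (Pv x z A C) (Pv x' z' A C) * A * sv U4 (Pv y x B A) * B * sv U2 (Pv z y C B) * C)

theorem Tt_hasDerivAt (U3 : Matrix i3 i3 ℝ) (U4 : Matrix i4 i4 ℝ) (U2 : Matrix i2 i2 ℝ)
    (A : Matrix i3 i4 ℝ) (B : Matrix i4 i2 ℝ) (C : Matrix i2 i3 ℝ)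
    {x y z : ℝ → ℝ} {x' y' z' t : ℝ} (hx : HasDerivAt x x' t) (hy : HasDerivAt y y' t)
    (hz : HasDerivAt z z' t) (hx0 : ∀ s, 0 ≤ x s) (hy0 : ∀ s, 0 ≤ y s) (hz0 : ∀ s, 0 ≤ z s) :
    HasDerivAt (fun s => Tt U3 U4 U2 A B C (x s) (y s) (z s))
      (vt U3 U4 U2 A B C (x t) (y t) (z t) x' z' + vt U4 U2 U3 B C A (y t) (z t) (x t) y' x'
        + vt U2 U3 U4 C A B (z t) (x t) (y t) z' y') t := by
  have h3 := MDeriv.sv' (U := U3) (MDeriv.Pv' hx hz A C)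
    (fun s => Pv_nonneg (hx0 s) (hz0 s) A C)
  have h4 := MDeriv.sv' (U := U4) (MDeriv.Pv' hy hx B A)
    (fun s => Pv_nonneg (hy0 s) (hx0 s) B A)
  have h2 := MDeriv.sv' (U := U2) (MDeriv.Pv' hz hy C B)
    (fun s => Pv_nonneg (hz0 s) (hy0 s) C B)
  have h := ((((((h3.mul_const A).mul h4).mul_const B).mul h2).mul_const C)).trace
  refine h.congr_deriv ?_
  set S3 := sv U3 (Pv (x t) (z t) A C)
  set S4 := sv U4 (Pv (y t) (x t) B A)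
  set S2 := sv U2 (Pv (z t) (y t) C B)
  unfold vt
  set D3 := dsv U3 (Pv (x t) (z t) A C) (Pv x' z' A C)
  set D4 := dsv U4 (Pv (y t) (x t) B A) (Pv y' x' B A)
  set D2 := dsv U2 (Pv (z t) (y t) C B) (Pv z' y' C B)
  have e2 : trace (D4 * B * S2 * C * S3 * A) = trace (S3 * A * D4 * B * S2 * C) := by
    rw [show D4 * B * S2 * C * S3 * A = (D4 * B * S2 * C) * (S3 * A) by
      simp only [Matrix.mul_assoc], trace_mul_comm]
    simp only [Matrix.mul_assoc]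
  have e3 : trace (D2 * C * S3 * A * S4 * B) = trace (S3 * A * S4 * B * D2 * C) := by
    rw [show D2 * C * S3 * A * S4 * B = (D2 * C) * (S3 * A * S4 * B) by
      simp only [Matrix.mul_assoc], trace_mul_comm]
    simp only [Matrix.mul_assoc]
  rw [e2, e3]
  simp only [Matrix.add_mul, trace_add]
  rfl

/-- bound of the vertex term -/
theorem vt_le {U3 : Matrix i3 i3 ℝ} {U4 : Matrix i4 i4 ℝ} {U2 : Matrix i2 i2 ℝ}
    (hU3 : U3ᵀ = U3) (hU4 : U4ᵀ = U4) (hU2 : U2ᵀ = U2) (hU3' : U3 * U3 = 1) (hU4' : U4 * U4 = 1)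
    (hU2' : U2 * U2 = 1)
    (A : Matrix i3 i4 ℝ) (B : Matrix i4 i2 ℝ) (C : Matrix i2 i3 ℝ) {x y z : ℝ}
    (hx : 0 < x) (hy : 0 < y) (hz : 0 < z) (x' z' : ℝ) :
    |vt U3 U4 U2 A B C x y z x' z'| ≤
      (|x'| / x + |z'| / z) * ((√x * √y * √z)⁻¹ * EE U3 U4 U2 A B C x y z) := by
  set M3 := Pv x z A C with hM3
  set M4 := Pv y x B A with hM4
  set M2 := Pv z y C B with hM2
  have p3 : 0 ≤ M3 := Pv_nonneg hx.le hz.le A C
  have p4 : 0 ≤ M4 := Pv_nonneg hy.le hx.le B A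
  have p2 : 0 ≤ M2 := Pv_nonneg hz.le hy.le C B
  have sx : √x * √x = x := Real.mul_self_sqrt hx.le
  have sy : √y * √y = y := Real.mul_self_sqrt hy.le
  have sz : √z * √z = z := Real.mul_self_sqrt hz.le
  have hρ : 0 < √x * √y * √z := by positivity
  -- hat matrices
  set A' := √x • A with hA'
  set B' := √y • B with hB'
  set C' := √z • C with hC'
  have a1 : A' * A'ᵀ = x • (A * Aᵀ) := by
    rw [hA', transpose_smul, Matrix.smul_mul, Matrix.mul_smul, smul_smul, sx]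
  have a2 : A'ᵀ * A' = x • (Aᵀ * A) := by
    rw [hA', transpose_smul, Matrix.smul_mul, Matrix.mul_smul, smul_smul, sx]
  have b1 : B' * B'ᵀ = y • (B * Bᵀ) := by
    rw [hB', transpose_smul, Matrix.smul_mul, Matrix.mul_smul, smul_smul, sy]
  have b2 : B'ᵀ * B' = y • (Bᵀ * B) := by
    rw [hB', transpose_smul, Matrix.smul_mul, Matrix.mul_smul, smul_smul, sy]
  have c1 : C' * C'ᵀ = z • (C * Cᵀ) := by
    rw [hC', transpose_smul, Matrix.smul_mul, Matrix.mul_smul, smul_smul, sz]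
  have c2 : C'ᵀ * C' = z • (Cᵀ * C) := by
    rw [hC', transpose_smul, Matrix.smul_mul, Matrix.mul_smul, smul_smul, sz]
  have A3 : A' * A'ᵀ ≤ M3 := by
    rw [a1, hM3, Pv]
    exact le_add_of_nonneg_right (psd_smul' (psd_transpose_mul_self C) hz.le)
  have C3 : C'ᵀ * C' ≤ M3 := by
    rw [c2, hM3, Pv]
    exact le_add_of_nonneg_left (psd_smul' (psd_mul_transpose_self A) hx.le)
  have B4 : B' * B'ᵀ ≤ M4 := by
    rw [b1, hM4, Pv]
    exact le_add_of_nonneg_right (psd_smul' (psd_transpose_mul_self A) hx.le)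
  have A4 : A'ᵀ * A' ≤ M4 := by
    rw [a2, hM4, Pv]
    exact le_add_of_nonneg_left (psd_smul' (psd_mul_transpose_self B) hy.le)
  have C2 : C' * C'ᵀ ≤ M2 := by
    rw [c1, hM2, Pv]
    exact le_add_of_nonneg_right (psd_smul' (psd_transpose_mul_self B) hy.le)
  have B2 : B'ᵀ * B' ≤ M2 := by
    rw [b2, hM2, Pv]
    exact le_add_of_nonneg_left (psd_smul' (psd_mul_transpose_self C) hz.le)
  -- the four terms
  have t1 := term_le U3 M3 U4 M4 U2 M2 hU3 hU4 hU2 hU3' hU4' hU2' p3 p4 p2 A' B' C' A' A3 C2 B2 A3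
  have t2 := term_le U3 M3 U4 M4 U2 M2 hU3 hU4 hU2 hU3' hU4' hU2' p3 p4 p2 A' B' C' C'ᵀ A3 C2 B2
    (by rwa [transpose_transpose])
  have t3 := term_le' U3 M3 U4 M4 U2 M2 hU3 hU4 hU2 hU3' hU4' hU2' p3 p4 p2 A' B' C' A' C3 A4 B4 A3
  have t4 := term_le' U3 M3 U4 M4 U2 M2 hU3 hU4 hU2 hU3' hU4' hU2' p3 p4 p2 A' B' C' C'ᵀ C3 A4 B4
    (by rwa [transpose_transpose])
  rw [transpose_transpose] at t2 t4
  -- unscaled traces
  set ρ := √x * √y * √z with hρd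
  have k1 : ∀ (X Y : Matrix i3 i3 ℝ) (W : Matrix i3 i3 ℝ) (c : ℝ),
      trace (X * (c • W) * Y * A' * sv U4 M4 * B' * sv U2 M2 * C')
        = c * ρ * trace (X * W * Y * A * sv U4 M4 * B * sv U2 M2 * C) := by
    intro X Y W c
    rw [hA', hB', hC']
    simp only [Matrix.smul_mul, Matrix.mul_smul, trace_smul, smul_eq_mul]
    rw [hρd]
    ring
  rw [a1, k1] at t1
  rw [c2, k1] at t2
  rw [a1, k1] at t3
  rw [c2, k1] at t4
  set E := En U3 M3 + En U4 M4 + En U2 M2 with hE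
  have hEE : EE U3 U4 U2 A B C x y z = E := rfl
  -- expand vt
  have ev : vt U3 U4 U2 A B C x y z x' z' =
      -(x' * trace (Hm M3 * (A * Aᵀ) * sv U3 M3 * A * sv U4 M4 * B * sv U2 M2 * C)
        + z' * trace (Hm M3 * (Cᵀ * C) * sv U3 M3 * A * sv U4 M4 * B * sv U2 M2 * C)
        + x' * trace (sv U3 M3 * (A * Aᵀ) * Hm M3 * A * sv U4 M4 * B * sv U2 M2 * C)
        + z' * trace (sv U3 M3 * (Cᵀ * C) * Hm M3 * A * sv U4 M4 * B * sv U2 M2 * C)) := by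
    unfold vt dsv
    rw [← hM3, ← hM4, ← hM2, show Pv x' z' A C = x' • (A * Aᵀ) + z' • (Cᵀ * C) from rfl]
    simp only [Matrix.neg_mul, Matrix.add_mul, Matrix.mul_add, Matrix.smul_mul, Matrix.mul_smul,
      trace_neg, trace_add, trace_smul, smul_eq_mul]
    ring
  rw [ev, hEE, abs_neg]
  set τ1 := trace (Hm M3 * (A * Aᵀ) * sv U3 M3 * A * sv U4 M4 * B * sv U2 M2 * C)
  set τ2 := trace (Hm M3 * (Cᵀ * C) * sv U3 M3 * A * sv U4 M4 * B * sv U2 M2 * C)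
  set τ3 := trace (sv U3 M3 * (A * Aᵀ) * Hm M3 * A * sv U4 M4 * B * sv U2 M2 * C)
  set τ4 := trace (sv U3 M3 * (Cᵀ * C) * Hm M3 * A * sv U4 M4 * B * sv U2 M2 * C)
  have key : ∀ (c τ c' : ℝ), 0 < c → |c * ρ * τ| ≤ E / 2 →
      |c' * τ| ≤ |c'| / c * (ρ⁻¹ * (E / 2)) := by
    intro c τ c' hc h
    rw [abs_mul, abs_mul, abs_of_pos hc, abs_of_pos hρ] at h
    rw [abs_mul]
    have h5 : |c'| * |τ| = |c'| / c * (ρ⁻¹ * (c * ρ * |τ|)) := by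
      field_simp
    rw [h5]
    gcongr
  have u1 := key x τ1 x' hx t1
  have u2 := key z τ2 z' hz t2
  have u3 := key x τ3 x' hx t3
  have u4 := key z τ4 z' hz t4
  have e5 : (|x'| / x + |z'| / z) * (ρ⁻¹ * E) = |x'| / x * (ρ⁻¹ * (E / 2)) + |z'| / z * (ρ⁻¹ * (E / 2))
      + |x'| / x * (ρ⁻¹ * (E / 2)) + |z'| / z * (ρ⁻¹ * (E / 2)) := by ring
  rw [e5]
  refine (abs_add_le _ _).trans (add_le_add ((abs_add_le _ _).trans (add_le_add
    ((abs_add_le _ _).trans (add_le_add u1 u2)) u3)) u4)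

/-- **(P4)** the derivative of the interpolant is bounded by the energies -/
theorem Tt_deriv_le {U3 : Matrix i3 i3 ℝ} {U4 : Matrix i4 i4 ℝ} {U2 : Matrix i2 i2 ℝ}
    (hU3 : U3ᵀ = U3) (hU4 : U4ᵀ = U4) (hU2 : U2ᵀ = U2) (hU3' : U3 * U3 = 1) (hU4' : U4 * U4 = 1)
    (hU2' : U2 * U2 = 1)
    (A : Matrix i3 i4 ℝ) (B : Matrix i4 i2 ℝ) (C : Matrix i2 i3 ℝ)
    {x y z : ℝ → ℝ} {x' y' z' t : ℝ} (hx : HasDerivAt x x' t) (hy : HasDerivAt y y' t)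
    (hz : HasDerivAt z z' t) (hx0 : ∀ s, 0 < x s) (hy0 : ∀ s, 0 < y s) (hz0 : ∀ s, 0 < z s) :
    ∃ T', HasDerivAt (fun s => Tt U3 U4 U2 A B C (x s) (y s) (z s)) T' t ∧
      |T'| ≤ 2 * (|x'| / x t + |y'| / y t + |z'| / z t) *
        ((√(x t) * √(y t) * √(z t))⁻¹ * EE U3 U4 U2 A B C (x t) (y t) (z t)) := by
  refine ⟨_, Tt_hasDerivAt U3 U4 U2 A B C hx hy hz (fun s => (hx0 s).le) (fun s => (hy0 s).le)
    (fun s => (hz0 s).le), ?_⟩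
  have h1 := vt_le hU3 hU4 hU2 hU3' hU4' hU2' A B C (hx0 t) (hy0 t) (hz0 t) x' z'
  have h2 := vt_le hU4 hU2 hU3 hU4' hU2' hU3' B C A (hy0 t) (hz0 t) (hx0 t) y' x'
  have h3 := vt_le hU2 hU3 hU4 hU2' hU3' hU4' C A B (hz0 t) (hx0 t) (hy0 t) z' y'
  have e2 : EE U4 U2 U3 B C A (y t) (z t) (x t) = EE U3 U4 U2 A B C (x t) (y t) (z t) :=
    (EE_rot U3 U4 U2 A B C (x t) (y t) (z t)).symm
  have e3 : EE U2 U3 U4 C A B (z t) (x t) (y t) = EE U3 U4 U2 A B C (x t) (y t) (z t) := by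
    rw [EE_rot, ← e2, EE_rot, EE_rot]
  rw [e2, show √(y t) * √(z t) * √(x t) = √(x t) * √(y t) * √(z t) by ring] at h2
  rw [e3, show √(z t) * √(x t) * √(y t) = √(x t) * √(y t) * √(z t) by ring] at h3
  refine (abs_add_le _ _).trans ((add_le_add ((abs_add_le _ _).trans (add_le_add h1 h2)) h3).trans ?_)
  apply le_of_eq
  ring

end Crest.Agent.R079.Path
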