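import Crest.Agent.R079.LogDetT_378

/-!
# R079: PATH-R072, discrete path (helper378)

* `En_compare`: `M = G Gᵀ`, `M' = G D Gᵀ`, `1 ≤ D ≤ 4`: `En U M' ≤ 6400 En U M`.
* `EE_compare`, `Tt_step`: `|T(x',y',z') - T(x,y,z)| ≤ C (xyz)^{-1/2} EE(x,y,z)` for
  `x ≤ x' ≤ 4x` etc.
* `Tt_tail`, `Tt_tendsto`, `Tt_path`.
-/

set_option autoImplicit false
set_option linter.unusedSectionVars false
set_option linter.unusedVariables false

namespace Crest.Agent.R079.Path

open Matrix Filter Topology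
open Crest.Agent.R072 Crest.Agent.R072.Nd
open scoped MatrixOrder

section compare

variable {n p : Type*} [Fintype n] [DecidableEq n] [Fintype p] [DecidableEq p]

theorem En_eq_fsq {U M : Matrix n n ℝ} (hU : Uᵀ = U) (hM : 0 ≤ M) (G : Matrix n p ℝ)
    (hG : M = G * Gᵀ) : En U M = fsq (Gᵀ * (Hm M * U * Hm M) * G) := by
  have e : hm M = Hm M * G * Gᵀ * Hm M := by
    unfold hm
    rw [hG]
    simp only [Matrix.mul_assoc]
  unfold En
  rw [e, ← trace_transpose_mul_self]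
  simp only [transpose_mul, transpose_transpose, Hm_transpose hM, hU]
  rw [show Hm M * G * Gᵀ * Hm M * (U * (Hm M * G * Gᵀ * Hm M) * U)
    = (Hm M * G) * (Gᵀ * (Hm M * (U * (Hm M * (G * (Gᵀ * (Hm M * U))))))) by
      simp only [Matrix.mul_assoc], trace_mul_comm]
  simp only [Matrix.mul_assoc]

theorem gram_Hm_le_one {M' : Matrix n n ℝ} (G : Matrix n p ℝ) (h : G * Gᵀ ≤ M') :
    Gᵀ * Hm M' * G ≤ 1 := by
  have h0 : 0 ≤ G * Gᵀ := psd_mul_transpose_self G
  have h1 : Hm M' ≤ Hm (G * Gᵀ) := Hm_anti h0 h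
  have h2 := le_conj h1 Gᵀ
  rw [transpose_transpose] at h2
  refine h2.trans ?_
  -- push through: `Gᵀ (1+GGᵀ)⁻¹ G = 1 - (1+GᵀG)⁻¹`
  have h3 : Gᵀ * Hm (G * Gᵀ) = Hm (Gᵀ * G) * Gᵀ := by
    have u1 := one_add_isUnit (psd_mul_transpose_self G)
    have u2 := one_add_isUnit (psd_transpose_mul_self G)
    have key : Gᵀ * (1 + G * Gᵀ) = (1 + Gᵀ * G) * Gᵀ := by
      rw [Matrix.mul_add, Matrix.add_mul, Matrix.mul_one, Matrix.one_mul, Matrix.mul_assoc]
    calc Gᵀ * Hm (G * Gᵀ) = (1 + Gᵀ * G)⁻¹ * ((1 + Gᵀ * G) * Gᵀ) * Hm (G * Gᵀ) := by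
          rw [← Matrix.mul_assoc (1 + Gᵀ * G)⁻¹, nonsing_inv_mul _ u2, Matrix.one_mul]
      _ = Hm (Gᵀ * G) * (Gᵀ * ((1 + G * Gᵀ) * (1 + G * Gᵀ)⁻¹)) := by
          rw [← key]; unfold Hm; simp only [Matrix.mul_assoc]
      _ = Hm (Gᵀ * G) * Gᵀ := by rw [mul_nonsing_inv _ u1, Matrix.mul_one]
  rw [h3, Matrix.mul_assoc, Hm_mul (psd_transpose_mul_self G)]
  exact gm_nonneg_le_one (psd_transpose_mul_self G)
where
  gm_nonneg_le_one {N : Matrix p p ℝ} (hN : 0 ≤ N) : 1 - Hm N ≤ 1 := by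
    rw [← sub_nonneg]
    have : (1 : Matrix p p ℝ) - (1 - Hm N) = Hm N := by abel
    rw [this]
    exact Hm_nonneg hN

theorem fsq_smul (c : ℝ) (P : Matrix n p ℝ) : fsq (c • P) = c ^ 2 * fsq P := by
  unfold fsq
  simp only [Matrix.smul_apply, smul_eq_mul, Finset.mul_sum]
  refine Finset.sum_congr rfl fun i _ => Finset.sum_congr rfl fun j _ => ?_
  ring

/-- `fsq (Q S) ≤ c fsq Q` if `S Sᵀ ≤ c` -/
theorem fsq_mul_le {m : Type*} [Fintype m] (Q : Matrix m n ℝ) (S : Matrix n p ℝ) {c : ℝ}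
    (hS : S * Sᵀ ≤ c • 1) : fsq (Q * S) ≤ c * fsq Q := by
  have h1 : fsq (Q * S) = trace ((Qᵀ * Q) * (S * Sᵀ)) := by
    rw [← trace_mul_transpose_self, transpose_mul]
    rw [show Q * S * (Sᵀ * Qᵀ) = Q * (S * Sᵀ * Qᵀ) by simp only [Matrix.mul_assoc],
      trace_mul_comm, Matrix.mul_assoc (S * Sᵀ), trace_mul_comm]
  have h2 : c * fsq Q = trace ((Qᵀ * Q) * (c • 1)) := by
    rw [Matrix.mul_smul, Matrix.mul_one, trace_smul, trace_transpose_mul_self, smul_eq_mul]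
  rw [h1, h2]
  exact trace_mul_mono_right (psd_transpose_mul_self Q) hS

theorem fsq_congr_le (K : Matrix p p ℝ) (L : Matrix p p ℝ) {c : ℝ} (hc : 0 ≤ c)
    (hL : Lᵀ * L ≤ c • 1) : fsq (L * K * Lᵀ) ≤ c ^ 2 * fsq K := by
  have h1 : fsq (L * K * Lᵀ) ≤ c * fsq (L * K) := by
    refine fsq_mul_le (L * K) Lᵀ ?_
    rwa [transpose_transpose]
  have h2 : fsq (L * K) ≤ c * fsq K := by
    rw [← fsq_transpose, transpose_mul, ← fsq_transpose K]
    refine fsq_mul_le Kᵀ Lᵀ ?_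
    rwa [transpose_transpose]
  calc fsq (L * K * Lᵀ) ≤ c * fsq (L * K) := h1
    _ ≤ c * (c * fsq K) := mul_le_mul_of_nonneg_left h2 hc
    _ = c ^ 2 * fsq K := by ring

theorem diag_le_smul {d : p → ℝ} {R : ℝ} (h : ∀ i, d i ≤ R) :
    diagonal d ≤ R • (1 : Matrix p p ℝ) := by
  rw [← sub_nonneg]
  have : R • (1 : Matrix p p ℝ) - diagonal d = diagonal fun i => R - d i := by
    rw [← diagonal_one, ← diagonal_smul, diagonal_sub]
    congr 1
    ext i
    simp
  rw [this]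
  exact (PosSemidef.diagonal fun i => sub_nonneg.mpr (h i)).nonneg

/-- comparison of energies -/
theorem En_compare {U : Matrix n n ℝ} (hU : Uᵀ = U) (G : Matrix n p ℝ) {d : p → ℝ}
    (h1 : ∀ i, 1 ≤ d i) (h4 : ∀ i, d i ≤ 4) :
    En U (G * diagonal d * Gᵀ) ≤ 6400 * En U (G * Gᵀ) := by
  set M := G * Gᵀ with hM
  set M' := G * diagonal d * Gᵀ with hM'
  have d0 : ∀ i, 0 ≤ d i := fun i => by linarith [h1 i]
  have pM : 0 ≤ M := psd_mul_transpose_self G
  have hdiff : M' - M = G * diagonal (fun i => d i - 1) * Gᵀ := by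
    have : diagonal (fun i => d i - 1) = diagonal d - 1 := by
      rw [← diagonal_one, diagonal_sub]
    rw [this, Matrix.mul_sub, Matrix.sub_mul, Matrix.mul_one]
  have hle : M ≤ M' := by
    rw [← sub_nonneg, hdiff]
    exact frob_psd_conj (PosSemidef.diagonal fun i => sub_nonneg.mpr (h1 i)).nonneg G
  have pM' : 0 ≤ M' := pM.trans hle
  -- Gram form of `M'`
  set S := diagonal (fun i => √(d i)) with hS
  have hSS : S * S = diagonal d := by
    rw [hS, diagonal_mul_diagonal]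
    congr 1
    ext i
    exact Real.mul_self_sqrt (d0 i)
  have hSt : Sᵀ = S := diagonal_transpose _
  have hG' : M' = (G * S) * (G * S)ᵀ := by
    rw [transpose_mul, hSt, hM', ← hSS]
    simp only [Matrix.mul_assoc]
  rw [En_eq_fsq hU pM' (G * S) hG', En_eq_fsq hU pM G rfl]
  -- resolvent expansion
  set E := diagonal (fun i => d i - 1) with hE
  have hEt : Eᵀ = E := diagonal_transpose _
  set Φ := Gᵀ * Hm M' * G with hΦ
  have hΦt : Φᵀ = Φ := by
    rw [hΦ, transpose_mul, transpose_mul, transpose_transpose, Hm_transpose pM', Matrix.mul_assoc]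
  have hΦ0 : 0 ≤ Φ := frob_psd_conjT (Hm_nonneg pM') G
  have hΦ1 : Φ ≤ 1 := gram_Hm_le_one G hle
  have hres : Hm M' = Hm M - Hm M' * (G * E * Gᵀ) * Hm M := by
    have h0 := Hm_sub pM pM'
    rw [hdiff] at h0
    calc Hm M' = Hm M + (Hm M' - Hm M) := by abel
      _ = Hm M + -(Hm M' * (G * E * Gᵀ) * Hm M) := by rw [h0]
      _ = _ := by abel
  have hGH : Gᵀ * Hm M' = (1 - Φ * E) * (Gᵀ * Hm M) := by
    conv_lhs => rw [hres]
    rw [Matrix.mul_sub, Matrix.sub_mul, Matrix.one_mul, hΦ]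
    simp only [Matrix.mul_assoc]
  have hHG : Hm M' * G = (Hm M * G) * (1 - Φ * E)ᵀ := by
    have := congrArg transpose hGH
    rw [transpose_mul, transpose_mul, transpose_transpose, Hm_transpose pM', transpose_mul,
      transpose_transpose, Hm_transpose pM] at this
    exact this
  set L := S * (1 - Φ * E) with hL
  have hform : (G * S)ᵀ * (Hm M' * U * Hm M') * (G * S)
      = L * (Gᵀ * (Hm M * U * Hm M) * G) * Lᵀ := by
    rw [transpose_mul, hSt, hL, transpose_mul, hSt]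
    calc S * Gᵀ * (Hm M' * U * Hm M') * (G * S)
        = S * (Gᵀ * Hm M') * U * (Hm M' * G) * S := by simp only [Matrix.mul_assoc]
      _ = _ := by rw [hGH, hHG]; simp only [Matrix.mul_assoc]
  rw [hform]
  -- bound of `L`
  have hEE : E * E ≤ (9 : ℝ) • 1 := by
    have : E * E = diagonal (fun i => (d i - 1) * (d i - 1)) := by
      rw [hE, diagonal_mul_diagonal]
    rw [this]
    refine diag_le_smul fun i => ?_
    have a := h1 i
    have b := h4 i
    nlinarith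
  have hΦΦ : Φ * Φ ≤ 1 := by
    have hΦs : Φ * Φ ≤ Φ := by
      obtain ⟨V, e, hV, hV', he, hVe⟩ := exists_spec (Matrix.nonneg_iff_posSemidef.mp hΦ0)
      -- eigenvalues at most one
      have he1 : ∀ i, e i ≤ 1 := by
        intro i
        have h := le_conj hΦ1 Vᵀ
        rw [transpose_transpose, Matrix.mul_one, hV, hVe] at h
        rw [show Vᵀ * (V * diagonal e * Vᵀ) * V = (Vᵀ * V) * diagonal e * (Vᵀ * V) by
          simp only [Matrix.mul_assoc], hV, Matrix.one_mul, Matrix.mul_one, ← sub_nonneg] at h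
        have := (Matrix.nonneg_iff_posSemidef.mp h).diag_nonneg (i := i)
        rw [Matrix.sub_apply, one_apply_eq, diagonal_apply_eq] at this
        linarith
      rw [hVe, spec_mul hV, ← sub_nonneg]
      have : V * diagonal e * Vᵀ - V * diagonal (fun i => e i * e i) * Vᵀ
          = V * diagonal (fun i => e i - e i * e i) * Vᵀ := by
        rw [← Matrix.sub_mul, ← Matrix.mul_sub, diagonal_sub]
      rw [this]
      refine spec_psd V fun i => ?_
      have a := he i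
      have b := he1 i
      nlinarith
    exact hΦs.trans hΦ1
  have hY : (1 - Φ * E)ᵀ * (1 - Φ * E) ≤ (20 : ℝ) • 1 := by
    -- `(1-X)ᵀ(1-X) ≤ 2 + 2 XᵀX`
    have h2 : (1 - Φ * E)ᵀ * (1 - Φ * E) ≤ (2 : ℝ) • 1 + (2 : ℝ) • ((Φ * E)ᵀ * (Φ * E)) := by
      rw [← sub_nonneg]
      have h3 := psd_transpose_mul_self (1 + Φ * E)
      refine h3.trans (le_of_eq ?_)
      rw [transpose_add, transpose_sub, transpose_one]
      simp only [two_smul]
      noncomm_ring
    have h3 : (Φ * E)ᵀ * (Φ * E) ≤ (9 : ℝ) • 1 := by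
      rw [transpose_mul, hEt, hΦt]
      have h4' := le_conj hΦΦ E
      rw [hEt, Matrix.mul_one] at h4'
      calc E * Φ * (Φ * E) = E * (Φ * Φ) * E := by simp only [Matrix.mul_assoc]
        _ ≤ E * E := h4'
        _ ≤ _ := hEE
    calc (1 - Φ * E)ᵀ * (1 - Φ * E) ≤ (2 : ℝ) • 1 + (2 : ℝ) • ((Φ * E)ᵀ * (Φ * E)) := h2
      _ ≤ (2 : ℝ) • 1 + (2 : ℝ) • ((9 : ℝ) • 1) := by
          refine add_le_add le_rfl ?_
          rw [← sub_nonneg, ← smul_sub]
          exact psd_smul' (sub_nonneg.mpr h3) (by norm_num)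
      _ = (20 : ℝ) • 1 := by rw [smul_smul, ← add_smul]; norm_num
  have hLL : Lᵀ * L ≤ (80 : ℝ) • 1 := by
    have h5 : Lᵀ * L = (1 - Φ * E)ᵀ * diagonal d * (1 - Φ * E) := by
      rw [hL, transpose_mul, hSt, ← hSS]
      simp only [Matrix.mul_assoc]
    have h6 : (1 - Φ * E)ᵀ * diagonal d * (1 - Φ * E)
        ≤ (1 - Φ * E)ᵀ * ((4 : ℝ) • 1) * (1 - Φ * E) := by
      have := le_conj (diag_le_smul h4) (1 - Φ * E)ᵀ
      rwa [transpose_transpose] at this
    rw [h5]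
    refine h6.trans ?_
    rw [Matrix.mul_smul, Matrix.mul_one, Matrix.smul_mul, ← sub_nonneg]
    have : (80 : ℝ) • (1 : Matrix p p ℝ) - (4 : ℝ) • ((1 - Φ * E)ᵀ * (1 - Φ * E))
        = (4 : ℝ) • ((20 : ℝ) • 1 - (1 - Φ * E)ᵀ * (1 - Φ * E)) := by
      rw [smul_sub, smul_smul]
      norm_num
    rw [this]
    exact psd_smul' (sub_nonneg.mpr hY) (by norm_num)
  have := fsq_congr_le (Gᵀ * (Hm M * U * Hm M) * G) L (by norm_num : (0 : ℝ) ≤ 80) hLL
  norm_num at this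
  exact this

end compare

section disc

variable {i3 i4 i2 : Type*} [Fintype i3] [DecidableEq i3] [Fintype i4] [DecidableEq i4]
  [Fintype i2] [DecidableEq i2]

theorem En_Pv_compare {U : Matrix i3 i3 ℝ} (hU : Uᵀ = U) (A : Matrix i3 i4 ℝ)
    (C : Matrix i2 i3 ℝ) {x z x' z' : ℝ} (hx : 0 < x) (hz : 0 < z) (hx1 : x ≤ x')
    (hx4 : x' ≤ 4 * x) (hz1 : z ≤ z') (hz4 : z' ≤ 4 * z) :
    En U (Pv x' z' A C) ≤ 6400 * En U (Pv x z A C) := by
  set G : Matrix i3 (i4 ⊕ i2) ℝ := fromCols (√x • A) (√z • Cᵀ) with hG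
  set d : i4 ⊕ i2 → ℝ := Sum.elim (fun _ => x' / x) (fun _ => z' / z) with hd
  have sx : √x * √x = x := Real.mul_self_sqrt hx.le
  have sz : √z * √z = z := Real.mul_self_sqrt hz.le
  have e1 : Pv x z A C = G * Gᵀ := by
    rw [hG, transpose_fromCols, fromCols_mul_fromRows, Pv, transpose_smul, transpose_smul,
      transpose_transpose, Matrix.smul_mul, Matrix.mul_smul, smul_smul, sx, Matrix.smul_mul,
      Matrix.mul_smul, smul_smul, sz]
  have e2 : Pv x' z' A C = G * diagonal d * Gᵀ := by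
    have h1 : diagonal d = fromBlocks ((x' / x) • 1) 0 0 ((z' / z) • 1) := by
      rw [hd]
      ext i j
      rcases i with i | i <;> rcases j with j | j <;>
        simp [diagonal_apply, one_apply]
    rw [h1, hG, transpose_fromCols, fromCols_mul_fromBlocks, fromCols_mul_fromRows]
    simp only [Matrix.mul_zero, add_zero, zero_add, Matrix.mul_smul, Matrix.mul_one,
      Matrix.smul_mul, transpose_smul, transpose_transpose, smul_smul]
    rw [Pv]
    congr 2
    · rw [mul_left_comm, sx, div_mul_cancel₀ _ hx.ne']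
    · rw [mul_left_comm, sz, div_mul_cancel₀ _ hz.ne']
  rw [e1, e2]
  refine En_compare hU G ?_ ?_
  · intro i
    rcases i with i | i
    · simp only [hd, Sum.elim_inl]; rw [le_div_iff₀ hx]; linarith
    · simp only [hd, Sum.elim_inr]; rw [le_div_iff₀ hz]; linarith
  · intro i
    rcases i with i | i
    · simp only [hd, Sum.elim_inl]; rw [div_le_iff₀ hx]; linarith
    · simp only [hd, Sum.elim_inr]; rw [div_le_iff₀ hz]; linarith

theorem EE_compare {U3 : Matrix i3 i3 ℝ} {U4 : Matrix i4 i4 ℝ} {U2 : Matrix i2 i2 ℝ}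
    (hU3 : U3ᵀ = U3) (hU4 : U4ᵀ = U4) (hU2 : U2ᵀ = U2)
    (A : Matrix i3 i4 ℝ) (B : Matrix i4 i2 ℝ) (C : Matrix i2 i3 ℝ) {x y z x' y' z' : ℝ}
    (hx : 0 < x) (hy : 0 < y) (hz : 0 < z) (hx1 : x ≤ x') (hx4 : x' ≤ 4 * x) (hy1 : y ≤ y')
    (hy4 : y' ≤ 4 * y) (hz1 : z ≤ z') (hz4 : z' ≤ 4 * z) :
    EE U3 U4 U2 A B C x' y' z' ≤ 6400 * EE U3 U4 U2 A B C x y z := by
  unfold EE
  have h3 := En_Pv_compare hU3 A C hx hz hx1 hx4 hz1 hz4
  have h4 := En_Pv_compare hU4 B A hy hx hy1 hy4 hx1 hx4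
  have h2 := En_Pv_compare hU2 C B hz hy hz1 hz4 hy1 hy4
  linarith

/-- one step of the path -/
theorem Tt_step {U3 : Matrix i3 i3 ℝ} {U4 : Matrix i4 i4 ℝ} {U2 : Matrix i2 i2 ℝ}
    (hU3 : U3ᵀ = U3) (hU4 : U4ᵀ = U4) (hU2 : U2ᵀ = U2) (hU3' : U3 * U3 = 1) (hU4' : U4 * U4 = 1)
    (hU2' : U2 * U2 = 1)
    (A : Matrix i3 i4 ℝ) (B : Matrix i4 i2 ℝ) (C : Matrix i2 i3 ℝ) {x y z x' y' z' : ℝ}
    (hx : 0 < x) (hy : 0 < y) (hz : 0 < z) (hx1 : x ≤ x') (hx4 : x' ≤ 4 * x) (hy1 : y ≤ y')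
    (hy4 : y' ≤ 4 * y) (hz1 : z ≤ z') (hz4 : z' ≤ 4 * z) :
    |Tt U3 U4 U2 A B C x' y' z' - Tt U3 U4 U2 A B C x y z| ≤
      76800 * ((√x * √y * √z)⁻¹ * EE U3 U4 U2 A B C x y z) := by
  -- geometric interpolation
  have hlog4 : Real.log 4 ≤ 2 := by
    have h1 : Real.log 4 = 2 * Real.log 2 := by
      rw [show (4 : ℝ) = 2 ^ 2 by norm_num, Real.log_pow]; norm_num
    rw [h1]
    have := Real.log_two_lt_d9
    linarith
  have hpar : ∀ {a a' : ℝ}, 0 < a → a ≤ a' → a' ≤ 4 * a → ∃ α : ℝ, 0 ≤ α ∧ α ≤ 2 ∧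
      a * Real.exp α = a' := by
    intro a a' ha h1 h2
    have ha' : 0 < a' := lt_of_lt_of_le ha h1
    refine ⟨Real.log (a' / a), Real.log_nonneg ?_, ?_, ?_⟩
    · rw [le_div_iff₀ ha]; linarith
    · refine (Real.log_le_log (by positivity) ?_).trans hlog4
      rw [div_le_iff₀ ha]; linarith
    · rw [Real.exp_log (by positivity)]
      field_simp
  obtain ⟨α, hα0, hα2, hα⟩ := hpar hx hx1 hx4
  obtain ⟨β, hβ0, hβ2, hβ⟩ := hpar hy hy1 hy4
  obtain ⟨γ, hγ0, hγ2, hγ⟩ := hpar hz hz1 hz4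
  have hder : ∀ (a α t : ℝ), HasDerivAt (fun s => a * Real.exp (α * s))
      (a * Real.exp (α * t) * α) t := by
    intro a α t
    have h1 : HasDerivAt (fun s : ℝ => α * s) α t := by
      simpa using (hasDerivAt_id t).const_mul α
    have h2 := (h1.exp).const_mul a
    refine h2.congr_deriv ?_
    ring
  set F : ℝ → ℝ := fun s => Tt U3 U4 U2 A B C (x * Real.exp (α * s)) (y * Real.exp (β * s))
    (z * Real.exp (γ * s)) with hF
  set K := 76800 * ((√x * √y * √z)⁻¹ * EE U3 U4 U2 A B C x y z) with hK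
  have hE0 : 0 ≤ EE U3 U4 U2 A B C x y z := EE_nonneg hU3 hU4 hU2 A B C hx.le hy.le hz.le
  have hstep : ∀ t ∈ Set.Icc (0 : ℝ) 1, ∃ T', HasDerivAt F T' t ∧ |T'| ≤ K := by
    intro t ht
    obtain ⟨T', hT', hb⟩ := Tt_deriv_le hU3 hU4 hU2 hU3' hU4' hU2' A B C (hder x α t) (hder y β t)
      (hder z γ t) (fun s => by positivity) (fun s => by positivity) (fun s => by positivity)
    refine ⟨T', hT', hb.trans ?_⟩
    have hratio : ∀ {a α : ℝ}, 0 < a → 0 ≤ α →
        |a * Real.exp (α * t) * α| / (a * Real.exp (α * t)) = α := by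
      intro a α ha hα
      rw [abs_of_nonneg (by positivity)]
      field_simp
    rw [hratio hx hα0, hratio hy hβ0, hratio hz hγ0]
    have hle1 : ∀ {a α : ℝ}, 0 < a → 0 ≤ α → a ≤ a * Real.exp (α * t) := by
      intro a α ha hα
      have : 1 ≤ Real.exp (α * t) := Real.one_le_exp (mul_nonneg hα ht.1)
      nlinarith
    have hle4 : ∀ {a α a' : ℝ}, 0 < a → 0 ≤ α → a * Real.exp α = a' → a' ≤ 4 * a →
        a * Real.exp (α * t) ≤ 4 * a := by
      intro a α a' ha hα h1 h2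
      have : Real.exp (α * t) ≤ Real.exp α := by
        apply Real.exp_le_exp.mpr
        have := ht.2
        nlinarith
      calc a * Real.exp (α * t) ≤ a * Real.exp α := by gcongr
        _ ≤ _ := by rw [h1]; exact h2
    have hc := EE_compare hU3 hU4 hU2 A B C hx hy hz (hle1 hx hα0) (hle4 hx hα0 hα hx4)
      (hle1 hy hβ0) (hle4 hy hβ0 hβ hy4) (hle1 hz hγ0) (hle4 hz hγ0 hγ hz4)
    have hE0' := EE_nonneg hU3 hU4 hU2 A B C (x := x * Real.exp (α * t))
      (y := y * Real.exp (β * t)) (z := z * Real.exp (γ * t)) (by positivity) (by positivity)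
      (by positivity)
    have hρ : (√(x * Real.exp (α * t)) * √(y * Real.exp (β * t)) * √(z * Real.exp (γ * t)))⁻¹
        ≤ (√x * √y * √z)⁻¹ := by
      apply inv_anti₀ (by positivity)
      have a1 := Real.sqrt_le_sqrt (hle1 hx hα0)
      have a2 := Real.sqrt_le_sqrt (hle1 hy hβ0)
      have a3 := Real.sqrt_le_sqrt (hle1 hz hγ0)
      gcongr
    calc 2 * (α + β + γ) * ((√(x * Real.exp (α * t)) * √(y * Real.exp (β * t))
          * √(z * Real.exp (γ * t)))⁻¹ * EE U3 U4 U2 A B C (x * Real.exp (α * t))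
            (y * Real.exp (β * t)) (z * Real.exp (γ * t)))
        ≤ 12 * ((√x * √y * √z)⁻¹ * (6400 * EE U3 U4 U2 A B C x y z)) := by
          have h12 : 2 * (α + β + γ) ≤ 12 := by linarith
          gcongr
      _ = K := by rw [hK]; ring
  have hmv := norm_image_sub_le_of_norm_deriv_le_segment' (f := F) (C := K) (a := 0) (b := 1)
    (f' := fun t => deriv F t) ?_ ?_ 1 (Set.right_mem_Icc.mpr zero_le_one)
  · have e1 : F 1 = Tt U3 U4 U2 A B C x' y' z' := by
      simp only [hF, mul_one]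
      rw [hα, hβ, hγ]
    have e0 : F 0 = Tt U3 U4 U2 A B C x y z := by
      simp only [hF, mul_zero, Real.exp_zero, mul_one]
    rw [e1, e0, Real.norm_eq_abs, sub_zero, mul_one] at hmv
    exact hmv
  · intro t ht
    obtain ⟨T', hT', -⟩ := hstep t ht
    exact (hT'.differentiableAt.hasDerivAt).hasDerivWithinAt
  · intro t ht
    obtain ⟨T', hT', hb⟩ := hstep t (Set.Ico_subset_Icc_self ht)
    rw [hT'.deriv, Real.norm_eq_abs]
    exact hb

end disc

end Crest.Agent.R079.Path
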