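import Crest.Agent.R072.Mat
import Crest.Agent.R072.NodeSpec

/-!
# R079: PATH-R072, node level, part 1 (helper259's #20612 (1), typed by helper378)

Real matrices.  `Hm M = (1+M)⁻¹`, `hm M = H M H = H - H²` (`h(m) = m/(1+m)²`),
`gm M = 1 - H` (`g(m) = m/(1+m)`), `Psi M = tr M - tr g(M)` (`Psi(m) = m²/(1+m)`).
-/

set_option autoImplicit false
set_option linter.unusedSectionVars false

namespace Crest.Agent.R079.Path

open Matrix
open Crest.Agent.R072 Crest.Agent.R072.Nd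
open scoped MatrixOrder

variable {n m : Type*} [Fintype n] [DecidableEq n] [Fintype m] [DecidableEq m]

/-- `(1+M)⁻¹` -/
noncomputable def Hm (M : Matrix n n ℝ) : Matrix n n ℝ := (1 + M)⁻¹

/-- `g(M) = M/(1+M) = 1 - (1+M)⁻¹` -/
noncomputable def gm (M : Matrix n n ℝ) : Matrix n n ℝ := 1 - Hm M

/-- `h(M) = M/(1+M)²` -/
noncomputable def hm (M : Matrix n n ℝ) : Matrix n n ℝ := Hm M * M * Hm M

/-- `Psi M = tr M²/(1+M)` -/
noncomputable def Psi (M : Matrix n n ℝ) : ℝ := trace M - trace (gm M)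

theorem one_add_posDef {M : Matrix n n ℝ} (hM : 0 ≤ M) : (1 + M).PosDef :=
  (PosDef.one (n := n) (R := ℝ)).add_posSemidef (Matrix.nonneg_iff_posSemidef.mp hM)

theorem one_add_isUnit {M : Matrix n n ℝ} (hM : 0 ≤ M) : IsUnit (1 + M).det :=
  PosDef.isUnit_det' (one_add_posDef hM)

theorem Hm_posDef {M : Matrix n n ℝ} (hM : 0 ≤ M) : (Hm M).PosDef := (one_add_posDef hM).inv

theorem Hm_nonneg {M : Matrix n n ℝ} (hM : 0 ≤ M) : 0 ≤ Hm M := (Hm_posDef hM).posSemidef.nonneg

theorem Hm_transpose {M : Matrix n n ℝ} (hM : 0 ≤ M) : (Hm M)ᵀ = Hm M :=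
  psd_transpose (Hm_posDef hM).posSemidef

theorem mul_Hm {M : Matrix n n ℝ} (hM : 0 ≤ M) : M * Hm M = 1 - Hm M := by
  have h := mul_nonsing_inv _ (one_add_isUnit hM)
  rw [Matrix.add_mul, Matrix.one_mul] at h
  exact eq_sub_of_add_eq' h

theorem Hm_mul {M : Matrix n n ℝ} (hM : 0 ≤ M) : Hm M * M = 1 - Hm M := by
  have h := nonsing_inv_mul _ (one_add_isUnit hM)
  rw [Matrix.mul_add, Matrix.mul_one] at h
  exact eq_sub_of_add_eq' h

theorem hm_eq {M : Matrix n n ℝ} (hM : 0 ≤ M) : hm M = Hm M - Hm M * Hm M := by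
  unfold hm
  rw [Hm_mul hM, Matrix.sub_mul, Matrix.one_mul]

theorem gm_eq {M : Matrix n n ℝ} (hM : 0 ≤ M) : gm M = M * Hm M := (mul_Hm hM).symm

theorem hm_nonneg {M : Matrix n n ℝ} (hM : 0 ≤ M) : 0 ≤ hm M := by
  have := frob_psd_conj hM (Hm M)
  rwa [Hm_transpose hM] at this

theorem gm_sub_hm {M : Matrix n n ℝ} (hM : 0 ≤ M) :
    gm M - hm M = (1 - Hm M) * (1 - Hm M) := by
  rw [hm_eq hM, gm]
  noncomm_ring

theorem one_sub_Hm_transpose {M : Matrix n n ℝ} (hM : 0 ≤ M) : (1 - Hm M)ᵀ = 1 - Hm M := by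
  rw [transpose_sub, transpose_one, Hm_transpose hM]

theorem hm_le_gm {M : Matrix n n ℝ} (hM : 0 ≤ M) : hm M ≤ gm M := by
  rw [← sub_nonneg, gm_sub_hm hM]
  exact (psd_of_symm_sq (one_sub_Hm_transpose hM)).nonneg

theorem gm_nonneg {M : Matrix n n ℝ} (hM : 0 ≤ M) : 0 ≤ gm M := (hm_nonneg hM).trans (hm_le_gm hM)

theorem Hm_le_one {M : Matrix n n ℝ} (hM : 0 ≤ M) : Hm M ≤ 1 := by
  rw [← sub_nonneg]
  exact gm_nonneg hM

/-- `(1+M)⁻¹ (1+M)⁻¹ ≤ 1` -/
theorem Hm_sq_le_one {M : Matrix n n ℝ} (hM : 0 ≤ M) : Hm M * Hm M ≤ 1 := by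
  have h : Hm M * Hm M ≤ Hm M := by
    rw [← sub_nonneg, ← hm_eq hM]
    exact hm_nonneg hM
  exact h.trans (Hm_le_one hM)

/-- antitonicity of `H` -/
theorem Hm_anti {M N : Matrix n n ℝ} (hM : 0 ≤ M) (h : M ≤ N) : Hm N ≤ Hm M := by
  have hN : 0 ≤ N := hM.trans h
  -- `H_M - H_N = H_M (N - M) H_N = H_N (N-M) H_N + (H_M - H_N)(N-M) H_N`
  -- use `H_M - H_N = H_N D H_N + H_N D H_M D H_N`, `D = N - M`
  set D := N - M with hD
  have hD0 : 0 ≤ D := sub_nonneg.mpr h
  have e1 : Hm M - Hm N = Hm M * D * Hm N := by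
    have h1 := nonsing_inv_mul _ (one_add_isUnit hM)
    have h2 := mul_nonsing_inv _ (one_add_isUnit hN)
    have h3 : D = (1 + N) - (1 + M) := by rw [hD]; abel
    rw [h3, Matrix.mul_sub, Matrix.sub_mul, Matrix.mul_assoc]
    change _ = Hm M * ((1 + N) * (1 + N)⁻¹) - (1 + M)⁻¹ * (1 + M) * Hm N
    rw [h1, h2, Matrix.mul_one, Matrix.one_mul]
  have e2 : Hm M - Hm N = Hm N * D * Hm M := by
    have h1 := mul_nonsing_inv _ (one_add_isUnit hM)
    have h2 := nonsing_inv_mul _ (one_add_isUnit hN)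
    have h3 : D = (1 + N) - (1 + M) := by rw [hD]; abel
    rw [h3, Matrix.mul_sub, Matrix.sub_mul]
    change _ = (1 + N)⁻¹ * (1 + N) * Hm M - Hm N * (1 + M) * (1 + M)⁻¹
    rw [h2, Matrix.mul_assoc (Hm N), h1, Matrix.mul_one, Matrix.one_mul]
  have e3 : Hm M - Hm N = Hm N * D * Hm N + Hm N * D * Hm M * (Hm N * D)ᵀ := by
    have : (Hm N * D)ᵀ = D * Hm N := by
      rw [transpose_mul, Hm_transpose hN, psd_transpose (Matrix.nonneg_iff_posSemidef.mp hD0)]
    rw [this]
    calc Hm M - Hm N = Hm N * D * Hm M := e2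
      _ = Hm N * D * (Hm N + (Hm M - Hm N)) := by rw [add_sub_cancel]
      _ = Hm N * D * (Hm N + Hm M * D * Hm N) := by rw [e1]
      _ = _ := by noncomm_ring
  rw [← sub_nonneg, e3]
  refine add_nonneg ?_ (frob_psd_conj (Hm_nonneg hM) _)
  have := frob_psd_conj hD0 (Hm N)
  rwa [Hm_transpose hN] at this

/-- (P1)  `tr h(M) g(N) ≤ tr g(M) + tr g(N) - tr g(M+N)` -/
theorem trace_gm_sub {M N : Matrix n n ℝ} (hM : 0 ≤ M) (hN : 0 ≤ N) :
    trace (hm M * gm N) ≤ trace (gm M) + trace (gm N) - trace (gm (M + N)) := by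
  have hN' := Matrix.nonneg_iff_posSemidef.mp hN
  set W := CFC.sqrt N with hW
  have hWW : W * W = N := rt_mul_rt hN'
  have hWt : Wᵀ = W := rt_transpose N
  set a := Hm M with ha
  have ha0 : 0 ≤ a := Hm_nonneg hM
  have hat : aᵀ = a := Hm_transpose hM
  have haM : (1 + M) * a = 1 := mul_nonsing_inv _ (one_add_isUnit hM)
  set Z := W * a * W with hZ
  have hZ0 : 0 ≤ Z := by
    have := frob_psd_conj ha0 W
    rwa [hWt] at this
  set R := Hm Z with hR
  have hR1 : (1 + Z) * R = 1 := mul_nonsing_inv _ (one_add_isUnit hZ0)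
  have hZN : Z ≤ N := by
    have h1 := le_conj (Hm_le_one hM) W
    rw [hWt, Matrix.mul_one, hWW] at h1
    exact h1
  have hMN : 0 ≤ M + N := add_nonneg hM hN
  -- formula for the resolvent of the sum
  have hc : Hm (M + N) = a - a * W * R * W * a := by
    have h1 : (1 + (M + N)) * (a - a * W * R * W * a) = 1 := by
      have h2 : (1 + (M + N)) = (1 + M) + W * W := by rw [hWW]; abel
      rw [h2]
      have h3 : ((1 + M) + W * W) * (a - a * W * R * W * a)
          = (1 + M) * a + W * W * a - ((1 + M) * a) * W * R * W * a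
            - W * (W * a * W) * R * W * a := by noncomm_ring
      rw [h3, haM, ← hZ]
      have h4 : W * Z * R = W - W * R := by
        have : W * ((1 + Z) * R) = W * 1 := by rw [hR1]
        rw [Matrix.add_mul, Matrix.mul_add, Matrix.one_mul, Matrix.mul_one] at this
        rw [Matrix.mul_assoc]
        exact eq_sub_of_add_eq' this
      rw [h4]
      noncomm_ring
    exact inv_eq_right_inv h1
  -- traces
  have t1 : trace (gm (M + N)) = trace (gm M) + trace (a * W * R * W * a) := by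
    unfold gm
    rw [hc, ← ha]
    simp only [trace_sub]
    ring
  have t2 : trace (a * W * R * W * a) = trace (W * (a * a) * W * R) := by
    rw [trace_mul_comm]
    rw [show a * (a * W * R * W) = (a * a * W * R) * W by noncomm_ring, trace_mul_comm]
    congr 1
    noncomm_ring
  have t3 : W * (a * a) * W = Z - W * hm M * W := by
    rw [hm_eq hM, ← ha, hZ]
    noncomm_ring
  have t4 : trace (Z * R) ≤ trace (gm N) := by
    have h1 : Z * R = 1 - R := mul_Hm hZ0
    have h2 := Hm_anti hZ0 hZN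
    have h3 := trace_nonneg_of_psd (sub_nonneg.mpr h2)
    rw [trace_sub] at h3
    rw [h1, gm, trace_sub, trace_sub]
    linarith
  have hWhW : 0 ≤ W * hm M * W := by
    have := frob_psd_conj (hm_nonneg hM) W
    rwa [hWt] at this
  have t5 : trace (W * hm M * W * Hm N) ≤ trace (W * hm M * W * R) :=
    trace_mul_mono_right hWhW (Hm_anti hZ0 hZN)
  have hWc : W * Hm N * W = gm N := by
    -- `W` commutes with `N`, hence with `Hm N`
    have hcomm : W * (1 + N) = (1 + N) * W := by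
      rw [← hWW]; noncomm_ring
    have h1 : Hm N * W = W * Hm N := by
      have h2 := mul_nonsing_inv _ (one_add_isUnit hN)
      have h3 := nonsing_inv_mul _ (one_add_isUnit hN)
      calc Hm N * W = Hm N * W * ((1 + N) * (1 + N)⁻¹) := by rw [h2, Matrix.mul_one]
        _ = Hm N * (W * (1 + N)) * (1 + N)⁻¹ := by noncomm_ring
        _ = (1 + N)⁻¹ * (1 + N) * W * (1 + N)⁻¹ := by rw [hcomm]; unfold Hm; noncomm_ring
        _ = W * Hm N := by rw [h3, Matrix.one_mul]; rfl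
    rw [Matrix.mul_assoc, h1, ← Matrix.mul_assoc, hWW, ← gm_eq hN]
  have t6 : trace (W * hm M * W * Hm N) = trace (hm M * gm N) := by
    rw [← hWc]
    rw [show W * hm M * W * Hm N = W * (hm M * W * Hm N) by noncomm_ring, trace_mul_comm]
    congr 1
    noncomm_ring
  rw [t1, t2, t3, Matrix.sub_mul, trace_sub]
  rw [t6] at t5
  linarith

end Crest.Agent.R079.Path
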