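import Crest.Agent.R079.PathMat_378
import Crest.Agent.R072.NodeDiag

/-!
# R079: PATH-R072, node level, part 2 (helper259's #20612 (1)-(2), typed by helper378)

* `Psi_gap`: `tr h(M) U h(M) U ≤ Psi (M + U M U) - 2 Psi M`.
* `MDeriv.Hm`: derivative of the resolvent.
* `Tt_deriv_le`: the derivative of the interpolant `T(x,y,z) = tr (s3 A s4 B s2 C)`.
-/

set_option autoImplicit false
set_option linter.unusedSectionVars false

namespace Crest.Agent.R079.Path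

open Matrix Filter Topology
open Crest.Agent.R072 Crest.Agent.R072.Nd
open scoped MatrixOrder

variable {n m p q : Type*} [Fintype n] [DecidableEq n] [Fintype m] [DecidableEq m]
  [Fintype p] [DecidableEq p] [Fintype q] [DecidableEq q]

/-- the energy `tr h(M) U h(M) U` -/
noncomputable def En (U M : Matrix n n ℝ) : ℝ := trace (hm M * (U * hm M * U))

/-- the sandwiched sign `H U H` -/
noncomputable def sv (U M : Matrix n n ℝ) : Matrix n n ℝ := Hm M * U * Hm M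

theorem sandwich_nonneg {U P : Matrix n n ℝ} (hU : Uᵀ = U) (hP : 0 ≤ P) : 0 ≤ U * P * U := by
  have := frob_psd_conj hP U
  rwa [hU] at this

theorem En_nonneg {U M : Matrix n n ℝ} (hU : Uᵀ = U) (hM : 0 ≤ M) : 0 ≤ En U M :=
  frob_trace_mul_nonneg (hm_nonneg hM) (sandwich_nonneg hU (hm_nonneg hM))

theorem Hm_conj {U M : Matrix n n ℝ} (hU : Uᵀ = U) (hU2 : U * U = 1) (hM : 0 ≤ M) :
    Hm (U * M * U) = U * Hm M * U := by
  have h1 : (1 + U * M * U) * (U * Hm M * U) = 1 := by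
    have h2 : (1 + M) * Hm M = 1 := mul_nonsing_inv _ (one_add_isUnit hM)
    calc (1 + U * M * U) * (U * Hm M * U)
        = U * Hm M * U + U * M * (U * U) * Hm M * U := by noncomm_ring
      _ = U * ((1 + M) * Hm M) * U := by rw [hU2]; noncomm_ring
      _ = 1 := by rw [h2, Matrix.mul_one, hU2]
  exact inv_eq_right_inv h1

theorem gm_conj {U M : Matrix n n ℝ} (hU : Uᵀ = U) (hU2 : U * U = 1) (hM : 0 ≤ M) :
    gm (U * M * U) = U * gm M * U := by
  unfold gm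
  rw [Hm_conj hU hU2 hM, Matrix.mul_sub, Matrix.sub_mul, Matrix.mul_one, hU2]

theorem trace_conj {U M : Matrix n n ℝ} (hU2 : U * U = 1) : trace (U * M * U) = trace M := by
  rw [trace_mul_comm, ← Matrix.mul_assoc, hU2, Matrix.one_mul]

/-- (P2) node drop -/
theorem Psi_gap {U M : Matrix n n ℝ} (hU : Uᵀ = U) (hU2 : U * U = 1) (hM : 0 ≤ M) :
    En U M ≤ Psi (M + U * M * U) - 2 * Psi M := by
  have hN : 0 ≤ U * M * U := sandwich_nonneg hU hM
  have h1 := trace_gm_sub hM hN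
  have h2 : En U M ≤ trace (hm M * gm (U * M * U)) := by
    rw [gm_conj hU hU2 hM]
    refine trace_mul_mono_right (hm_nonneg hM) ?_
    have := le_conj (hm_le_gm hM) U
    rwa [hU] at this
  have h3 : trace (gm (U * M * U)) = trace (gm M) := by
    rw [gm_conj hU hU2 hM, trace_conj hU2]
  unfold Psi
  rw [trace_add, trace_conj hU2]
  rw [h3] at h1
  linarith

/-! ### entries of the resolvent -/

theorem Hm_entry_le {M : Matrix n n ℝ} (hM : 0 ≤ M) (i j : n) : |Hm M i j| ≤ 1 := by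
  have h1 : 0 ≤ 1 - Hm M * Hm M := sub_nonneg.mpr (Hm_sq_le_one hM)
  have h2 := (Matrix.nonneg_iff_posSemidef.mp h1).diag_nonneg (i := i)
  rw [Matrix.sub_apply, one_apply_eq, mul_apply] at h2
  have h3 : ∀ k, Hm M i k * Hm M k i = Hm M i k ^ 2 := by
    intro k
    have : Hm M k i = (Hm M)ᵀ i k := rfl
    rw [this, Hm_transpose hM, sq]
  simp only [h3] at h2
  have h4 : Hm M i j ^ 2 ≤ ∑ k, Hm M i k ^ 2 :=
    Finset.single_le_sum (f := fun k => Hm M i k ^ 2) (fun k _ => sq_nonneg _) (Finset.mem_univ j)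
  exact (sq_le_one_iff_abs_le_one _).mp (by linarith)

theorem Hm_sub {M N : Matrix n n ℝ} (hM : 0 ≤ M) (hN : 0 ≤ N) :
    Hm N - Hm M = -(Hm N * (N - M) * Hm M) := by
  have h1 := mul_nonsing_inv _ (one_add_isUnit hM)
  have h2 := nonsing_inv_mul _ (one_add_isUnit hN)
  have h3 : N - M = (1 + N) - (1 + M) := by abel
  rw [h3, Matrix.mul_sub, Matrix.sub_mul]
  have e1 : Hm N * (1 + N) * Hm M = Hm M := by
    change (1 + N)⁻¹ * (1 + N) * Hm M = Hm M
    rw [h2, Matrix.one_mul]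
  have e2 : Hm N * (1 + M) * Hm M = Hm N := by
    rw [Matrix.mul_assoc]
    change Hm N * ((1 + M) * (1 + M)⁻¹) = Hm N
    rw [h1, Matrix.mul_one]
  rw [e1, e2]
  abel

theorem tendsto_Hm {M : ℝ → Matrix n n ℝ} {t : ℝ} {l : Filter ℝ} (h0 : ∀ s, 0 ≤ M s)
    (hc : ∀ i j, Tendsto (fun s => M s i j) l (𝓝 (M t i j))) (i j : n) :
    Tendsto (fun s => Hm (M s) i j) l (𝓝 (Hm (M t) i j)) := by
  have key : ∀ s, Hm (M s) i j - Hm (M t) i j
      = -∑ b, ∑ a, Hm (M s) i a * (M s a b - M t a b) * Hm (M t) b j := by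
    intro s
    have h := congrFun (congrFun (Hm_sub (h0 t) (h0 s)) i) j
    rw [Matrix.sub_apply, Matrix.neg_apply, mul_apply] at h
    rw [h]
    congr 1
    refine Finset.sum_congr rfl fun b _ => ?_
    rw [mul_apply, Finset.sum_mul]
    rfl
  have h1 : Tendsto (fun s => Hm (M s) i j - Hm (M t) i j) l (𝓝 0) := by
    have h2 : Tendsto (fun s => -∑ b, ∑ a, Hm (M s) i a * (M s a b - M t a b) * Hm (M t) b j) l
        (𝓝 (-∑ _b : n, ∑ _a : n, (0 : ℝ))) := by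
      refine (tendsto_finsetSum _ fun b _ => tendsto_finsetSum _ fun a _ => ?_).neg
      have h3 : Tendsto (fun s => M s a b - M t a b) l (𝓝 0) := by
        simpa using (hc a b).sub_const (M t a b)
      have h4 : Tendsto (fun s => Hm (M s) i a * (M s a b - M t a b)) l (𝓝 0) := by
        refine squeeze_zero_norm (a := fun s => |M s a b - M t a b|) (fun s => ?_) ?_
        · rw [norm_mul, Real.norm_eq_abs, Real.norm_eq_abs]
          exact mul_le_of_le_one_left (abs_nonneg _) (Hm_entry_le (h0 s) i a)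
        · simpa using h3.abs
      simpa using h4.mul_const (Hm (M t) b j)
    simp only [Finset.sum_const_zero, neg_zero] at h2
    exact h2.congr fun s => (key s).symm
  simpa using h1.add_const (Hm (M t) i j)

/-- derivative of the resolvent -/
theorem MDeriv.Hm' {M : ℝ → Matrix n n ℝ} {M' : Matrix n n ℝ} {t : ℝ} (hM : MDeriv M M' t)
    (h0 : ∀ s, 0 ≤ M s) :
    MDeriv (fun s => Hm (M s)) (-(Hm (M t) * M' * Hm (M t))) t := by
  intro i j
  rw [hasDerivAt_iff_tendsto_slope]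
  have key : ∀ s, slope (fun s => Hm (M s) i j) t s
      = -∑ b, ∑ a, Hm (M s) i a * slope (fun s => M s a b) t s * Hm (M t) b j := by
    intro s
    have h := congrFun (congrFun (Hm_sub (h0 t) (h0 s)) i) j
    rw [Matrix.sub_apply, Matrix.neg_apply, mul_apply] at h
    rw [slope_def_field, h, neg_div, Finset.sum_div]
    congr 1
    refine Finset.sum_congr rfl fun b _ => ?_
    rw [mul_apply, Finset.sum_mul, Finset.sum_div]
    refine Finset.sum_congr rfl fun a _ => ?_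
    rw [slope_def_field, Matrix.sub_apply]
    ring
  have hval : (-(Hm (M t) * M' * Hm (M t))) i j
      = -∑ b, ∑ a, Hm (M t) i a * M' a b * Hm (M t) b j := by
    rw [Matrix.neg_apply, mul_apply]
    congr 1
    refine Finset.sum_congr rfl fun b _ => ?_
    rw [mul_apply, Finset.sum_mul]
  rw [hval]
  have hcont : ∀ i j, Tendsto (fun s => M s i j) (𝓝[≠] t) (𝓝 (M t i j)) := fun i j =>
    ((hM i j).continuousAt.tendsto).mono_left nhdsWithin_le_nhds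
  have h2 : Tendsto (fun s => -∑ b, ∑ a, Hm (M s) i a * slope (fun s => M s a b) t s
      * Hm (M t) b j) (𝓝[≠] t) (𝓝 (-∑ b, ∑ a, Hm (M t) i a * M' a b * Hm (M t) b j)) := by
    refine (tendsto_finsetSum _ fun b _ => tendsto_finsetSum _ fun a _ => ?_).neg
    exact ((tendsto_Hm h0 hcont i a).mul (hasDerivAt_iff_tendsto_slope.mp (hM a b))).mul_const _
  exact h2.congr fun s => (key s).symm

/-! ### the four typical terms -/

theorem sv_transpose {U M : Matrix n n ℝ} (hU : Uᵀ = U) (hM : 0 ≤ M) : (sv U M)ᵀ = sv U M := by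
  unfold sv
  rw [transpose_mul, transpose_mul, Hm_transpose hM, hU, Matrix.mul_assoc]

theorem sv_contraction {U M : Matrix n n ℝ} (hU : Uᵀ = U) (hU2 : U * U = 1) (hM : 0 ≤ M) :
    sv U M * (sv U M)ᵀ ≤ 1 := by
  rw [sv_transpose hU hM]
  unfold sv
  have h1 : Hm M * U * Hm M * (Hm M * U * Hm M) = (Hm M * U) * (Hm M * Hm M) * (Hm M * U)ᵀ := by
    rw [transpose_mul, Hm_transpose hM, hU]
    noncomm_ring
  rw [h1]
  refine (le_conj (Hm_sq_le_one hM) (Hm M * U)).trans ?_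
  rw [Matrix.mul_one, transpose_mul, Hm_transpose hM, hU]
  have h3 : Hm M * U * (U * Hm M) = Hm M * Hm M := by
    rw [Matrix.mul_assoc, ← Matrix.mul_assoc U U, hU2, Matrix.one_mul]
  rw [h3]
  exact Hm_sq_le_one hM

/-- `|X (H U H) Y|_2² ≤ tr h U h U` -/
theorem fsq_sv_le {U M : Matrix n n ℝ} (hU : Uᵀ = U) (hM : 0 ≤ M) (X : Matrix p n ℝ)
    (Y : Matrix n q ℝ) (hX : Xᵀ * X ≤ M) (hY : Y * Yᵀ ≤ M) :
    fsq (X * sv U M * Y) ≤ En U M := by
  have h1 : X * sv U M * Y = (X * Hm M) * U * (Hm M * Y) := by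
    unfold sv
    simp only [Matrix.mul_assoc]
  have h2 : (X * Hm M)ᵀ * (X * Hm M) ≤ hm M := by
    rw [transpose_mul, Hm_transpose hM]
    have := le_conj hX (Hm M)
    rw [Hm_transpose hM] at this
    unfold hm
    calc Hm M * Xᵀ * (X * Hm M) = Hm M * (Xᵀ * X) * Hm M := by simp only [Matrix.mul_assoc]
      _ ≤ _ := this
  have h3 : (Hm M * Y) * (Hm M * Y)ᵀ ≤ hm M := by
    rw [transpose_mul, Hm_transpose hM]
    have := le_conj hY (Hm M)
    rw [Hm_transpose hM] at this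
    unfold hm
    calc Hm M * Y * (Yᵀ * Hm M) = Hm M * (Y * Yᵀ) * Hm M := by simp only [Matrix.mul_assoc]
      _ ≤ _ := this
  rw [h1]
  have h4 := fsq_sandwich_le (X * Hm M) U (Hm M * Y) h2 h3
  unfold En
  rwa [hU] at h4

theorem contraction_Hm_mul {M : Matrix n n ℝ} (hM : 0 ≤ M) (X : Matrix n p ℝ)
    (hX : X * Xᵀ ≤ M) : (Hm M * X) * (Hm M * X)ᵀ ≤ 1 := by
  rw [transpose_mul, Hm_transpose hM]
  have := le_conj hX (Hm M)
  rw [Hm_transpose hM] at this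
  calc Hm M * X * (Xᵀ * Hm M) = Hm M * (X * Xᵀ) * Hm M := by simp only [Matrix.mul_assoc]
    _ ≤ hm M := this
    _ ≤ gm M := hm_le_gm hM
    _ ≤ 1 := by
      rw [← sub_nonneg]
      have : (1 : Matrix n n ℝ) - gm M = Hm M := by unfold gm; abel
      rw [this]
      exact Hm_nonneg hM

section terms

variable {i3 i4 i2 : Type*} [Fintype i3] [DecidableEq i3] [Fintype i4] [DecidableEq i4]
  [Fintype i2] [DecidableEq i2]

theorem sqrt_mul_sqrt_le {a b E : ℝ} (ha0 : 0 ≤ a) (hb0 : 0 ≤ b) (h : a + b ≤ E) :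
    √a * √b ≤ E / 2 := by
  have h1 := Real.sq_sqrt ha0
  have h2 := Real.sq_sqrt hb0
  nlinarith [sq_nonneg (√a - √b)]

/-- general term: `W = X or Y`: `tr (H3 W Wᵀ s3 A s4 B s2 C)`, `W` with `W Wᵀ ≤ M3`. -/
theorem term_le (U3 M3 : Matrix i3 i3 ℝ) (U4 M4 : Matrix i4 i4 ℝ) (U2 M2 : Matrix i2 i2 ℝ)
    (hU3 : U3ᵀ = U3) (hU4 : U4ᵀ = U4) (hU2 : U2ᵀ = U2) (hU3' : U3 * U3 = 1) (hU4' : U4 * U4 = 1)
    (hU2' : U2 * U2 = 1) (h3 : 0 ≤ M3) (h4 : 0 ≤ M4) (h2 : 0 ≤ M2)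
    (A : Matrix i3 i4 ℝ) (B : Matrix i4 i2 ℝ) (C : Matrix i2 i3 ℝ) (W : Matrix i3 p ℝ)
    (hA3 : A * Aᵀ ≤ M3) (hC2 : C * Cᵀ ≤ M2) (hB2 : Bᵀ * B ≤ M2) (hW : W * Wᵀ ≤ M3) :
    |trace (Hm M3 * (W * Wᵀ) * sv U3 M3 * A * sv U4 M4 * B * sv U2 M2 * C)|
      ≤ (En U3 M3 + En U4 M4 + En U2 M2) / 2 := by
  have e1 : trace (Hm M3 * (W * Wᵀ) * sv U3 M3 * A * sv U4 M4 * B * sv U2 M2 * C)
      = trace ((Wᵀ * sv U3 M3 * A) * sv U4 M4 * ((B * sv U2 M2 * C) * (Hm M3 * W))) := by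
    rw [show Hm M3 * (W * Wᵀ) * sv U3 M3 * A * sv U4 M4 * B * sv U2 M2 * C
      = (Hm M3 * W) * ((Wᵀ * sv U3 M3 * A) * sv U4 M4 * (B * sv U2 M2 * C)) by
        simp only [Matrix.mul_assoc], trace_mul_comm]
    simp only [Matrix.mul_assoc]
  rw [e1]
  have hWt : (Wᵀ)ᵀ * Wᵀ ≤ M3 := by rwa [transpose_transpose]
  have f1 : fsq (Wᵀ * sv U3 M3 * A) ≤ En U3 M3 := fsq_sv_le hU3 h3 _ _ hWt hA3
  have f2 : fsq (B * sv U2 M2 * C) ≤ En U2 M2 := fsq_sv_le hU2 h2 _ _ hB2 hC2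
  have f3 : fsq ((B * sv U2 M2 * C) * (Hm M3 * W)) ≤ En U2 M2 :=
    (fsq_mul_contraction _ _ (contraction_Hm_mul h3 W hW)).trans f2
  refine (abs_trace_mul_mul_le _ _ _ (sv_contraction hU4 hU4' h4)).trans ?_
  refine (mul_le_mul (Real.sqrt_le_sqrt f1) (Real.sqrt_le_sqrt f3) (Real.sqrt_nonneg _)
    (Real.sqrt_nonneg _)).trans ?_
  refine sqrt_mul_sqrt_le (En_nonneg hU3 h3) (En_nonneg hU2 h2) ?_
  have := En_nonneg hU4 h4
  linarith

/-- mirrored term `tr (s3 W Wᵀ H3 A s4 B s2 C)` -/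
theorem term_le' (U3 M3 : Matrix i3 i3 ℝ) (U4 M4 : Matrix i4 i4 ℝ) (U2 M2 : Matrix i2 i2 ℝ)
    (hU3 : U3ᵀ = U3) (hU4 : U4ᵀ = U4) (hU2 : U2ᵀ = U2) (hU3' : U3 * U3 = 1) (hU4' : U4 * U4 = 1)
    (hU2' : U2 * U2 = 1) (h3 : 0 ≤ M3) (h4 : 0 ≤ M4) (h2 : 0 ≤ M2)
    (A : Matrix i3 i4 ℝ) (B : Matrix i4 i2 ℝ) (C : Matrix i2 i3 ℝ) (W : Matrix i3 p ℝ)
    (hC3 : Cᵀ * C ≤ M3) (hA4 : Aᵀ * A ≤ M4) (hB4 : B * Bᵀ ≤ M4) (hW : W * Wᵀ ≤ M3) :
    |trace (sv U3 M3 * (W * Wᵀ) * Hm M3 * A * sv U4 M4 * B * sv U2 M2 * C)|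
      ≤ (En U3 M3 + En U4 M4 + En U2 M2) / 2 := by
  have e1 : trace (sv U3 M3 * (W * Wᵀ) * Hm M3 * A * sv U4 M4 * B * sv U2 M2 * C)
      = trace (Hm M3 * (W * Wᵀ) * sv U3 M3 * Cᵀ * sv U2 M2 * Bᵀ * sv U4 M4 * Aᵀ) := by
    rw [← trace_transpose]
    simp only [transpose_mul, transpose_transpose, sv_transpose hU3 h3, sv_transpose hU4 h4,
      sv_transpose hU2 h2, Hm_transpose h3]
    rw [show Cᵀ * (sv U2 M2 * (Bᵀ * (sv U4 M4 * (Aᵀ * (Hm M3 * (W * Wᵀ * sv U3 M3))))))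
      = (Cᵀ * sv U2 M2 * Bᵀ * sv U4 M4 * Aᵀ) * (Hm M3 * (W * Wᵀ) * sv U3 M3) by
        simp only [Matrix.mul_assoc], trace_mul_comm]
    simp only [Matrix.mul_assoc]
  rw [e1]
  have := term_le U3 M3 U2 M2 U4 M4 hU3 hU2 hU4 hU3' hU2' hU4' h3 h2 h4 Cᵀ Bᵀ Aᵀ W
    (by rwa [transpose_transpose]) (by rwa [transpose_transpose]) (by rwa [transpose_transpose]) hW
  linarith

end terms

end Crest.Agent.R079.Path
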