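import Crest.Agent.R079.PathDeriv_378
import Crest.Agent.R072.DyadicA

/-!
# R079: PATH-R072, part 4: the one step inequality of the potential (helper378)

`Vp x y z A B C = Psi (M_3) + Psi (M_4) + Psi (M_2)`.
`step_path`: `EE (parent) ≤ 2 (¼ ∑ children Vp - Vp parent)`.
-/

set_option autoImplicit false
set_option linter.unusedSectionVars false
set_option linter.unusedVariables false

namespace Crest.Agent.R079.Path

open Matrix Filter Topology
open Crest.Agent.R072 Crest.Agent.R072.Nd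
open scoped MatrixOrder

section psi

variable {n m : Type*} [Fintype n] [DecidableEq n] [Fintype m] [DecidableEq m]

theorem Psi_eq (M : Matrix n n ℝ) :
    Psi M = trace M - Fintype.card n + trace (Hm M) := by
  unfold Psi gm
  rw [trace_sub, trace_one]
  ring

theorem Psi_eq_sq {M : Matrix n n ℝ} (hM : 0 ≤ M) : Psi M = trace (M * M * Hm M) := by
  have h : M * M * Hm M = M - gm M := by
    rw [Matrix.mul_assoc, mul_Hm hM, Matrix.mul_sub, Matrix.mul_one, ← gm_eq hM]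
  rw [h, trace_sub]
  rfl

theorem tr_fromBlocks (P : Matrix n n ℝ) (Q : Matrix n m ℝ) (R : Matrix m n ℝ)
    (S : Matrix m m ℝ) : trace (fromBlocks P Q R S) = trace P + trace S := by
  simp only [trace, diag_apply, Fintype.sum_sum_type, fromBlocks_apply₁₁, fromBlocks_apply₂₂]

theorem psd_symm_sq {M : Matrix n n ℝ} (hM : 0 ≤ M) : 0 ≤ M * M :=
  (psd_of_symm_sq (psd_transpose (Matrix.nonneg_iff_posSemidef.mp hM))).nonneg

theorem Psi_nonneg {M : Matrix n n ℝ} (hM : 0 ≤ M) : 0 ≤ Psi M := by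
  rw [Psi_eq_sq hM]
  exact frob_trace_mul_nonneg (psd_symm_sq hM) (Hm_nonneg hM)

theorem Psi_le_trace {M : Matrix n n ℝ} (hM : 0 ≤ M) : Psi M ≤ trace M := by
  unfold Psi
  have := trace_nonneg_of_psd (gm_nonneg hM)
  linarith

theorem Psi_le_trace_sq {M : Matrix n n ℝ} (hM : 0 ≤ M) : Psi M ≤ trace (M * M) := by
  rw [Psi_eq_sq hM]
  have := trace_mul_mono_right (psd_symm_sq hM) (Hm_le_one hM)
  rwa [Matrix.mul_one] at this

theorem Psi_mid_le {X Y : Matrix n n ℝ} (hX : 0 ≤ X) (hY : 0 ≤ Y) :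
    Psi ((1 / 2 : ℝ) • (X + Y)) ≤ (1 / 2) * (Psi X + Psi Y) := by
  set P := 1 + (1 / 2 : ℝ) • (X + Y) with hP
  set E := (1 / 2 : ℝ) • (X - Y) with hE
  have hXt := psd_transpose (Matrix.nonneg_iff_posSemidef.mp hX)
  have hYt := psd_transpose (Matrix.nonneg_iff_posSemidef.mp hY)
  have hEt : Eᵀ = E := by
    rw [hE, transpose_smul, transpose_sub, hXt, hYt]
  have hmid : 0 ≤ (1 / 2 : ℝ) • (X + Y) := psd_smul' (add_nonneg hX hY) (by norm_num)
  have hPp : P.PosDef := one_add_posDef hmid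
  have e1 : P + E = 1 + X := by
    rw [hP, hE, add_assoc, ← smul_add]
    rw [show X + Y + (X - Y) = (2 : ℝ) • X by rw [two_smul]; abel, smul_smul]
    norm_num
  have e2 : P - E = 1 + Y := by
    rw [hP, hE, add_sub_assoc, ← smul_sub]
    rw [show X + Y - (X - Y) = (2 : ℝ) • Y by rw [two_smul]; abel, smul_smul]
    norm_num
  have h1 : (P + E).PosDef := by rw [e1]; exact one_add_posDef hX
  have h2 : (P - E).PosDef := by rw [e2]; exact one_add_posDef hY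
  have h := inv_convex hEt hPp h1 h2
  have h0 : 0 ≤ (2 : ℝ) • (P⁻¹ * E * P⁻¹ * E * P⁻¹) := by
    refine psd_smul' ?_ (by norm_num)
    have hPi : 0 ≤ P⁻¹ := hPp.inv.posSemidef.nonneg
    have hPit : (P⁻¹)ᵀ = P⁻¹ := psd_transpose hPp.inv.posSemidef
    have := frob_psd_conj hPi (P⁻¹ * E)
    rw [transpose_mul, hPit, hEt] at this
    calc (0 : Matrix n n ℝ) ≤ P⁻¹ * E * P⁻¹ * (E * P⁻¹) := this
      _ = _ := by noncomm_ring
  have h3 := trace_nonneg_of_psd (h0.trans h)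
  rw [e1, e2, trace_sub, trace_add, trace_smul, smul_eq_mul] at h3
  rw [Psi_eq, Psi_eq, Psi_eq]
  have h4 : trace (Hm ((1 / 2 : ℝ) • (X + Y))) = trace P⁻¹ := rfl
  have h5 : trace (Hm X) = trace (1 + X)⁻¹ := rfl
  have h6 : trace (Hm Y) = trace (1 + Y)⁻¹ := rfl
  rw [h4, h5, h6, trace_smul, trace_add, smul_eq_mul]
  linarith

theorem Psi_two_le {M : Matrix n n ℝ} (hM : 0 ≤ M) : Psi ((2 : ℝ) • M) ≤ 4 * Psi M := by
  have h2 : 0 ≤ (2 : ℝ) • M := psd_smul' hM (by norm_num)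
  rw [Psi_eq_sq hM, Psi_eq_sq h2, Matrix.smul_mul, Matrix.mul_smul, smul_smul, Matrix.smul_mul,
    trace_smul, smul_eq_mul, show (2 : ℝ) * 2 = 4 by norm_num]
  refine mul_le_mul_of_nonneg_left ?_ (by norm_num)
  refine trace_mul_mono_right (psd_symm_sq hM) (Hm_anti hM ?_)
  rw [two_smul]
  exact le_add_of_nonneg_left hM

theorem Psi_add_le {X Y : Matrix n n ℝ} (hX : 0 ≤ X) (hY : 0 ≤ Y) :
    Psi (X + Y) ≤ 2 * (Psi X + Psi Y) := by
  have h := Psi_mid_le (psd_smul' hX (by norm_num : (0 : ℝ) ≤ 2))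
    (psd_smul' hY (by norm_num : (0 : ℝ) ≤ 2))
  rw [← smul_add, smul_smul, show (1 / 2 : ℝ) * 2 = 1 by norm_num, one_smul] at h
  have h1 := Psi_two_le hX
  have h2 := Psi_two_le hY
  linarith

theorem Hm_fromBlocks {P : Matrix n n ℝ} {S : Matrix m m ℝ} (hP : 0 ≤ P) (hS : 0 ≤ S) :
    Hm (fromBlocks P 0 0 S) = fromBlocks (Hm P) 0 0 (Hm S) := by
  have h1 : (1 + P) * Hm P = 1 := mul_nonsing_inv _ (one_add_isUnit hP)
  have h2 : (1 + S) * Hm S = 1 := mul_nonsing_inv _ (one_add_isUnit hS)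
  refine inv_eq_right_inv ?_
  rw [← fromBlocks_one, fromBlocks_add, fromBlocks_multiply]
  simp only [add_zero, zero_add, Matrix.mul_zero, Matrix.zero_mul, h1, h2]

theorem Psi_fromBlocks {P : Matrix n n ℝ} {S : Matrix m m ℝ} (hP : 0 ≤ P) (hS : 0 ≤ S) :
    Psi (fromBlocks P 0 0 S) = Psi P + Psi S := by
  rw [Psi_eq, Psi_eq, Psi_eq, Hm_fromBlocks hP hS, tr_fromBlocks, tr_fromBlocks,
    Fintype.card_sum, Nat.cast_add]
  ring

theorem Hm_submatrix (e : m ≃ n) (M : Matrix n n ℝ) :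
    Hm (M.submatrix e e) = (Hm M).submatrix e e := by
  unfold Hm
  rw [← inv_submatrix_equiv]
  congr 1
  rw [show (1 + M).submatrix e e = (1 : Matrix n n ℝ).submatrix e e + M.submatrix e e from rfl,
    submatrix_one_equiv]

theorem trace_submatrix_equiv' (e : m ≃ n) (M : Matrix n n ℝ) :
    trace (M.submatrix e e) = trace M := by
  simp only [trace, diag_apply, submatrix_apply]
  exact Equiv.sum_comp e fun i => M i i

theorem Psi_submatrix (e : m ≃ n) (M : Matrix n n ℝ) : Psi (M.submatrix e e) = Psi M := by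
  rw [Psi_eq, Psi_eq, Hm_submatrix, trace_submatrix_equiv', trace_submatrix_equiv',
    Fintype.card_congr e]

end psi

section step

variable {i3 i4 i2 : Type*} [Fintype i3] [DecidableEq i3] [Fintype i4] [DecidableEq i4]
  [Fintype i2] [DecidableEq i2]

/-- node potential -/
noncomputable def Vp (A : Matrix i3 i4 ℝ) (B : Matrix i4 i2 ℝ) (C : Matrix i2 i3 ℝ)
    (x y z : ℝ) : ℝ :=
  Psi (Pv x z A C) + Psi (Pv y x B A) + Psi (Pv z y C B)

theorem Vp_nonneg (A : Matrix i3 i4 ℝ) (B : Matrix i4 i2 ℝ) (C : Matrix i2 i3 ℝ)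
    {x y z : ℝ} (hx : 0 ≤ x) (hy : 0 ≤ y) (hz : 0 ≤ z) : 0 ≤ Vp A B C x y z :=
  add_nonneg (add_nonneg (Psi_nonneg (Pv_nonneg hx hz A C)) (Psi_nonneg (Pv_nonneg hy hx B A)))
    (Psi_nonneg (Pv_nonneg hz hy C B))

theorem Vp_rot (A : Matrix i3 i4 ℝ) (B : Matrix i4 i2 ℝ) (C : Matrix i2 i3 ℝ) (x y z : ℝ) :
    Vp A B C x y z = Vp B C A y z x := by
  unfold Vp
  ring

/-- `Psi (x A Aᵀ)` type bounds: energy and fourth power -/
theorem Vp_le (A : Matrix i3 i4 ℝ) (B : Matrix i4 i2 ℝ) (C : Matrix i2 i3 ℝ)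
    {x y z : ℝ} (hx : 0 ≤ x) (hy : 0 ≤ y) (hz : 0 ≤ z) :
    Vp A B C x y z ≤ 2 * ((Psi (x • (A * Aᵀ)) + Psi (x • (Aᵀ * A)))
      + (Psi (y • (B * Bᵀ)) + Psi (y • (Bᵀ * B)))
      + (Psi (z • (C * Cᵀ)) + Psi (z • (Cᵀ * C)))) := by
  unfold Vp Pv
  have h1 := Psi_add_le (psd_smul' (psd_mul_transpose_self A) hx)
    (psd_smul' (psd_transpose_mul_self C) hz)
  have h2 := Psi_add_le (psd_smul' (psd_mul_transpose_self B) hy)
    (psd_smul' (psd_transpose_mul_self A) hx)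
  have h3 := Psi_add_le (psd_smul' (psd_mul_transpose_self C) hz)
    (psd_smul' (psd_transpose_mul_self B) hy)
  linarith

theorem Pv_submatrix {j3 j4 j2 : Type*} [Fintype j3] [DecidableEq j3] [Fintype j4]
    [DecidableEq j4] [Fintype j2] [DecidableEq j2] (e3 : j3 ≃ i3) (e4 : j4 ≃ i4) (e2 : j2 ≃ i2)
    (x z : ℝ) (A : Matrix i3 i4 ℝ) (C : Matrix i2 i3 ℝ) :
    Pv x z (A.submatrix e3 e4) (C.submatrix e2 e3) = (Pv x z A C).submatrix e3 e3 := by
  unfold Pv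
  rw [transpose_submatrix, transpose_submatrix, submatrix_mul_equiv, submatrix_mul_equiv]
  rfl

theorem Vp_submatrix {j3 j4 j2 : Type*} [Fintype j3] [DecidableEq j3] [Fintype j4]
    [DecidableEq j4] [Fintype j2] [DecidableEq j2] (e3 : j3 ≃ i3) (e4 : j4 ≃ i4) (e2 : j2 ≃ i2)
    (A : Matrix i3 i4 ℝ) (B : Matrix i4 i2 ℝ) (C : Matrix i2 i3 ℝ) (x y z : ℝ) :
    Vp (A.submatrix e3 e4) (B.submatrix e4 e2) (C.submatrix e2 e3) x y z = Vp A B C x y z := by
  unfold Vp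
  rw [Pv_submatrix e3 e4 e2, Pv_submatrix e4 e2 e3, Pv_submatrix e2 e3 e4, Psi_submatrix,
    Psi_submatrix, Psi_submatrix]

theorem sv_submatrix {j3 : Type*} [Fintype j3] [DecidableEq j3] (e3 : j3 ≃ i3)
    (U M : Matrix i3 i3 ℝ) :
    sv (U.submatrix e3 e3) (M.submatrix e3 e3) = (sv U M).submatrix e3 e3 := by
  unfold sv
  rw [Hm_submatrix, submatrix_mul_equiv, submatrix_mul_equiv]

theorem En_submatrix {j3 : Type*} [Fintype j3] [DecidableEq j3] (e3 : j3 ≃ i3)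
    (U M : Matrix i3 i3 ℝ) : En (U.submatrix e3 e3) (M.submatrix e3 e3) = En U M := by
  unfold En hm
  rw [Hm_submatrix]
  simp only [submatrix_mul_equiv, trace_submatrix_equiv']

theorem Tt_submatrix {j3 j4 j2 : Type*} [Fintype j3] [DecidableEq j3] [Fintype j4]
    [DecidableEq j4] [Fintype j2] [DecidableEq j2] (e3 : j3 ≃ i3) (e4 : j4 ≃ i4) (e2 : j2 ≃ i2)
    (U3 : Matrix i3 i3 ℝ) (U4 : Matrix i4 i4 ℝ) (U2 : Matrix i2 i2 ℝ)
    (A : Matrix i3 i4 ℝ) (B : Matrix i4 i2 ℝ) (C : Matrix i2 i3 ℝ) (x y z : ℝ) :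
    Tt (U3.submatrix e3 e3) (U4.submatrix e4 e4) (U2.submatrix e2 e2) (A.submatrix e3 e4)
      (B.submatrix e4 e2) (C.submatrix e2 e3) x y z = Tt U3 U4 U2 A B C x y z := by
  unfold Tt
  rw [Pv_submatrix e3 e4 e2, Pv_submatrix e4 e2 e3, Pv_submatrix e2 e3 e4, sv_submatrix,
    sv_submatrix, sv_submatrix]
  simp only [submatrix_mul_equiv, trace_submatrix_equiv']

theorem EE_submatrix {j3 j4 j2 : Type*} [Fintype j3] [DecidableEq j3] [Fintype j4]
    [DecidableEq j4] [Fintype j2] [DecidableEq j2] (e3 : j3 ≃ i3) (e4 : j4 ≃ i4) (e2 : j2 ≃ i2)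
    (U3 : Matrix i3 i3 ℝ) (U4 : Matrix i4 i4 ℝ) (U2 : Matrix i2 i2 ℝ)
    (A : Matrix i3 i4 ℝ) (B : Matrix i4 i2 ℝ) (C : Matrix i2 i3 ℝ) (x y z : ℝ) :
    EE (U3.submatrix e3 e3) (U4.submatrix e4 e4) (U2.submatrix e2 e2) (A.submatrix e3 e4)
      (B.submatrix e4 e2) (C.submatrix e2 e3) x y z = EE U3 U4 U2 A B C x y z := by
  unfold EE
  rw [Pv_submatrix e3 e4 e2, Pv_submatrix e4 e2 e3, Pv_submatrix e2 e3 e4, En_submatrix,
    En_submatrix, En_submatrix]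

end step

section block

open Crest.Agent.R072.Dyadic (sg sg_mul_self diagonal_sg add_conj_sg)

variable {m : Type*} [Fintype m] [DecidableEq m]

theorem sg_symm : (diagonal sg : Matrix (m ⊕ m) (m ⊕ m) ℝ)ᵀ = diagonal sg := diagonal_transpose _

theorem sg_sq : (diagonal sg : Matrix (m ⊕ m) (m ⊕ m) ℝ) * diagonal sg = 1 := by
  rw [diagonal_mul_diagonal, ← diagonal_one]
  congr 1
  ext i
  exact sg_mul_self i

/-- vertex version of the step inequality -/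
theorem step_vertex {P Q R S X0 X1 Y0 Y1 : Matrix m m ℝ} (hX0 : 0 ≤ X0) (hX1 : 0 ≤ X1)
    (hY0 : 0 ≤ Y0) (hY1 : 0 ≤ Y1) (hP : P = X0 + X1) (hS : S = Y0 + Y1)
    (hM : 0 ≤ (1 / 4 : ℝ) • fromBlocks P Q R S) :
    En (diagonal sg) ((1 / 4 : ℝ) • fromBlocks P Q R S) ≤
      2 * ((1 / 4) * (Psi X0 + Psi X1 + Psi Y0 + Psi Y1) - Psi ((1 / 4 : ℝ) • fromBlocks P Q R S)) := by
  have h := Psi_gap sg_symm sg_sq hM
  have e1 : (1 / 4 : ℝ) • fromBlocks P Q R S
      + diagonal sg * ((1 / 4 : ℝ) • fromBlocks P Q R S) * diagonal sg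
      = fromBlocks ((1 / 2 : ℝ) • (X0 + X1)) 0 0 ((1 / 2 : ℝ) • (Y0 + Y1)) := by
    rw [Matrix.mul_smul, Matrix.smul_mul, ← smul_add, add_conj_sg, fromBlocks_smul, hP, hS]
    simp only [smul_zero, smul_smul]
    norm_num
  rw [e1, Psi_fromBlocks (psd_smul' (add_nonneg hX0 hX1) (by norm_num))
    (psd_smul' (add_nonneg hY0 hY1) (by norm_num))] at h
  have h1 := Psi_mid_le hX0 hX1
  have h2 := Psi_mid_le hY0 hY1
  linarith

/-- **one step inequality**: parent normalised blocks `½ fromBlocks (children)`; children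
`(a,b,c)` with `a + b + c` even. -/
theorem step_path (A00 A01 A10 A11 B00 B01 B10 B11 C00 C01 C10 C11 : Matrix m m ℝ)
    {x y z : ℝ} (hx : 0 ≤ x) (hy : 0 ≤ y) (hz : 0 ≤ z) :
    EE (diagonal sg) (diagonal sg) (diagonal sg) ((1 / 2 : ℝ) • fromBlocks A00 A01 A10 A11)
        ((1 / 2 : ℝ) • fromBlocks B00 B01 B10 B11) ((1 / 2 : ℝ) • fromBlocks C00 C01 C10 C11) x y z
      ≤ 2 * ((1 / 4) * (Vp A00 B00 C00 x y z + Vp A01 B11 C10 x y z + Vp A10 B01 C11 x y z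
        + Vp A11 B10 C01 x y z) - Vp ((1 / 2 : ℝ) • fromBlocks A00 A01 A10 A11)
          ((1 / 2 : ℝ) • fromBlocks B00 B01 B10 B11) ((1 / 2 : ℝ) • fromBlocks C00 C01 C10 C11)
          x y z) := by
  have key : ∀ (A00 A01 A10 A11 C00 C01 C10 C11 : Matrix m m ℝ) (x z : ℝ),
      Pv x z ((1 / 2 : ℝ) • fromBlocks A00 A01 A10 A11) ((1 / 2 : ℝ) • fromBlocks C00 C01 C10 C11)
      = (1 / 4 : ℝ) • fromBlocks (Pv x z A00 C00 + Pv x z A01 C10)
        (x • (A00 * A10ᵀ + A01 * A11ᵀ) + z • (C00ᵀ * C01 + C10ᵀ * C11))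
        (x • (A10 * A00ᵀ + A11 * A01ᵀ) + z • (C01ᵀ * C00 + C11ᵀ * C10))
        (Pv x z A10 C11 + Pv x z A11 C01) := by
    intro A00 A01 A10 A11 C00 C01 C10 C11 x z
    have q1 : ∀ X Y : Matrix (m ⊕ m) (m ⊕ m) ℝ,
        ((1 / 2 : ℝ) • X) * ((1 / 2 : ℝ) • Y) = (1 / 4 : ℝ) • (X * Y) := by
      intro X Y
      rw [Matrix.smul_mul, Matrix.mul_smul, smul_smul]
      norm_num
    unfold Pv
    rw [transpose_smul, transpose_smul, q1, q1, fromBlocks_transpose, fromBlocks_transpose,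
      fromBlocks_multiply, fromBlocks_multiply, smul_comm x, smul_comm z, ← smul_add,
      fromBlocks_smul x, fromBlocks_smul z, fromBlocks_add]
    congr 2
    all_goals simp only [smul_add]
    all_goals abel
  set A := (1 / 2 : ℝ) • fromBlocks A00 A01 A10 A11 with hA
  set B := (1 / 2 : ℝ) • fromBlocks B00 B01 B10 B11 with hB
  set C := (1 / 2 : ℝ) • fromBlocks C00 C01 C10 C11 with hC
  have q3 := Pv_nonneg hx hz A C
  have q4 := Pv_nonneg hy hx B A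
  have q2 := Pv_nonneg hz hy C B
  have k3 := key A00 A01 A10 A11 C00 C01 C10 C11 x z
  have k4 := key B00 B01 B10 B11 A00 A01 A10 A11 y x
  have k2 := key C00 C01 C10 C11 B00 B01 B10 B11 z y
  rw [← hA, ← hC] at k3
  rw [← hB, ← hA] at k4
  rw [← hC, ← hB] at k2
  unfold EE Vp
  rw [k3] at q3 ⊢
  rw [k4] at q4 ⊢
  rw [k2] at q2 ⊢
  have h3 := step_vertex (Pv_nonneg hx hz A00 C00) (Pv_nonneg hx hz A01 C10)
    (Pv_nonneg hx hz A10 C11) (Pv_nonneg hx hz A11 C01) rfl rfl q3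
  have h4 := step_vertex (Pv_nonneg hy hx B00 A00) (Pv_nonneg hy hx B01 A10)
    (Pv_nonneg hy hx B10 A11) (Pv_nonneg hy hx B11 A01) rfl rfl q4
  have h2 := step_vertex (Pv_nonneg hz hy C00 B00) (Pv_nonneg hz hy C01 B10)
    (Pv_nonneg hz hy C10 B11) (Pv_nonneg hz hy C11 B01) rfl rfl q2
  linarith

end block

end Crest.Agent.R079.Path
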