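import Crest.Agent.R079.TriIso_378

/-! R079, PSUM (helper815): budgets of `tri_path` in terms of the box traces `bx` (= tr U, Hilbert-
Schmidt average) and the Schatten-4 block averages `q4` (= tr U²), for an arbitrary path whose
scalar sums are bounded (`Bud`), and the concrete (2,4,4) path
`x = 4^j`, `y = z = 4^j H / s (j ≤ -a), 2^j / s (-a < j ≤ n), 4^j (n < j)`, `s = 2^(-n)`,
`H = 2^a`.  -/

set_option autoImplicit false
set_option linter.unusedSectionVars false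
set_option linter.unusedVariables false

namespace Crest.Agent.R079.Pot

open Matrix Finset Filter Topology Crest.Agent.R072 Crest.Agent.R072.Lattice Crest.Agent.R079.LD
  Crest.Agent.R079.Path Crest.Agent.R072.Nd Crest.Agent.R079.Glue
open scoped MatrixOrder

/-! ### the path -/

/-- fast coordinate of the (2,4,4) path, `s = 2^(-n)`, `H = 2^a` -/
noncomputable def py (n a : ℕ) (j : ℤ) : ℝ :=
  if j ≤ -(a : ℤ) then 4 ^ j * (2 ^ a * 2 ^ n) else if j ≤ (n : ℤ) then 2 ^ j * 2 ^ n else 4 ^ j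

theorem four_zpow (j : ℤ) : (4 : ℝ) ^ j = 2 ^ j * 2 ^ j := by
  rw [show (4 : ℝ) = 2 * 2 by norm_num, mul_zpow]

theorem two_zpow_succ (j : ℤ) : (2 : ℝ) ^ (j + 1) = 2 * 2 ^ j := by
  rw [zpow_add_one₀ (by norm_num)]; ring

theorem four_zpow_succ (j : ℤ) : (4 : ℝ) ^ (j + 1) = 4 * 4 ^ j := by
  rw [zpow_add_one₀ (by norm_num)]; ring

theorem py_of_low {n a : ℕ} {j : ℤ} (h : j ≤ -(a : ℤ)) : py n a j = 4 ^ j * (2 ^ a * 2 ^ n) := by
  unfold py
  rw [if_pos h]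

theorem py_of_mid {n a : ℕ} {j : ℤ} (h : -(a : ℤ) < j) (h' : j ≤ n) :
    py n a j = 2 ^ j * 2 ^ n := by
  unfold py
  rw [if_neg (by omega), if_pos h']

theorem py_of_top {n a : ℕ} {j : ℤ} (h : (n : ℤ) < j) : py n a j = 4 ^ j := by
  unfold py
  rw [if_neg (by omega), if_neg (by omega)]

theorem py_pos (n a : ℕ) (j : ℤ) : 0 < py n a j := by
  unfold py
  split_ifs <;> positivity

theorem one_le_two_pow' (n : ℕ) : (1 : ℝ) ≤ 2 ^ n := one_le_pow₀ (by norm_num)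

theorem zpow_le_pow {n : ℕ} {j : ℤ} (h : j ≤ n) : (2 : ℝ) ^ j ≤ 2 ^ n := by
  rw [← zpow_natCast]
  exact zpow_le_zpow_right₀ (by norm_num) h

/-- `1 ≤ 2^j 2^a` for `-a ≤ j` -/
theorem one_le_zpow_mul {a : ℕ} {j : ℤ} (h : -(a : ℤ) ≤ j) : (1 : ℝ) ≤ 2 ^ j * 2 ^ a := by
  rw [← zpow_natCast, ← zpow_add₀ (by norm_num)]
  exact one_le_zpow₀ (by norm_num) (by omega)

theorem py_ge (n a : ℕ) (j : ℤ) : (4 : ℝ) ^ j ≤ py n a j := by
  have h4 : (0 : ℝ) < 4 ^ j := by positivity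
  have h2 : (0 : ℝ) < 2 ^ j := by positivity
  have hn := one_le_two_pow' n
  have ha := one_le_two_pow' a
  rcases le_or_gt j (-(a : ℤ)) with h | h
  · rw [py_of_low h]
    exact le_mul_of_one_le_right h4.le (one_le_mul_of_one_le_of_one_le ha hn)
  · rcases le_or_gt j n with h' | h'
    · rw [py_of_mid h h', four_zpow]
      exact mul_le_mul_of_nonneg_left (zpow_le_pow h') h2.le
    · rw [py_of_top h']

theorem py_le (n a : ℕ) (j : ℤ) : py n a j ≤ 4 ^ j * (2 ^ a * 2 ^ n) := by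
  have h4 : (0 : ℝ) < 4 ^ j := by positivity
  have h2 : (0 : ℝ) < 2 ^ j := by positivity
  have hn := one_le_two_pow' n
  have ha := one_le_two_pow' a
  rcases le_or_gt j (-(a : ℤ)) with h | h
  · rw [py_of_low h]
  · rcases le_or_gt j n with h' | h'
    · rw [py_of_mid h h', four_zpow]
      have h1 := one_le_zpow_mul h.le
      have e : (2 : ℝ) ^ j * 2 ^ j * (2 ^ a * 2 ^ n) = 2 ^ j * 2 ^ n * (2 ^ j * 2 ^ a) := by ring
      rw [e]
      exact le_mul_of_one_le_right (by positivity) h1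
    · rw [py_of_top h']
      exact le_mul_of_one_le_right h4.le (one_le_mul_of_one_le_of_one_le ha hn)

theorem py_step (n a : ℕ) (j : ℤ) :
    py n a (j + 1) = 4 * py n a j ∨ py n a (j + 1) = 2 * py n a j := by
  -- value at the left corner
  have hc : ∀ j : ℤ, j = -(a : ℤ) → (4 : ℝ) ^ j * (2 ^ a * 2 ^ n) = 2 ^ j * 2 ^ n := by
    intro j hj
    have e : (2 : ℝ) ^ j * 2 ^ a = 1 := by
      rw [← zpow_natCast, ← zpow_add₀ (by norm_num), hj, neg_add_cancel, zpow_zero]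
    rw [four_zpow]
    calc (2 : ℝ) ^ j * 2 ^ j * (2 ^ a * 2 ^ n) = (2 ^ j * 2 ^ a) * (2 ^ j * 2 ^ n) := by ring
      _ = _ := by rw [e, one_mul]
  have hd : ∀ j : ℤ, j = (n : ℤ) → (2 : ℝ) ^ j * 2 ^ n = 4 ^ j := by
    intro j hj
    rw [four_zpow, hj, zpow_natCast]
  rcases lt_trichotomy j (-(a : ℤ)) with h | h | h
  · left
    rw [py_of_low h.le, py_of_low (by omega), four_zpow_succ]
    ring
  · rcases lt_or_ge j n with h' | h'
    · right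
      rw [py_of_low h.le, hc j h, py_of_mid (by omega) (by omega), two_zpow_succ]
      ring
    · left
      rw [py_of_low h.le, hc j h, hd j (by omega), py_of_top (by omega), four_zpow_succ]
  · rcases lt_trichotomy j n with h' | h' | h'
    · right
      rw [py_of_mid h h'.le, py_of_mid (by omega) (by omega), two_zpow_succ]
      ring
    · left
      rw [py_of_mid h h'.le, py_of_top (by omega), four_zpow_succ, hd j h']
    · left
      rw [py_of_top h', py_of_top (by omega), four_zpow_succ]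

theorem py_mono (n a : ℕ) (j : ℤ) : py n a j ≤ py n a (j + 1) := by
  have := py_pos n a j
  rcases py_step n a j with h | h
  · rw [h]; linarith
  · rw [h]; linarith

theorem py_four (n a : ℕ) (j : ℤ) : py n a (j + 1) ≤ 4 * py n a j := by
  have := py_pos n a j
  rcases py_step n a j with h | h
  · rw [h]
  · rw [h]; linarith

theorem py_bot (n a : ℕ) : Tendsto (py n a) atBot (𝓝 0) := by
  have h : Tendsto (fun j : ℤ => (4 : ℝ) ^ j * (2 ^ a * 2 ^ n)) atBot (𝓝 0) := by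
    have := tendsto_four_bot.mul_const ((2 : ℝ) ^ a * 2 ^ n)
    rwa [zero_mul] at this
  exact squeeze_zero (fun j => (py_pos n a j).le) (py_le n a) h

theorem four_mono (j : ℤ) : (4 : ℝ) ^ j ≤ 4 ^ (j + 1) := by
  have : (0 : ℝ) < 4 ^ j := by positivity
  rw [four_zpow_succ]; linarith

theorem top_of_ge {x y z : ℤ → ℝ} (hx : ∀ j, (4 : ℝ) ^ j ≤ x j) (hy : ∀ j, (4 : ℝ) ^ j ≤ y j)
    (hz : ∀ j, (4 : ℝ) ^ j ≤ z j) : Tendsto (fun j => x j * y j * z j) atTop atTop := by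
  refine tendsto_atTop_mono (fun j => ?_)
    ((tendsto_four_top.atTop_mul_atTop₀ tendsto_four_top).atTop_mul_atTop₀ tendsto_four_top)
  have h4 : (0 : ℝ) < 4 ^ j := by positivity
  have h1 := hx j
  have h2 := hy j
  have h3 := hz j
  have h5 : (4 : ℝ) ^ j * 4 ^ j ≤ x j * y j :=
    mul_le_mul h1 h2 h4.le (h4.le.trans h1)
  exact mul_le_mul h5 h3 h4.le ((by positivity : (0 : ℝ) ≤ 4 ^ j * 4 ^ j).trans h5)

/-- the (2,4,4) path: slot A slow -/
theorem path244 (n a : ℕ) : PathSeq (fun j : ℤ => (4 : ℝ) ^ j) (py n a) (py n a) :=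
  ⟨fun j => by positivity, py_pos n a, py_pos n a, four_mono, py_mono n a, py_mono n a,
    fun j => (four_zpow_succ j).le, py_four n a, py_four n a, tendsto_four_bot, py_bot n a, py_bot n a,
    top_of_ge (fun _ => le_rfl) (py_ge n a) (py_ge n a)⟩

/-- the (4,2,4) path: slot B slow -/
theorem path424 (n a : ℕ) : PathSeq (py n a) (fun j : ℤ => (4 : ℝ) ^ j) (py n a) :=
  ⟨py_pos n a, fun j => by positivity, py_pos n a, py_mono n a, four_mono, py_mono n a,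
    py_four n a, fun j => (four_zpow_succ j).le, py_four n a, py_bot n a, tendsto_four_bot, py_bot n a,
    top_of_ge (py_ge n a) (fun _ => le_rfl) (py_ge n a)⟩

/-- the (4,4,2) path: slot C slow -/
theorem path442 (n a : ℕ) : PathSeq (py n a) (py n a) (fun j : ℤ => (4 : ℝ) ^ j) :=
  ⟨py_pos n a, py_pos n a, fun j => by positivity, py_mono n a, py_mono n a, four_mono,
    py_four n a, py_four n a, fun j => (four_zpow_succ j).le, py_bot n a, py_bot n a, tendsto_four_bot,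
    top_of_ge (py_ge n a) (py_ge n a) (fun _ => le_rfl)⟩

theorem sqrt_four_zpow (j : ℤ) : √((4 : ℝ) ^ j) = 2 ^ j := by
  rw [four_zpow, Real.sqrt_mul_self (by positivity)]

theorem w244 (n a : ℕ) (j : ℤ) :
    (√((4 : ℝ) ^ j) * √(py n a j) * √(py n a j))⁻¹ = (2 ^ j * py n a j)⁻¹ := by
  rw [sqrt_four_zpow, mul_assoc, Real.mul_self_sqrt (py_pos n a j).le]

theorem w424 (n a : ℕ) (j : ℤ) :
    (√(py n a j) * √((4 : ℝ) ^ j) * √(py n a j))⁻¹ = (2 ^ j * py n a j)⁻¹ := by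
  rw [mul_comm (√(py n a j)) (√((4 : ℝ) ^ j)), w244]

theorem w442 (n a : ℕ) (j : ℤ) :
    (√(py n a j) * √(py n a j) * √((4 : ℝ) ^ j))⁻¹ = (2 ^ j * py n a j)⁻¹ := by
  rw [mul_comm, ← mul_assoc, w244]

/-! ### scalar sums -/

theorem Ico_tele (h : ℤ → ℝ) (J : ℕ) :
    ∑ j ∈ Finset.Ico (-(J : ℤ)) J, (h (j + 1) - h j) = h J - h (-(J : ℤ)) := by
  have ht := sum_Ico_tele h (-(J : ℤ)) (J + J)
  have e : -(J : ℤ) + ((J + J : ℕ) : ℤ) = J := by push_cast; ring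
  rwa [e] at ht

theorem sum_low (a J : ℕ) :
    ∑ j ∈ Finset.Ico (-(J : ℤ)) J, (if j ≤ -(a : ℤ) then (2 : ℝ) ^ j else 0) ≤
      2 * (2 ^ a)⁻¹ := by
  set h : ℤ → ℝ := fun j => min (2 ^ j) (2 * (2 ^ a)⁻¹) with hh
  have ha : (0 : ℝ) < 2 ^ a := by positivity
  have hai : (0 : ℝ) < (2 ^ a)⁻¹ := by positivity
  have ht : ∀ j : ℤ, (if j ≤ -(a : ℤ) then (2 : ℝ) ^ j else 0) = h (j + 1) - h j := by
    intro j
    have hp : (0 : ℝ) < 2 ^ j := by positivity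
    simp only [hh]
    split_ifs with hj
    · have h1 : (2 : ℝ) ^ j ≤ (2 ^ a)⁻¹ := by
        rw [← zpow_natCast, ← _root_.zpow_neg]
        exact zpow_le_zpow_right₀ (by norm_num) hj
      rw [two_zpow_succ, min_eq_left (by linarith), min_eq_left (by linarith)]
      ring
    · have h1 : 2 * (2 ^ a)⁻¹ ≤ (2 : ℝ) ^ j := by
        have h2 : (2 : ℝ) ^ (-(a : ℤ) + 1) ≤ 2 ^ j :=
          zpow_le_zpow_right₀ (by norm_num) (by omega)
        rwa [two_zpow_succ, _root_.zpow_neg, zpow_natCast] at h2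
      rw [two_zpow_succ, min_eq_right (by linarith), min_eq_right (by linarith)]
      ring
  rw [Finset.sum_congr rfl fun j _ => ht j, Ico_tele]
  have h1 : h J ≤ 2 * (2 ^ a)⁻¹ := min_le_right _ _
  have h2 : 0 ≤ h (-(J : ℤ)) := le_min (by positivity) (by positivity)
  linarith

theorem sum_top (n J : ℕ) :
    ∑ j ∈ Finset.Ico (-(J : ℤ)) J, (if (n : ℤ) < j then ((2 : ℝ) ^ j)⁻¹ else 0) ≤
      ((2 : ℝ) ^ n)⁻¹ := by
  set h : ℤ → ℝ := fun j => -min (2 * (2 ^ j)⁻¹) ((2 : ℝ) ^ n)⁻¹ with hh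
  have ht : ∀ j : ℤ, (if (n : ℤ) < j then ((2 : ℝ) ^ j)⁻¹ else 0) = h (j + 1) - h j := by
    intro j
    have hp : (0 : ℝ) < 2 ^ j := by positivity
    have hi : (0 : ℝ) < (2 ^ j)⁻¹ := by positivity
    have e : 2 * ((2 : ℝ) ^ (j + 1))⁻¹ = (2 ^ j)⁻¹ := by
      rw [two_zpow_succ, mul_inv]
      ring
    simp only [hh]
    rw [e]
    split_ifs with hj
    · have h1 : (2 : ℝ) ^ (n + 1) ≤ 2 ^ j := by
        rw [← zpow_natCast]
        exact zpow_le_zpow_right₀ (by norm_num) (by push_cast; omega)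
      have h2 : ((2 : ℝ) ^ j)⁻¹ ≤ (2 ^ (n + 1))⁻¹ := inv_anti₀ (by positivity) h1
      rw [pow_succ, mul_inv] at h2
      rw [min_eq_left (by linarith), min_eq_left (by linarith)]
      ring
    · have h1 : (2 : ℝ) ^ j ≤ 2 ^ n := zpow_le_pow (by omega)
      have h2 : ((2 : ℝ) ^ n)⁻¹ ≤ (2 ^ j)⁻¹ := inv_anti₀ hp h1
      rw [min_eq_right (by linarith), min_eq_right (by linarith)]
      ring
  rw [Finset.sum_congr rfl fun j _ => ht j, Ico_tele]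
  have h1 : h J ≤ 0 := by
    simp only [hh]
    have : (0 : ℝ) ≤ min (2 * (2 ^ (J : ℤ))⁻¹) ((2 : ℝ) ^ n)⁻¹ :=
      le_min (by positivity) (by positivity)
    linarith
  have h2 : -((2 : ℝ) ^ n)⁻¹ ≤ h (-(J : ℤ)) := by
    simp only [hh]
    exact neg_le_neg (min_le_right _ _)
  linarith

theorem sum_mid (n a J : ℕ) :
    ∑ j ∈ Finset.Ico (-(J : ℤ)) J, (if -(a : ℤ) < j ∧ j ≤ (n : ℤ) then (1 : ℝ) else 0) ≤
      n + a := by
  rw [← Finset.sum_filter, Finset.sum_const, nsmul_eq_mul, mul_one]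
  have h : (Finset.Ico (-(J : ℤ)) J).filter (fun j => -(a : ℤ) < j ∧ j ≤ (n : ℤ)) ⊆
      Finset.Ioc (-(a : ℤ)) (n : ℤ) := by
    intro j hj
    rw [Finset.mem_filter] at hj
    exact Finset.mem_Ioc.mpr hj.2
  have := Finset.card_le_card h
  rw [Int.card_Ioc] at this
  have h2 : ((n : ℤ) - (-(a : ℤ))).toNat = n + a := by omega
  rw [h2] at this
  exact_mod_cast this

/-- the three ranges of the path -/
theorem sum3 (n a : ℕ) (f : ℤ → ℝ) {u b c : ℝ} (hu : 0 ≤ u) (hb : 0 ≤ b) (hc : 0 ≤ c)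
    (h1 : ∀ j : ℤ, j ≤ -(a : ℤ) → f j ≤ 2 ^ j * u)
    (h2 : ∀ j : ℤ, -(a : ℤ) < j → j ≤ n → f j ≤ b)
    (h3 : ∀ j : ℤ, (n : ℤ) < j → f j ≤ (2 ^ j)⁻¹ * c) (J : ℕ) :
    ∑ j ∈ Finset.Ico (-(J : ℤ)) J, f j ≤
      2 * (2 ^ a)⁻¹ * u + (n + a) * b + (2 ^ n)⁻¹ * c := by
  have ht : ∀ j : ℤ, f j ≤ (if j ≤ -(a : ℤ) then (2 : ℝ) ^ j else 0) * u +
      (if -(a : ℤ) < j ∧ j ≤ (n : ℤ) then (1 : ℝ) else 0) * b +
      (if (n : ℤ) < j then ((2 : ℝ) ^ j)⁻¹ else 0) * c := by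
    intro j
    rcases le_or_gt j (-(a : ℤ)) with h | h
    · rw [if_pos h, if_neg (by omega), if_neg (by omega)]
      have := h1 j h
      linarith
    · rcases le_or_gt j n with h' | h'
      · rw [if_neg (by omega), if_pos ⟨h, h'⟩, if_neg (by omega)]
        have := h2 j h h'
        linarith
      · rw [if_neg (by omega), if_neg (by omega), if_pos h']
        have := h3 j h'
        linarith
  refine (Finset.sum_le_sum fun j _ => ht j).trans ?_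
  rw [Finset.sum_add_distrib, Finset.sum_add_distrib, ← Finset.sum_mul, ← Finset.sum_mul,
    ← Finset.sum_mul]
  exact add_le_add (add_le_add (mul_le_mul_of_nonneg_right (sum_low a J) hu)
    (mul_le_mul_of_nonneg_right (sum_mid n a J) hb))
    (mul_le_mul_of_nonneg_right (sum_top n J) hc)

/-- budget of one coordinate `c` of a path with weights `w` -/
def Bud (w c : ℤ → ℝ) (S : ℝ → ℝ → ℝ) : Prop :=
  ∀ α α4 : ℝ, 0 ≤ α → 0 ≤ α4 → ∀ J : ℕ,
    ∑ j ∈ Finset.Ico (-(J : ℤ)) J, w j * min (c j * α) (c j ^ 2 * α4) ≤ S α α4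

/-- budget of the slow slot, `s = 2^(-n)`, `h = 4^(-a)`: `s (2 h α4 + (n+a+1) α)` -/
noncomputable def sA (n a : ℕ) (α α4 : ℝ) : ℝ :=
  (2 ^ n)⁻¹ * (2 * ((4 ^ a)⁻¹ * α4) + (n + a + 1) * α)

/-- budget of the fast slots, `s = 2^(-n)`: `s (α + (n+a+2) α4 / s²)` -/
noncomputable def sB (n a : ℕ) (α α4 : ℝ) : ℝ :=
  (2 ^ n)⁻¹ * (α + (n + a + 2) * (4 ^ n * α4))

theorem four_pow' (n : ℕ) : (4 : ℝ) ^ n = 2 ^ n * 2 ^ n := by
  rw [show (4 : ℝ) = 2 * 2 by norm_num, mul_pow]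

theorem bud_slow (n a : ℕ) :
    Bud (fun j => (2 ^ j * py n a j)⁻¹) (fun j => (4 : ℝ) ^ j) (sA n a) := by
  intro α α4 hα hα4 J
  have hn : (0 : ℝ) < 2 ^ n := by positivity
  have ha : (0 : ℝ) < 2 ^ a := by positivity
  have h := sum3 n a
    (fun j => (2 ^ j * py n a j)⁻¹ * min ((4 : ℝ) ^ j * α) (((4 : ℝ) ^ j) ^ 2 * α4))
    (u := (2 ^ a * 2 ^ n)⁻¹ * α4) (b := (2 ^ n)⁻¹ * α) (c := α) (by positivity) (by positivity) hα
    (fun j hj => by
      have hp : (0 : ℝ) < 2 ^ j := by positivity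
      refine (mul_le_mul_of_nonneg_left (min_le_right _ _)
        (by have := py_pos n a j; positivity)).trans (le_of_eq ?_)
      rw [py_of_low hj, four_zpow]
      field_simp)
    (fun j hj hj' => by
      have hp : (0 : ℝ) < 2 ^ j := by positivity
      refine (mul_le_mul_of_nonneg_left (min_le_left _ _)
        (by have := py_pos n a j; positivity)).trans (le_of_eq ?_)
      rw [py_of_mid hj hj', four_zpow]
      field_simp)
    (fun j hj => by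
      have hp : (0 : ℝ) < 2 ^ j := by positivity
      refine (mul_le_mul_of_nonneg_left (min_le_left _ _)
        (by have := py_pos n a j; positivity)).trans (le_of_eq ?_)
      rw [py_of_top hj, four_zpow]
      field_simp) J
  refine h.trans (le_of_eq ?_)
  unfold sA
  rw [four_pow' a]
  field_simp
  ring

theorem bud_fast (n a : ℕ) : Bud (fun j => (2 ^ j * py n a j)⁻¹) (py n a) (sB n a) := by
  intro β β4 hβ hβ4 J
  have hn : (0 : ℝ) < 2 ^ n := by positivity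
  have ha : (0 : ℝ) < 2 ^ a := by positivity
  have h := sum3 n a (fun j => (2 ^ j * py n a j)⁻¹ * min (py n a j * β) (py n a j ^ 2 * β4))
    (u := 2 ^ a * 2 ^ n * β4) (b := 2 ^ n * β4) (c := β) (by positivity) (by positivity) hβ
    (fun j hj => by
      have hp : (0 : ℝ) < 2 ^ j := by positivity
      refine (mul_le_mul_of_nonneg_left (min_le_right _ _)
        (by have := py_pos n a j; positivity)).trans (le_of_eq ?_)
      rw [py_of_low hj, four_zpow]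
      field_simp)
    (fun j hj hj' => by
      have hp : (0 : ℝ) < 2 ^ j := by positivity
      refine (mul_le_mul_of_nonneg_left (min_le_right _ _)
        (by have := py_pos n a j; positivity)).trans (le_of_eq ?_)
      rw [py_of_mid hj hj']
      field_simp)
    (fun j hj => by
      have hp : (0 : ℝ) < 2 ^ j := by positivity
      refine (mul_le_mul_of_nonneg_left (min_le_left _ _)
        (by have := py_pos n a j; positivity)).trans (le_of_eq ?_)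
      rw [py_of_top hj]
      field_simp) J
  refine h.trans (le_of_eq ?_)
  unfold sB
  rw [four_pow' n]
  field_simp
  ring

/-! ### matrices -/

theorem LDt_le_min4 {k : ℕ} {M : Matrix (Fin k) (Fin k) ℝ} (hM : M.PosSemidef) {c : ℝ}
    (hc : 0 ≤ c) : LD 1 (c • M) ≤ min (c * trace M) (c ^ 2 * trace (M * M)) := by
  have hcM : (c • M).PosSemidef := hM.smul hc
  have h1 := LD_le_trace one_pos hcM.nonneg
  have h2 := LD_le_sq one_pos hcM.nonneg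
  rw [trace_smul, smul_eq_mul] at h1
  rw [Matrix.smul_mul, Matrix.mul_smul, smul_smul, trace_smul, smul_eq_mul] at h2
  rw [inv_one, one_mul] at h1
  rw [inv_one, one_pow, one_mul] at h2
  rw [sq]
  exact le_min h1 h2

theorem LDh_le_min4 {k : ℕ} {M : Matrix (Fin k) (Fin k) ℝ} (hM : M.PosSemidef) {c : ℝ}
    (hc : 0 ≤ c) : LD (1 / 2) (c • M) ≤ 4 * min (c * trace M) (c ^ 2 * trace (M * M)) := by
  have hcM : (c • M).PosSemidef := hM.smul hc
  have h1 := LD_le_trace (t := 1 / 2) (by norm_num) hcM.nonneg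
  have h2 := LD_le_sq (t := 1 / 2) (by norm_num) hcM.nonneg
  have h0 : 0 ≤ trace (c • M) := hcM.trace_nonneg
  rw [trace_smul, smul_eq_mul] at h1 h0
  rw [Matrix.smul_mul, Matrix.mul_smul, smul_smul, trace_smul, smul_eq_mul] at h2
  rw [mul_min_of_nonneg _ _ (by norm_num : (0 : ℝ) ≤ 4), sq c]
  refine le_min ?_ ?_
  · refine h1.trans ?_
    rw [show ((1 / 2 : ℝ))⁻¹ = 2 by norm_num]
    linarith
  · refine h2.trans ?_
    rw [show ((1 / 2 : ℝ))⁻¹ ^ 2 = 4 by norm_num]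

section

variable {Q : ℕ} [NeZero Q]

/-- fourth power of the normalised Schatten-4 norm of the box `[q, q+a) × [p, p+a)` -/
noncomputable def q4 (F : ZMod Q → ZMod Q → ℝ) (a : ℕ) (q p : ZMod Q) : ℝ :=
  trace (abar F a a q p * abar F a a q p)

theorem trace_sq_nonneg {k : ℕ} {M : Matrix (Fin k) (Fin k) ℝ} (hM : M.PosSemidef) :
    0 ≤ trace (M * M) := by
  have h : M * M = Mᴴ * M := by rw [hM.1.eq]
  rw [h]
  exact (posSemidef_conjTranspose_mul_self M).trace_nonneg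

theorem q4_nonneg (F : ZMod Q → ZMod Q → ℝ) (a : ℕ) (q p : ZMod Q) : 0 ≤ q4 F a q p :=
  trace_sq_nonneg (abar_psd _ _ _ _ _)

/-- explicit form: `q4 = a⁻⁴ ∑_{i,i',j,j'} F_ij F_ij' F_i'j' F_i'j` -/
theorem q4_eq (F : ZMod Q → ZMod Q → ℝ) (a : ℕ) (q p : ZMod Q) :
    q4 F a q p = (1 / ((a : ℝ) * a)) ^ 2 * ∑ j ∈ range a, ∑ j' ∈ range a,
      (∑ i ∈ range a, F (q + (i : ZMod Q)) (p + (j : ZMod Q)) *
        F (q + (i : ZMod Q)) (p + (j' : ZMod Q))) ^ 2 := by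
  unfold q4 abar
  simp only [trace, Matrix.diag_apply, Matrix.mul_apply]
  rw [Finset.mul_sum, Finset.sum_range]
  refine Finset.sum_congr rfl fun j _ => ?_
  rw [Finset.mul_sum, Finset.sum_range]
  refine Finset.sum_congr rfl fun j' _ => ?_
  have e : ∑ i ∈ range a, F (q + (i : ZMod Q)) (p + ((j' : ℕ) : ZMod Q)) *
      F (q + (i : ZMod Q)) (p + ((j : ℕ) : ZMod Q)) =
      ∑ i ∈ range a, F (q + (i : ZMod Q)) (p + ((j : ℕ) : ZMod Q)) *
      F (q + (i : ZMod Q)) (p + ((j' : ℕ) : ZMod Q)) :=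
    Finset.sum_congr rfl fun i _ => mul_comm _ _
  rw [e]
  ring

theorem q4_tr (F : ZMod Q → ZMod Q → ℝ) (a : ℕ) (q p : ZMod Q) :
    q4 (tr F) a p q = q4 F a q p := by
  rw [q4_eq, q4_eq]
  congr 1
  unfold tr
  -- both sides are the sum over i, i', j, j'
  have e1 : ∀ (G : ℕ → ℕ → ℝ), ∑ j ∈ range a, ∑ j' ∈ range a, (∑ i ∈ range a, G i j * G i j') ^ 2 =
      ∑ j ∈ range a, ∑ j' ∈ range a, ∑ i ∈ range a, ∑ i' ∈ range a,
        G i j * G i j' * (G i' j * G i' j') := by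
    intro G
    refine Finset.sum_congr rfl fun j _ => Finset.sum_congr rfl fun j' _ => ?_
    rw [sq, Finset.sum_mul_sum]
  rw [e1 (fun i j => F (q + (j : ZMod Q)) (p + (i : ZMod Q))),
    e1 (fun i j => F (q + (i : ZMod Q)) (p + (j : ZMod Q)))]
  have e2 : ∀ (H : ℕ → ℕ → ℕ → ℕ → ℝ), ∑ j ∈ range a, ∑ j' ∈ range a, ∑ i ∈ range a,
      ∑ i' ∈ range a, H j j' i i' = ∑ i ∈ range a, ∑ i' ∈ range a, ∑ j ∈ range a,
      ∑ j' ∈ range a, H j j' i i' := by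
    intro H
    calc ∑ j ∈ range a, ∑ j' ∈ range a, ∑ i ∈ range a, ∑ i' ∈ range a, H j j' i i'
        = ∑ j ∈ range a, ∑ i ∈ range a, ∑ j' ∈ range a, ∑ i' ∈ range a, H j j' i i' :=
          Finset.sum_congr rfl fun j _ => Finset.sum_comm
      _ = ∑ i ∈ range a, ∑ j ∈ range a, ∑ j' ∈ range a, ∑ i' ∈ range a, H j j' i i' :=
          Finset.sum_comm
      _ = ∑ i ∈ range a, ∑ j ∈ range a, ∑ i' ∈ range a, ∑ j' ∈ range a, H j j' i i' :=
          Finset.sum_congr rfl fun i _ => Finset.sum_congr rfl fun j _ => Finset.sum_comm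
      _ = ∑ i ∈ range a, ∑ i' ∈ range a, ∑ j ∈ range a, ∑ j' ∈ range a, H j j' i i' :=
          Finset.sum_congr rfl fun i _ => Finset.sum_comm
  rw [e2]
  refine Finset.sum_congr rfl fun i _ => Finset.sum_congr rfl fun i' _ =>
    Finset.sum_congr rfl fun j _ => Finset.sum_congr rfl fun j' _ => ?_
  ring

/-- one joint potential -/
theorem bud_joint {w c d : ℤ → ℝ} {S T : ℝ → ℝ → ℝ} (hw : ∀ j, 0 ≤ w j) (hc0 : ∀ j, 0 ≤ c j)
    (hd0 : ∀ j, 0 ≤ d j) (hc : Bud w c S) (hd : Bud w d T) {k : ℕ}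
    (U V : Matrix (Fin k) (Fin k) ℝ) (hU : U.PosSemidef) (hV : V.PosSemidef) {α α4 β β4 : ℝ}
    (ha : trace U = α) (ha4 : trace (U * U) = α4) (hb : trace V = β) (hb4 : trace (V * V) = β4)
    (J : ℕ) :
    ∑ j ∈ Finset.Ico (-(J : ℤ)) J, w j * LD 1 (c j • U + d j • V) ≤
      2 * (S α α4 + T β β4) := by
  have hα : 0 ≤ α := ha ▸ hU.trace_nonneg
  have hβ : 0 ≤ β := hb ▸ hV.trace_nonneg
  have hα4 : 0 ≤ α4 := ha4 ▸ trace_sq_nonneg hU
  have hβ4 : 0 ≤ β4 := hb4 ▸ trace_sq_nonneg hV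
  have h1 : ∀ j, w j * LD 1 (c j • U + d j • V) ≤
      2 * (w j * min (c j * α) (c j ^ 2 * α4) + w j * min (d j * β) (d j ^ 2 * β4)) := by
    intro j
    have h2 := LD_add_le one_pos (hU.smul (hc0 j)).nonneg (hV.smul (hd0 j)).nonneg
    have h3 := LDt_le_min4 hU (hc0 j)
    have h4 := LDt_le_min4 hV (hd0 j)
    rw [ha, ha4] at h3
    rw [hb, hb4] at h4
    calc w j * LD 1 (c j • U + d j • V)
        ≤ w j * (2 * (min (c j * α) (c j ^ 2 * α4) + min (d j * β) (d j ^ 2 * β4))) :=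
          mul_le_mul_of_nonneg_left (by linarith) (hw j)
      _ = _ := by ring
  refine (Finset.sum_le_sum fun j _ => h1 j).trans ?_
  rw [← Finset.mul_sum, Finset.sum_add_distrib]
  have h5 := hc α α4 hα hα4 J
  have h6 := hd β β4 hβ hβ4 J
  linarith

/-- one own potential -/
theorem bud_own {w c : ℤ → ℝ} {S : ℝ → ℝ → ℝ} (hw : ∀ j, 0 ≤ w j) (hc0 : ∀ j, 0 ≤ c j)
    (hc : Bud w c S) {k : ℕ} (U : Matrix (Fin k) (Fin k) ℝ) (hU : U.PosSemidef) {α α4 : ℝ}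
    (ha : trace U = α) (ha4 : trace (U * U) = α4) (J : ℕ) :
    ∑ j ∈ Finset.Ico (-(J : ℤ)) J, w j * LD (1 / 2) (c j • U) ≤ 4 * S α α4 := by
  have hα : 0 ≤ α := ha ▸ hU.trace_nonneg
  have hα4 : 0 ≤ α4 := ha4 ▸ trace_sq_nonneg hU
  have h1 : ∀ j, w j * LD (1 / 2) (c j • U) ≤
      4 * (w j * min (c j * α) (c j ^ 2 * α4)) := by
    intro j
    have h3 := LDh_le_min4 hU (hc0 j)
    rw [ha, ha4] at h3
    calc w j * LD (1 / 2) (c j • U) ≤ w j * (4 * min (c j * α) (c j ^ 2 * α4)) :=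
          mul_le_mul_of_nonneg_left h3 (hw j)
      _ = _ := by ring
  refine (Finset.sum_le_sum fun j _ => h1 j).trans ?_
  rw [← Finset.mul_sum]
  have h5 := hc α α4 hα hα4 J
  linarith

/-- budget of the joint potentials -/
theorem bud_JV {x y z : ℤ → ℝ} (hp : PathSeq x y z) {SA SB SC : ℝ → ℝ → ℝ}
    (hA : Bud (fun j => (√(x j) * √(y j) * √(z j))⁻¹) x SA)
    (hB : Bud (fun j => (√(x j) * √(y j) * √(z j))⁻¹) y SB)
    (hC : Bud (fun j => (√(x j) * √(y j) * √(z j))⁻¹) z SC)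
    (F0 F1 F2 : ZMod Q → ZMod Q → ℝ) (N : ℕ) (p0 p1 p2 : ZMod Q) (J : ℕ) :
    ∑ j ∈ Finset.Ico (-(J : ℤ)) J, (√(x j) * √(y j) * √(z j))⁻¹ *
      JV F0 F1 F2 N p0 p1 p2 (x j) (y j) (z j) ≤
    4 * (SA (bx F0 N p0 p1) (q4 F0 N p0 p1) + SB (bx F1 N p1 p2) (q4 F1 N p1 p2) +
      SC (bx F2 N p2 p0) (q4 F2 N p2 p0)) := by
  have hw : ∀ j, 0 ≤ (fun j => (√(x j) * √(y j) * √(z j))⁻¹) j := fun j => by positivity
  have hx := fun j => (hp.xpos j).le
  have hy := fun j => (hp.ypos j).le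
  have hz := fun j => (hp.zpos j).le
  have h1 := bud_joint hw hx hz hA hC (abar (tr F0) N N p1 p0) (abar F2 N N p2 p0)
    (abar_psd _ _ _ _ _) (abar_psd _ _ _ _ _) (trace_abar_tr F0 N p0 p1) (q4_tr F0 N p0 p1)
    (trace_abar F2 N p2 p0) rfl J
  have h2 := bud_joint hw hx hy hA hB (abar F0 N N p0 p1) (abar (tr F1) N N p2 p1)
    (abar_psd _ _ _ _ _) (abar_psd _ _ _ _ _) (trace_abar F0 N p0 p1) rfl
    (trace_abar_tr F1 N p1 p2) (q4_tr F1 N p1 p2) J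
  have h3 := bud_joint hw hy hz hB hC (abar F1 N N p1 p2) (abar (tr F2) N N p0 p2)
    (abar_psd _ _ _ _ _) (abar_psd _ _ _ _ _) (trace_abar F1 N p1 p2) rfl
    (trace_abar_tr F2 N p2 p0) (q4_tr F2 N p2 p0) J
  have e : ∑ j ∈ Finset.Ico (-(J : ℤ)) J, (√(x j) * √(y j) * √(z j))⁻¹ *
      JV F0 F1 F2 N p0 p1 p2 (x j) (y j) (z j) =
      ∑ j ∈ Finset.Ico (-(J : ℤ)) J, (√(x j) * √(y j) * √(z j))⁻¹ *
        LD 1 (x j • abar (tr F0) N N p1 p0 + z j • abar F2 N N p2 p0) +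
      ∑ j ∈ Finset.Ico (-(J : ℤ)) J, (√(x j) * √(y j) * √(z j))⁻¹ *
        LD 1 (x j • abar F0 N N p0 p1 + y j • abar (tr F1) N N p2 p1) +
      ∑ j ∈ Finset.Ico (-(J : ℤ)) J, (√(x j) * √(y j) * √(z j))⁻¹ *
        LD 1 (y j • abar F1 N N p1 p2 + z j • abar (tr F2) N N p0 p2) := by
    rw [← Finset.sum_add_distrib, ← Finset.sum_add_distrib]
    refine Finset.sum_congr rfl fun j _ => ?_
    unfold JV
    ring
  rw [e]
  simp only [q4] at h1 h2 h3 ⊢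
  linarith

/-- budget of the own potentials -/
theorem bud_JE {w c : ℤ → ℝ} {S : ℝ → ℝ → ℝ} (hw : ∀ j, 0 ≤ w j) (hc0 : ∀ j, 0 ≤ c j)
    (hc : Bud w c S) (F : ZMod Q → ZMod Q → ℝ) (a : ℕ) (q p : ZMod Q) (J : ℕ) :
    ∑ j ∈ Finset.Ico (-(J : ℤ)) J, w j * JE F a q p (c j) ≤ 8 * S (bx F a q p) (q4 F a q p) := by
  have h1 := bud_own hw hc0 hc (abar F a a q p) (abar_psd _ _ _ _ _) (trace_abar F a q p) rfl J
  have h2 := bud_own hw hc0 hc (abar (tr F) a a p q) (abar_psd _ _ _ _ _)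
    (trace_abar_tr F a q p) (q4_tr F a q p) J
  have e : ∑ j ∈ Finset.Ico (-(J : ℤ)) J, w j * JE F a q p (c j) =
      ∑ j ∈ Finset.Ico (-(J : ℤ)) J, w j * LD (1 / 2) (c j • abar F a a q p) +
      ∑ j ∈ Finset.Ico (-(J : ℤ)) J, w j * LD (1 / 2) (c j • abar (tr F) a a p q) := by
    rw [← Finset.sum_add_distrib]
    refine Finset.sum_congr rfl fun j _ => ?_
    unfold JE
    ring
  rw [e]
  simp only [q4] at h1 h2 ⊢
  linarith

open Classical in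
/-- **(TRI)** with budgets in terms of `bx` and `q4`, arbitrary path -/
theorem tri_bud (A B C : ℕ → ZMod Q → ZMod Q → ℝ) (hA0 : A 0 = fun _ _ => 0)
    (hB0 : B 0 = fun _ _ => 0) (hC0 : C 0 = fun _ _ => 0) (κ M : ℕ) (l : ℤ)
    (hκ : 2 * |l| + 20 ≤ 2 ^ κ) {x y z : ℤ → ℝ} (hp : PathSeq x y z) {SA SB SC : ℝ → ℝ → ℝ}
    (hA : Bud (fun j => (√(x j) * √(y j) * √(z j))⁻¹) x SA)
    (hB : Bud (fun j => (√(x j) * √(y j) * √(z j))⁻¹) y SB)
    (hC : Bud (fun j => (√(x j) * √(y j) * √(z j))⁻¹) z SC) :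
    ∑ m ∈ range M, bl (fun n => ∑ p0 : ZMod Q, ∑ p1 : ZMod Q,
      |Lbox (A (m + 1)) (B (m + 1)) (C (m + 1)) (2 ^ m) p0 p1 (n - p0 - p1)|) (2 ^ m) l ≤
    76800 * (4 * ∑ m ∈ range M, bl (fun n => ∑ p0 : ZMod Q, ∑ p1 : ZMod Q,
      if Any3 (A (m + 1)) (A m) (B (m + 1)) (B m) (C (m + 1)) (C m) (2 ^ m) p0 p1 (n - p0 - p1)
      then 4 * (SA (bx (A (m + 1)) (2 ^ m) p0 p1) (q4 (A (m + 1)) (2 ^ m) p0 p1) +
        SB (bx (B (m + 1)) (2 ^ m) p1 (n - p0 - p1)) (q4 (B (m + 1)) (2 ^ m) p1 (n - p0 - p1)) +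
        SC (bx (C (m + 1)) (2 ^ m) (n - p0 - p1) p0) (q4 (C (m + 1)) (2 ^ m) (n - p0 - p1) p0))
      else 0) (2 ^ m) (-2) +
    16 * ∑ k ∈ range κ, ∑ m ∈ range M,
      ((∑ q : ZMod Q, ∑ p : ZMod Q, if Sees (A (m + 1)) (A m) (2 ^ (m + k)) q p then
        8 * SA (bx (A (m + 1)) (2 ^ (m + k)) q p) (q4 (A (m + 1)) (2 ^ (m + k)) q p) else 0) +
      (∑ q : ZMod Q, ∑ p : ZMod Q, if Sees (B (m + 1)) (B m) (2 ^ (m + k)) q p then
        8 * SB (bx (B (m + 1)) (2 ^ (m + k)) q p) (q4 (B (m + 1)) (2 ^ (m + k)) q p) else 0) +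
      (∑ q : ZMod Q, ∑ p : ZMod Q, if Sees (C (m + 1)) (C m) (2 ^ (m + k)) q p then
        8 * SC (bx (C (m + 1)) (2 ^ (m + k)) q p) (q4 (C (m + 1)) (2 ^ (m + k)) q p) else 0))) := by
  have hw : ∀ j, 0 ≤ (fun j => (√(x j) * √(y j) * √(z j))⁻¹) j := fun j => by positivity
  exact tri_path A B C hA0 hB0 hC0 κ M l hκ hp
    (fun m p0 p1 p2 => 4 * (SA (bx (A (m + 1)) (2 ^ m) p0 p1) (q4 (A (m + 1)) (2 ^ m) p0 p1) +
        SB (bx (B (m + 1)) (2 ^ m) p1 p2) (q4 (B (m + 1)) (2 ^ m) p1 p2) +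
        SC (bx (C (m + 1)) (2 ^ m) p2 p0) (q4 (C (m + 1)) (2 ^ m) p2 p0)))
    (fun m k q p => 8 * SA (bx (A (m + 1)) (2 ^ (m + k)) q p) (q4 (A (m + 1)) (2 ^ (m + k)) q p))
    (fun m k q p => 8 * SB (bx (B (m + 1)) (2 ^ (m + k)) q p) (q4 (B (m + 1)) (2 ^ (m + k)) q p))
    (fun m k q p => 8 * SC (bx (C (m + 1)) (2 ^ (m + k)) q p) (q4 (C (m + 1)) (2 ^ (m + k)) q p))
    (fun m _ p0 p1 p2 _ J => bud_JV hp hA hB hC _ _ _ _ _ _ _ J)
    (fun m _ k _ q p _ J => bud_JE hw (fun j => (hp.xpos j).le) hA _ _ _ _ J)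
    (fun m _ k _ q p _ J => bud_JE hw (fun j => (hp.ypos j).le) hB _ _ _ _ J)
    (fun m _ k _ q p _ J => bud_JE hw (fun j => (hp.zpos j).le) hC _ _ _ _ J)

/-- budgets of the (2,4,4) path (slot A slow) -/
theorem bud244 (n a : ℕ) :
    Bud (fun j => (√((4 : ℝ) ^ j) * √(py n a j) * √(py n a j))⁻¹) (fun j => (4 : ℝ) ^ j) (sA n a) ∧
    Bud (fun j => (√((4 : ℝ) ^ j) * √(py n a j) * √(py n a j))⁻¹) (py n a) (sB n a) := by
  have e : (fun j : ℤ => (√((4 : ℝ) ^ j) * √(py n a j) * √(py n a j))⁻¹) =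
      fun j => (2 ^ j * py n a j)⁻¹ := funext (w244 n a)
  rw [e]
  exact ⟨bud_slow n a, bud_fast n a⟩

theorem bud424 (n a : ℕ) :
    Bud (fun j => (√(py n a j) * √((4 : ℝ) ^ j) * √(py n a j))⁻¹) (fun j => (4 : ℝ) ^ j) (sA n a) ∧
    Bud (fun j => (√(py n a j) * √((4 : ℝ) ^ j) * √(py n a j))⁻¹) (py n a) (sB n a) := by
  have e : (fun j : ℤ => (√(py n a j) * √((4 : ℝ) ^ j) * √(py n a j))⁻¹) =
      fun j => (2 ^ j * py n a j)⁻¹ := funext (w424 n a)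
  rw [e]
  exact ⟨bud_slow n a, bud_fast n a⟩

theorem bud442 (n a : ℕ) :
    Bud (fun j => (√(py n a j) * √(py n a j) * √((4 : ℝ) ^ j))⁻¹) (fun j => (4 : ℝ) ^ j) (sA n a) ∧
    Bud (fun j => (√(py n a j) * √(py n a j) * √((4 : ℝ) ^ j))⁻¹) (py n a) (sB n a) := by
  have e : (fun j : ℤ => (√(py n a j) * √(py n a j) * √((4 : ℝ) ^ j))⁻¹) =
      fun j => (2 ^ j * py n a j)⁻¹ := funext (w442 n a)
  rw [e]
  exact ⟨bud_slow n a, bud_fast n a⟩

theorem Bud.nonneg {w c : ℤ → ℝ} {S : ℝ → ℝ → ℝ} (h : Bud w c S) {α α4 : ℝ} (hα : 0 ≤ α)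
    (hα4 : 0 ≤ α4) : 0 ≤ S α α4 := by
  have := h α α4 hα hα4 0
  simpa using this

open Classical in
/-- exit value of the joint potentials with budgets `SA, SB, SC` -/
noncomputable def VS (SA SB SC : ℝ → ℝ → ℝ) (A B C A' B' C' : ZMod Q → ZMod Q → ℝ) (N : ℕ) : ℝ :=
  (1 / (N : ℝ)) * ∑ i ∈ range N, ∑ p0 : ZMod Q, ∑ p1 : ZMod Q,
    if Sees A A' N p0 p1 ∨ Sees B B' N p1 (-(2 * (N : ZMod Q)) + (i : ZMod Q) - p0 - p1) ∨
        Sees C C' N (-(2 * (N : ZMod Q)) + (i : ZMod Q) - p0 - p1) p0 then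
      SA (bx A N p0 p1) (q4 A N p0 p1) +
      SB (bx B N p1 (-(2 * (N : ZMod Q)) + (i : ZMod Q) - p0 - p1))
        (q4 B N p1 (-(2 * (N : ZMod Q)) + (i : ZMod Q) - p0 - p1)) +
      SC (bx C N (-(2 * (N : ZMod Q)) + (i : ZMod Q) - p0 - p1) p0)
        (q4 C N (-(2 * (N : ZMod Q)) + (i : ZMod Q) - p0 - p1) p0)
    else 0

open Classical in
/-- exit value of an own potential with budget `S` -/
noncomputable def ES (S : ℝ → ℝ → ℝ) (A A' : ZMod Q → ZMod Q → ℝ) (N : ℕ) : ℝ :=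
  ∑ q : ZMod Q, ∑ p : ZMod Q, if Sees A A' N q p then S (bx A N q p) (q4 A N q p) else 0

/-- conclusion of TRI in the form of `Glue.TriIso` with budgets `SA, SB, SC` -/
def TriS (SA SB SC : ℝ → ℝ → ℝ) (K : ℝ) (κ : ℕ) : Prop :=
  ∀ l : ℤ, |l| ≤ 7 → ∀ (Q : ℕ) [NeZero Q]
    (A B C : ℕ → ZMod Q → ZMod Q → ℝ), A 0 = 0 → B 0 = 0 → C 0 = 0 → ∀ M : ℕ,
    ∑ m ∈ range M, (1 / (2 : ℝ) ^ m) * ∑ i ∈ range (2 ^ m), ∑ p0 : ZMod Q, ∑ p1 : ZMod Q,
      |Crest.Agent.R072.Lattice.Lbox (A (m + 1)) (B (m + 1)) (C (m + 1)) (2 ^ m) p0 p1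
        ((l : ZMod Q) * ((2 ^ m : ℕ) : ZMod Q) + (i : ZMod Q) - p0 - p1)| ≤
    K * ∑ m ∈ range M,
      (VS SA SB SC (A (m + 1)) (B (m + 1)) (C (m + 1)) (A m) (B m) (C m) (2 ^ m) +
        ∑ s ∈ range κ, (ES SA (A (m + 1)) (A m) (2 ^ (m + s)) +
          ES SB (B (m + 1)) (B m) (2 ^ (m + s)) + ES SC (C (m + 1)) (C m) (2 ^ (m + s))))

end

/-- **(TRI)** in the form of `Glue.TriIso`, for any path and budgets -/
theorem triS {x y z : ℤ → ℝ} (hp : PathSeq x y z) {SA SB SC : ℝ → ℝ → ℝ}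
    (hA : Bud (fun j => (√(x j) * √(y j) * √(z j))⁻¹) x SA)
    (hB : Bud (fun j => (√(x j) * √(y j) * √(z j))⁻¹) y SB)
    (hC : Bud (fun j => (√(x j) * √(y j) * √(z j))⁻¹) z SC) :
    TriS SA SB SC (76800 * 128) 6 := by
  classical
  intro l hl Q _ A B C hA0 hB0 hC0 M
  have hκ : 2 * |l| + 20 ≤ 2 ^ 6 := by omega
  have h := tri_bud A B C hA0 hB0 hC0 6 M l (by exact_mod_cast hκ) hp hA hB hC
  have hl' : ∀ m : ℕ, (1 / (2 : ℝ) ^ m) * ∑ i ∈ range (2 ^ m), ∑ p0 : ZMod Q, ∑ p1 : ZMod Q,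
      |Crest.Agent.R072.Lattice.Lbox (A (m + 1)) (B (m + 1)) (C (m + 1)) (2 ^ m) p0 p1
        ((l : ZMod Q) * ((2 ^ m : ℕ) : ZMod Q) + (i : ZMod Q) - p0 - p1)| =
      bl (fun n => ∑ p0 : ZMod Q, ∑ p1 : ZMod Q,
      |Lbox (A (m + 1)) (B (m + 1)) (C (m + 1)) (2 ^ m) p0 p1 (n - p0 - p1)|) (2 ^ m) l := by
    intro m
    unfold bl
    push_cast
    rfl
  simp only [hl']
  refine h.trans ?_
  have hVT : ∀ m : ℕ, bl (fun n => ∑ p0 : ZMod Q, ∑ p1 : ZMod Q,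
      if Any3 (A (m + 1)) (A m) (B (m + 1)) (B m) (C (m + 1)) (C m) (2 ^ m) p0 p1 (n - p0 - p1)
      then 4 * (SA (bx (A (m + 1)) (2 ^ m) p0 p1) (q4 (A (m + 1)) (2 ^ m) p0 p1) +
        SB (bx (B (m + 1)) (2 ^ m) p1 (n - p0 - p1)) (q4 (B (m + 1)) (2 ^ m) p1 (n - p0 - p1)) +
        SC (bx (C (m + 1)) (2 ^ m) (n - p0 - p1) p0) (q4 (C (m + 1)) (2 ^ m) (n - p0 - p1) p0))
      else 0) (2 ^ m) (-2) =
      4 * VS SA SB SC (A (m + 1)) (B (m + 1)) (C (m + 1)) (A m) (B m) (C m) (2 ^ m) := by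
    intro m
    unfold bl VS
    rw [mul_left_comm]
    congr 1
    rw [Finset.mul_sum]
    refine Finset.sum_congr rfl fun i _ => ?_
    rw [Finset.mul_sum]
    refine Finset.sum_congr rfl fun p0 _ => ?_
    rw [Finset.mul_sum]
    refine Finset.sum_congr rfl fun p1 _ => ?_
    rw [mul_ite, mul_zero]
    have e : (((-2 : ℤ)) : ZMod Q) * ((2 ^ m : ℕ) : ZMod Q) + (i : ZMod Q) - p0 - p1 =
      -(2 * ((2 ^ m : ℕ) : ZMod Q)) + (i : ZMod Q) - p0 - p1 := by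
      push_cast
      ring
    rw [e]
    exact if_congr Iff.rfl rfl rfl
  have hET : ∀ (S : ℝ → ℝ → ℝ) (F : ℕ → ZMod Q → ZMod Q → ℝ) (m k : ℕ),
      (∑ q : ZMod Q, ∑ p : ZMod Q, if Sees (F (m + 1)) (F m) (2 ^ (m + k)) q p then
        8 * S (bx (F (m + 1)) (2 ^ (m + k)) q p) (q4 (F (m + 1)) (2 ^ (m + k)) q p) else 0) =
      8 * ES S (F (m + 1)) (F m) (2 ^ (m + k)) := by
    intro S F m k
    unfold ES
    rw [Finset.mul_sum]
    refine Finset.sum_congr rfl fun q _ => ?_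
    rw [Finset.mul_sum]
    refine Finset.sum_congr rfl fun p _ => ?_
    rw [mul_ite, mul_zero]
  simp only [hVT, hET]
  have hV0 : 0 ≤ ∑ m ∈ range M, VS SA SB SC (A (m + 1)) (B (m + 1)) (C (m + 1)) (A m) (B m) (C m)
      (2 ^ m) := by
    refine Finset.sum_nonneg fun m _ => ?_
    unfold VS
    refine mul_nonneg (by positivity) (Finset.sum_nonneg fun i _ => Finset.sum_nonneg fun p0 _ =>
      Finset.sum_nonneg fun p1 _ => ?_)
    split_ifs
    · exact add_nonneg (add_nonneg (hA.nonneg (bx_nonneg _ _ _ _) (q4_nonneg _ _ _ _))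
        (hB.nonneg (bx_nonneg _ _ _ _) (q4_nonneg _ _ _ _)))
        (hC.nonneg (bx_nonneg _ _ _ _) (q4_nonneg _ _ _ _))
    · exact le_refl _
  rw [Finset.sum_add_distrib]
  rw [Finset.sum_comm (s := range M) (t := range 6)]
  simp only [← mul_add, ← Finset.mul_sum]
  linarith

/-- **(2,4,4)**, slot A slow, `s = 2^(-n)`, `H = 2^a` -/
theorem tri244 (n a : ℕ) : TriS (sA n a) (sB n a) (sB n a) (76800 * 128) 6 :=
  triS (path244 n a) (bud244 n a).1 (bud244 n a).2 (bud244 n a).2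

/-- **(4,2,4)**, slot B slow -/
theorem tri424 (n a : ℕ) : TriS (sB n a) (sA n a) (sB n a) (76800 * 128) 6 :=
  triS (path424 n a) (bud424 n a).2 (bud424 n a).1 (bud424 n a).2

/-- **(4,4,2)**, slot C slow -/
theorem tri442 (n a : ℕ) : TriS (sB n a) (sB n a) (sA n a) (76800 * 128) 6 :=
  triS (path442 n a) (bud442 n a).2 (bud442 n a).2 (bud442 n a).1

/-! ### upper bounds for the budgets, real `s` -/

/-- dyadic `s` : for `0 < s ≤ 1` there is `n` with `2^(-n) ≤ s < 2 * 2^(-n)` and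
`n ≤ 1 + log(1/s) / log 2`. -/
theorem exists_dyadic {s : ℝ} (hs : 0 < s) (hs1 : s ≤ 1) :
    ∃ n : ℕ, ((2 : ℝ) ^ n)⁻¹ ≤ s ∧ s ≤ 2 * ((2 : ℝ) ^ n)⁻¹ ∧ (n : ℝ) ≤ 1 + Real.logb 2 (1 / s) := by
  have h1 : 1 ≤ 1 / s := by rw [le_div_iff₀ hs]; linarith
  obtain ⟨n, hn1, hn2⟩ := exists_nat_pow_near h1 (by norm_num : (1 : ℝ) < 2)
  refine ⟨n + 1, ?_, ?_, ?_⟩
  · rw [inv_le_comm₀ (by positivity) hs, ← one_div]
    exact hn2.le
  · rw [pow_succ, mul_inv, show (2 : ℝ) * ((2 ^ n)⁻¹ * 2⁻¹) = (2 ^ n)⁻¹ by ring,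
      le_inv_comm₀ hs (by positivity), ← one_div]
    exact hn1
  · have h2 : (n : ℝ) ≤ Real.logb 2 (1 / s) := by
      rw [Real.le_logb_iff_rpow_le (by norm_num) (by positivity), Real.rpow_natCast]
      exact hn1
    push_cast
    linarith

/-- for `1 ≤ H` there is `a` with `H ≤ 2^a` and `a ≤ 1 + log₂ H` -/
theorem exists_dyadic_H {H : ℝ} (hH : 1 ≤ H) :
    ∃ a : ℕ, H ≤ (2 : ℝ) ^ a ∧ (a : ℝ) ≤ 1 + Real.logb 2 H := by
  obtain ⟨a, ha1, ha2⟩ := exists_nat_pow_near hH (by norm_num : (1 : ℝ) < 2)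
  refine ⟨a + 1, ha2.le, ?_⟩
  have h2 : (a : ℝ) ≤ Real.logb 2 H := by
    rw [Real.le_logb_iff_rpow_le (by norm_num) (by linarith), Real.rpow_natCast]
    exact ha1
  push_cast
  linarith

theorem sA_mono (n a : ℕ) {α α' α4 α4' : ℝ} (h : α ≤ α') (h4 : α4 ≤ α4') :
    sA n a α α4 ≤ sA n a α' α4' := by
  unfold sA
  have hn : (0 : ℝ) ≤ (n : ℝ) + a + 1 := by positivity
  have h2 : ((n : ℝ) + a + 1) * α ≤ ((n : ℝ) + a + 1) * α' := mul_le_mul_of_nonneg_left h hn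
  have h3 : ((4 : ℝ) ^ a)⁻¹ * α4 ≤ (4 ^ a)⁻¹ * α4' := mul_le_mul_of_nonneg_left h4 (by positivity)
  refine mul_le_mul_of_nonneg_left ?_ (by positivity)
  linarith

theorem sB_mono (n a : ℕ) {α α' α4 α4' : ℝ} (h : α ≤ α') (h4 : α4 ≤ α4') :
    sB n a α α4 ≤ sB n a α' α4' := by
  unfold sB
  have hn : (0 : ℝ) ≤ (n : ℝ) + a + 2 := by positivity
  refine mul_le_mul_of_nonneg_left ?_ (by positivity)
  refine add_le_add h (mul_le_mul_of_nonneg_left ?_ hn)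
  exact mul_le_mul_of_nonneg_left h4 (by positivity)

end Crest.Agent.R079.Pot
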