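import Crest.Agent.R079.GlueDefs_569
import Crest.Agent.R079.GrowthDefs_248

/-! R079, BB REDUCTION (257 NOTES #4, #18493), literal statements (helper248):

  `QProp → Grid.BBFinite`

where `QProp` = "two fixed slots of small `A₃`-level at all nodes, the two others arbitrary
loc-`L²` ⇒ `≤ η B + C`".  Atoms = `A₃` atoms of `FrozenAtom` (569: PROVED), no localisation:
`IsAtom j φ` = `φ = atom j κ T a b c` with `κ (n3 a n3 b n3 c)^(1/3) ≤ 1`.  Such atoms are bounded by `1`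
(Hölder on the plane `cf·z = y`). -/

set_option autoImplicit false

namespace Crest.Agent.R079.QRed

open Finset Crest.Agent.R079.Grid Crest.Agent.R079.Glue Crest.Agent.R079.Growth

/-- unit `A₃` atoms of slot `j` -/
def IsAtom (j : Fin 4) (φ : Fn) : Prop :=
  ∃ (κ : ℝ) (T : Fin 3 → Finset ℤ) (a b c : ℤ → ℤ → ℂ), 0 ≤ κ ∧ φ = atom j κ T a b c ∧
    κ * (n3 (T 0) (T 1) a * n3 (T 1) (T 2) b * n3 (T 2) (T 0) c) ^ (1 / 3 : ℝ) ≤ 1

/-- `A₃`-level of `g` (slot `j`) at the node `p` -/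
def Lev3 (j : Fin 4) (p : Nd) (g : Fn) (s : ℝ) : Prop :=
  ∀ φ, IsAtom j φ → ‖∑ y ∈ iv p, g y * φ y‖ ≤ s * len p

/-- `f` is on `iv p` a combination of unit atoms with total mass `≤ t` -/
def Rep (j : Fin 4) (p : Nd) (f : Fn) (t : ℝ) : Prop :=
  ∃ (n : ℕ) (φ : Fin n → Fn) (c : Fin n → ℂ), (∀ i, IsAtom j (φ i)) ∧
    (∀ y ∈ iv p, f y = ∑ i, c i * φ i y) ∧ ∑ i, ‖c i‖ ≤ t

/-- full (sibling closed) tree region with top `J` -/
structure Full (R : Finset Nd) (J : Nd) : Prop where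
  reg : IsRegion R J
  top : J ∈ R
  bin : ∀ (m : ℕ) (l : ℤ), (m + 1, l) ∈ R → ((m, 2 * l) ∈ R ↔ (m, 2 * l + 1) ∈ R)

open Classical in
/-- leaves (minimal nodes) -/
noncomputable def lf (R : Finset Nd) : Finset Nd :=
  R.filter (fun p => ∀ q ∈ R, iv q ⊆ iv p → q = p)

/-- loc-normalised on `R` -/
def loc4 (R : Finset Nd) (F : Fin 4 → Fn) : Prop := ∀ j, ∀ p ∈ R, av p (F j) ≤ 1

/-- the total form over `R` -/
noncomputable def TR (bb : ℤ) (ε : ℕ → ℤ → ℂ) (R : Finset Nd) (F : Fin 4 → Fn) : ℂ :=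
  ∑ p ∈ R, TI bb ε F p

/-- admissible data -/
def Adm (bb : ℤ) (ε : ℕ → ℤ → ℂ) : Prop := (bb = -1 ∨ bb = -7) ∧ ∀ m x, ‖ε m x‖ ≤ 1

/-- `B` bounds all full regions with top level `≤ N` -/
def BBn (N : ℕ) (B : ℝ) : Prop :=
  ∀ bb ε, Adm bb ε → ∀ R J, Full R J → J.1 ≤ N → ∀ F, loc4 R F →
    ‖TR bb ε R F‖ ≤ B * len J

/-- **(Q)** two slots of small level, the two others arbitrary -/
def QProp : Prop :=
  ∀ η : ℝ, 0 < η → ∃ σ : ℝ, 0 < σ ∧ ∃ C : ℝ, 0 ≤ C ∧ ∀ (N : ℕ) (B : ℝ), 0 ≤ B → BBn N B →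
    ∀ bb ε, Adm bb ε → ∀ R J, Full R J → J.1 ≤ N → ∀ F, loc4 R F → ∀ i j : Fin 4, i ≠ j →
      (∀ p ∈ R, Lev3 i p (F i) σ) → (∀ p ∈ R, Lev3 j p (F j) σ) →
      ‖TR bb ε R F‖ ≤ (η * B + C) * len J

/-! ### Leaves of the proof (all elementary) -/

/-- **(Qa)** unit atoms are bounded by one (Hölder `(3,3,3)` on the plane `cf·z = y`; each pair
`(z_i, z_j)` is injective on the plane) -/
def Qa : Prop := ∀ j φ, IsAtom j φ → ∀ y, ‖φ y‖ ≤ 1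

/-- **(Qb)** frozen structured slot: from `FrozenAtom` and linearity -/
def Qb : Prop := ∃ K : ℝ, 0 ≤ K ∧ ∀ bb ε, Adm bb ε → ∀ R J, Full R J →
  ∀ (F : Fin 4 → Fn) (A : Fin 4 → ℝ), (∀ j, 0 ≤ A j) → (∀ j, ∀ p ∈ R, av p (F j) ≤ A j) →
  ∀ (i : Fin 4) (t : ℝ), Rep i J (F i) t →
    ‖TR bb ε R F‖ ≤ K * t * (∏ j : Fin 3, A (i.succAbove j)) * len J

/-- **(Qc)** a priori bound (static) -/
def Qc : Prop := ∀ N, ∃ B : ℝ, 0 ≤ B ∧ BBn N B

/-- penalised functional of `f` (mass `t`) at the node `p` -/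
noncomputable def Ph (σ : ℝ) (p : Nd) (F f : Fn) (t : ℝ) : ℝ :=
  av p (fun y => F y - f y) ^ 2 + 2 * σ * t

/-- **(Qd)** variational lemma: near-minimisers `f p` of the penalised problem at every node, mass
`t p`; level of the residual, approximate strong convexity (no compactness needed). -/
def Qd : Prop := ∀ (j : Fin 4) (σ η : ℝ), 0 < σ → 0 < η → ∀ F : Fn,
  ∃ (f : Nd → Fn) (t : Nd → ℝ), ∀ p : Nd,
    Rep j p (f p) (t p) ∧ 0 ≤ t p ∧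
    Lev3 j p (fun y => F y - f p y) (σ + Real.sqrt η) ∧
    ∀ (g : Fn) (u : ℝ), Rep j p g u →
      Ph σ p F (f p) (t p) + (1 / 2) * av p (fun y => g y - f p y) ^ 2 ≤ Ph σ p F g u + 2 * η

/-- **(Qe)** ABSTRACT STOPPING LEMMA.  `g I p ≥ 0` = deviation at `p` of the data frozen at `I`,
`P` = potential. Output: a partition of `R` into full regions `W i` with tops `I i`, total length of
the tops `≤ (2 + 4 P₀/δ) |J|`, deviation `≤ δ` inside.  (Stop at the parents of the first nodes with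
`g > δ`; both children become tops.) -/
def Qe : Prop := ∀ (R : Finset Nd) (J : Nd), Full R J → ∀ (g : Nd → Nd → ℝ) (P : Nd → ℝ)
  (δ P₀ : ℝ), 0 < δ → (∀ p ∈ R, 0 ≤ P p) → P J ≤ P₀ → (∀ I p, 0 ≤ g I p) → (∀ I, g I I ≤ δ) →
  (∀ I ∈ R, ∀ W : Finset Nd, Full W I → W ⊆ R →
    ∑ p ∈ lf W, len p * (g I p + P p) ≤ len I * (P I + δ / 4)) →
  ∃ (n : ℕ) (W : Fin n → Finset Nd) (I : Fin n → Nd),
    (∀ i, Full (W i) (I i) ∧ W i ⊆ R) ∧
    (∀ i i', i ≠ i' → Disjoint (W i) (W i')) ∧ (∀ p ∈ R, ∃ i, p ∈ W i) ∧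
    (∀ i, ∀ p ∈ W i, g (I i) p ≤ δ) ∧
    ∑ i, len (I i) ≤ (2 + 4 * P₀ / δ) * len J

/-- **(Qf)** passage from arbitrary to full regions (add the siblings, `ε = 0` there, loc-norms
`≤ √2 A`) -/
def Qf : Prop := (∃ C : ℝ, 0 ≤ C ∧ ∀ N, BBn N C) → BBFinite

/-- **(Qh)** the leaves of a full region below a node `p` of it partition `iv p` -/
def Qh : Prop := ∀ (W : Finset Nd) (I : Nd), Full W I → ∀ p ∈ W,
  (∀ L ∈ lf W, L ∈ W ∧ (iv L ⊆ iv p ∨ Disjoint (iv L) (iv p))) ∧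
  ∀ y ∈ iv p, ∃ L ∈ lf W, iv L ⊆ iv p ∧ y ∈ iv L ∧ ∀ L' ∈ lf W, y ∈ iv L' → L' = L

/-- **(Qg)** the expansion + absorption -/
def Qg : Prop := Qa → Qb → Qc → Qd → Qe → Qh → QProp → ∃ C : ℝ, 0 ≤ C ∧ ∀ N, BBn N C

theorem bbFinite_of_Q (ha : Qa) (hb : Qb) (hc : Qc) (hd : Qd) (he : Qe) (hh : Qh) (hf : Qf)
    (hg : Qg) (hQ : QProp) : BBFinite := hf (hg ha hb hc hd he hh hQ)

end Crest.Agent.R079.QRed
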