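import Crest.Agent.R079.QDefs_248

/-! R079, leaf (Qd): variational lemma (near-minimisers of the penalised problem). helper181. -/

set_option autoImplicit false

namespace Crest.Agent.R079.QVar181

open Finset Crest.Agent.R079.Grid Crest.Agent.R079.Glue Crest.Agent.R079.Growth
  Crest.Agent.R079.QRed

/-- the conjugate of a unit atom is a unit atom -/
theorem isAtom_conj {j : Fin 4} {φ : Fn} (h : IsAtom j φ) :
    IsAtom j (fun y => (starRingEnd ℂ) (φ y)) := by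
  obtain ⟨κ, T, a, b, c, hκ, rfl, hn⟩ := h
  refine ⟨κ, T, fun z w => starRingEnd ℂ (a z w), fun z w => starRingEnd ℂ (b z w),
    fun z w => starRingEnd ℂ (c z w), hκ, ?_, ?_⟩
  · funext y
    simp only [atom, map_mul, map_sum, Complex.conj_ofReal]
    congr 1
    refine Finset.sum_congr rfl fun z0 _ => Finset.sum_congr rfl fun z1 _ =>
      Finset.sum_congr rfl fun z2 _ => ?_
    split_ifs <;> simp
  · simpa [n3, RCLike.norm_conj] using hn

theorem rep_zero (j : Fin 4) (p : Nd) : Rep j p (fun _ => 0) 0 :=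
  ⟨0, Fin.elim0, Fin.elim0, fun i => i.elim0, fun _ _ => by simp, by simp⟩

theorem rep_nonneg {j : Fin 4} {p : Nd} {f : Fn} {t : ℝ} (h : Rep j p f t) : 0 ≤ t := by
  obtain ⟨n, φ, c, _, _, ht⟩ := h
  exact le_trans (Finset.sum_nonneg fun i _ => norm_nonneg _) ht

theorem rep_add {j : Fin 4} {p : Nd} {f g : Fn} {t u : ℝ} (h : Rep j p f t) (h' : Rep j p g u) :
    Rep j p (fun y => f y + g y) (t + u) := by
  obtain ⟨n, φ, c, hφ, hf, ht⟩ := h
  obtain ⟨m, ψ, d, hψ, hg, hu⟩ := h'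
  refine ⟨n + m, Fin.append φ ψ, Fin.append c d, ?_, ?_, ?_⟩
  · intro i
    refine Fin.addCases (fun i => ?_) (fun i => ?_) i
    · rw [Fin.append_left]; exact hφ i
    · rw [Fin.append_right]; exact hψ i
  · intro y hy
    rw [Fin.sum_univ_add]
    simp only [Fin.append_left, Fin.append_right]
    rw [← hf y hy, ← hg y hy]
  · rw [Fin.sum_univ_add]
    simp only [Fin.append_left, Fin.append_right]
    linarith

theorem rep_smul {j : Fin 4} {p : Nd} {f : Fn} {t : ℝ} (z : ℂ) (h : Rep j p f t) :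
    Rep j p (fun y => z * f y) (‖z‖ * t) := by
  obtain ⟨n, φ, c, hφ, hf, ht⟩ := h
  refine ⟨n, φ, fun i => z * c i, hφ, ?_, ?_⟩
  · intro y hy
    dsimp only
    rw [hf y hy, Finset.mul_sum]
    exact Finset.sum_congr rfl fun i _ => by ring
  · simp only [norm_mul]
    rw [← Finset.mul_sum]
    exact mul_le_mul_of_nonneg_left ht (norm_nonneg _)

theorem rep_atom {j : Fin 4} (p : Nd) {φ : Fn} (h : IsAtom j φ) : Rep j p φ 1 :=
  ⟨1, fun _ => φ, fun _ => 1, fun _ => h, fun y _ => by simp, by simp⟩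

/-- restriction of a representation to a node contained in the first one -/
theorem rep_mono {j : Fin 4} {p q : Nd} {f : Fn} {t : ℝ} (hqp : iv q ⊆ iv p) (h : Rep j p f t) :
    Rep j q f t := by
  obtain ⟨n, φ, c, hφ, hf, ht⟩ := h
  exact ⟨n, φ, c, hφ, fun y hy => hf y (hqp hy), ht⟩

theorem len_pos' (p : Nd) : 0 < len p := by unfold len; positivity

theorem av_sq (p : Nd) (X : Fn) : av p X ^ 2 = (1 / len p) * ∑ y ∈ iv p, ‖X y‖ ^ 2 := by
  unfold av av2 len iv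
  rw [Real.sq_sqrt]
  positivity

theorem card_iv' (p : Nd) : ((iv p).card : ℝ) = len p := by
  unfold iv len dI
  rw [Int.card_Ico]
  have h : (p.2 + 1) * 2 ^ (p.1 + 7) - p.2 * 2 ^ (p.1 + 7) = (2 : ℤ) ^ (p.1 + 7) := by ring
  rw [h]
  have h2 : ((2 : ℤ) ^ (p.1 + 7)).toNat = 2 ^ (p.1 + 7) := by
    have : ((2 : ℤ) ^ (p.1 + 7)) = ((2 ^ (p.1 + 7) : ℕ) : ℤ) := by push_cast; ring
    rw [this, Int.toNat_natCast]
  rw [h2]
  push_cast
  ring

theorem norm_mid (a b : ℂ) : ‖(a + b) / 2‖ ^ 2 = ‖a‖ ^ 2 / 2 + ‖b‖ ^ 2 / 2 - ‖a - b‖ ^ 2 / 4 := by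
  rw [Complex.sq_norm, Complex.sq_norm, Complex.sq_norm, Complex.sq_norm]
  simp only [Complex.normSq_apply]
  have h1 : ((a + b) / 2).re = (a.re + b.re) / 2 := by simp
  have h2 : ((a + b) / 2).im = (a.im + b.im) / 2 := by simp
  rw [h1, h2]
  simp only [Complex.sub_re, Complex.sub_im]
  ring

theorem norm_sub_mul (a z φ : ℂ) :
    ‖a - z * (starRingEnd ℂ) φ‖ ^ 2 =
      ‖a‖ ^ 2 - 2 * ((starRingEnd ℂ) z * (a * φ)).re + ‖z‖ ^ 2 * ‖φ‖ ^ 2 := by
  rw [Complex.sq_norm, Complex.sq_norm, Complex.sq_norm, Complex.sq_norm]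
  simp only [Complex.normSq_apply, Complex.sub_re, Complex.sub_im, Complex.mul_re, Complex.mul_im,
    Complex.conj_re, Complex.conj_im]
  ring

theorem Ph_nonneg {j : Fin 4} {σ : ℝ} (hσ : 0 < σ) (p : Nd) (F : Fn) {g : Fn} {u : ℝ}
    (h : Rep j p g u) : 0 ≤ Ph σ p F g u := by
  unfold Ph
  have := rep_nonneg h
  positivity

/-- existence of near-minimisers -/
theorem exists_near (j : Fin 4) (σ η : ℝ) (hσ : 0 < σ) (hη : 0 < η) (F : Fn) (p : Nd) :
    ∃ (f : Fn) (t : ℝ), Rep j p f t ∧ ∀ (g : Fn) (u : ℝ), Rep j p g u →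
      Ph σ p F f t ≤ Ph σ p F g u + η := by
  let S : Set ℝ := {x | ∃ (g : Fn) (u : ℝ), Rep j p g u ∧ x = Ph σ p F g u}
  have hne : S.Nonempty := ⟨_, _, _, rep_zero j p, rfl⟩
  have hbd : BddBelow S := ⟨0, by
    rintro x ⟨g, u, h, rfl⟩
    exact Ph_nonneg hσ p F h⟩
  obtain ⟨x, ⟨f, t, hft, rfl⟩, hx⟩ := Real.lt_sInf_add_pos hne hη
  refine ⟨f, t, hft, fun g u hgu => ?_⟩
  have : sInf S ≤ Ph σ p F g u := csInf_le hbd ⟨g, u, hgu, rfl⟩
  linarith

/-- approximate strong convexity of a near-minimiser -/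
theorem near_convex {j : Fin 4} {σ η : ℝ} {F : Fn} {p : Nd} {f : Fn} {t : ℝ} (hf : Rep j p f t)
    (hmin : ∀ (g : Fn) (u : ℝ), Rep j p g u → Ph σ p F f t ≤ Ph σ p F g u + η)
    (g : Fn) (u : ℝ) (hg : Rep j p g u) :
    Ph σ p F f t + (1 / 2) * av p (fun y => g y - f y) ^ 2 ≤ Ph σ p F g u + 2 * η := by
  have hmid : Rep j p (fun y => (1 / 2 : ℂ) * (f y + g y)) (‖(1 / 2 : ℂ)‖ * (t + u)) :=
    rep_smul _ (rep_add hf hg)
  have hn : ‖(1 / 2 : ℂ)‖ = 1 / 2 := by simp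
  rw [hn] at hmid
  have h := hmin _ _ hmid
  have key : av p (fun y => F y - (1 / 2 : ℂ) * (f y + g y)) ^ 2 =
      av p (fun y => F y - f y) ^ 2 / 2 + av p (fun y => F y - g y) ^ 2 / 2 -
        av p (fun y => g y - f y) ^ 2 / 4 := by
    rw [av_sq, av_sq, av_sq, av_sq]
    have : ∀ y, ‖F y - (1 / 2 : ℂ) * (f y + g y)‖ ^ 2 =
        ‖F y - f y‖ ^ 2 / 2 + ‖F y - g y‖ ^ 2 / 2 - ‖g y - f y‖ ^ 2 / 4 := by
      intro y
      have e1 : F y - (1 / 2 : ℂ) * (f y + g y) = ((F y - f y) + (F y - g y)) / 2 := by ring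
      have e2 : (F y - f y) - (F y - g y) = g y - f y := by ring
      rw [e1, norm_mid, e2]
    rw [Finset.sum_congr rfl fun y _ => this y, Finset.sum_sub_distrib, Finset.sum_add_distrib,
      ← Finset.sum_div, ← Finset.sum_div, ← Finset.sum_div]
    ring
  unfold Ph at h ⊢
  rw [key] at h
  linarith

/-- level of the residual of a near-minimiser -/
theorem near_level (ha : Qa) {j : Fin 4} {σ η : ℝ} (hη : 0 < η) {F : Fn} {p : Nd}
    {f : Fn} {t : ℝ} (hf : Rep j p f t)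
    (hmin : ∀ (g : Fn) (u : ℝ), Rep j p g u → Ph σ p F f t ≤ Ph σ p F g u + η) (hσ : 0 < σ) :
    Lev3 j p (fun y => F y - f y) (σ + Real.sqrt η) := by
  intro φ hφ
  dsimp only
  set S : ℂ := ∑ y ∈ iv p, (F y - f y) * φ y with hS
  have hL := len_pos' p
  set r := Real.sqrt η with hr
  have hr0 : 0 < r := Real.sqrt_pos.mpr hη
  have hrr : r ^ 2 = η := Real.sq_sqrt hη.le
  by_cases hS0 : S = 0
  · rw [hS0, norm_zero]
    positivity
  have hSn : 0 < ‖S‖ := norm_pos_iff.mpr hS0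
  let z : ℂ := (r / ‖S‖ : ℝ) * S
  have hz : ‖z‖ = r := by
    simp only [z, norm_mul, Complex.norm_real, Real.norm_eq_abs]
    rw [abs_of_nonneg (by positivity)]
    field_simp
  have hzS : ((starRingEnd ℂ) z * S).re = r * ‖S‖ := by
    have e : (starRingEnd ℂ) z * S = ((r * ‖S‖ : ℝ) : ℂ) := by
      simp only [z, map_mul, Complex.conj_ofReal]
      have : (starRingEnd ℂ) S * S = ((‖S‖ ^ 2 : ℝ) : ℂ) := by
        rw [mul_comm, Complex.mul_conj, Complex.normSq_eq_norm_sq]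
      rw [mul_assoc, this]
      rw [← Complex.ofReal_mul]
      congr 1
      field_simp
    rw [e, Complex.ofReal_re]
  have hat := isAtom_conj hφ
  have hrep : Rep j p (fun y => f y + z * (starRingEnd ℂ) (φ y)) (t + ‖z‖ * 1) :=
    rep_add hf (rep_smul z (rep_atom p hat))
  have h := hmin _ _ hrep
  rw [hz] at h
  have key : av p (fun y => F y - (f y + z * (starRingEnd ℂ) (φ y))) ^ 2 =
      av p (fun y => F y - f y) ^ 2 - 2 * (r * ‖S‖) / len p +
        r ^ 2 * ((1 / len p) * ∑ y ∈ iv p, ‖φ y‖ ^ 2) := by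
    rw [av_sq, av_sq]
    have : ∀ y, ‖F y - (f y + z * (starRingEnd ℂ) (φ y))‖ ^ 2 =
        ‖F y - f y‖ ^ 2 - 2 * ((starRingEnd ℂ) z * ((F y - f y) * φ y)).re
          + r ^ 2 * ‖φ y‖ ^ 2 := by
      intro y
      have e1 : F y - (f y + z * (starRingEnd ℂ) (φ y)) =
          (F y - f y) - z * (starRingEnd ℂ) (φ y) := by ring
      rw [e1, norm_sub_mul, hz]
    rw [Finset.sum_congr rfl fun y _ => this y, Finset.sum_add_distrib, Finset.sum_sub_distrib,
      ← Finset.mul_sum, ← Finset.mul_sum]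
    have e2 : ∑ y ∈ iv p, ((starRingEnd ℂ) z * ((F y - f y) * φ y)).re = r * ‖S‖ := by
      rw [← hzS, hS, Finset.mul_sum, Complex.re_sum]
    rw [e2]
    ring
  have hφ1 : (1 / len p) * ∑ y ∈ iv p, ‖φ y‖ ^ 2 ≤ 1 := by
    have h1 : ∑ y ∈ iv p, ‖φ y‖ ^ 2 ≤ ∑ _y ∈ iv p, (1 : ℝ) := by
      refine Finset.sum_le_sum fun y _ => ?_
      have := ha j φ hφ y
      exact pow_le_one₀ (norm_nonneg _) this
    rw [Finset.sum_const, nsmul_eq_mul, mul_one, card_iv'] at h1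
    rw [one_div, inv_mul_le_iff₀ hL, mul_one]
    exact h1
  unfold Ph at h
  rw [key] at h
  have h2 : 2 * (r * ‖S‖) / len p ≤ r ^ 2 + 2 * σ * r + η := by
    have := mul_le_mul_of_nonneg_left hφ1 (sq_nonneg r)
    linarith
  rw [div_le_iff₀ hL] at h2
  have h3 : 2 * r * ‖S‖ ≤ 2 * r * ((σ + r) * len p) := by
    rw [← hrr] at h2
    nlinarith [h2]
  exact le_of_mul_le_mul_left h3 (by positivity)

/-- **(Qd)** the variational lemma -/
theorem qd (ha : Qa) : Qd := by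
  intro j σ η hσ hη F
  choose f t hft hmin using exists_near j σ η hσ hη F
  refine ⟨f, t, fun p => ⟨hft p, rep_nonneg (hft p), near_level ha hη (hft p) (hmin p) hσ, ?_⟩⟩
  intro g u hgu
  exact near_convex (hft p) (hmin p) g u hgu

end Crest.Agent.R079.QVar181
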