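import Crest.Agent.R079.QDefs_248
import Crest.Agent.R079.Static_569

/-! R079, leaf (Qc) of QDefs_248 (helper406): a priori bound for regions of bounded top level. -/

set_option autoImplicit false

namespace Crest.Agent.R079.QRed

open Finset Crest.Agent.R079.Grid Crest.Agent.R079.Glue Crest.Agent.R079.Growth

namespace Qc406

lemma card_dI (k : ℕ) (l : ℤ) : ((dI k l).card : ℝ) = 2 ^ k := by
  have h : (dI k l).card = 2 ^ k := by
    rw [dI, Int.card_Ico]
    have : (l + 1) * 2 ^ k - l * 2 ^ k = ((2 ^ k : ℕ) : ℤ) := by push_cast; ring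
    rw [this, Int.toNat_natCast]
  rw [h]
  push_cast
  rfl

lemma card_iv (p : Nd) : ((iv p).card : ℝ) = len p := card_dI _ _

lemma dI_disj (k : ℕ) {l l' : ℤ} (h : l ≠ l') : Disjoint (dI k l) (dI k l') := by
  rw [Finset.disjoint_left]
  intro y hy hy'
  simp only [dI, Finset.mem_Ico] at hy hy'
  have hk : (0 : ℤ) < 2 ^ k := by positivity
  rcases lt_or_gt_of_ne h with h1 | h1
  · have : (l + 1) * 2 ^ k ≤ l' * 2 ^ k := by
      apply mul_le_mul_of_nonneg_right _ hk.le
      omega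
    omega
  · have : (l' + 1) * 2 ^ k ≤ l * 2 ^ k := by
      apply mul_le_mul_of_nonneg_right _ hk.le
      omega
    omega

lemma level_le {p J : Nd} (h : iv p ⊆ iv J) : p.1 ≤ J.1 := by
  have h1 : ((iv p).card : ℝ) ≤ (iv J).card := by exact_mod_cast Finset.card_le_card h
  rw [card_iv, card_iv, len, len] at h1
  have h2 := (pow_le_pow_iff_right₀ (by norm_num : (1 : ℝ) < 2)).1 h1
  omega

lemma len_nonneg (p : Nd) : 0 ≤ len p := by unfold len; positivity

/-- the nodes of one level below `J` have total length `≤ |J|` -/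
lemma level_sum (R : Finset Nd) (J : Nd) (hR : ∀ p ∈ R, iv p ⊆ iv J) (m : ℕ) :
    ∑ p ∈ R.filter (fun p => p.1 = m), len p ≤ len J := by
  classical
  have h1 : ∑ p ∈ R.filter (fun p => p.1 = m), len p =
      ((R.filter (fun p => p.1 = m)).biUnion iv).card := by
    rw [Finset.card_biUnion]
    · push_cast
      exact Finset.sum_congr rfl fun p _ => (card_iv p).symm
    · intro p hp q hq hpq
      simp only [Finset.mem_coe, Finset.mem_filter] at hp hq
      have : p.2 ≠ q.2 := by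
        intro h
        exact hpq (Prod.ext (hp.2.trans hq.2.symm) h)
      have e : iv q = dI (p.1 + 7) q.2 := by rw [iv, hq.2, hp.2]
      show Disjoint (iv p) (iv q)
      rw [e]
      exact dI_disj _ this
  rw [h1, ← card_iv J]
  have : ((R.filter (fun p => p.1 = m)).biUnion iv) ⊆ iv J := by
    rw [Finset.biUnion_subset]
    intro p hp
    exact hR p (Finset.mem_filter.1 hp).1
  exact_mod_cast Finset.card_le_card this

lemma region_len (R : Finset Nd) (J : Nd) (hR : ∀ p ∈ R, iv p ⊆ iv J) :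
    ∑ p ∈ R, len p ≤ (J.1 + 1) * len J := by
  have hmap : ∀ p ∈ R, p.1 ∈ Finset.range (J.1 + 1) := fun p hp => by
    have := level_le (hR p hp)
    simp only [Finset.mem_range]
    omega
  rw [← Finset.sum_fiberwise_of_maps_to hmap]
  calc ∑ m ∈ Finset.range (J.1 + 1), ∑ p ∈ R.filter (fun p => p.1 = m), len p
      ≤ ∑ m ∈ Finset.range (J.1 + 1), len J := Finset.sum_le_sum fun m _ => level_sum R J hR m
    _ = (J.1 + 1) * len J := by
        rw [Finset.sum_const, Finset.card_range, nsmul_eq_mul]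
        push_cast
        ring

/-- quantitative form: static bound for a region -/
theorem static_bound {bb : ℤ} {ε : ℕ → ℤ → ℂ} (h : Adm bb ε) (R : Finset Nd) (J : Nd)
    (hR : ∀ p ∈ R, iv p ⊆ iv J) (F : Fin 4 → Fn) (A : Fin 4 → ℝ)
    (hA : ∀ j, ∀ p ∈ R, av p (F j) ≤ A j) (hA0 : ∀ j, 0 ≤ A j) :
    ‖TR bb ε R F‖ ≤ 64 * (J.1 + 1) * (∏ j, A j) * len J := by
  have h1 : ∀ p ∈ R, ‖TI bb ε F p‖ ≤ 64 * (∏ j, A j) * len p := by
    intro p hp
    have h2 := norm_TI_le bb h.1 ε h.2 F p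
    refine h2.trans ?_
    have h3 : ∏ j, av2 (p.1 + 7) p.2 (F j) ≤ ∏ j, A j :=
      Finset.prod_le_prod (fun j _ => av2_nonneg _ _ _) fun j _ => hA j p hp
    have h4 : (0 : ℝ) ≤ 64 * 2 ^ (p.1 + 7) := by positivity
    calc 64 * 2 ^ (p.1 + 7) * ∏ j, av2 (p.1 + 7) p.2 (F j)
        ≤ 64 * 2 ^ (p.1 + 7) * ∏ j, A j := mul_le_mul_of_nonneg_left h3 h4
      _ = 64 * (∏ j, A j) * len p := by unfold len; ring
  have hP : 0 ≤ ∏ j, A j := Finset.prod_nonneg fun j _ => hA0 j
  calc ‖TR bb ε R F‖ ≤ ∑ p ∈ R, ‖TI bb ε F p‖ := norm_sum_le _ _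
    _ ≤ ∑ p ∈ R, 64 * (∏ j, A j) * len p := Finset.sum_le_sum h1
    _ = 64 * (∏ j, A j) * ∑ p ∈ R, len p := by rw [Finset.mul_sum]
    _ ≤ 64 * (∏ j, A j) * ((J.1 + 1) * len J) :=
        mul_le_mul_of_nonneg_left (region_len R J hR) (by positivity)
    _ = _ := by ring

end Qc406

open Qc406 in
/-- **(Qc)** -/
theorem qc : Qc := by
  intro N
  refine ⟨64 * (N + 1), by positivity, fun bb ε h R J hF hJ F hloc => ?_⟩
  have h1 := static_bound h R J hF.reg.1 F (fun _ => 1) hloc (fun _ => zero_le_one)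
  simp only [Finset.prod_const_one, mul_one] at h1
  refine h1.trans (mul_le_mul_of_nonneg_right ?_ (len_nonneg J))
  have : (J.1 : ℝ) ≤ N := by exact_mod_cast hJ
  linarith

end Crest.Agent.R079.QRed
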