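import Crest.Agent.R079.QDefs_248
import Crest.Agent.R079.Max_292

/-! R079, leaf (Qe) of `QDefs_248` (helper292): the abstract stopping lemma. -/

set_option autoImplicit false

namespace Crest.Agent.R079.Qe292

open Finset Crest.Agent.R079.Grid Crest.Agent.R079.Growth Crest.Agent.R079.QRed

/-! ### order of the nodes -/

/-- parent -/
def par (p : Nd) : Nd := (p.1 + 1, p.2 / 2)

/-- sibling -/
def sib (p : Nd) : Nd := (p.1, 4 * (p.2 / 2) + 1 - p.2)

lemma iv_sub_iff {p q : Nd} : iv p ⊆ iv q ↔ ∃ j, q = (p.1 + j, p.2 / 2 ^ j) := by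
  constructor
  · intro h
    obtain ⟨j, h1, h2⟩ := L0e.dI_sub_imp h
    refine ⟨j, Prod.ext ?_ h2⟩
    simp only
    omega
  · rintro ⟨j, rfl⟩
    have := L0e.dI_sub (p.1 + 7) j p.2
    unfold iv
    simp only
    rwa [show p.1 + j + 7 = p.1 + 7 + j by omega]

lemma iv_antisymm {p q : Nd} (h : iv p ⊆ iv q) (h' : iv q ⊆ iv p) : p = q := by
  obtain ⟨j, hj⟩ := iv_sub_iff.1 h
  obtain ⟨j', hj'⟩ := iv_sub_iff.1 h'
  have e1 : q.1 = p.1 + j := by rw [hj]
  have e2 : p.1 = q.1 + j' := congrArg Prod.fst hj'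
  have : j = 0 := by omega
  subst this
  rw [hj]
  simp

lemma iv_level {p q : Nd} (h : iv p ⊆ iv q) : p.1 ≤ q.1 := by
  obtain ⟨j, hj⟩ := iv_sub_iff.1 h
  rw [hj]
  exact Nat.le_add_right _ _

lemma iv_par (p : Nd) : iv p ⊆ iv (par p) := iv_sub_iff.2 ⟨1, by simp [par]⟩

lemma par_sub {p q : Nd} (h : iv p ⊆ iv q) (hne : p ≠ q) : iv (par p) ⊆ iv q := by
  obtain ⟨j, hj⟩ := iv_sub_iff.1 h
  cases j with
  | zero => exact absurd (by rw [hj]; simp) hne
  | succ j =>
    refine iv_sub_iff.2 ⟨j, ?_⟩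
    rw [hj]
    refine Prod.ext ?_ ?_
    · simp only [par]; omega
    · simp only [par]
      have := L0e.ediv_pow_pow p.2 1 j
      rw [pow_one] at this
      rw [this, add_comm 1 j]

lemma sub_total {p q q' : Nd} (h : iv p ⊆ iv q) (h' : iv p ⊆ iv q') :
    iv q ⊆ iv q' ∨ iv q' ⊆ iv q := by
  obtain ⟨j, hj⟩ := iv_sub_iff.1 h
  obtain ⟨j', hj'⟩ := iv_sub_iff.1 h'
  rcases le_total j j' with hjj | hjj
  · left
    obtain ⟨d, rfl⟩ := Nat.exists_eq_add_of_le hjj
    refine iv_sub_iff.2 ⟨d, ?_⟩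
    rw [hj, hj']
    refine Prod.ext ?_ ?_
    · simp only; omega
    · simp only
      rw [L0e.ediv_pow_pow]
  · right
    obtain ⟨d, rfl⟩ := Nat.exists_eq_add_of_le hjj
    refine iv_sub_iff.2 ⟨d, ?_⟩
    rw [hj, hj']
    refine Prod.ext ?_ ?_
    · simp only; omega
    · simp only
      rw [L0e.ediv_pow_pow]

lemma par_sib (p : Nd) : par (sib p) = par p := by
  refine Prod.ext rfl ?_
  simp only [par, sib]
  omega

lemma sib_sib (p : Nd) : sib (sib p) = p := by
  refine Prod.ext rfl ?_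
  simp only [sib]
  omega

lemma len_sib (p : Nd) : len (sib p) = len p := rfl

lemma len_pos (p : Nd) : 0 < len p := by unfold len; positivity

lemma sib_mem {R : Finset Nd} {J : Nd} (hR : Full R J) {c : Nd} (hc : c ∈ R)
    (hp : par c ∈ R) : sib c ∈ R := by
  have hb := hR.bin c.1 (c.2 / 2) hp
  rcases Int.emod_two_eq_zero_or_one c.2 with h | h
  · have e : c = (c.1, 2 * (c.2 / 2)) := Prod.ext rfl (by simp only; omega)
    have e' : sib c = (c.1, 2 * (c.2 / 2) + 1) := Prod.ext rfl (by simp only [sib]; omega)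
    rw [e']
    exact hb.1 (e ▸ hc)
  · have e : c = (c.1, 2 * (c.2 / 2) + 1) := Prod.ext rfl (by simp only; omega)
    have e' : sib c = (c.1, 2 * (c.2 / 2)) := Prod.ext rfl (by simp only [sib]; omega)
    rw [e']
    exact hb.2 (e ▸ hc)

/-- to check `bin` it is enough to have sibling closure -/
lemma bin_of {W : Finset Nd} (h : ∀ c, c ∈ W → par c ∈ W → sib c ∈ W) (m : ℕ) (l : ℤ)
    (hq : (m + 1, l) ∈ W) : (m, 2 * l) ∈ W ↔ (m, 2 * l + 1) ∈ W := by
  constructor
  · intro hc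
    have e : par (m, 2 * l) = (m + 1, l) := Prod.ext rfl (by simp only [par]; omega)
    have := h _ hc (by rw [e]; exact hq)
    have e' : sib (m, 2 * l) = (m, 2 * l + 1) := Prod.ext rfl (by simp only [sib]; omega)
    rwa [e'] at this
  · intro hc
    have e : par (m, 2 * l + 1) = (m + 1, l) := Prod.ext rfl (by simp only [par]; omega)
    have := h _ hc (by rw [e]; exact hq)
    have e' : sib (m, 2 * l + 1) = (m, 2 * l) := Prod.ext rfl (by simp only [sib]; omega)
    rwa [e'] at this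

section main

variable (R : Finset Nd) (g : Nd → Nd → ℝ) (δ : ℝ)

open Classical in
/-- the window of the top `I`: everything down to the parents of the first bad nodes -/
noncomputable def Wd (I : Nd) : Finset Nd :=
  R.filter (fun p => iv p ⊆ iv I ∧ ∀ q ∈ R, iv p ⊆ iv q → iv q ⊆ iv I → q ≠ I →
    g I q ≤ δ ∧ g I (sib q) ≤ δ)

open Classical in
/-- the next tops -/
noncomputable def Tp (I : Nd) : Finset Nd :=
  R.filter (fun c => iv c ⊆ iv I ∧ c ∉ Wd R g δ I ∧ par c ∈ Wd R g δ I)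

variable {R g δ}

lemma mem_Wd {I p : Nd} : p ∈ Wd R g δ I ↔ p ∈ R ∧ iv p ⊆ iv I ∧
    ∀ q ∈ R, iv p ⊆ iv q → iv q ⊆ iv I → q ≠ I → g I q ≤ δ ∧ g I (sib q) ≤ δ := by
  unfold Wd
  rw [Finset.mem_filter]

lemma mem_Tp {I c : Nd} : c ∈ Tp R g δ I ↔ c ∈ R ∧ iv c ⊆ iv I ∧ c ∉ Wd R g δ I ∧
    par c ∈ Wd R g δ I := by
  unfold Tp
  rw [Finset.mem_filter]

variable {J : Nd}

lemma top_mem_Wd {I : Nd} (hI : I ∈ R) : I ∈ Wd R g δ I := by
  rw [mem_Wd]
  refine ⟨hI, subset_rfl, fun q _ h1 h2 hne => absurd (iv_antisymm h2 h1) hne⟩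

lemma Wd_up (hR : Full R J) {I : Nd} (hI : I ∈ R) {p q : Nd} (hp : p ∈ Wd R g δ I)
    (h1 : iv p ⊆ iv q) (h2 : iv q ⊆ iv I) : q ∈ Wd R g δ I := by
  rw [mem_Wd] at hp ⊢
  refine ⟨hR.reg.2 p hp.1 q h1 (h2.trans (hR.reg.1 I hI)), h2, fun q' hq' h3 h4 h5 =>
    hp.2.2 q' hq' (h1.trans h3) h4 h5⟩

lemma Wd_sib (hR : Full R J) {I : Nd} {c : Nd} (hc : c ∈ Wd R g δ I)
    (hp : par c ∈ Wd R g δ I) : sib c ∈ Wd R g δ I := by
  have hc' := mem_Wd.1 hc
  have hp' := mem_Wd.1 hp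
  have hne : c ≠ I := by
    rintro rfl
    have := iv_level hp'.2.1
    simp only [par] at this
    omega
  rw [mem_Wd]
  refine ⟨sib_mem hR hc'.1 hp'.1, ?_, ?_⟩
  · have := iv_par (sib c)
    rw [par_sib] at this
    exact this.trans hp'.2.1
  · intro q hq h1 h2 h3
    by_cases hqs : q = sib c
    · subst hqs
      have := hc'.2.2 c hc'.1 subset_rfl hc'.2.1 hne
      rw [sib_sib]
      exact ⟨this.2, this.1⟩
    · have h4 := par_sub h1 (Ne.symm hqs)
      rw [par_sib] at h4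
      exact hp'.2.2 q hq h4 h2 h3

lemma Wd_full (hR : Full R J) {I : Nd} (hI : I ∈ R) : Full (Wd R g δ I) I := by
  refine ⟨⟨fun p hp => (mem_Wd.1 hp).2.1, fun p hp q h1 h2 => Wd_up hR hI hp h1 h2⟩,
    top_mem_Wd hI, bin_of fun c hc hp => Wd_sib hR hc hp⟩

lemma Wd_sub {I : Nd} : Wd R g δ I ⊆ R := fun _ hp => (mem_Wd.1 hp).1

lemma Wd_good (hg : ∀ I, g I I ≤ δ) {I p : Nd} (hp : p ∈ Wd R g δ I) : g I p ≤ δ := by
  by_cases h : p = I
  · rw [h]; exact hg I
  · have := mem_Wd.1 hp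
    exact (this.2.2 p this.1 subset_rfl this.2.1 h).1

lemma Tp_sib (hR : Full R J) {I : Nd} {c : Nd} (hc : c ∈ Tp R g δ I) : sib c ∈ Tp R g δ I := by
  have h := mem_Tp.1 hc
  have hp := mem_Wd.1 h.2.2.2
  have hs : sib c ∈ R := sib_mem hR h.1 hp.1
  rw [mem_Tp]
  refine ⟨hs, ?_, ?_, ?_⟩
  · have := iv_par (sib c)
    rw [par_sib] at this
    exact this.trans hp.2.1
  · intro hw
    have := Wd_sib hR hw (by rw [par_sib]; exact h.2.2.2)
    rw [sib_sib] at this
    exact h.2.2.1 this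
  · rw [par_sib]; exact h.2.2.2

/-- one of a pair is bad -/
lemma Tp_bad {I : Nd} {c : Nd} (hc : c ∈ Tp R g δ I) : δ < g I c ∨ δ < g I (sib c) := by
  by_contra hcon
  push Not at hcon
  have h := mem_Tp.1 hc
  apply h.2.2.1
  rw [mem_Wd]
  refine ⟨h.1, h.2.1, fun q hq h1 h2 h3 => ?_⟩
  by_cases hqc : q = c
  · rw [hqc]; exact hcon
  · exact (mem_Wd.1 h.2.2.2).2.2 q hq (par_sub h1 (Ne.symm hqc)) h2 h3

open Classical in
lemma W'_full (hR : Full R J) {I : Nd} (hI : I ∈ R) : Full (Wd R g δ I ∪ Tp R g δ I) I := by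
  have key : ∀ c, c ∈ Wd R g δ I ∪ Tp R g δ I → par c ∈ Wd R g δ I ∪ Tp R g δ I →
      par c ∈ Wd R g δ I := by
    intro c hc hp
    rcases Finset.mem_union.1 hc with h | h
    · refine Wd_up hR hI h (iv_par c) ?_
      rcases Finset.mem_union.1 hp with h' | h'
      · exact (mem_Wd.1 h').2.1
      · exact (mem_Tp.1 h').2.1
    · exact (mem_Tp.1 h).2.2.2
  refine ⟨⟨fun p hp => ?_, fun p hp q h1 h2 => ?_⟩, Finset.mem_union_left _ (top_mem_Wd hI),
    bin_of fun c hc hp => ?_⟩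
  · rcases Finset.mem_union.1 hp with h | h
    · exact (mem_Wd.1 h).2.1
    · exact (mem_Tp.1 h).2.1
  · rcases Finset.mem_union.1 hp with h | h
    · exact Finset.mem_union_left _ (Wd_up hR hI h h1 h2)
    · by_cases hqp : p = q
      · rw [← hqp]; exact hp
      · exact Finset.mem_union_left _
          (Wd_up hR hI (mem_Tp.1 h).2.2.2 (par_sub h1 hqp) h2)
  · have hpW := key c hc hp
    rcases Finset.mem_union.1 hc with h | h
    · exact Finset.mem_union_left _ (Wd_sib hR h hpW)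
    · exact Finset.mem_union_right _ (Tp_sib hR h)

open Classical in
lemma Tp_sub_lf (hR : Full R J) {I : Nd} (hI : I ∈ R) :
    Tp R g δ I ⊆ lf (Wd R g δ I ∪ Tp R g δ I) := by
  intro c hc
  unfold lf
  rw [Finset.mem_filter]
  have h := mem_Tp.1 hc
  refine ⟨Finset.mem_union_right _ hc, fun q hq hqc => ?_⟩
  rcases Finset.mem_union.1 hq with h' | h'
  · exact absurd (Wd_up hR hI h' hqc h.2.1) h.2.2.1
  · by_contra hne
    exact h.2.2.1 (Wd_up hR hI (mem_Tp.1 h').2.2.2 (par_sub hqc hne) h.2.1)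

lemma sum_Tp_sib (hR : Full R J) {I : Nd} (f : Nd → ℝ) :
    ∑ c ∈ Tp R g δ I, f (sib c) = ∑ c ∈ Tp R g δ I, f c := by
  refine Finset.sum_nbij' sib sib (fun c hc => Tp_sib hR hc) (fun c hc => Tp_sib hR hc)
    (fun c _ => sib_sib c) (fun c _ => sib_sib c) (fun c _ => rfl)

/-- the energy inequality at one top -/
lemma step (hR : Full R J) {P : Nd → ℝ} (hδ : 0 < δ) (hP : ∀ p ∈ R, 0 ≤ P p)
    (hg0 : ∀ I p, 0 ≤ g I p)
    (hyp : ∀ I ∈ R, ∀ W : Finset Nd, Full W I → W ⊆ R →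
      ∑ p ∈ lf W, len p * (g I p + P p) ≤ len I * (P I + δ / 4)) {I : Nd} (hI : I ∈ R) :
    len I + ∑ c ∈ Tp R g δ I, len c * (2 + 4 * P c / δ) ≤ len I * (2 + 4 * P I / δ) := by
  classical
  have hsub : Wd R g δ I ∪ Tp R g δ I ⊆ R := by
    refine Finset.union_subset Wd_sub fun c hc => (mem_Tp.1 hc).1
  have h1 := hyp I hI _ (W'_full (g := g) (δ := δ) hR hI) hsub
  have h2 : ∑ c ∈ Tp R g δ I, len c * (g I c + P c) ≤ len I * (P I + δ / 4) := by
    refine le_trans (Finset.sum_le_sum_of_subset_of_nonneg (Tp_sub_lf hR hI) ?_) h1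
    intro p hp _
    have hpR : p ∈ R := hsub (Finset.mem_of_mem_filter p hp)
    exact mul_nonneg (len_pos p).le (add_nonneg (hg0 I p) (hP p hpR))
  have h3 : δ / 2 * ∑ c ∈ Tp R g δ I, len c ≤ ∑ c ∈ Tp R g δ I, len c * g I c := by
    have e : ∑ c ∈ Tp R g δ I, len c * g I c
        = 1 / 2 * ∑ c ∈ Tp R g δ I, len c * (g I c + g I (sib c)) := by
      have e1 := sum_Tp_sib (g := g) (δ := δ) (I := I) hR (fun c => len c * g I c)
      simp only [len_sib] at e1
      simp only [mul_add, Finset.sum_add_distrib]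
      rw [e1]
      ring
    rw [e, Finset.mul_sum, Finset.mul_sum]
    refine Finset.sum_le_sum fun c hc => ?_
    have hb := Tp_bad hc
    have hsum : δ ≤ g I c + g I (sib c) := by
      rcases hb with hb | hb
      · linarith [hg0 I (sib c)]
      · linarith [hg0 I c]
    have := mul_le_mul_of_nonneg_left hsum (len_pos c).le
    linarith
  have h4 : ∑ c ∈ Tp R g δ I, len c * (g I c + P c)
      = ∑ c ∈ Tp R g δ I, len c * g I c + ∑ c ∈ Tp R g δ I, len c * P c := by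
    simp only [mul_add, Finset.sum_add_distrib]
  have h5 : ∑ c ∈ Tp R g δ I, len c * (2 + 4 * P c / δ)
      = (4 / δ) * (δ / 2 * ∑ c ∈ Tp R g δ I, len c + ∑ c ∈ Tp R g δ I, len c * P c) := by
    rw [mul_add, ← mul_assoc, Finset.mul_sum, Finset.mul_sum, ← Finset.sum_add_distrib]
    refine Finset.sum_congr rfl fun c _ => ?_
    field_simp
    ring
  have h6 : δ / 2 * ∑ c ∈ Tp R g δ I, len c + ∑ c ∈ Tp R g δ I, len c * P c
      ≤ len I * (P I + δ / 4) := by
    rw [h4] at h2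
    linarith
  have h7 : (4 / δ) * (δ / 2 * ∑ c ∈ Tp R g δ I, len c + ∑ c ∈ Tp R g δ I, len c * P c)
      ≤ (4 / δ) * (len I * (P I + δ / 4)) :=
    mul_le_mul_of_nonneg_left h6 (by positivity)
  rw [h5]
  have h8 : (4 / δ) * (len I * (P I + δ / 4)) = len I * (4 * P I / δ) + len I := by
    field_simp
  rw [h8] at h7
  linarith

/-- a node below `I` outside the window lies below one of the next tops -/
lemma below_top (hR : Full R J) {I : Nd} (hI : I ∈ R) : ∀ (n : ℕ) (p : Nd), I.1 = p.1 + n →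
    p ∈ R → iv p ⊆ iv I → p ∉ Wd R g δ I → ∃ c ∈ Tp R g δ I, iv p ⊆ iv c := by
  intro n
  induction n with
  | zero =>
    intro p hn hp hpI hpW
    exfalso
    obtain ⟨j, hj⟩ := iv_sub_iff.1 hpI
    have e : j = 0 := by
      have := congrArg Prod.fst hj
      simp only at this
      omega
    subst e
    apply hpW
    have : I = p := by rw [hj]; simp
    rw [← this]
    exact top_mem_Wd hI
  | succ n ih =>
    intro p hn hp hpI hpW
    have hne : p ≠ I := by
      rintro rfl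
      omega
    have h1 := par_sub hpI hne
    have hpar : par p ∈ R := hR.reg.2 p hp _ (iv_par p) (h1.trans (hR.reg.1 I hI))
    by_cases hw : par p ∈ Wd R g δ I
    · exact ⟨p, mem_Tp.2 ⟨hp, hpI, hpW, hw⟩, subset_rfl⟩
    · obtain ⟨c, hc, hc'⟩ := ih (par p) (by simp only [par]; omega) hpar h1 hw
      exact ⟨c, hc, (iv_par p).trans hc'⟩

lemma Tp_disj (hR : Full R J) {I : Nd} (hI : I ∈ R) {c c' : Nd} (hc : c ∈ Tp R g δ I)
    (hc' : c' ∈ Tp R g δ I) {p : Nd} (h : iv p ⊆ iv c) (h' : iv p ⊆ iv c') : c = c' := by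
  have key : ∀ {a b : Nd}, a ∈ Tp R g δ I → b ∈ Tp R g δ I → iv a ⊆ iv b → a = b := by
    intro a b ha hb hab
    by_contra hne
    exact (mem_Tp.1 hb).2.2.1
      (Wd_up hR hI (mem_Tp.1 ha).2.2.2 (par_sub hab hne) (mem_Tp.1 hb).2.1)
  rcases sub_total h h' with h1 | h1
  · exact key hc hc' h1
  · exact (key hc' hc h1).symm

lemma Tp_level {I c : Nd} (hI : I ∈ R) (hc : c ∈ Tp R g δ I) : c.1 < I.1 := by
  have h := mem_Tp.1 hc
  rcases (iv_level h.2.1).lt_or_eq with h1 | h1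
  · exact h1
  · exfalso
    obtain ⟨j, hj⟩ := iv_sub_iff.1 h.2.1
    have e : j = 0 := by
      have := congrArg Prod.fst hj
      simp only at this
      omega
    subst e
    apply h.2.2.1
    have : I = c := by rw [hj]; simp
    rw [← this]
    exact top_mem_Wd hI

/-- the set of all tops below `I` -/
lemma tops (hR : Full R J) {P : Nd → ℝ} (hδ : 0 < δ) (hP : ∀ p ∈ R, 0 ≤ P p)
    (hg0 : ∀ I p, 0 ≤ g I p)
    (hyp : ∀ I ∈ R, ∀ W : Finset Nd, Full W I → W ⊆ R →
      ∑ p ∈ lf W, len p * (g I p + P p) ≤ len I * (P I + δ / 4)) :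
    ∀ (n : ℕ) (I : Nd), I ∈ R → I.1 < n → ∃ S : Finset Nd, S ⊆ R ∧ (∀ K ∈ S, iv K ⊆ iv I) ∧
      (∀ K ∈ S, ∀ K' ∈ S, K ≠ K' → Disjoint (Wd R g δ K) (Wd R g δ K')) ∧
      (∀ p ∈ R, iv p ⊆ iv I → ∃ K ∈ S, p ∈ Wd R g δ K) ∧
      ∑ K ∈ S, len K ≤ len I * (2 + 4 * P I / δ) := by
  classical
  intro n
  induction n with
  | zero => intro I _ h; omega
  | succ n ih =>
    intro I hI hn
    have hex : ∀ c : Nd, ∃ S : Finset Nd, c ∈ Tp R g δ I → (S ⊆ R ∧ (∀ K ∈ S, iv K ⊆ iv c) ∧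
      (∀ K ∈ S, ∀ K' ∈ S, K ≠ K' → Disjoint (Wd R g δ K) (Wd R g δ K')) ∧
      (∀ p ∈ R, iv p ⊆ iv c → ∃ K ∈ S, p ∈ Wd R g δ K) ∧
      ∑ K ∈ S, len K ≤ len c * (2 + 4 * P c / δ)) := by
      intro c
      by_cases hc : c ∈ Tp R g δ I
      · have hl := Tp_level hI hc
        obtain ⟨S, hS⟩ := ih c (mem_Tp.1 hc).1 (by omega)
        exact ⟨S, fun _ => hS⟩
      · exact ⟨∅, fun h => absurd h hc⟩
    choose S hS using hex
    refine ⟨{I} ∪ (Tp R g δ I).biUnion S, ?_, ?_, ?_, ?_, ?_⟩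
    · refine Finset.union_subset (Finset.singleton_subset_iff.2 hI) ?_
      exact Finset.biUnion_subset.2 fun c hc => (hS c hc).1
    · intro K hK
      rcases Finset.mem_union.1 hK with h | h
      · rw [Finset.mem_singleton.1 h]
      · obtain ⟨c, hc, hKc⟩ := Finset.mem_biUnion.1 h
        exact ((hS c hc).2.1 K hKc).trans (mem_Tp.1 hc).2.1
    · -- disjointness
      have hA : ∀ K ∈ (Tp R g δ I).biUnion S, Disjoint (Wd R g δ I) (Wd R g δ K) := by
        intro K hK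
        obtain ⟨c, hc, hKc⟩ := Finset.mem_biUnion.1 hK
        rw [Finset.disjoint_left]
        intro p hpI hpK
        have h1 : iv p ⊆ iv c := (mem_Wd.1 hpK).2.1.trans ((hS c hc).2.1 K hKc)
        exact (mem_Tp.1 hc).2.2.1 (Wd_up hR hI hpI h1 (mem_Tp.1 hc).2.1)
      intro K hK K' hK' hne
      rcases Finset.mem_union.1 hK with h | h <;> rcases Finset.mem_union.1 hK' with h' | h'
      · rw [Finset.mem_singleton.1 h, Finset.mem_singleton.1 h'] at hne
        exact absurd rfl hne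
      · rw [Finset.mem_singleton.1 h]
        exact hA K' h'
      · rw [Finset.mem_singleton.1 h']
        exact (hA K h).symm
      · obtain ⟨c, hc, hKc⟩ := Finset.mem_biUnion.1 h
        obtain ⟨c', hc', hKc'⟩ := Finset.mem_biUnion.1 h'
        by_cases hcc : c = c'
        · subst hcc
          exact (hS c hc).2.2.1 K hKc K' hKc' hne
        · rw [Finset.disjoint_left]
          intro p hp hp'
          exact hcc (Tp_disj hR hI hc hc'
            ((mem_Wd.1 hp).2.1.trans ((hS c hc).2.1 K hKc))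
            ((mem_Wd.1 hp').2.1.trans ((hS c' hc').2.1 K' hKc')))
    · -- cover
      intro p hp hpI
      by_cases hw : p ∈ Wd R g δ I
      · exact ⟨I, Finset.mem_union_left _ (Finset.mem_singleton_self I), hw⟩
      · have hl := iv_level hpI
        obtain ⟨c, hc, hpc⟩ := below_top hR hI (I.1 - p.1) p (by omega) hp hpI hw
        obtain ⟨K, hK, hK'⟩ := (hS c hc).2.2.2.1 p hp hpc
        exact ⟨K, Finset.mem_union_right _ (Finset.mem_biUnion.2 ⟨c, hc, hK⟩), hK'⟩
    · -- lengths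
      have h1 : ∑ K ∈ {I} ∪ (Tp R g δ I).biUnion S, len K
          ≤ len I + ∑ K ∈ (Tp R g δ I).biUnion S, len K := by
        have := Finset.sum_union_inter (s₁ := ({I} : Finset Nd))
          (s₂ := (Tp R g δ I).biUnion S) (f := len)
        rw [Finset.sum_singleton] at this
        have h0 : 0 ≤ ∑ K ∈ {I} ∩ (Tp R g δ I).biUnion S, len K :=
          Finset.sum_nonneg fun K _ => (len_pos K).le
        linarith
      have h2 : ∑ K ∈ (Tp R g δ I).biUnion S, len K ≤ ∑ c ∈ Tp R g δ I, ∑ K ∈ S c, len K := by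
        have hd : Set.PairwiseDisjoint (Tp R g δ I : Set Nd) S := by
          intro c hc c' hc' hne
          rw [Function.onFun, Finset.disjoint_left]
          intro K hK hK'
          exact hne (Tp_disj hR hI (by exact_mod_cast hc) (by exact_mod_cast hc')
            ((hS c (by exact_mod_cast hc)).2.1 K hK)
            ((hS c' (by exact_mod_cast hc')).2.1 K hK'))
        rw [Finset.sum_biUnion hd]
      have h3 : ∑ c ∈ Tp R g δ I, ∑ K ∈ S c, len K
          ≤ ∑ c ∈ Tp R g δ I, len c * (2 + 4 * P c / δ) :=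
        Finset.sum_le_sum fun c hc => (hS c hc).2.2.2.2
      have h4 := step hR hδ hP hg0 hyp hI
      linarith

end main

/-- **(Qe)** -/
theorem qe : Qe := by
  intro R J hR g P δ P₀ hδ hP hPJ hg0 hgI hyp
  obtain ⟨S, hSR, hSJ, hSd, hSc, hSl⟩ := tops (g := g) (δ := δ) hR hδ hP hg0 hyp (J.1 + 1) J
    hR.top (Nat.lt_succ_self _)
  let e := S.equivFin.symm
  refine ⟨S.card, fun i => Wd R g δ (e i), fun i => e i, ?_, ?_, ?_, ?_, ?_⟩
  · exact fun i => ⟨Wd_full hR (hSR (e i).2), Wd_sub⟩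
  · intro i i' hne
    refine hSd _ (e i).2 _ (e i').2 fun h => hne ?_
    exact e.injective (Subtype.ext h)
  · intro p hp
    obtain ⟨K, hK, hpK⟩ := hSc p hp (hR.reg.1 p hp)
    refine ⟨S.equivFin ⟨K, hK⟩, ?_⟩
    simp only [e, Equiv.symm_apply_apply]
    exact hpK
  · exact fun i p hp => Wd_good hgI hp
  · have h1 : ∑ i, len (e i : Nd) = ∑ K ∈ S, len K := by
      rw [← Finset.sum_coe_sort S len]
      exact Equiv.sum_comp e (fun K : S => len (K : Nd))
    rw [h1]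
    refine hSl.trans ?_
    rw [mul_comm]
    refine mul_le_mul_of_nonneg_right ?_ (len_pos J).le
    have : 4 * P J / δ ≤ 4 * P₀ / δ := by gcongr
    linarith

end Crest.Agent.R079.Qe292
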