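import Crest.Agent.R079.RelEnt_406

/-! R079 matrix library, part 2 (helper406): integral representation of the relative entropy,
joint convexity, homogeneity, Klein inequality. -/

set_option autoImplicit false
set_option linter.unusedSectionVars false

open Matrix MeasureTheory Set Filter Topology
open scoped MatrixOrder ComplexOrder

namespace Crest.Agent.R079.RE406

variable {𝕜 : Type*} [RCLike 𝕜] {n m : Type*} [Fintype n] [DecidableEq n]
  [Fintype m] [DecidableEq m]

/-- scalar kernel -/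
lemma scal_deriv {a b : ℝ} (ha : 0 < a) (hb : 0 < b) {t : ℝ} (ht : 0 ≤ t) :
    HasDerivAt (fun t : ℝ => a * (Real.log (b + t * a) - Real.log (1 + t)))
      (a ^ 2 / (b + t * a) - a / (1 + t)) t := by
  have h1 : HasDerivAt (fun t : ℝ => b + t * a) a t := by
    simpa using ((hasDerivAt_id t).mul_const a).const_add b
  have h2 : HasDerivAt (fun t : ℝ => 1 + t) 1 t := (hasDerivAt_id t).const_add 1
  have h3 := (h1.log (by positivity)).sub (h2.log (by positivity))
  have h4 := h3.const_mul a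
  refine h4.congr_deriv ?_
  field_simp

lemma scal_tendsto {a b : ℝ} (ha : 0 < a) (hb : 0 < b) :
    Tendsto (fun t : ℝ => a * (Real.log (b + t * a) - Real.log (1 + t))) atTop
      (𝓝 (a * Real.log a)) := by
  have h1 : Tendsto (fun t : ℝ => (b + t * a) / (1 + t)) atTop (𝓝 a) := by
    have h2 : (fun t : ℝ => (b + t * a) / (1 + t)) =ᶠ[atTop]
        fun t => a + (b - a) / (1 + t) := by
      filter_upwards [eventually_gt_atTop 0] with t ht
      have : (1 + t) ≠ 0 := by positivity
      field_simp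
      ring
    rw [tendsto_congr' h2]
    have h3 : Tendsto (fun t : ℝ => (b - a) / (1 + t)) atTop (𝓝 0) :=
      Tendsto.div_atTop tendsto_const_nhds (tendsto_atTop_add_const_left _ _ tendsto_id)
    simpa using tendsto_const_nhds.add h3
  have h4 : Tendsto (fun t : ℝ => Real.log ((b + t * a) / (1 + t))) atTop (𝓝 (Real.log a)) :=
    (Real.continuousAt_log ha.ne').tendsto.comp h1
  have h5 : (fun t : ℝ => a * (Real.log (b + t * a) - Real.log (1 + t))) =ᶠ[atTop]
      fun t => a * Real.log ((b + t * a) / (1 + t)) := by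
    filter_upwards [eventually_gt_atTop 0] with t ht
    rw [Real.log_div (by positivity) (by positivity)]
  rw [tendsto_congr' h5]
  exact h4.const_mul a

lemma scal_int {a b : ℝ} (ha : 0 ≤ a) (hb : 0 < b) :
    IntegrableOn (fun t : ℝ => a ^ 2 / (b + t * a) - a / (1 + t)) (Ioi 0) ∧
    ∫ t in Ioi (0 : ℝ), (a ^ 2 / (b + t * a) - a / (1 + t)) = a * (Real.log a - Real.log b) := by
  rcases ha.eq_or_lt with rfl | ha
  · simp
  · have hval : (a * Real.log a) -
        (fun t : ℝ => a * (Real.log (b + t * a) - Real.log (1 + t))) 0 =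
        a * (Real.log a - Real.log b) := by simp; ring
    have hform : ∀ t ∈ Ioi (0 : ℝ), a ^ 2 / (b + t * a) - a / (1 + t) =
        a * (a - b) / ((b + t * a) * (1 + t)) := by
      intro t ht
      have ht : (0 : ℝ) < t := ht
      have h1 : b + t * a ≠ 0 := by positivity
      have h2 : 1 + t ≠ 0 := by positivity
      field_simp
      ring
    rcases le_total b a with hba | hba
    · have hpos : ∀ t ∈ Ioi (0 : ℝ), 0 ≤ a ^ 2 / (b + t * a) - a / (1 + t) := by
        intro t ht
        rw [hform t ht]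
        have ht : (0 : ℝ) < t := ht
        have : 0 ≤ a - b := by linarith
        positivity
      refine ⟨integrableOn_Ioi_deriv_of_nonneg' (fun t ht => scal_deriv ha hb ht) hpos
        (scal_tendsto ha hb), ?_⟩
      rw [integral_Ioi_of_hasDerivAt_of_nonneg' (fun t ht => scal_deriv ha hb ht) hpos
        (scal_tendsto ha hb), hval]
    · have hneg : ∀ t ∈ Ioi (0 : ℝ), a ^ 2 / (b + t * a) - a / (1 + t) ≤ 0 := by
        intro t ht
        rw [hform t ht]
        have ht : (0 : ℝ) < t := ht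
        have h1 : a * (a - b) ≤ 0 := mul_nonpos_of_nonneg_of_nonpos ha.le (by linarith)
        exact div_nonpos_of_nonpos_of_nonneg h1 (by positivity)
      refine ⟨integrableOn_Ioi_deriv_of_nonpos' (fun t ht => scal_deriv ha hb ht) hneg
        (scal_tendsto ha hb), ?_⟩
      rw [integral_Ioi_of_hasDerivAt_of_nonpos' (fun t ht => scal_deriv ha hb ht) hneg
        (scal_tendsto ha hb), hval]

lemma tr_eq_sum {A B : Matrix n n 𝕜} (hA : A.IsHermitian) (hB : B.IsHermitian) :
    tr A = ∑ i, ∑ j, ‖OW hA hB i j‖ ^ 2 * hA.eigenvalues i := by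
  conv_lhs => rw [← cfc_id_eq hA]
  rw [tr_cfc hA]
  refine Finset.sum_congr rfl fun i _ => ?_
  rw [← Finset.sum_mul, OW_row, one_mul]

/-- spectral form of the relative entropy -/
lemma D_eq {A B : Matrix n n 𝕜} (hA : A.IsHermitian) (hB : B.IsHermitian) :
    D A B = ∑ i, ∑ j, ‖OW hA hB i j‖ ^ 2 *
      (hA.eigenvalues i * (Real.log (hA.eigenvalues i) - Real.log (hB.eigenvalues j))) := by
  have h1 : tr (cfc (fun x : ℝ => x * Real.log x) A) = ∑ i, ∑ j, ‖OW hA hB i j‖ ^ 2 *
      (hA.eigenvalues i * Real.log (hA.eigenvalues i)) := by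
    rw [tr_cfc hA]
    refine Finset.sum_congr rfl fun i _ => ?_
    rw [← Finset.sum_mul, OW_row, one_mul]
  have h2 : tr (A * cfc Real.log B) = ∑ i, ∑ j, ‖OW hA hB i j‖ ^ 2 *
      (hA.eigenvalues i * Real.log (hB.eigenvalues j)) := by
    conv_lhs => rw [← cfc_id_eq hA]
    exact tr_cfc_mul_cfc hA hB _ _
  rw [D, h1, h2, ← Finset.sum_sub_distrib]
  refine Finset.sum_congr rfl fun i _ => ?_
  rw [← Finset.sum_sub_distrib]
  refine Finset.sum_congr rfl fun j _ => ?_
  ring

lemma Q_sub_eq (t : ℝ) {A B : Matrix n n 𝕜} (hA : A.IsHermitian) (hB : B.IsHermitian) :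
    Q t hA hB - tr A / (1 + t) = ∑ i, ∑ j, ‖OW hA hB i j‖ ^ 2 *
      ((hA.eigenvalues i) ^ 2 / (hB.eigenvalues j + t * hA.eigenvalues i) -
        hA.eigenvalues i / (1 + t)) := by
  rw [Q, tr_eq_sum hA hB, Finset.sum_div, ← Finset.sum_sub_distrib]
  refine Finset.sum_congr rfl fun i _ => ?_
  rw [Finset.sum_div, ← Finset.sum_sub_distrib]
  refine Finset.sum_congr rfl fun j _ => ?_
  ring

theorem D_integrable {A B : Matrix n n 𝕜} (hA : A.PosSemidef) (hB : B.PosDef) :
    IntegrableOn (fun t : ℝ => Q t hA.1 hB.1 - tr A / (1 + t)) (Ioi 0) := by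
  simp only [Q_sub_eq]
  refine integrable_finsetSum _ fun i _ => integrable_finsetSum _ fun j _ => ?_
  exact ((scal_int (hA.eigenvalues_nonneg i) (hB.eigenvalues_pos j)).1).const_mul _

theorem D_integral {A B : Matrix n n 𝕜} (hA : A.PosSemidef) (hB : B.PosDef) :
    D A B = ∫ t in Ioi (0 : ℝ), (Q t hA.1 hB.1 - tr A / (1 + t)) := by
  simp only [Q_sub_eq]
  rw [integral_finsetSum]
  · rw [D_eq hA.1 hB.1]
    refine Finset.sum_congr rfl fun i _ => ?_
    rw [integral_finsetSum]
    · refine Finset.sum_congr rfl fun j _ => ?_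
      rw [integral_const_mul, (scal_int (hA.eigenvalues_nonneg i) (hB.eigenvalues_pos j)).2]
    · intro j _
      exact ((scal_int (hA.eigenvalues_nonneg i) (hB.eigenvalues_pos j)).1).const_mul _
  · intro i _
    refine integrable_finsetSum _ fun j _ => ?_
    exact ((scal_int (hA.eigenvalues_nonneg i) (hB.eigenvalues_pos j)).1).const_mul _

/-- **Subadditivity** of the relative entropy; with `D_smul` this is joint convexity. -/
theorem D_add_le {A B A' B' : Matrix n n 𝕜} (hA : A.PosSemidef) (hB : B.PosDef)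
    (hA' : A'.PosSemidef) (hB' : B'.PosDef) : D (A + A') (B + B') ≤ D A B + D A' B' := by
  rw [D_integral (hA.add hA') (hB.add hB'), D_integral hA hB, D_integral hA' hB',
    ← integral_add (D_integrable hA hB) (D_integrable hA' hB')]
  refine setIntegral_mono_on (D_integrable (hA.add hA') (hB.add hB'))
    ((D_integrable hA hB).add (D_integrable hA' hB')) measurableSet_Ioi fun t ht => ?_
  have ht : (0 : ℝ) < t := ht
  have h := Q_add_le ht.le hA hB hA' hB'
  rw [tr_add, add_div]
  linarith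

theorem D_sum_le {ι : Type*} {s : Finset ι} (hs : s.Nonempty) {A B : ι → Matrix n n 𝕜}
    (hA : ∀ i ∈ s, (A i).PosSemidef) (hB : ∀ i ∈ s, (B i).PosDef) :
    D (∑ i ∈ s, A i) (∑ i ∈ s, B i) ≤ ∑ i ∈ s, D (A i) (B i) ∧
      (∑ i ∈ s, A i).PosSemidef ∧ (∑ i ∈ s, B i).PosDef := by
  classical
  induction hs using Finset.Nonempty.cons_induction with
  | singleton a =>
    simp only [Finset.sum_singleton, le_refl, true_and]
    exact ⟨hA a (by simp), hB a (by simp)⟩
  | cons a s ha hs ih =>
    have h1 := ih (fun i hi => hA i (Finset.mem_cons_of_mem hi))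
      (fun i hi => hB i (Finset.mem_cons_of_mem hi))
    have hAa := hA a (Finset.mem_cons_self a s)
    have hBa := hB a (Finset.mem_cons_self a s)
    simp only [Finset.sum_cons]
    refine ⟨?_, hAa.add h1.2.1, hBa.add h1.2.2⟩
    exact (D_add_le hAa hBa h1.2.1 h1.2.2).trans (by linarith [h1.1])

lemma cont (A : Matrix n n 𝕜) (f : ℝ → ℝ) : ContinuousOn f (spectrum ℝ A) :=
  A.finite_real_spectrum.continuousOn f

theorem D_smul {c : ℝ} (hc : 0 < c) {A B : Matrix n n 𝕜} (hA : A.PosSemidef) (hB : B.PosDef) :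
    D (c • A) (c • B) = c * D A B := by
  have hAs := hA.1.isSelfAdjoint
  have hBs := hB.1.isSelfAdjoint
  have h1 : cfc (fun x : ℝ => x * Real.log x) (c • A) =
      cfc (fun x : ℝ => (c * x) * Real.log (c * x)) A := by
    rw [← cfc_comp_smul c (fun x : ℝ => x * Real.log x) A
      ((A.finite_real_spectrum.image _).continuousOn _) hAs]
    simp [smul_eq_mul]
  have h2 : cfc Real.log (c • B) = cfc (fun x : ℝ => Real.log (c * x)) B := by
    rw [← cfc_comp_smul c Real.log B ((B.finite_real_spectrum.image _).continuousOn _) hBs]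
    simp [smul_eq_mul]
  have h3 : tr (c • A * cfc (fun x : ℝ => Real.log (c * x)) B) =
      c * tr (A * cfc (fun x : ℝ => Real.log (c * x)) B) := by
    rw [Matrix.smul_mul, tr_smul]
  have h4 : tr (A * cfc (fun x : ℝ => Real.log (c * x)) B) = ∑ i, ∑ j, ‖OW hA.1 hB.1 i j‖ ^ 2 *
      (hA.1.eigenvalues i * Real.log (c * hB.1.eigenvalues j)) := by
    conv_lhs => rw [← cfc_id_eq hA.1]
    exact tr_cfc_mul_cfc hA.1 hB.1 _ _
  have h5 : tr (cfc (fun x : ℝ => (c * x) * Real.log (c * x)) A) = ∑ i, ∑ j,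
      ‖OW hA.1 hB.1 i j‖ ^ 2 * ((c * hA.1.eigenvalues i) * Real.log (c * hA.1.eigenvalues i)) := by
    rw [tr_cfc hA.1]
    refine Finset.sum_congr rfl fun i _ => ?_
    rw [← Finset.sum_mul, OW_row, one_mul]
  rw [D, h1, h2, h3, h4, h5, D_eq hA.1 hB.1, Finset.mul_sum, Finset.mul_sum,
    ← Finset.sum_sub_distrib]
  refine Finset.sum_congr rfl fun i _ => ?_
  rw [Finset.mul_sum, Finset.mul_sum, ← Finset.sum_sub_distrib]
  refine Finset.sum_congr rfl fun j _ => ?_
  rw [Real.log_mul hc.ne' (hB.eigenvalues_pos j).ne']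
  rcases (hA.eigenvalues_nonneg i).eq_or_lt with h0 | h0
  · rw [← h0]; simp
  · rw [Real.log_mul hc.ne' h0.ne']
    ring

/-- weighted joint convexity -/
theorem D_convex {ι : Type*} {s : Finset ι} (hs : s.Nonempty) {w : ι → ℝ}
    (hw : ∀ i ∈ s, 0 < w i) {A B : ι → Matrix n n 𝕜}
    (hA : ∀ i ∈ s, (A i).PosSemidef) (hB : ∀ i ∈ s, (B i).PosDef) :
    D (∑ i ∈ s, w i • A i) (∑ i ∈ s, w i • B i) ≤ ∑ i ∈ s, w i * D (A i) (B i) := by
  have h1 := (D_sum_le hs (A := fun i => w i • A i) (B := fun i => w i • B i)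
    (fun i hi => (hA i hi).smul (hw i hi).le) (fun i hi => (hB i hi).smul (hw i hi))).1
  refine h1.trans (le_of_eq (Finset.sum_congr rfl fun i hi => ?_))
  exact D_smul (hw i hi) (hA i hi) (hB i hi)

/-- Klein inequality -/
theorem D_ge {A B : Matrix n n 𝕜} (hA : A.PosSemidef) (hB : B.PosDef) :
    tr A - tr B ≤ D A B := by
  have hB' : tr B = ∑ i, ∑ j, ‖OW hA.1 hB.1 i j‖ ^ 2 * hB.1.eigenvalues j := by
    conv_lhs => rw [← cfc_id_eq hB.1]
    rw [tr_cfc hB.1, Finset.sum_comm]
    refine Finset.sum_congr rfl fun j _ => ?_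
    rw [← Finset.sum_mul, OW_col, one_mul]
  rw [tr_eq_sum hA.1 hB.1, hB', D_eq hA.1 hB.1, ← Finset.sum_sub_distrib]
  refine Finset.sum_le_sum fun i _ => ?_
  rw [← Finset.sum_sub_distrib]
  refine Finset.sum_le_sum fun j _ => ?_
  rw [← mul_sub]
  refine mul_le_mul_of_nonneg_left ?_ (by positivity)
  have hb := hB.eigenvalues_pos j
  rcases (hA.eigenvalues_nonneg i).eq_or_lt with h0 | h0
  · rw [← h0]; simp; exact hb.le
  · have h := Real.add_one_le_exp (Real.log (hB.1.eigenvalues j) - Real.log (hA.1.eigenvalues i))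
    rw [Real.exp_sub, Real.exp_log hb, Real.exp_log h0, le_div_iff₀ h0] at h
    nlinarith

end Crest.Agent.R079.RE406
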