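import Mathlib

/-! R079 matrix library, part 1 (helper406): quantum relative entropy on finite matrices,
joint convexity (Lindblad) through `∫ (Q t A B - tr A/(1+t)) dt`. -/

set_option autoImplicit false
set_option linter.unusedSectionVars false

open Matrix MeasureTheory Set
open scoped MatrixOrder ComplexOrder

namespace Crest.Agent.R079.RE406

variable {𝕜 : Type*} [RCLike 𝕜] {n m : Type*} [Fintype n] [DecidableEq n]
  [Fintype m] [DecidableEq m]

/-- real trace -/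
noncomputable def tr (A : Matrix n n 𝕜) : ℝ := RCLike.re A.trace

@[simp] lemma tr_add (A B : Matrix n n 𝕜) : tr (A + B) = tr A + tr B := by simp [tr]
@[simp] lemma tr_sub (A B : Matrix n n 𝕜) : tr (A - B) = tr A - tr B := by simp [tr]
@[simp] lemma tr_zero : tr (0 : Matrix n n 𝕜) = 0 := by simp [tr]
lemma tr_smul (c : ℝ) (A : Matrix n n 𝕜) : tr (c • A) = c * tr A := by
  simp [tr, Matrix.trace_smul, RCLike.smul_re]
lemma tr_comm (A : Matrix n m 𝕜) (B : Matrix m n 𝕜) : tr (A * B) = tr (B * A) := by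
  simp [tr, Matrix.trace_mul_comm A B]

/-- eigenvector matrix -/
noncomputable def EU {A : Matrix n n 𝕜} (hA : A.IsHermitian) : Matrix n n 𝕜 :=
  (hA.eigenvectorUnitary : Matrix n n 𝕜)

lemma EU_star_mul {A : Matrix n n 𝕜} (hA : A.IsHermitian) : (EU hA)ᴴ * EU hA = 1 := by
  exact Unitary.coe_star_mul_self hA.eigenvectorUnitary

lemma EU_mul_star {A : Matrix n n 𝕜} (hA : A.IsHermitian) : EU hA * (EU hA)ᴴ = 1 := by
  exact Unitary.coe_mul_star_self hA.eigenvectorUnitary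

lemma cfc_eq {A : Matrix n n 𝕜} (hA : A.IsHermitian) (f : ℝ → ℝ) :
    cfc f A = EU hA * diagonal (fun i => ((f (hA.eigenvalues i) : ℝ) : 𝕜)) * (EU hA)ᴴ := by
  rw [hA.cfc_eq f, Matrix.IsHermitian.cfc, Unitary.conjStarAlgAut_apply]
  rfl

lemma self_eq {A : Matrix n n 𝕜} (hA : A.IsHermitian) :
    A = EU hA * diagonal (fun i => ((hA.eigenvalues i : ℝ) : 𝕜)) * (EU hA)ᴴ := by
  conv_lhs => rw [hA.spectral_theorem, Unitary.conjStarAlgAut_apply]
  rfl

/-- overlap matrix -/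
noncomputable def OW {A B : Matrix n n 𝕜} (hA : A.IsHermitian) (hB : B.IsHermitian) :
    Matrix n n 𝕜 := (EU hA)ᴴ * EU hB

lemma OW_mul_star {A B : Matrix n n 𝕜} (hA : A.IsHermitian) (hB : B.IsHermitian) :
    OW hA hB * (OW hA hB)ᴴ = 1 := by
  rw [OW, conjTranspose_mul, conjTranspose_conjTranspose, ← Matrix.mul_assoc,
    Matrix.mul_assoc (EU hA)ᴴ, EU_mul_star, Matrix.mul_one, EU_star_mul]

lemma OW_star_mul {A B : Matrix n n 𝕜} (hA : A.IsHermitian) (hB : B.IsHermitian) :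
    (OW hA hB)ᴴ * OW hA hB = 1 := by
  rw [OW, conjTranspose_mul, conjTranspose_conjTranspose, ← Matrix.mul_assoc,
    Matrix.mul_assoc (EU hB)ᴴ, EU_mul_star, Matrix.mul_one, EU_star_mul]

lemma OW_row {A B : Matrix n n 𝕜} (hA : A.IsHermitian) (hB : B.IsHermitian) (i : n) :
    ∑ j, ‖OW hA hB i j‖ ^ 2 = 1 := by
  have h := congrFun (congrFun (OW_mul_star hA hB) i) i
  rw [Matrix.mul_apply, one_apply_eq] at h
  have h2 : ∑ j, ((‖OW hA hB i j‖ ^ 2 : ℝ) : 𝕜) = 1 := by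
    rw [← h]
    refine Finset.sum_congr rfl fun j _ => ?_
    rw [conjTranspose_apply, RCLike.star_def, RCLike.mul_conj]
    push_cast; rfl
  have h3 : ((∑ j, ‖OW hA hB i j‖ ^ 2 : ℝ) : 𝕜) = ((1 : ℝ) : 𝕜) := by
    rw [RCLike.ofReal_sum, h2, RCLike.ofReal_one]
  exact_mod_cast h3

lemma OW_col {A B : Matrix n n 𝕜} (hA : A.IsHermitian) (hB : B.IsHermitian) (j : n) :
    ∑ i, ‖OW hA hB i j‖ ^ 2 = 1 := by
  have h := congrFun (congrFun (OW_star_mul hA hB) j) j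
  rw [Matrix.mul_apply, one_apply_eq] at h
  have h2 : ∑ i, ((‖OW hA hB i j‖ ^ 2 : ℝ) : 𝕜) = 1 := by
    rw [← h]
    refine Finset.sum_congr rfl fun i _ => ?_
    rw [conjTranspose_apply, RCLike.star_def, RCLike.conj_mul]
    push_cast; rfl
  have h3 : ((∑ i, ‖OW hA hB i j‖ ^ 2 : ℝ) : 𝕜) = ((1 : ℝ) : 𝕜) := by
    rw [RCLike.ofReal_sum, h2, RCLike.ofReal_one]
  exact_mod_cast h3

/-- `tr (U F Uᴴ V G Vᴴ)` in overlap form -/
lemma tr_diag_pair {A B : Matrix n n 𝕜} (hA : A.IsHermitian) (hB : B.IsHermitian) (f g : n → ℝ) :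
    tr ((EU hA * diagonal (fun i => ((f i : ℝ) : 𝕜)) * (EU hA)ᴴ) *
        (EU hB * diagonal (fun i => ((g i : ℝ) : 𝕜)) * (EU hB)ᴴ)) =
      ∑ i, ∑ j, ‖OW hA hB i j‖ ^ 2 * (f i * g j) := by
  have h1 : ((EU hA * diagonal (fun i => ((f i : ℝ) : 𝕜)) * (EU hA)ᴴ) *
        (EU hB * diagonal (fun i => ((g i : ℝ) : 𝕜)) * (EU hB)ᴴ)).trace =
      (diagonal (fun i => ((f i : ℝ) : 𝕜)) * OW hA hB *
        (diagonal (fun i => ((g i : ℝ) : 𝕜)) * (OW hA hB)ᴴ)).trace := by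
    rw [OW, conjTranspose_mul, conjTranspose_conjTranspose]
    rw [Matrix.mul_assoc (EU hA), Matrix.mul_assoc (EU hA), Matrix.trace_mul_comm]
    congr 1
    simp only [Matrix.mul_assoc]
  rw [tr, h1, Matrix.trace]
  simp only [diag_apply, Matrix.mul_apply (M := diagonal (fun i => ((f i : ℝ) : 𝕜)) * OW hA hB),
    Matrix.diagonal_mul, conjTranspose_apply]
  rw [map_sum]
  refine Finset.sum_congr rfl fun i _ => ?_
  rw [map_sum]
  refine Finset.sum_congr rfl fun j _ => ?_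
  have : ((f i : ℝ) : 𝕜) * OW hA hB i j * (((g j : ℝ) : 𝕜) * star (OW hA hB i j)) =
      ((‖OW hA hB i j‖ ^ 2 * (f i * g j) : ℝ) : 𝕜) := by
    rw [RCLike.star_def]
    calc _ = ((f i : ℝ) : 𝕜) * ((g j : ℝ) : 𝕜) * (OW hA hB i j * (starRingEnd 𝕜) (OW hA hB i j)) := by ring
      _ = _ := by rw [RCLike.mul_conj]; push_cast; ring
  rw [this, RCLike.ofReal_re]

lemma tr_cfc_mul_cfc {A B : Matrix n n 𝕜} (hA : A.IsHermitian) (hB : B.IsHermitian)
    (f g : ℝ → ℝ) :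
    tr (cfc f A * cfc g B) =
      ∑ i, ∑ j, ‖OW hA hB i j‖ ^ 2 * (f (hA.eigenvalues i) * g (hB.eigenvalues j)) := by
  rw [cfc_eq hA, cfc_eq hB]
  exact tr_diag_pair hA hB _ _

lemma tr_cfc {A : Matrix n n 𝕜} (hA : A.IsHermitian) (f : ℝ → ℝ) :
    tr (cfc f A) = ∑ i, f (hA.eigenvalues i) := by
  rw [cfc_eq hA, tr, Matrix.mul_assoc, Matrix.trace_mul_comm, Matrix.mul_assoc, EU_star_mul,
    Matrix.mul_one, Matrix.trace_diagonal, map_sum]
  simp

lemma cfc_id_eq {A : Matrix n n 𝕜} (hA : A.IsHermitian) : cfc (fun x : ℝ => x) A = A :=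
  cfc_id' ℝ A hA.isSelfAdjoint

/-- quantum relative entropy `tr A log A - tr A log B` -/
noncomputable def D (A B : Matrix n n 𝕜) : ℝ :=
  tr (cfc (fun x : ℝ => x * Real.log x) A) - tr (A * cfc Real.log B)

/-- the matrix fractional function `⟨A, (R_B + t L_A)⁻¹ A⟩` -/
noncomputable def Q (t : ℝ) {A B : Matrix n n 𝕜} (hA : A.IsHermitian) (hB : B.IsHermitian) : ℝ :=
  ∑ i, ∑ j, ‖OW hA hB i j‖ ^ 2 *
    ((hA.eigenvalues i) ^ 2 / (hB.eigenvalues j + t * hA.eigenvalues i))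

/-- the linear functional of the variational formula -/
noncomputable def lin (t : ℝ) (Z A B : Matrix n n 𝕜) : ℝ :=
  2 * tr (A * Z) - tr (Z * B * Zᴴ) - t * tr (Zᴴ * A * Z)

lemma lin_add (t : ℝ) (Z A B A' B' : Matrix n n 𝕜) :
    lin t Z (A + A') (B + B') = lin t Z A B + lin t Z A' B' := by
  simp only [lin, Matrix.add_mul, Matrix.mul_add, tr_add]
  ring

/-- `Z` in the two eigenbases -/
noncomputable def zz {A B : Matrix n n 𝕜} (hA : A.IsHermitian) (hB : B.IsHermitian)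
    (Z : Matrix n n 𝕜) : Matrix n n 𝕜 := (EU hA)ᴴ * Z * EU hB

lemma Z_eq {A B : Matrix n n 𝕜} (hA : A.IsHermitian) (hB : B.IsHermitian) (Z : Matrix n n 𝕜) :
    Z = EU hA * zz hA hB Z * (EU hB)ᴴ := by
  rw [zz]
  calc Z = 1 * Z * 1 := by simp
    _ = (EU hA * (EU hA)ᴴ) * Z * (EU hB * (EU hB)ᴴ) := by rw [EU_mul_star, EU_mul_star]
    _ = _ := by simp only [Matrix.mul_assoc]

lemma lin_eq (t : ℝ) {A B : Matrix n n 𝕜} (hA : A.IsHermitian) (hB : B.IsHermitian)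
    (Z : Matrix n n 𝕜) :
    lin t Z A B = ∑ i, ∑ j, (2 * (hA.eigenvalues i *
        RCLike.re (zz hA hB Z i j * star (OW hA hB i j))) -
      (hB.eigenvalues j + t * hA.eigenvalues i) * ‖zz hA hB Z i j‖ ^ 2) := by
  have e1 : tr (A * Z) = ∑ i, ∑ j, hA.eigenvalues i *
      RCLike.re (zz hA hB Z i j * star (OW hA hB i j)) := by
    have h1 : (A * Z).trace = (diagonal (fun i => ((hA.eigenvalues i : ℝ) : 𝕜)) *
        (zz hA hB Z * (OW hA hB)ᴴ)).trace := by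
      conv_lhs => rw [self_eq hA]
      rw [Matrix.mul_assoc, Matrix.mul_assoc, Matrix.trace_mul_comm, zz, OW, conjTranspose_mul,
        conjTranspose_conjTranspose]
      have : (EU hA)ᴴ * Z * EU hB * ((EU hB)ᴴ * EU hA) = (EU hA)ᴴ * Z * EU hA := by
        calc _ = (EU hA)ᴴ * Z * (EU hB * (EU hB)ᴴ) * EU hA := by simp only [Matrix.mul_assoc]
          _ = _ := by rw [EU_mul_star, Matrix.mul_one]
      rw [this]
      simp only [Matrix.mul_assoc]
    rw [tr, h1, Matrix.trace]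
    simp only [diag_apply, Matrix.diagonal_mul, Matrix.mul_apply (M := zz hA hB Z),
      conjTranspose_apply, Finset.mul_sum, map_sum]
    refine Finset.sum_congr rfl fun i _ => Finset.sum_congr rfl fun j _ => ?_
    rw [RCLike.re_ofReal_mul]
  have e2 : tr (Z * B * Zᴴ) = ∑ i, ∑ j, hB.eigenvalues j * ‖zz hA hB Z i j‖ ^ 2 := by
    have h1 : (Z * B * Zᴴ).trace = (zz hA hB Z *
        (diagonal (fun i => ((hB.eigenvalues i : ℝ) : 𝕜)) * (zz hA hB Z)ᴴ)).trace := by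
      rw [zz, conjTranspose_mul, conjTranspose_mul, conjTranspose_conjTranspose]
      have : Z * B * Zᴴ = Z * (EU hB * diagonal (fun i => ((hB.eigenvalues i : ℝ) : 𝕜)) *
          (EU hB)ᴴ) * Zᴴ := by rw [← self_eq hB]
      rw [this]
      have : (EU hA)ᴴ * Z * EU hB * (diagonal (fun i => ((hB.eigenvalues i : ℝ) : 𝕜)) *
          ((EU hB)ᴴ * (Zᴴ * EU hA))) = (EU hA)ᴴ * (Z * EU hB *
          diagonal (fun i => ((hB.eigenvalues i : ℝ) : 𝕜)) * (EU hB)ᴴ * Zᴴ * EU hA) := by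
        simp only [Matrix.mul_assoc]
      rw [this, Matrix.trace_mul_comm (EU hA)ᴴ, Matrix.mul_assoc _ (EU hA), EU_mul_star,
        Matrix.mul_one]
      simp only [Matrix.mul_assoc]
    rw [tr, h1, Matrix.trace]
    simp only [diag_apply, Matrix.mul_apply (M := zz hA hB Z), Matrix.diagonal_mul,
      conjTranspose_apply, map_sum]
    refine Finset.sum_congr rfl fun i _ => Finset.sum_congr rfl fun j _ => ?_
    have : zz hA hB Z i j * (((hB.eigenvalues j : ℝ) : 𝕜) * star (zz hA hB Z i j)) =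
        ((hB.eigenvalues j * ‖zz hA hB Z i j‖ ^ 2 : ℝ) : 𝕜) := by
      rw [RCLike.star_def]
      calc _ = ((hB.eigenvalues j : ℝ) : 𝕜) * (zz hA hB Z i j * (starRingEnd 𝕜) (zz hA hB Z i j)) := by ring
        _ = _ := by rw [RCLike.mul_conj]; push_cast; ring
    rw [this, RCLike.ofReal_re]
  have e3 : tr (Zᴴ * A * Z) = ∑ i, ∑ j, hA.eigenvalues i * ‖zz hA hB Z i j‖ ^ 2 := by
    have h1 : (Zᴴ * A * Z).trace = ((zz hA hB Z)ᴴ *
        (diagonal (fun i => ((hA.eigenvalues i : ℝ) : 𝕜)) * zz hA hB Z)).trace := by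
      rw [zz, conjTranspose_mul, conjTranspose_mul, conjTranspose_conjTranspose]
      have : Zᴴ * A * Z = Zᴴ * (EU hA * diagonal (fun i => ((hA.eigenvalues i : ℝ) : 𝕜)) *
          (EU hA)ᴴ) * Z := by rw [← self_eq hA]
      rw [this]
      have : (EU hB)ᴴ * (Zᴴ * EU hA) * (diagonal (fun i => ((hA.eigenvalues i : ℝ) : 𝕜)) *
          ((EU hA)ᴴ * Z * EU hB)) = (EU hB)ᴴ * (Zᴴ * EU hA *
          diagonal (fun i => ((hA.eigenvalues i : ℝ) : 𝕜)) * (EU hA)ᴴ * Z * EU hB) := by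
        simp only [Matrix.mul_assoc]
      rw [this, Matrix.trace_mul_comm (EU hB)ᴴ, Matrix.mul_assoc _ (EU hB), EU_mul_star,
        Matrix.mul_one]
      simp only [Matrix.mul_assoc]
    rw [tr, h1, Matrix.trace]
    simp only [diag_apply, Matrix.mul_apply (M := (zz hA hB Z)ᴴ), Matrix.diagonal_mul,
      conjTranspose_apply, map_sum]
    rw [Finset.sum_comm]
    refine Finset.sum_congr rfl fun i _ => Finset.sum_congr rfl fun j _ => ?_
    have : star (zz hA hB Z i j) * (((hA.eigenvalues i : ℝ) : 𝕜) * zz hA hB Z i j) =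
        ((hA.eigenvalues i * ‖zz hA hB Z i j‖ ^ 2 : ℝ) : 𝕜) := by
      rw [RCLike.star_def]
      calc _ = ((hA.eigenvalues i : ℝ) : 𝕜) * (zz hA hB Z i j * (starRingEnd 𝕜) (zz hA hB Z i j)) := by ring
        _ = _ := by rw [RCLike.mul_conj]; push_cast; ring
    rw [this, RCLike.ofReal_re]
  rw [lin, e1, e2, e3, Finset.mul_sum, Finset.mul_sum, ← Finset.sum_sub_distrib,
    ← Finset.sum_sub_distrib]
  refine Finset.sum_congr rfl fun i _ => ?_
  rw [Finset.mul_sum, Finset.mul_sum, ← Finset.sum_sub_distrib, ← Finset.sum_sub_distrib]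
  refine Finset.sum_congr rfl fun j _ => ?_
  ring

theorem lin_le {t : ℝ} (ht : 0 ≤ t) {A B : Matrix n n 𝕜} (hA : A.PosSemidef) (hB : B.PosDef)
    (Z : Matrix n n 𝕜) : lin t Z A B ≤ Q t hA.1 hB.1 := by
  rw [lin_eq t hA.1 hB.1, Q]
  refine Finset.sum_le_sum fun i _ => Finset.sum_le_sum fun j _ => ?_
  have ha := hA.eigenvalues_nonneg i
  have hb := hB.eigenvalues_pos j
  set a := hA.1.eigenvalues i
  set b := hB.1.eigenvalues j
  set z := zz hA.1 hB.1 Z i j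
  set w := OW hA.1 hB.1 i j
  have hp : 0 < b + t * a := by positivity
  have h1 : RCLike.re (z * star w) ≤ ‖z‖ * ‖w‖ := by
    refine (RCLike.re_le_norm _).trans ?_
    rw [norm_mul, norm_star]
  have h2 : 2 * (a * (‖z‖ * ‖w‖)) - (b + t * a) * ‖z‖ ^ 2 ≤ ‖w‖ ^ 2 * (a ^ 2 / (b + t * a)) := by
    rw [← mul_div_assoc, le_div_iff₀ hp]
    nlinarith [sq_nonneg ((b + t * a) * ‖z‖ - a * ‖w‖)]
  have h3 := mul_le_mul_of_nonneg_left h1 ha
  linarith

theorem exists_lin {t : ℝ} (ht : 0 ≤ t) {A B : Matrix n n 𝕜} (hA : A.PosSemidef)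
    (hB : B.PosDef) : ∃ Z : Matrix n n 𝕜, lin t Z A B = Q t hA.1 hB.1 := by
  let z : Matrix n n 𝕜 := Matrix.of fun i j =>
    ((hA.1.eigenvalues i / (hB.1.eigenvalues j + t * hA.1.eigenvalues i) : ℝ) : 𝕜) *
      OW hA.1 hB.1 i j
  refine ⟨EU hA.1 * z * (EU hB.1)ᴴ, ?_⟩
  have hz : zz hA.1 hB.1 (EU hA.1 * z * (EU hB.1)ᴴ) = z := by
    rw [zz]
    calc _ = ((EU hA.1)ᴴ * EU hA.1) * z * ((EU hB.1)ᴴ * EU hB.1) := by
          simp only [Matrix.mul_assoc]
      _ = z := by rw [EU_star_mul, EU_star_mul]; simp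
  rw [lin_eq t hA.1 hB.1, Q, hz]
  refine Finset.sum_congr rfl fun i _ => Finset.sum_congr rfl fun j _ => ?_
  have ha := hA.eigenvalues_nonneg i
  have hb := hB.eigenvalues_pos j
  have hzij : z i j = ((hA.1.eigenvalues i / (hB.1.eigenvalues j + t * hA.1.eigenvalues i) : ℝ) : 𝕜)
      * OW hA.1 hB.1 i j := rfl
  rw [hzij]
  set a := hA.1.eigenvalues i
  set b := hB.1.eigenvalues j
  set w := OW hA.1 hB.1 i j
  have hp : 0 < b + t * a := by positivity
  have h1 : RCLike.re (((a / (b + t * a) : ℝ) : 𝕜) * w * star w) = a / (b + t * a) * ‖w‖ ^ 2 := by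
    rw [RCLike.star_def, mul_assoc, RCLike.mul_conj, RCLike.re_ofReal_mul]
    congr 1
    rw [← RCLike.ofReal_pow, RCLike.ofReal_re]
  rw [h1, norm_mul, RCLike.norm_ofReal, mul_pow, sq_abs]
  field_simp
  ring

/-- subadditivity (= joint convexity, `Q` is homogeneous) of the fractional function -/
theorem Q_add_le {t : ℝ} (ht : 0 ≤ t) {A B A' B' : Matrix n n 𝕜} (hA : A.PosSemidef)
    (hB : B.PosDef) (hA' : A'.PosSemidef) (hB' : B'.PosDef) :
    Q t (hA.add hA').1 (hB.add hB').1 ≤ Q t hA.1 hB.1 + Q t hA'.1 hB'.1 := by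
  obtain ⟨Z, hZ⟩ := exists_lin ht (hA.add hA') (hB.add hB')
  rw [← hZ, lin_add]
  exact add_le_add (lin_le ht hA hB Z) (lin_le ht hA' hB' Z)

end Crest.Agent.R079.RE406
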