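import Crest.Agent.R079.GridDefs_569

/-! R079, L0z part A (helper133): the lattice bound for infinitely supported functions
(truncation + dominated convergence), in `ℝ≥0∞` form. -/

set_option autoImplicit false

namespace Crest.Agent.R079.Riem133

open Crest.Agent.R079.Grid Finset Filter Topology
open scoped ENNReal

/-- truncation to `[-n,n]` -/
noncomputable def trunc (n : ℕ) (f : ℤ → ℂ) (x : ℤ) : ℂ :=
  if x ∈ Finset.Icc (-(n : ℤ)) n then f x else 0

lemma trunc_norm_le (n : ℕ) (f : ℤ → ℂ) (x : ℤ) : ‖trunc n f x‖ ≤ ‖f x‖ := by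
  unfold trunc; split <;> simp

lemma trunc_support (n : ℕ) (f : ℤ → ℂ) :
    Function.support (trunc n f) ⊆ (Finset.Icc (-(n : ℤ)) n : Set ℤ) := by
  intro x hx
  by_contra h
  apply hx
  unfold trunc
  rw [if_neg]
  exact fun h' => h (by simpa using h')

lemma trunc_support_finite (n : ℕ) (f : ℤ → ℂ) : (Function.support (trunc n f)).Finite :=
  (Finset.finite_toSet _).subset (trunc_support n f)

lemma trunc_tendsto (f : ℤ → ℂ) (x : ℤ) :
    Tendsto (fun n : ℕ => trunc n f x) atTop (𝓝 (f x)) := by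
  apply tendsto_const_nhds.congr'
  filter_upwards [eventually_ge_atTop x.natAbs] with n hn
  unfold trunc
  rw [if_pos]
  rw [Finset.mem_Icc]
  constructor <;> omega

/-- `ℓ³` norm in `ℝ≥0∞` -/
noncomputable def L3 (f : ℤ → ℂ) : ℝ≥0∞ := (∑' x : ℤ, ‖f x‖ₑ ^ 3) ^ (1 / 3 : ℝ)

lemma l3_trunc_le (n : ℕ) (f : ℤ → ℂ) : ENNReal.ofReal (l3 (trunc n f)) ≤ L3 f := by
  unfold l3 L3
  have hs : Function.support (fun x : ℤ => ‖trunc n f x‖ ^ 3) ⊆ (Finset.Icc (-(n : ℤ)) n : Set ℤ) := by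
    intro x hx
    apply trunc_support n f
    intro h
    apply hx
    simp [h]
  rw [finsum_eq_sum_of_support_subset _ hs]
  rw [← ENNReal.ofReal_rpow_of_nonneg (Finset.sum_nonneg fun _ _ => by positivity) (by norm_num)]
  apply ENNReal.rpow_le_rpow _ (by norm_num)
  rw [ENNReal.ofReal_sum_of_nonneg (fun _ _ => by positivity)]
  refine le_trans (Finset.sum_le_sum (g := fun x => ‖f x‖ₑ ^ 3) fun x _ => ?_) (ENNReal.sum_le_tsum _)
  rw [ENNReal.ofReal_pow (norm_nonneg _), ofReal_norm]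
  have h2 : ‖trunc n f x‖ₑ ≤ ‖f x‖ₑ := by
    rw [← ofReal_norm, ← ofReal_norm]
    exact ENNReal.ofReal_le_ofReal (trunc_norm_le n f x)
  gcongr

lemma yv_eq (N : ℕ) (b x : ℤ) (u : Fin 4 → Fin (N + N)) (j : Fin 4) :
    yv N b x u j = x + yv N b 0 u j := by
  unfold yv; ring

lemma hs_norm (N : ℕ) (u : Fin 4 → Fin (N + N)) : ‖((∏ i, hsg N (u i) : ℝ) : ℂ)‖ = 1 := by
  rw [Complex.norm_real, norm_prod]
  apply Finset.prod_eq_one
  intro i _
  unfold hsg
  split <;> simp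

/-- dominating function -/
noncomputable def bnd (N : ℕ) (b : ℤ) (B : ℝ) (f : ℤ → ℂ) (x : ℤ) : ℝ :=
  ‖(1 / ((N : ℂ) + N) ^ 4)‖ * ∑ u : Fin 4 → Fin (N + N), ‖f (yv N b x u 0)‖ * (B * B * B)

lemma Lbox_le_bnd (N : ℕ) (b : ℤ) {B : ℝ} (F : Fin 4 → ℤ → ℂ) (f : ℤ → ℂ)
    (hf : ∀ x, ‖F 0 x‖ ≤ ‖f x‖) (hB : ∀ j x, ‖F j x‖ ≤ B) (x : ℤ) :
    ‖Lbox N b F x‖ ≤ bnd N b B f x := by
  have hB0 : 0 ≤ B := le_trans (norm_nonneg _) (hB 0 0)
  unfold Lbox bnd
  rw [norm_mul]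
  apply mul_le_mul_of_nonneg_left _ (norm_nonneg _)
  refine le_trans (norm_sum_le _ _) (Finset.sum_le_sum fun u _ => ?_)
  rw [norm_mul, hs_norm, one_mul, norm_prod, Fin.prod_univ_four]
  have h0 := hf (yv N b x u 0)
  have h1 := hB 1 (yv N b x u 1)
  have h2 := hB 2 (yv N b x u 2)
  have h3 := hB 3 (yv N b x u 3)
  calc ‖F 0 (yv N b x u 0)‖ * ‖F 1 (yv N b x u 1)‖ * ‖F 2 (yv N b x u 2)‖ * ‖F 3 (yv N b x u 3)‖
      ≤ ‖f (yv N b x u 0)‖ * B * B * B := by gcongr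
    _ = _ := by ring

lemma bnd_summable (N : ℕ) (b : ℤ) (B : ℝ) (f : ℤ → ℂ) (hf : Summable fun x => ‖f x‖) :
    Summable (bnd N b B f) := by
  unfold bnd
  apply Summable.mul_left
  apply summable_sum
  intro u _
  apply Summable.mul_right
  have : (fun x : ℤ => ‖f (yv N b x u 0)‖) = (fun x => ‖f x‖) ∘ (fun x : ℤ => x + yv N b 0 u 0) := by
    funext x
    simp only [Function.comp]
    rw [yv_eq]
  rw [this]
  exact hf.comp_injective (add_left_injective _)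

lemma Lbox_summable (N : ℕ) (b : ℤ) {B : ℝ} (F : Fin 4 → ℤ → ℂ) (hf : Summable fun x => ‖F 0 x‖)
    (hB : ∀ j x, ‖F j x‖ ≤ B) : Summable (fun x => Lbox N b F x) :=
  Summable.of_norm_bounded (bnd_summable N b B (F 0) hf) (fun x => Lbox_le_bnd N b F (F 0) (fun _ => le_rfl) hB x)

lemma Lbox_support_finite (N : ℕ) (b : ℤ) (F : Fin 4 → ℤ → ℂ) (hF : (Function.support (F 0)).Finite) :
    (Function.support (fun x => Lbox N b F x)).Finite := by
  have hsub : Function.support (fun x => Lbox N b F x) ⊆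
      ⋃ u : Fin 4 → Fin (N + N), (fun x : ℤ => x + yv N b 0 u 0) ⁻¹' (Function.support (F 0)) := by
    intro x hx
    by_contra h
    apply hx
    simp only [Set.mem_iUnion, not_exists, Set.mem_preimage, Function.mem_support, not_not] at h
    show Lbox N b F x = 0
    unfold Lbox
    rw [Finset.sum_eq_zero, mul_zero]
    intro u _
    have h0 : ∏ j, F j (yv N b x u j) = 0 := by
      apply Finset.prod_eq_zero (Finset.mem_univ (0 : Fin 4))
      rw [yv_eq]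
      exact h u
    rw [h0, mul_zero]
  apply Set.Finite.subset _ hsub
  apply Set.finite_iUnion
  intro u
  exact hF.preimage (add_left_injective _).injOn

lemma Lbox_tendsto (N : ℕ) (b : ℤ) (F : Fin 4 → ℤ → ℂ) (x : ℤ) :
    Tendsto (fun n : ℕ => Lbox N b (fun j => trunc n (F j)) x) atTop (𝓝 (Lbox N b F x)) := by
  unfold Lbox
  apply Tendsto.const_mul
  apply tendsto_finsetSum
  intro u _
  apply Tendsto.const_mul
  apply tendsto_finsetProd
  intro j _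
  exact trunc_tendsto (F j) _

/-- the literal hypothesis extracted from `LatBound` -/
def LatB (C : ℝ) (b : ℤ) : Prop :=
  ∀ (M : ℕ) (F : Fin 4 → ℤ → ℂ) (S : Finset ℕ),
    (∀ j, (Function.support (F j)).Finite) → (∀ x, ‖F 3 x‖ ≤ 1) → (∀ m ∈ S, m < M) →
      ‖∑ m ∈ S, ∑ᶠ x : ℤ, Lbox (2 ^ m) b F x‖ ≤ C * (l3 (F 0) * l3 (F 1) * l3 (F 2))

lemma l3_nonneg (f : ℤ → ℂ) : 0 ≤ l3 f := by
  unfold l3
  apply Real.rpow_nonneg
  exact finsum_nonneg fun _ => by positivity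

theorem lat_ext {C : ℝ} (hC : 0 ≤ C) {b : ℤ} (H : LatB C b) (F : Fin 4 → ℤ → ℂ) (S : Finset ℕ)
    {B : ℝ} (hf : Summable fun x => ‖F 0 x‖) (hB : ∀ j x, ‖F j x‖ ≤ B) (h3 : ∀ x, ‖F 3 x‖ ≤ 1) :
    ‖∑ m ∈ S, ∑' x : ℤ, Lbox (2 ^ m) b F x‖ₑ ≤ ENNReal.ofReal C * (L3 (F 0) * L3 (F 1) * L3 (F 2)) := by
  have hlim : Tendsto (fun n : ℕ => ‖∑ m ∈ S, ∑' x : ℤ, Lbox (2 ^ m) b (fun j => trunc n (F j)) x‖ₑ) atTop
      (𝓝 ‖∑ m ∈ S, ∑' x : ℤ, Lbox (2 ^ m) b F x‖ₑ) := by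
    refine (continuous_enorm.tendsto _).comp ?_
    apply tendsto_finsetSum
    intro m _
    apply tendsto_tsum_of_dominated_convergence (bound := bnd (2 ^ m) b B (F 0))
      (bnd_summable _ _ _ _ hf)
    · intro x
      exact Lbox_tendsto _ _ _ _
    · refine Eventually.of_forall fun n x => ?_
      exact Lbox_le_bnd _ _ _ _ (fun x => trunc_norm_le _ _ _)
        (fun j x => (trunc_norm_le _ _ _).trans (hB j x)) x
  refine le_of_tendsto hlim (Eventually.of_forall fun n => ?_)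
  have h1 := H (S.sup id + 1) (fun j => trunc n (F j)) S (fun j => trunc_support_finite n (F j))
    (fun x => (trunc_norm_le _ _ _).trans (h3 x))
    (fun m hm => Nat.lt_succ_of_le (Finset.le_sup (f := id) hm))
  have h2 : ∑ m ∈ S, ∑' x : ℤ, Lbox (2 ^ m) b (fun j => trunc n (F j)) x =
      ∑ m ∈ S, ∑ᶠ x : ℤ, Lbox (2 ^ m) b (fun j => trunc n (F j)) x := by
    apply Finset.sum_congr rfl
    intro m _
    exact tsum_eq_finsum (Lbox_support_finite _ _ _ (trunc_support_finite n (F 0)))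
  rw [h2, ← ofReal_norm]
  refine le_trans (ENNReal.ofReal_le_ofReal h1) ?_
  rw [ENNReal.ofReal_mul hC, ENNReal.ofReal_mul (mul_nonneg (l3_nonneg _) (l3_nonneg _)),
    ENNReal.ofReal_mul (l3_nonneg _)]
  gcongr <;> exact l3_trunc_le _ _

end Crest.Agent.R079.Riem133
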