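import Crest.Agent.R079.RiemA_133

/-! R079, L0z part B (helper133): unfolding `∫_ℝ = ∫_{(0,1]} ∑_{x ∈ ℤ}` and the real-position form. -/

set_option autoImplicit false

namespace Crest.Agent.R079.Riem133

open Crest.Agent.R079.Grid MeasureTheory Set Filter Topology
open scoped ENNReal

lemma lint_shift (h : ℝ → ℝ≥0∞) (x : ℤ) :
    ∫⁻ s in Ioc (x : ℝ) (x + 1), h s = ∫⁻ ξ in Ioc (0 : ℝ) 1, h (ξ + x) := by
  rw [← lintegral_indicator measurableSet_Ioc, ← lintegral_indicator measurableSet_Ioc,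
    ← lintegral_add_right_eq_self _ (x : ℝ)]
  congr 1
  funext ξ
  simp only [indicator, mem_Ioc]
  congr 1
  apply propext
  constructor <;> rintro ⟨h1, h2⟩ <;> constructor <;> linarith

lemma int_shift (h : ℝ → ℂ) (x : ℤ) :
    ∫ s in Ioc (x : ℝ) (x + 1), h s = ∫ ξ in Ioc (0 : ℝ) 1, h (ξ + x) := by
  rw [← integral_indicator measurableSet_Ioc, ← integral_indicator measurableSet_Ioc,
    ← integral_add_right_eq_self _ (x : ℝ)]
  congr 1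
  funext ξ
  simp only [indicator, mem_Ioc]
  congr 1
  apply propext
  constructor <;> rintro ⟨h1, h2⟩ <;> constructor <;> linarith

lemma lint_unfold (h : ℝ → ℝ≥0∞) (hm : Measurable h) :
    ∫⁻ s, h s = ∫⁻ ξ in Ioc (0 : ℝ) 1, ∑' x : ℤ, h (ξ + x) := by
  have hm' : ∀ x : ℤ, Measurable (fun ξ : ℝ => h (ξ + x)) := fun x =>
    hm.comp (measurable_id.add_const _)
  rw [lintegral_tsum (f := fun (x : ℤ) (ξ : ℝ) => h (ξ + x)) (fun x => (hm' x).aemeasurable)]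
  rw [← setLIntegral_univ, ← iUnion_Ioc_intCast ℝ,
    lintegral_iUnion (fun _ => measurableSet_Ioc) (pairwise_disjoint_Ioc_intCast ℝ)]
  congr 1
  funext x
  exact lint_shift h x

lemma int_unfold (h : ℝ → ℂ) (hm : Measurable h) (hi : Integrable h) :
    ∫ s, h s = ∫ ξ in Ioc (0 : ℝ) 1, ∑' x : ℤ, h (ξ + x) := by
  have hm' : ∀ x : ℤ, Measurable (fun ξ : ℝ => h (ξ + x)) := fun x =>
    hm.comp (measurable_id.add_const _)
  rw [integral_tsum (f := fun (x : ℤ) (ξ : ℝ) => h (ξ + x)) (fun x => (hm' x).aestronglyMeasurable)]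
  · rw [← setIntegral_univ, ← iUnion_Ioc_intCast ℝ,
      integral_iUnion (fun _ => measurableSet_Ioc) (pairwise_disjoint_Ioc_intCast ℝ) hi.integrableOn]
    congr 1
    funext x
    exact int_shift h x
  · rw [← lintegral_tsum (f := fun (x : ℤ) (ξ : ℝ) => ‖h (ξ + x)‖ₑ)
      (fun x => (hm' x).enorm.aemeasurable)]
    have := lint_unfold (fun s => ‖h s‖ₑ) hm.enorm
    rw [← this]
    exact hi.2.ne

/-- real-position lattice form -/
noncomputable def Lr (N : ℕ) (b : ℤ) (ψ : Fin 4 → ℝ → ℂ) (s : ℝ) : ℂ :=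
  (1 / ((N : ℂ) + N) ^ 4) * ∑ u : Fin 4 → Fin (N + N),
    ((∏ i, hsg N (u i) : ℝ) : ℂ) * ∏ j, ψ j (s + (yv N b 0 u j : ℤ))

lemma Lr_eq (N : ℕ) (b : ℤ) (ψ : Fin 4 → ℝ → ℂ) (ξ : ℝ) (x : ℤ) :
    Lr N b ψ (ξ + x) = Lbox N b (fun j n => ψ j (ξ + n)) x := by
  unfold Lr Lbox
  congr 1
  apply Finset.sum_congr rfl
  intro u _
  congr 1
  apply Finset.prod_congr rfl
  intro j _
  rw [yv_eq N b x u j]
  push_cast
  congr 1
  ring

lemma prod_integrable {ψ : Fin 4 → ℝ → ℂ} {B : ℝ} (hm : ∀ j, Measurable (ψ j))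
    (hi : Integrable (ψ 0)) (hB : ∀ j y, ‖ψ j y‖ ≤ B) (c : Fin 4 → ℝ) :
    Integrable (fun s => ∏ j, ψ j (s + c j)) := by
  have hB0 : 0 ≤ B := le_trans (norm_nonneg _) (hB 0 0)
  have h1 : (fun s => ∏ j, ψ j (s + c j)) =
      fun s => ψ 0 (s + c 0) * (ψ 1 (s + c 1) * ψ 2 (s + c 2) * ψ 3 (s + c 3)) := by
    funext s
    rw [Fin.prod_univ_four]
    ring
  rw [h1]
  have hmm : ∀ j, Measurable (fun s => ψ j (s + c j)) := fun j =>
    (hm j).comp (measurable_id.add_const _)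
  refine Integrable.mul_bdd (c := B * B * B) (hi.comp_add_right (c 0))
    (((hmm 1).mul (hmm 2)).mul (hmm 3)).aestronglyMeasurable (Eventually.of_forall fun s => ?_)
  rw [norm_mul, norm_mul]
  have := hB 1 (s + c 1)
  have := hB 2 (s + c 2)
  have := hB 3 (s + c 3)
  gcongr

lemma Lr_measurable (N : ℕ) (b : ℤ) {ψ : Fin 4 → ℝ → ℂ} (hm : ∀ j, Measurable (ψ j)) :
    Measurable (Lr N b ψ) := by
  unfold Lr
  apply Measurable.const_mul
  apply Finset.measurable_fun_sum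
  intro u _
  apply Measurable.const_mul
  apply Finset.measurable_fun_prod
  intro j _
  exact (hm j).comp (measurable_id.add_const _)

lemma Lr_integrable (N : ℕ) (b : ℤ) {ψ : Fin 4 → ℝ → ℂ} {B : ℝ} (hm : ∀ j, Measurable (ψ j))
    (hi : Integrable (ψ 0)) (hB : ∀ j y, ‖ψ j y‖ ≤ B) : Integrable (Lr N b ψ) := by
  unfold Lr
  apply Integrable.const_mul
  apply integrable_finsetSum
  intro u _
  apply Integrable.const_mul
  exact prod_integrable hm hi hB _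

/-- `L³` norm in `ℝ≥0∞` -/
noncomputable def N3 (φ : ℝ → ℂ) : ℝ≥0∞ := (∫⁻ y, ‖φ y‖ₑ ^ 3) ^ (1 / 3 : ℝ)

lemma holder3 {μ : Measure ℝ} {f g h : ℝ → ℝ≥0∞} (hf : Measurable f) (hg : Measurable g)
    (hh : Measurable h) :
    ∫⁻ a, f a ^ (1 / 3 : ℝ) * g a ^ (1 / 3 : ℝ) * h a ^ (1 / 3 : ℝ) ∂μ ≤
      (∫⁻ a, f a ∂μ) ^ (1 / 3 : ℝ) * (∫⁻ a, g a ∂μ) ^ (1 / 3 : ℝ) * (∫⁻ a, h a ∂μ) ^ (1 / 3 : ℝ) := by
  have := ENNReal.lintegral_prod_norm_pow_le (μ := μ) (Finset.univ : Finset (Fin 3)) (f := ![f, g, h])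
    (by
      intro i _
      fin_cases i
      · exact hf.aemeasurable
      · exact hg.aemeasurable
      · exact hh.aemeasurable) (p := fun _ => (1 / 3 : ℝ)) (by simp) (fun _ _ => by norm_num)
  simpa [Fin.prod_univ_three] using this

theorem K1 {C : ℝ} (hC : 0 ≤ C) {b : ℤ} (H : LatB C b) (ψ : Fin 4 → ℝ → ℂ) (S : Finset ℕ)
    {B : ℝ} (hm : ∀ j, Measurable (ψ j)) (hi : Integrable (ψ 0)) (hB : ∀ j y, ‖ψ j y‖ ≤ B)
    (h3 : ∀ y, ‖ψ 3 y‖ ≤ 1) :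
    ‖∫ s, ∑ m ∈ S, Lr (2 ^ m) b ψ s‖ₑ ≤ ENNReal.ofReal C * (N3 (ψ 0) * N3 (ψ 1) * N3 (ψ 2)) := by
  have hmeas : Measurable (fun s => ∑ m ∈ S, Lr (2 ^ m) b ψ s) :=
    Finset.measurable_fun_sum _ fun m _ => Lr_measurable _ _ hm
  have hint : Integrable (fun s => ∑ m ∈ S, Lr (2 ^ m) b ψ s) :=
    integrable_finsetSum _ fun m _ => Lr_integrable _ _ hm hi hB
  rw [int_unfold _ hmeas hint]
  refine le_trans (enorm_integral_le_lintegral_enorm _) ?_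
  -- a.e. summability
  have hae : ∀ᵐ ξ ∂(volume.restrict (Ioc (0 : ℝ) 1)), Summable (fun x : ℤ => ‖ψ 0 (ξ + x)‖) := by
    have h1 := lint_unfold (fun s => ‖ψ 0 s‖ₑ) (hm 0).enorm
    have h2 : ∫⁻ ξ in Ioc (0 : ℝ) 1, ∑' x : ℤ, ‖ψ 0 (ξ + x)‖ₑ ≠ ∞ := by
      rw [← h1]; exact hi.2.ne
    have h3 := ae_lt_top' (AEMeasurable.ennreal_tsum fun x : ℤ =>
      (((hm 0).comp (measurable_id.add_const (x : ℝ))).enorm).aemeasurable) h2
    filter_upwards [h3] with ξ hξ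
    have h4 : ∑' x : ℤ, ‖ψ 0 (ξ + x)‖ₑ ≠ ∞ := hξ.ne
    simp only [enorm] at h4
    have h5 := ENNReal.tsum_coe_ne_top_iff_summable.1 h4
    exact NNReal.summable_coe.2 h5
  have key : ∀ᵐ ξ ∂(volume.restrict (Ioc (0 : ℝ) 1)),
      ‖∑' x : ℤ, ∑ m ∈ S, Lr (2 ^ m) b ψ (ξ + x)‖ₑ ≤ ENNReal.ofReal C *
        ((∑' x : ℤ, ‖ψ 0 (ξ + x)‖ₑ ^ 3) ^ (1 / 3 : ℝ) * (∑' x : ℤ, ‖ψ 1 (ξ + x)‖ₑ ^ 3) ^ (1 / 3 : ℝ) *
          (∑' x : ℤ, ‖ψ 2 (ξ + x)‖ₑ ^ 3) ^ (1 / 3 : ℝ)) := by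
    filter_upwards [hae] with ξ hξ
    have h1 : ∑' x : ℤ, ∑ m ∈ S, Lr (2 ^ m) b ψ (ξ + x) =
        ∑ m ∈ S, ∑' x : ℤ, Lbox (2 ^ m) b (fun j n => ψ j (ξ + n)) x := by
      rw [← Summable.tsum_finsetSum]
      · congr 1
        funext x
        exact Finset.sum_congr rfl fun m _ => Lr_eq _ _ _ _ _
      · intro m _
        exact Lbox_summable _ _ _ hξ (fun j x => hB j _)
    rw [h1]
    exact lat_ext hC H (fun j n => ψ j (ξ + n)) S hξ (fun j x => hB j _) (fun x => h3 _)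
  refine le_trans (lintegral_mono_ae key) ?_
  have hmt : ∀ j, Measurable (fun ξ : ℝ => ∑' x : ℤ, ‖ψ j (ξ + x)‖ₑ ^ 3) := fun j =>
    Measurable.ennreal_tsum fun x => (((hm j).comp (measurable_id.add_const (x : ℝ))).enorm).pow_const 3
  rw [lintegral_const_mul _ (by
    exact (((hmt 0).pow_const _).mul ((hmt 1).pow_const _)).mul ((hmt 2).pow_const _))]
  gcongr
  refine le_trans (holder3 (hmt 0) (hmt 1) (hmt 2)) ?_
  apply le_of_eq
  unfold N3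
  rw [lint_unfold _ ((hm 0).enorm.pow_const 3), lint_unfold _ ((hm 1).enorm.pow_const 3),
    lint_unfold _ ((hm 2).enorm.pow_const 3)]

end Crest.Agent.R079.Riem133
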