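import Mathlib

/-! R079, L0z part C (helper133): splitting the unit cube into `n^4` cells. -/

set_option autoImplicit false

namespace Crest.Agent.R079.Riem133

open MeasureTheory Set Filter Topology
open scoped ENNReal

/-- half open unit cube -/
def Q : Set (Fin 4 → ℝ) := Set.univ.pi fun _ => Ico (0 : ℝ) 1

/-- cells -/
def cell (n : ℕ) (u : Fin 4 → Fin n) : Set (Fin 4 → ℝ) :=
  Set.univ.pi fun i => Ico (((u i : ℕ) : ℝ) / n) ((((u i : ℕ) : ℝ) + 1) / n)

/-- affine chart of a cell -/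
noncomputable def aff (n : ℕ) (u : Fin 4 → Fin n) (θ : Fin 4 → ℝ) : Fin 4 → ℝ :=
  fun i => (((u i : ℕ) : ℝ) + θ i) / n

lemma measurableSet_Q : MeasurableSet Q := MeasurableSet.univ_pi fun _ => measurableSet_Ico

lemma measurableSet_cell (n : ℕ) (u : Fin 4 → Fin n) : MeasurableSet (cell n u) :=
  MeasurableSet.univ_pi fun _ => measurableSet_Ico

lemma aff_mem {n : ℕ} (hn : 0 < n) (u : Fin 4 → Fin n) (θ : Fin 4 → ℝ) :
    aff n u θ ∈ cell n u ↔ θ ∈ Q := by
  have hn' : (0 : ℝ) < n := by exact_mod_cast hn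
  simp only [aff, cell, Q, Set.mem_pi, mem_univ, forall_true_left, mem_Ico]
  refine forall_congr' fun i => ?_
  rw [div_le_div_iff_of_pos_right hn', div_lt_div_iff_of_pos_right hn']
  constructor <;> rintro ⟨h1, h2⟩ <;> constructor <;> linarith

lemma cell_union {n : ℕ} (hn : 0 < n) : ⋃ u : Fin 4 → Fin n, cell n u = Q := by
  have hn' : (0 : ℝ) < n := by exact_mod_cast hn
  ext q
  simp only [mem_iUnion, cell, Q, Set.mem_pi, mem_univ, forall_true_left, mem_Ico]
  constructor
  · rintro ⟨u, hu⟩ i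
    obtain ⟨h1, h2⟩ := hu i
    refine ⟨le_trans (by positivity) h1, lt_of_lt_of_le h2 ?_⟩
    rw [div_le_one hn']
    exact_mod_cast (u i).2
  · intro hq
    refine ⟨fun i => ⟨⌊(n : ℝ) * q i⌋₊, ?_⟩, fun i => ?_⟩
    · rw [Nat.floor_lt (by have := (hq i).1; positivity)]
      have := (hq i).2
      nlinarith
    · have h0 : 0 ≤ (n : ℝ) * q i := by have := (hq i).1; positivity
      have h1 := Nat.floor_le h0
      have h2 := Nat.lt_floor_add_one ((n : ℝ) * q i)
      simp only
      constructor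
      · rw [div_le_iff₀ hn']; linarith
      · rw [lt_div_iff₀ hn']; linarith

lemma cell_disj {n : ℕ} (hn : 0 < n) : Pairwise (Function.onFun Disjoint (cell n)) := by
  have hn' : (0 : ℝ) < n := by exact_mod_cast hn
  intro u v huv
  rw [Function.onFun, Set.disjoint_left]
  intro q hu hv
  apply huv
  funext i
  simp only [cell, Set.mem_pi, mem_univ, forall_true_left, mem_Ico] at hu hv
  obtain ⟨a1, a2⟩ := hu i
  obtain ⟨b1, b2⟩ := hv i
  rw [div_le_iff₀ hn'] at a1 b1
  rw [lt_div_iff₀ hn'] at a2 b2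
  have h1 : ((u i : ℕ) : ℝ) < ((v i : ℕ) : ℝ) + 1 := by linarith
  have h2 : ((v i : ℕ) : ℝ) < ((u i : ℕ) : ℝ) + 1 := by linarith
  have h3 : (u i : ℕ) < (v i : ℕ) + 1 := by exact_mod_cast h1
  have h4 : (v i : ℕ) < (u i : ℕ) + 1 := by exact_mod_cast h2
  apply Fin.ext
  omega

lemma indicator_aff {n : ℕ} (hn : 0 < n) (u : Fin 4 → Fin n) (I : (Fin 4 → ℝ) → ℂ) :
    Q.indicator (fun θ => I (aff n u θ)) = fun θ => (cell n u).indicator I
      ((1 / (n : ℝ)) • θ + (fun i => ((u i : ℕ) : ℝ) / n)) := by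
  funext θ
  have h : (1 / (n : ℝ)) • θ + (fun i => ((u i : ℕ) : ℝ) / n) = aff n u θ := by
    funext i
    simp only [aff, Pi.add_apply, Pi.smul_apply, smul_eq_mul]
    ring
  rw [h]
  by_cases hθ : θ ∈ Q
  · rw [indicator_of_mem hθ, indicator_of_mem ((aff_mem hn u θ).2 hθ)]
  · rw [indicator_of_notMem hθ, indicator_of_notMem (fun h => hθ ((aff_mem hn u θ).1 h))]

lemma cell_int {n : ℕ} (hn : 0 < n) (u : Fin 4 → Fin n) (I : (Fin 4 → ℝ) → ℂ) :
    ∫ q in cell n u, I q = (1 / (n : ℂ) ^ 4) * ∫ θ in Q, I (aff n u θ) := by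
  have hn' : (0 : ℝ) < n := by exact_mod_cast hn
  rw [← integral_indicator (measurableSet_cell n u), ← integral_indicator measurableSet_Q,
    indicator_aff hn u I]
  have h1 := Measure.integral_comp_smul (volume : Measure (Fin 4 → ℝ))
    (fun x => (cell n u).indicator I (x + (fun i => ((u i : ℕ) : ℝ) / n))) (1 / (n : ℝ))
  rw [h1, integral_add_right_eq_self]
  rw [Module.finrank_fin_fun]
  have h2 : |((1 / (n : ℝ)) ^ 4)⁻¹| = (n : ℝ) ^ 4 := by
    rw [abs_of_pos (by positivity)]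
    field_simp
  rw [h2]
  rw [Complex.real_smul]
  push_cast
  have : (n : ℂ) ≠ 0 := by exact_mod_cast hn.ne'
  field_simp

lemma cell_integrable {n : ℕ} (hn : 0 < n) (u : Fin 4 → Fin n) {I : (Fin 4 → ℝ) → ℂ}
    (hI : IntegrableOn I Q) : IntegrableOn (fun θ => I (aff n u θ)) Q := by
  have hn' : (0 : ℝ) < n := by exact_mod_cast hn
  rw [← integrable_indicator_iff measurableSet_Q, indicator_aff hn u I]
  have h0 : Integrable ((cell n u).indicator I) := by
    rw [integrable_indicator_iff (measurableSet_cell n u)]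
    apply hI.mono_set
    rw [← cell_union hn]
    exact subset_iUnion _ u
  have h1 : Integrable (fun x => (cell n u).indicator I (x + (fun i => ((u i : ℕ) : ℝ) / n))) :=
    h0.comp_add_right _
  exact h1.comp_smul (R := 1 / (n : ℝ)) (by positivity)

/-- splitting of the half open cube -/
lemma cube_split {n : ℕ} (hn : 0 < n) {I : (Fin 4 → ℝ) → ℂ} (hI : IntegrableOn I Q) :
    ∫ q in Q, I q = ∫ θ in Q, (1 / (n : ℂ) ^ 4) * ∑ u : Fin 4 → Fin n, I (aff n u θ) := by
  rw [integral_const_mul, integral_finsetSum _ (fun u _ => cell_integrable hn u hI)]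
  rw [Finset.mul_sum]
  have h1 : ∫ q in Q, I q = ∫ q in ⋃ u : Fin 4 → Fin n, cell n u, I q := by rw [cell_union hn]
  rw [h1, integral_iUnion (fun u => measurableSet_cell n u) (cell_disj hn) (by rwa [cell_union hn]),
    tsum_fintype]
  exact Finset.sum_congr rfl fun u _ => cell_int hn u I

lemma Q_ae_eq : Q =ᵐ[volume] (Icc 0 1 : Set (Fin 4 → ℝ)) := by
  have := Measure.univ_pi_Ico_ae_eq_Icc (μ := fun _ : Fin 4 => (volume : Measure ℝ))
    (f := fun _ => (0 : ℝ)) (g := fun _ => (1 : ℝ))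
  exact this

lemma volume_Q : (volume Q).toReal = 1 := by
  unfold Q
  rw [Real.volume_pi_Ico]
  simp

end Crest.Agent.R079.Riem133
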