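import Crest.Agent.R079.RiemB_133
import Crest.Agent.R079.RiemC_133
import Crest.Agent.R079.BoxDefs_406

/-! R079, L0z part D (helper133): one scale of the box form = average over the cell offset `θ`
of lattice forms. -/

set_option autoImplicit false

namespace Crest.Agent.R079.Riem133

open Crest.Agent.R079.Grid MeasureTheory Set Filter Topology
open scoped ENNReal

/-- offset of slot `j` -/
noncomputable def cj (θ : Fin 4 → ℝ) (j : Fin 4) : ℝ := ∑ i, ((Grid.sl i - Grid.sl j : ℤ) : ℝ) * θ i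

/-- rescaled and shifted functions -/
noncomputable def psi (δ : ℝ) (f : Fin 4 → ℝ → ℂ) (θ : Fin 4 → ℝ) (j : Fin 4) (y : ℝ) : ℂ :=
  f j (δ * (y + cj θ j))

lemma sl_cast (i : Fin 4) : L0.sl i = ((Grid.sl i : ℤ) : ℝ) := by
  fin_cases i <;> simp [L0.sl, Grid.sl]

lemma psi_measurable {δ : ℝ} {f : Fin 4 → ℝ → ℂ} (hm : ∀ j, Measurable (f j)) (θ : Fin 4 → ℝ)
    (j : Fin 4) : Measurable (psi δ f θ j) :=
  (hm j).comp ((measurable_id.add_const _).const_mul δ)

lemma psi_integrable {δ : ℝ} (hδ : 0 < δ) {f : Fin 4 → ℝ → ℂ} (hi : Integrable (f 0))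
    (θ : Fin 4 → ℝ) : Integrable (psi δ f θ 0) := by
  have h1 : Integrable (fun y => f 0 (δ * y)) := hi.comp_mul_left' hδ.ne'
  exact h1.comp_add_right (cj θ 0)

lemma ep_aff {N : ℕ} (hN : 0 < N) (u : Fin 4 → Fin (N + N)) {θ : Fin 4 → ℝ} (hθ : θ ∈ Q) (i : Fin 4) :
    L0.ep (aff (N + N) u θ i) = hsg N (u i) := by
  have hN' : (0 : ℝ) < N := by exact_mod_cast hN
  have h0 : θ i ∈ Ico (0 : ℝ) 1 := hθ i (mem_univ i)
  unfold L0.ep hsg aff
  have h1 : ((((u i : ℕ) : ℝ) + θ i) / ((N + N : ℕ) : ℝ) < 1 / 2) ↔ ((u i : ℕ) < N) := by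
    push_cast
    rw [div_lt_iff₀ (by positivity)]
    constructor
    · intro h
      have h2 : ((u i : ℕ) : ℝ) < N := by linarith [h0.1]
      exact_mod_cast h2
    · intro h
      have h2 : ((u i : ℕ) : ℝ) + 1 ≤ N := by exact_mod_cast h
      linarith [h0.2]
  simp only [h1]

lemma yq_aff {δ : ℝ} {N : ℕ} (hN : 0 < N) (b : ℤ) (u : Fin 4 → Fin (N + N)) (θ : Fin 4 → ℝ) (s : ℝ)
    (j : Fin 4) :
    L0.yq ((b : ℝ) / 2) (δ * ((N : ℝ) + N)) s (aff (N + N) u θ) j =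
      s + δ * ((yv N b 0 u j : ℤ) + cj θ j) := by
  have hN' : (0 : ℝ) < N := by exact_mod_cast hN
  unfold L0.yq L0.xq L0.tq aff yv cj
  simp only [sl_cast, Fin.sum_univ_four]
  push_cast
  field_simp
  ring

lemma yq_cont (β N : ℝ) (j : Fin 4) : Continuous (fun p : ℝ × (Fin 4 → ℝ) => L0.yq β N p.1 p.2 j) := by
  unfold L0.yq L0.xq L0.tq
  fun_prop

lemma ep_meas : Measurable L0.ep := by
  unfold L0.ep
  exact Measurable.ite measurableSet_Iio measurable_const measurable_const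

lemma ep4_meas : Measurable L0.ep4 := by
  unfold L0.ep4
  apply Finset.measurable_fun_prod
  intro i _
  exact ep_meas.comp (measurable_pi_apply i)

lemma ep4_norm (q : Fin 4 → ℝ) : ‖((L0.ep4 q : ℝ) : ℂ)‖ = 1 := by
  rw [Complex.norm_real]
  unfold L0.ep4
  rw [norm_prod]
  apply Finset.prod_eq_one
  intro i _
  unfold L0.ep
  split <;> simp

/-- integrand -/
noncomputable def hh (β N : ℝ) (f : Fin 4 → ℝ → ℂ) (s : ℝ) (q : Fin 4 → ℝ) : ℂ :=
  ((L0.ep4 q : ℝ) : ℂ) * ∏ j, f j (L0.yq β N s q j)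

lemma hh_integrable (β N : ℝ) {f : Fin 4 → ℝ → ℂ} {B : ℝ} (hm : ∀ j, Measurable (f j))
    (hi : Integrable (f 0)) (hB : ∀ j y, ‖f j y‖ ≤ B) :
    Integrable (Function.uncurry (hh β N f)) ((volume : Measure ℝ).prod (volume.restrict Q)) := by
  have hB0 : 0 ≤ B := le_trans (norm_nonneg _) (hB 0 0)
  have hmeas : ∀ j, Measurable (fun p : ℝ × (Fin 4 → ℝ) => f j (L0.yq β N p.1 p.2 j)) := fun j =>
    (hm j).comp (yq_cont β N j).measurable
  have hfin : IsFiniteMeasure (volume.restrict Q) := by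
    constructor
    rw [Measure.restrict_apply_univ]
    unfold Q
    rw [Real.volume_pi_Ico]
    simp
  -- dominating function
  have hdom : Integrable (fun p : ℝ × (Fin 4 → ℝ) => f 0 (L0.yq β N p.1 p.2 0) * ((B * B * B : ℝ) : ℂ))
      ((volume : Measure ℝ).prod (volume.restrict Q)) := by
    apply Integrable.mul_const
    rw [integrable_prod_iff' (hmeas 0).aestronglyMeasurable]
    have hshift : ∀ q : Fin 4 → ℝ, (fun s : ℝ => f 0 (L0.yq β N s q 0)) =
        fun s => f 0 (s + (L0.yq β N 0 q 0)) := by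
      intro q
      funext s
      congr 1
      unfold L0.yq L0.xq
      ring
    constructor
    · refine Eventually.of_forall fun q => ?_
      show Integrable (fun s : ℝ => f 0 (L0.yq β N s q 0)) volume
      rw [hshift q]
      exact hi.comp_add_right _
    · have : (fun q : Fin 4 → ℝ => ∫ s : ℝ, ‖f 0 (L0.yq β N s q 0)‖) = fun _ => ∫ s : ℝ, ‖f 0 s‖ := by
        funext q
        have h1 : (fun s : ℝ => ‖f 0 (L0.yq β N s q 0)‖) = fun s => ‖f 0 (s + (L0.yq β N 0 q 0))‖ := by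
          funext s
          exact congrArg norm (congrFun (hshift q) s)
        rw [h1]
        exact integral_add_right_eq_self (fun s => ‖f 0 s‖) _
      show Integrable (fun q : Fin 4 → ℝ => ∫ s : ℝ, ‖f 0 (L0.yq β N s q 0)‖) _
      rw [this]
      exact integrable_const _
  refine hdom.mono ?_ (Eventually.of_forall fun p => ?_)
  · apply Measurable.aestronglyMeasurable
    unfold hh
    show Measurable (fun p : ℝ × (Fin 4 → ℝ) => ((L0.ep4 p.2 : ℝ) : ℂ) * ∏ j, f j (L0.yq β N p.1 p.2 j))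
    apply Measurable.mul
    · exact Complex.measurable_ofReal.comp (ep4_meas.comp measurable_snd)
    · exact Finset.measurable_fun_prod _ fun j _ => hmeas j
  · show ‖hh β N f p.1 p.2‖ ≤ _
    unfold hh
    rw [norm_mul, ep4_norm, one_mul, norm_prod, Fin.prod_univ_four, norm_mul, Complex.norm_real,
      Real.norm_of_nonneg (by positivity : (0:ℝ) ≤ B * B * B)]
    have h1 := hB 1 (L0.yq β N p.1 p.2 1)
    have h2 := hB 2 (L0.yq β N p.1 p.2 2)
    have h3 := hB 3 (L0.yq β N p.1 p.2 3)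
    calc _ ≤ ‖f 0 (L0.yq β N p.1 p.2 0)‖ * B * B * B := by gcongr
      _ = _ := by ring

/-- the inner integral on a cell -/
lemma inner_cell {δ : ℝ} (hδ : 0 < δ) {N : ℕ} (hN : 0 < N) (b : ℤ) (f : Fin 4 → ℝ → ℂ)
    (u : Fin 4 → Fin (N + N)) {θ : Fin 4 → ℝ} (hθ : θ ∈ Q) :
    ∫ s : ℝ, hh ((b : ℝ) / 2) (δ * ((N : ℝ) + N)) f s (aff (N + N) u θ) =
      (δ : ℂ) * (((∏ i, hsg N (u i) : ℝ) : ℂ) *
        ∫ s : ℝ, ∏ j, psi δ f θ j (s + (yv N b 0 u j : ℤ))) := by
  unfold hh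
  have h1 : L0.ep4 (aff (N + N) u θ) = ∏ i, hsg N (u i) := by
    unfold L0.ep4
    exact Finset.prod_congr rfl fun i _ => ep_aff hN u hθ i
  rw [h1, integral_const_mul]
  have h2 := Measure.integral_comp_mul_left
    (fun s : ℝ => ∏ j, f j (s + δ * ((yv N b 0 u j : ℤ) + cj θ j))) δ
  have h3 : (fun s : ℝ => ∏ j, f j (δ * s + δ * ((yv N b 0 u j : ℤ) + cj θ j))) =
      fun s => ∏ j, psi δ f θ j (s + (yv N b 0 u j : ℤ)) := by
    funext s
    apply Finset.prod_congr rfl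
    intro j _
    unfold psi
    congr 1
    ring
  rw [h3] at h2
  rw [h2]
  have h4 : (fun s : ℝ => ∏ j, f j (L0.yq ((b : ℝ) / 2) (δ * ((N : ℝ) + N)) s (aff (N + N) u θ) j)) =
      fun s => ∏ j, f j (s + δ * ((yv N b 0 u j : ℤ) + cj θ j)) := by
    funext s
    apply Finset.prod_congr rfl
    intro j _
    rw [yq_aff hN]
  rw [h4, abs_of_pos (by positivity), Complex.real_smul]
  push_cast
  have : (δ : ℂ) ≠ 0 := by exact_mod_cast hδ.ne'
  field_simp

lemma scale_aux {δ : ℝ} (hδ : 0 < δ) {N : ℕ} (hN : 0 < N) (b : ℤ) {f : Fin 4 → ℝ → ℂ} {B : ℝ}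
    (hm : ∀ j, Measurable (f j)) (hi : Integrable (f 0)) (hB : ∀ j y, ‖f j y‖ ≤ B)
    {θ : Fin 4 → ℝ} (hθ : θ ∈ Q) :
    (1 / ((N + N : ℕ) : ℂ) ^ 4) * ∑ u : Fin 4 → Fin (N + N),
        ∫ s : ℝ, hh ((b : ℝ) / 2) (δ * ((N : ℝ) + N)) f s (aff (N + N) u θ) =
      (δ : ℂ) * ∫ s : ℝ, Lr N b (psi δ f θ) s := by
  unfold Lr
  rw [integral_const_mul, integral_finsetSum]
  · simp_rw [inner_cell hδ hN b f _ hθ, integral_const_mul]
    rw [← Finset.mul_sum]
    push_cast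
    ring
  · intro u _
    apply Integrable.const_mul
    exact prod_integrable (psi_measurable hm θ) (psi_integrable hδ hi θ) (fun j y => hB j _) _

/-- one scale -/
theorem scale_eq {δ : ℝ} (hδ : 0 < δ) {N : ℕ} (hN : 0 < N) (b : ℤ) {f : Fin 4 → ℝ → ℂ} {B : ℝ}
    (hm : ∀ j, Measurable (f j)) (hi : Integrable (f 0)) (hB : ∀ j y, ‖f j y‖ ≤ B) :
    (∫ s : ℝ, L0.Lb ((b : ℝ) / 2) (δ * ((N : ℝ) + N)) s f =
      ∫ θ in Q, (δ : ℂ) * ∫ s : ℝ, Lr N b (psi δ f θ) s) ∧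
    IntegrableOn (fun θ => (δ : ℂ) * ∫ s : ℝ, Lr N b (psi δ f θ) s) Q := by
  have hNN : 0 < N + N := by omega
  set β : ℝ := (b : ℝ) / 2 with hβ
  set Nr : ℝ := δ * ((N : ℝ) + N) with hNr
  have hint := hh_integrable β Nr hm hi hB
  have hI : IntegrableOn (fun q => ∫ s : ℝ, hh β Nr f s q) Q := hint.integral_prod_right
  have h1 : ∫ s : ℝ, L0.Lb β Nr s f = ∫ q in Q, ∫ s : ℝ, hh β Nr f s q := by
    rw [← integral_integral_swap hint]
    congr 1
    funext s
    unfold L0.Lb L0.cube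
    rw [← setIntegral_congr_set Q_ae_eq]
    rfl
  have h2 := cube_split hNN hI
  constructor
  · rw [h1, h2]
    apply setIntegral_congr_fun measurableSet_Q
    intro θ hθ
    exact scale_aux hδ hN b hm hi hB hθ
  · have h3 : IntegrableOn (fun θ => (1 / ((N + N : ℕ) : ℂ) ^ 4) * ∑ u : Fin 4 → Fin (N + N),
        ∫ s : ℝ, hh β Nr f s (aff (N + N) u θ)) Q := by
      apply Integrable.const_mul
      apply integrable_finsetSum
      intro u _
      exact cell_integrable hNN u hI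
    refine h3.congr_fun ?_ measurableSet_Q
    intro θ hθ
    exact scale_aux hδ hN b hm hi hB hθ

end Crest.Agent.R079.Riem133
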