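import Crest.Agent.R079.R244Defs_491

/-! R079: the averaged `S₂` hypothesis from loc-`L²` norms (helper491). -/

set_option autoImplicit false

namespace Crest.Agent.R079.R244

open Finset Crest.Agent.R079.Grid Crest.Agent.R079.Pot Crest.Agent.R079.Glue

theorem finsum_le_of_finset {α : Type*} {f : α → ℝ} {B : ℝ} (hB : 0 ≤ B)
    (h : ∀ S : Finset α, ∑ t ∈ S, f t ≤ B) : ∑ᶠ t, f t ≤ B := by
  by_cases hf : (Function.support f).Finite
  · rw [finsum_eq_sum_of_support_subset f (s := hf.toFinset) (by simp)]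
    exact h _
  · rw [finsum_of_infinite_support hf]
    exact hB

/-- injective reindexing of a nonnegative sum supported on `T` -/
theorem sum_inj_le {α β : Type*} [DecidableEq β] (g : β → ℝ) (hg : ∀ z, 0 ≤ g z) (T : Finset β)
    (hT : ∀ z, z ∉ T → g z = 0) (P : Finset α) (φ : α → β) (hφ : Function.Injective φ) :
    ∑ q ∈ P, g (φ q) ≤ ∑ z ∈ T, g z := by
  rw [← Finset.sum_image (f := g) (g := φ) (s := P) (fun a _ b _ hab => hφ hab)]
  rw [← Finset.sum_inter_add_sum_sdiff (P.image φ) T]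
  have h1 : ∑ z ∈ P.image φ \ T, g z = 0 := by
    refine Finset.sum_eq_zero fun z hz => hT z ?_
    exact (Finset.mem_sdiff.1 hz).2
  rw [h1, add_zero]
  exact Finset.sum_le_sum_of_subset_of_nonneg Finset.inter_subset_right fun z _ _ => hg z

theorem sum_res_le (p : ℕ × ℤ) (f : ℤ → ℂ) (α β : ℤ) (hα : α ≠ 0) (W : Finset ℤ) :
    ∑ w ∈ W, ‖res p f (α * w + β)‖ ^ 2 ≤ ∑ y ∈ dI (p.1 + 7) p.2, ‖f y‖ ^ 2 := by
  have h := sum_inj_le (fun y => ‖res p f y‖ ^ 2) (fun y => by positivity) (dI (p.1 + 7) p.2)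
    (fun z hz => by simp [res, hz]) W (fun w => α * w + β)
    (fun x y hxy => by
      have : α * x = α * y := by simpa using hxy
      exact mul_left_cancel₀ hα this)
  refine h.trans (le_of_eq ?_)
  refine Finset.sum_congr rfl fun y hy => ?_
  simp [res, hy]

/-- general form: `frz` kernels, any slots `k ≠ j` -/
theorem e2_frz_sum (p : ℕ × ℤ) (N : ℕ) (hN : 0 < N) (j k e e' : Fin 4) (hjk : sl j - sl k ≠ 0)
    (T T' : Finset ℤ) (a : ℤ → ℤ → ℂ) (f : ℤ → ℂ) (S : Finset (ℤ × ℤ × ℤ)) :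
    ∑ t ∈ S, e2 (frz j k e e' T T' a (res p f) t.1) N t.2.1 t.2.2 ≤
      n2 T T' a * ∑ y ∈ dI (p.1 + 7) p.2, ‖f y‖ ^ 2 := by
  classical
  set X : ℤ → ℤ → ℤ → ℂ := fun w => frz j k e e' T T' a (res p f) w with hX
  set W : Finset ℤ := S.image (fun t => t.1) with hW
  set P : Finset ℤ := S.image (fun t => t.2.1) with hP
  set P' : Finset ℤ := S.image (fun t => t.2.2) with hP'
  have hsub : S ⊆ W ×ˢ (P ×ˢ P') := by
    intro t ht
    rw [Finset.mem_product, Finset.mem_product]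
    exact ⟨Finset.mem_image_of_mem _ ht, Finset.mem_image_of_mem _ ht,
      Finset.mem_image_of_mem _ ht⟩
  have hN' : (0 : ℝ) < (N : ℝ) := by exact_mod_cast hN
  have hnn : ∀ t : ℤ × ℤ × ℤ, 0 ≤ e2 (X t.1) N t.2.1 t.2.2 := fun t => by
    unfold e2; positivity
  have hker : ∀ w : ℤ, ∀ i i' : ℤ, ∑ q ∈ P, ∑ r ∈ P', ‖X w (q + i) (r + i')‖ ^ 2 ≤
      ∑ z ∈ T, ∑ z' ∈ T', ‖X w z z'‖ ^ 2 := by
    intro w i i'
    have h1 : ∀ q ∈ P, ∑ r ∈ P', ‖X w (q + i) (r + i')‖ ^ 2 ≤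
        ∑ z' ∈ T', ‖X w (q + i) z'‖ ^ 2 := fun q _ =>
      sum_inj_le (fun z' => ‖X w (q + i) z'‖ ^ 2) (fun z' => by positivity) T'
        (fun z' hz' => by simp [hX, frz, hz']) P' (fun r => r + i')
        (fun x y hxy => by simpa using hxy)
    refine (Finset.sum_le_sum h1).trans ?_
    exact sum_inj_le (fun z => ∑ z' ∈ T', ‖X w z z'‖ ^ 2) (fun z => by positivity) T
      (fun z hz => by simp [hX, frz, hz]) P (fun q => q + i)
      (fun x y hxy => by simpa using hxy)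
  calc ∑ t ∈ S, e2 (X t.1) N t.2.1 t.2.2
      ≤ ∑ t ∈ W ×ˢ (P ×ˢ P'), e2 (X t.1) N t.2.1 t.2.2 :=
        Finset.sum_le_sum_of_subset_of_nonneg hsub fun t _ _ => hnn t
    _ = ∑ w ∈ W, ∑ q ∈ P, ∑ r ∈ P', e2 (X w) N q r := by
        rw [Finset.sum_product]
        refine Finset.sum_congr rfl fun w _ => ?_
        rw [Finset.sum_product]
    _ = ∑ w ∈ W, (1 / (N : ℝ) ^ 2) * ∑ i ∈ range N, ∑ i' ∈ range N,
          ∑ q ∈ P, ∑ r ∈ P', ‖X w (q + (i : ℤ)) (r + (i' : ℤ))‖ ^ 2 := by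
        refine Finset.sum_congr rfl fun w _ => ?_
        unfold e2
        simp only [← Finset.mul_sum]
        congr 1
        have s1 : ∀ q ∈ P, ∑ r ∈ P', ∑ i ∈ range N, ∑ i' ∈ range N,
            ‖X w (q + (i : ℤ)) (r + (i' : ℤ))‖ ^ 2 =
            ∑ i ∈ range N, ∑ i' ∈ range N, ∑ r ∈ P', ‖X w (q + (i : ℤ)) (r + (i' : ℤ))‖ ^ 2 := by
          intro q _
          rw [Finset.sum_comm]
          refine Finset.sum_congr rfl fun i _ => ?_
          rw [Finset.sum_comm]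
        rw [Finset.sum_congr rfl s1, Finset.sum_comm]
        refine Finset.sum_congr rfl fun i _ => ?_
        rw [Finset.sum_comm]
    _ ≤ ∑ w ∈ W, ∑ z ∈ T, ∑ z' ∈ T', ‖X w z z'‖ ^ 2 := by
        refine Finset.sum_le_sum fun w _ => ?_
        have h2 : ∑ i ∈ range N, ∑ i' ∈ range N,
            ∑ q ∈ P, ∑ r ∈ P', ‖X w (q + (i : ℤ)) (r + (i' : ℤ))‖ ^ 2 ≤
            ∑ _i ∈ range N, ∑ _i' ∈ range N, ∑ z ∈ T, ∑ z' ∈ T', ‖X w z z'‖ ^ 2 :=
          Finset.sum_le_sum fun i _ => Finset.sum_le_sum fun i' _ => hker w i i'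
        rw [Finset.sum_const, Finset.sum_const, Finset.card_range, nsmul_eq_mul,
          nsmul_eq_mul] at h2
        have h3 := mul_le_mul_of_nonneg_left h2 (by positivity : (0 : ℝ) ≤ 1 / (N : ℝ) ^ 2)
        refine h3.trans (le_of_eq ?_)
        field_simp
    _ = ∑ z ∈ T, ∑ z' ∈ T', ‖a z z'‖ ^ 2 * ∑ w ∈ W,
          ‖res p f ((sl j - sl k) * w + ((sl e - sl k) * z + (sl e' - sl k) * z'))‖ ^ 2 := by
        rw [Finset.sum_comm]
        refine Finset.sum_congr rfl fun z hz => ?_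
        rw [Finset.sum_comm]
        refine Finset.sum_congr rfl fun z' hz' => ?_
        rw [Finset.mul_sum]
        refine Finset.sum_congr rfl fun w _ => ?_
        simp only [hX, frz, hz, hz', and_self, if_true, norm_mul, mul_pow]
        rw [add_assoc]
    _ ≤ ∑ z ∈ T, ∑ z' ∈ T', ‖a z z'‖ ^ 2 * ∑ y ∈ dI (p.1 + 7) p.2, ‖f y‖ ^ 2 :=
        Finset.sum_le_sum fun z _ => Finset.sum_le_sum fun z' _ =>
          mul_le_mul_of_nonneg_left (sum_res_le p f _ _ hjk W) (by positivity)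
    _ = n2 T T' a * ∑ y ∈ dI (p.1 + 7) p.2, ‖f y‖ ^ 2 := by
        unfold n2
        rw [Finset.sum_mul]
        refine Finset.sum_congr rfl fun z _ => ?_
        rw [Finset.sum_mul]

theorem av2_sq_sum {k : ℕ} {l : ℤ} {f : ℤ → ℂ} (h : av2 k l f ≤ 1) :
    ∑ y ∈ dI k l, ‖f y‖ ^ 2 ≤ 2 ^ k := by
  unfold av2 at h
  have h0 : 0 ≤ (1 / (2 : ℝ) ^ k) * ∑ y ∈ dI k l, ‖f y‖ ^ 2 := by positivity
  rw [Real.sqrt_le_left zero_le_one, one_pow] at h
  have hk : (0 : ℝ) < 2 ^ k := by positivity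
  rw [one_div, inv_mul_le_iff₀ hk, mul_one] at h
  exact h

theorem sl_ne {j k : Fin 4} (h : j ≠ k) : sl j - sl k ≠ 0 := by
  revert j k
  decide

theorem s2At_frz (R : Finset (ℕ × ℤ)) (κ : ℕ) (j k e e' : Fin 4) (hjk : j ≠ k)
    (T T' : Finset ℤ) (a : ℤ → ℤ → ℂ) (f : ℤ → ℂ) (V : ℝ)
    (hf : ∀ p ∈ R, av2 (p.1 + 7) p.2 f ≤ 1) (hV : n2 T T' a ≤ V) :
    S2At R κ V (fun F w => frz j k e e' T T' a F w) f := by
  intro p hp s _
  have hn : 0 ≤ n2 T T' a := by unfold n2; positivity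
  refine finsum_le_of_finset (mul_nonneg (by positivity) (hn.trans hV)) fun S => ?_
  refine (e2_frz_sum p (2 ^ (p.1 + s)) (by positivity) j k e e' (sl_ne hjk) T T' a f S).trans ?_
  rw [mul_comm]
  exact mul_le_mul (av2_sq_sum (hf p hp)) hV hn (by positivity)

theorem s2AtOf : S2AtOf :=
  ⟨1, zero_le_one, fun κ R j T a f V hf hV =>
    s2At_frz R κ j (j.succAbove 2) (j.succAbove 0) (j.succAbove 1)
      (Fin.succAbove_ne j 2).symm (T 0) (T 1) a f V hf (by rwa [one_mul] at hV)⟩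

end Crest.Agent.R079.R244
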