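import Crest.Agent.R079.PathSum_815
import Crest.Agent.R079.R244Defs_491

/-! R079, Tri24 (helper815): the literal `R244.Tri24` from `Pot.tri244`. -/

set_option autoImplicit false
set_option linter.unusedSectionVars false
set_option linter.unusedVariables false

namespace Crest.Agent.R079.R244

open Finset Crest.Agent.R079.Grid Crest.Agent.R079.Pot Crest.Agent.R079.Glue

section

variable {Q : ℕ} [NeZero Q]

theorem e4r_eq (X : ZMod Q → ZMod Q → ℝ) (N : ℕ) (q p : ZMod Q) : e4r X N q p = q4 X N q p := by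
  rw [q4_eq]
  unfold e4r
  congr 1
  rw [div_pow, one_pow]
  ring

theorem e4r_nonneg (X : ZMod Q → ZMod Q → ℝ) (N : ℕ) (q p : ZMod Q) : 0 ≤ e4r X N q p := by
  rw [e4r_eq]; exact q4_nonneg _ _ _ _

theorem q4_le_bx_sq (X : ZMod Q → ZMod Q → ℝ) (N : ℕ) (q p : ZMod Q) :
    q4 X N q p ≤ bx X N q p ^ 2 := by
  have h := trace_sq_le (abar_psd X N N q p)
  rwa [trace_abar] at h

theorem e4r_le_bx_sq (X : ZMod Q → ZMod Q → ℝ) (N : ℕ) (q p : ZMod Q) :
    e4r X N q p ≤ bx X N q p ^ 2 := by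
  rw [e4r_eq]; exact q4_le_bx_sq _ _ _ _

theorem g2_nonneg {s h : ℝ} (hs : 0 ≤ s) (hh : 0 ≤ h) (X : ZMod Q → ZMod Q → ℝ) (N : ℕ)
    (q p : ZMod Q) : 0 ≤ g2 s h X N q p := by
  unfold g2
  have := bx_nonneg X N q p
  positivity

theorem g4_nonneg {s : ℝ} (hs : 0 ≤ s) (X : ZMod Q → ZMod Q → ℝ) (N : ℕ)
    (q p : ZMod Q) : 0 ≤ g4 s X N q p := by
  unfold g4
  have := bx_nonneg X N q p
  have := e4r_nonneg X N q p
  positivity

theorem VS_le {SA SB SC : ℝ → ℝ → ℝ} {s h L : ℝ}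
    (hA : ∀ (X : ZMod Q → ZMod Q → ℝ) (N : ℕ) (q p : ZMod Q),
      SA (bx X N q p) (q4 X N q p) ≤ L * g2 s h X N q p)
    (hB : ∀ (X : ZMod Q → ZMod Q → ℝ) (N : ℕ) (q p : ZMod Q),
      SB (bx X N q p) (q4 X N q p) ≤ L * g4 s X N q p)
    (hC : ∀ (X : ZMod Q → ZMod Q → ℝ) (N : ℕ) (q p : ZMod Q),
      SC (bx X N q p) (q4 X N q p) ≤ L * g4 s X N q p)
    (A B C A' B' C' : ZMod Q → ZMod Q → ℝ) (N : ℕ) :
    VS SA SB SC A B C A' B' C' N ≤ L * V24 s h A B C A' B' C' N := by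
  classical
  unfold VS V24
  rw [mul_left_comm]
  refine mul_le_mul_of_nonneg_left ?_ (by positivity)
  rw [Finset.mul_sum]
  refine Finset.sum_le_sum fun i _ => ?_
  rw [Finset.mul_sum]
  refine Finset.sum_le_sum fun p0 _ => ?_
  rw [Finset.mul_sum]
  refine Finset.sum_le_sum fun p1 _ => ?_
  rw [mul_ite, mul_zero]
  split_ifs
  · rw [mul_add, mul_add]
    exact add_le_add (add_le_add (hA _ _ _ _) (hB _ _ _ _)) (hC _ _ _ _)
  · exact le_refl _

theorem ES_le {S : ℝ → ℝ → ℝ} {L : ℝ} {g : (ZMod Q → ZMod Q → ℝ) → ℕ → ZMod Q → ZMod Q → ℝ}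
    (hS : ∀ (X : ZMod Q → ZMod Q → ℝ) (N : ℕ) (q p : ZMod Q),
      S (bx X N q p) (q4 X N q p) ≤ L * g X N q p)
    (A A' : ZMod Q → ZMod Q → ℝ) (N : ℕ) : ES S A A' N ≤ L * E24 g A A' N := by
  classical
  unfold ES E24
  rw [Finset.mul_sum]
  refine Finset.sum_le_sum fun q _ => ?_
  rw [Finset.mul_sum]
  refine Finset.sum_le_sum fun p _ => ?_
  rw [mul_ite, mul_zero]
  split_ifs
  · exact hS _ _ _ _
  · exact le_refl _

end

/-- scalar parameters -/
theorem dyadic_params {s H : ℝ} (hs : 0 < s) (hs1 : s ≤ 1) (hH : 1 ≤ H) :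
    ∃ n a : ℕ, ((2 : ℝ) ^ n)⁻¹ ≤ s ∧ (2 : ℝ) ^ n ≤ 2 * s⁻¹ ∧ ((4 : ℝ) ^ a)⁻¹ ≤ (H ^ 2)⁻¹ ∧
      (n : ℝ) + a + 2 ≤ 4 * (1 + Real.log (H / s)) := by
  obtain ⟨n, hn1, hn2, hn3⟩ := exists_dyadic hs hs1
  obtain ⟨a, ha1, ha2⟩ := exists_dyadic_H hH
  have hH0 : 0 < H := by linarith
  refine ⟨n, a, hn1, ?_, ?_, ?_⟩
  · have h2 : (0 : ℝ) < 2 ^ n := by positivity
    have h3 : s * 2 ^ n ≤ 2 := by
      have := mul_le_mul_of_nonneg_right hn2 h2.le
      rwa [mul_assoc, inv_mul_cancel₀ h2.ne', mul_one] at this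
    rw [← div_eq_mul_inv, le_div_iff₀ hs]
    linarith
  · refine inv_anti₀ (by positivity) ?_
    rw [four_pow' a, sq]
    exact mul_le_mul ha1 ha1 hH0.le (by positivity)
  · have hl2 : (1 / 2 : ℝ) ≤ Real.log 2 := by
      have := Real.log_two_gt_d9
      linarith
    have hl : Real.logb 2 (1 / s) + Real.logb 2 H = Real.log (H / s) / Real.log 2 := by
      rw [← Real.logb_mul (by positivity) (by positivity), Real.logb]
      congr 2
      field_simp
    have hlog : 0 ≤ Real.log (H / s) := Real.log_nonneg (by rw [le_div_iff₀ hs]; linarith)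
    have h4 : Real.log (H / s) / Real.log 2 ≤ 2 * Real.log (H / s) := by
      rw [div_le_iff₀ (by linarith)]
      nlinarith
    linarith

/-- **(Tri24)** -/
theorem tri24 : Tri24 := by
  refine ⟨76800 * 128 * 8, by norm_num, 6, ?_⟩
  intro s hs hs1 H hH l hl Q _ A B C hA hB hC M
  obtain ⟨n, a, h1, h2, h3, h4⟩ := dyadic_params hs hs1 hH
  have hlog : 0 ≤ Real.log (H / s) := Real.log_nonneg (by rw [le_div_iff₀ hs]; linarith)
  set L : ℝ := 8 * (1 + Real.log (H / s)) with hL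
  have hL0 : 0 ≤ L := by positivity
  have hn0 : (0 : ℝ) ≤ n := Nat.cast_nonneg n
  have ha0 : (0 : ℝ) ≤ a := Nat.cast_nonneg a
  have hsA : ∀ (X : ZMod Q → ZMod Q → ℝ) (N : ℕ) (q p : ZMod Q),
      sA n a (bx X N q p) (q4 X N q p) ≤ L * g2 s (H ^ 2)⁻¹ X N q p := by
    intro X N q p
    have hb := bx_nonneg X N q p
    have hq := q4_nonneg X N q p
    have hq2 := q4_le_bx_sq X N q p
    have e1 : ((4 : ℝ) ^ a)⁻¹ * q4 X N q p ≤ (H ^ 2)⁻¹ * bx X N q p ^ 2 :=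
      mul_le_mul h3 hq2 hq (by positivity)
    have e0 : 0 ≤ (H ^ 2)⁻¹ * bx X N q p ^ 2 := by positivity
    unfold sA g2
    calc ((2 : ℝ) ^ n)⁻¹ * (2 * (((4 : ℝ) ^ a)⁻¹ * q4 X N q p) + (n + a + 1) * bx X N q p)
        ≤ s * (2 * ((H ^ 2)⁻¹ * bx X N q p ^ 2) + (4 * (1 + Real.log (H / s))) * bx X N q p) := by
          refine mul_le_mul h1 ?_ (by positivity) hs.le
          have e2 : ((n : ℝ) + a + 1) * bx X N q p ≤
              (4 * (1 + Real.log (H / s))) * bx X N q p :=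
            mul_le_mul_of_nonneg_right (by linarith) hb
          linarith
      _ ≤ L * (s * (bx X N q p + (H ^ 2)⁻¹ * bx X N q p ^ 2)) := by
          rw [mul_left_comm L s]
          refine mul_le_mul_of_nonneg_left ?_ hs.le
          have e3 : 2 * ((H ^ 2)⁻¹ * bx X N q p ^ 2) ≤ L * ((H ^ 2)⁻¹ * bx X N q p ^ 2) :=
            mul_le_mul_of_nonneg_right (by rw [hL]; linarith) e0
          have e4 : (4 * (1 + Real.log (H / s))) * bx X N q p ≤ L * bx X N q p :=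
            mul_le_mul_of_nonneg_right (by rw [hL]; linarith) hb
          rw [mul_add]
          linarith
  have hsB : ∀ (X : ZMod Q → ZMod Q → ℝ) (N : ℕ) (q p : ZMod Q),
      sB n a (bx X N q p) (q4 X N q p) ≤ L * g4 s X N q p := by
    intro X N q p
    have hb := bx_nonneg X N q p
    have hq := q4_nonneg X N q p
    have hn2 : (0 : ℝ) < 2 ^ n := by positivity
    unfold sB g4
    rw [e4r_eq, four_pow' n]
    have e : ((2 : ℝ) ^ n)⁻¹ * (bx X N q p + (n + a + 2) * (2 ^ n * 2 ^ n * q4 X N q p)) =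
        (2 ^ n)⁻¹ * bx X N q p + (n + a + 2) * (2 ^ n * q4 X N q p) := by
      field_simp
    rw [e, mul_add]
    refine add_le_add ?_ ?_
    · calc ((2 : ℝ) ^ n)⁻¹ * bx X N q p ≤ s * bx X N q p := mul_le_mul_of_nonneg_right h1 hb
        _ ≤ L * (s * bx X N q p) := by
          refine le_mul_of_one_le_left (by positivity) ?_
          rw [hL]
          linarith
    · calc ((n : ℝ) + a + 2) * (2 ^ n * q4 X N q p)
          ≤ (4 * (1 + Real.log (H / s))) * (2 * s⁻¹ * q4 X N q p) :=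
            mul_le_mul h4 (mul_le_mul_of_nonneg_right h2 hq) (by positivity) (by positivity)
        _ = L * (s⁻¹ * q4 X N q p) := by rw [hL]; ring
  have h := tri244 n a l hl Q A B C hA hB hC M
  refine h.trans ?_
  have e : (76800 * 128 * 8 : ℝ) * (1 + Real.log (H / s)) = 76800 * 128 * L := by rw [hL]; ring
  rw [e, mul_assoc (76800 * 128 : ℝ) L]
  refine mul_le_mul_of_nonneg_left ?_ (by norm_num)
  rw [Finset.mul_sum]
  refine Finset.sum_le_sum fun m _ => ?_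
  rw [mul_add, Finset.mul_sum]
  refine add_le_add (VS_le hsA hsB hsB _ _ _ _ _ _ _) (Finset.sum_le_sum fun k _ => ?_)
  rw [mul_add, mul_add]
  exact add_le_add (add_le_add (ES_le hsA _ _ _) (ES_le hsB _ _ _)) (ES_le hsB _ _ _)

end Crest.Agent.R079.R244
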