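import Crest.Agent.R079.PathBox_378
import Crest.Agent.R079.PotMask_491

/-! R079, TRI (helper378): the sum over the scales of the triangular box forms, with scale
dependent functions (masks): path identity `Lbox_path` + `mask_sum` (PL2) + `touchV/touchE` (PL3).

`tri_path`: arbitrary `PathSeq`, abstract budgets for the boxes which see a change.  -/

set_option autoImplicit false
set_option linter.unusedSectionVars false
set_option linter.unusedVariables false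

namespace Crest.Agent.R079.Pot

open Matrix Finset Filter Topology Crest.Agent.R072 Crest.Agent.R072.Lattice Crest.Agent.R079.LD
  Crest.Agent.R079.Path Crest.Agent.R072.Nd
open scoped MatrixOrder

variable {Q : ℕ} [NeZero Q]

/-- scaled function -/
def sc (c : ℝ) (F : ZMod Q → ZMod Q → ℝ) : ZMod Q → ZMod Q → ℝ := fun u v => c * F u v

/-- transposed function -/
def tr (F : ZMod Q → ZMod Q → ℝ) : ZMod Q → ZMod Q → ℝ := fun u v => F v u

theorem sees_sc {c : ℝ} {X X' : ZMod Q → ZMod Q → ℝ} {a : ℕ} {q p : ZMod Q}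
    (h : Sees (sc c X) (sc c X') a q p) : Sees X X' a q p := by
  obtain ⟨i, j, hi, hj, hne⟩ := h
  refine ⟨i, j, hi, hj, fun h => hne ?_⟩
  unfold sc
  rw [h]

theorem sees_tr {X X' : ZMod Q → ZMod Q → ℝ} {a : ℕ} {q p : ZMod Q}
    (h : Sees (tr X) (tr X') a q p) : Sees X X' a p q := by
  obtain ⟨i, j, hi, hj, hne⟩ := h
  exact ⟨j, i, hj, hi, hne⟩

theorem abar_sc {x : ℝ} (hx : 0 ≤ x) (X : ZMod Q → ZMod Q → ℝ) (a r : ℕ) (q p : ZMod Q) :
    abar (sc √x X) a r q p = x • abar X a r q p := (smul_abar hx X a r q p).symm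

theorem bl_mono {f g : ZMod Q → ℝ} (h : ∀ n, f n ≤ g n) (N : ℕ) (l : ℤ) : bl f N l ≤ bl g N l :=
  mul_le_mul_of_nonneg_left (Finset.sum_le_sum fun _ _ => h _) (by positivity)

theorem bl_add (f g : ZMod Q → ℝ) (N : ℕ) (l : ℤ) :
    bl (fun n => f n + g n) N l = bl f N l + bl g N l := by
  unfold bl
  rw [Finset.sum_add_distrib, mul_add]

theorem bl_sum {ι : Type*} (s : Finset ι) (f : ι → ZMod Q → ℝ) (N : ℕ) (l : ℤ) :
    bl (fun n => ∑ j ∈ s, f j n) N l = ∑ j ∈ s, bl (f j) N l := by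
  unfold bl
  rw [Finset.sum_comm, Finset.mul_sum]

theorem bl_const_mul (c : ℝ) (f : ZMod Q → ℝ) (N : ℕ) (l : ℤ) :
    bl (fun n => c * f n) N l = c * bl f N l := by
  unfold bl
  rw [← Finset.mul_sum]
  ring

/-- reindexing `p0 ↦ p2 = n - p0 - p1` -/
theorem sum_third (n : ZMod Q) (g : ZMod Q → ZMod Q → ZMod Q → ℝ) :
    ∑ p0 : ZMod Q, ∑ p1 : ZMod Q, g p0 p1 (n - p0 - p1) =
      ∑ p2 : ZMod Q, ∑ p1 : ZMod Q, g (n - p2 - p1) p1 p2 := by
  rw [Finset.sum_comm]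
  rw [Finset.sum_comm (s := (Finset.univ : Finset (ZMod Q))) (t := (Finset.univ : Finset (ZMod Q)))
    (f := fun p2 p1 => g (n - p2 - p1) p1 p2)]
  refine Finset.sum_congr rfl fun p1 _ => ?_
  refine Fintype.sum_equiv ((Equiv.subLeft n).trans (Equiv.subRight p1)) _ _ fun p0 => ?_
  simp only [Equiv.trans_apply, Equiv.subLeft_apply, Equiv.subRight_apply]
  have : n - (n - p0 - p1) - p1 = p0 := by ring
  rw [this]

theorem sum_gams_eq (F0 F1 F2 : ZMod Q → ZMod Q → ℝ) (N : ℕ) (n : ZMod Q) {x y z : ℝ}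
    (hx : 0 ≤ x) (hy : 0 ≤ y) (hz : 0 ≤ z) :
    ∑ p0 : ZMod Q, ∑ p1 : ZMod Q, gams F0 F1 F2 N p0 p1 (n - p0 - p1) x y z =
      GW (potLD 1) (sc √x (tr F0)) (sc √z F2) N n +
      GW (potLD 1) (sc √x F0) (sc √y (tr F1)) N n +
      GW (potLD 1) (sc √y F1) (sc √z (tr F2)) N n := by
  have h1 : GW (potLD 1) (sc √x (tr F0)) (sc √z F2) N n = ∑ p0 : ZMod Q, ∑ p1 : ZMod Q,
      gam (potLD 1).F N (x • abar (fun u v => F0 v u) (N + N) (N + N) p1 p0 +
        z • abar F2 (N + N) (N + N) (n - p0 - p1) p0) := by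
    unfold GW
    refine Finset.sum_congr rfl fun p _ => Finset.sum_congr rfl fun q _ => ?_
    rw [abar_sc hx, abar_sc hz]
    rfl
  have h2 : GW (potLD 1) (sc √x F0) (sc √y (tr F1)) N n = ∑ p0 : ZMod Q, ∑ p1 : ZMod Q,
      gam (potLD 1).F N (y • abar (fun u v => F1 v u) (N + N) (N + N) (n - p0 - p1) p1 +
        x • abar F0 (N + N) (N + N) p0 p1) := by
    unfold GW
    rw [Finset.sum_comm]
    refine Finset.sum_congr rfl fun q _ => Finset.sum_congr rfl fun p _ => ?_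
    rw [abar_sc hx, abar_sc hy, add_comm, show n - p - q = n - q - p by ring]
    rfl
  have h3 : GW (potLD 1) (sc √y F1) (sc √z (tr F2)) N n = ∑ p0 : ZMod Q, ∑ p1 : ZMod Q,
      gam (potLD 1).F N (z • abar (fun u v => F2 v u) (N + N) (N + N) p0 (n - p0 - p1) +
        y • abar F1 (N + N) (N + N) p1 (n - p0 - p1)) := by
    rw [sum_third n (fun p0 p1 p2 => gam (potLD 1).F N
      (z • abar (fun u v => F2 v u) (N + N) (N + N) p0 p2 +
        y • abar F1 (N + N) (N + N) p1 p2))]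
    unfold GW
    refine Finset.sum_congr rfl fun p _ => Finset.sum_congr rfl fun q _ => ?_
    rw [abar_sc hy, abar_sc hz, add_comm]
    rfl
  rw [h1, h2, h3, ← Finset.sum_add_distrib, ← Finset.sum_add_distrib]
  refine Finset.sum_congr rfl fun p0 _ => ?_
  rw [← Finset.sum_add_distrib, ← Finset.sum_add_distrib]
  rfl

/-- joint potentials of a box of side `N` at parameters `x, y, z` -/
noncomputable def JV (F0 F1 F2 : ZMod Q → ZMod Q → ℝ) (N : ℕ) (p0 p1 p2 : ZMod Q)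
    (x y z : ℝ) : ℝ :=
  LD 1 (x • abar (tr F0) N N p1 p0 + z • abar F2 N N p2 p0) +
  LD 1 (x • abar F0 N N p0 p1 + y • abar (tr F1) N N p2 p1) +
  LD 1 (y • abar F1 N N p1 p2 + z • abar (tr F2) N N p0 p2)

/-- own potentials of a box of side `a` at parameter `x` -/
noncomputable def JE (F : ZMod Q → ZMod Q → ℝ) (a : ℕ) (q p : ZMod Q) (x : ℝ) : ℝ :=
  LD (1 / 2) (x • abar F a a q p) + LD (1 / 2) (x • abar (tr F) a a p q)

/-- the box `(p0,p1,p2)` of side `N` sees a change -/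
def Any3 (A A' B B' C C' : ZMod Q → ZMod Q → ℝ) (N : ℕ) (p0 p1 p2 : ZMod Q) : Prop :=
  Sees A A' N p0 p1 ∨ Sees B B' N p1 p2 ∨ Sees C C' N p2 p0

theorem abar_psd (X : ZMod Q → ZMod Q → ℝ) (a r : ℕ) (q p : ZMod Q) :
    (abar X a r q p).PosSemidef := abar_posSemidef _ _ _ _ _

open Classical in
/-- change of the reference potentials of the three vertices -/
theorem vb_change (A A' B B' C C' : ZMod Q → ZMod Q → ℝ) {N : ℕ} (hN : 0 < N) {x y z : ℝ}
    (hx : 0 ≤ x) (hy : 0 ≤ y) (hz : 0 ≤ z) :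
    (Vb (potLD 1) (sc √x (tr A)) (sc √z C) N - Vb (potLD 1) (sc √x (tr A')) (sc √z C') N) +
    (Vb (potLD 1) (sc √x A) (sc √y (tr B)) N - Vb (potLD 1) (sc √x A') (sc √y (tr B')) N) +
    (Vb (potLD 1) (sc √y B) (sc √z (tr C)) N - Vb (potLD 1) (sc √y B') (sc √z (tr C')) N) ≤
    bl (fun n => ∑ p0 : ZMod Q, ∑ p1 : ZMod Q,
      if Any3 A A' B B' C C' N p0 p1 (n - p0 - p1) then
        JV A B C N p0 p1 (n - p0 - p1) x y z else 0) N (-2) := by
  have h1 := touchV (potLD 1) 1 (instLD one_pos) Q (sc √x (tr A)) (sc √z C) (sc √x (tr A'))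
    (sc √z C') N hN
    (fun n => Finset.univ.filter fun w => Any3 A A' B B' C C' N w.2 w.1 (n - w.2 - w.1)) (by
      intro n p q h
      rw [Finset.mem_filter]
      refine ⟨Finset.mem_univ _, ?_⟩
      rcases h with h | h
      · exact Or.inl (sees_tr (sees_sc h))
      · exact Or.inr (Or.inr (sees_sc h)))
  have h2 := touchV (potLD 1) 1 (instLD one_pos) Q (sc √x A) (sc √y (tr B)) (sc √x A')
    (sc √y (tr B')) N hN
    (fun n => Finset.univ.filter fun w => Any3 A A' B B' C C' N w.1 w.2 (n - w.2 - w.1)) (by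
      intro n p q h
      rw [Finset.mem_filter]
      refine ⟨Finset.mem_univ _, ?_⟩
      rcases h with h | h
      · exact Or.inl (sees_sc h)
      · exact Or.inr (Or.inl (sees_tr (sees_sc h))))
  have h3 := touchV (potLD 1) 1 (instLD one_pos) Q (sc √y B) (sc √z (tr C)) (sc √y B')
    (sc √z (tr C')) N hN
    (fun n => Finset.univ.filter fun w => Any3 A A' B B' C C' N (n - w.2 - w.1) w.1 w.2) (by
      intro n p q h
      rw [Finset.mem_filter]
      refine ⟨Finset.mem_univ _, ?_⟩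
      rcases h with h | h
      · exact Or.inr (Or.inl (sees_sc h))
      · exact Or.inr (Or.inr (sees_tr (sees_sc h))))
  refine (add_le_add (add_le_add h1 h2) h3).trans (le_of_eq ?_)
  rw [← bl_add, ← bl_add]
  congr 1
  funext n
  have e1 : ∑ w ∈ (Finset.univ.filter fun w : ZMod Q × ZMod Q =>
        Any3 A A' B B' C C' N w.2 w.1 (n - w.2 - w.1)),
      (potLD 1).F N (abar (sc √x (tr A)) N N w.1 w.2 + abar (sc √z C) N N (n - w.2 - w.1) w.2) =
      ∑ p0 : ZMod Q, ∑ p1 : ZMod Q, if Any3 A A' B B' C C' N p0 p1 (n - p0 - p1) then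
        LD 1 (x • abar (tr A) N N p1 p0 + z • abar C N N (n - p0 - p1) p0) else 0 := by
    rw [Finset.sum_filter, Fintype.sum_prod_type, Finset.sum_comm]
    refine Finset.sum_congr rfl fun p0 _ => Finset.sum_congr rfl fun p1 _ => ?_
    simp only [abar_sc hx, abar_sc hz]
    rfl
  have e2 : ∑ w ∈ (Finset.univ.filter fun w : ZMod Q × ZMod Q =>
        Any3 A A' B B' C C' N w.1 w.2 (n - w.2 - w.1)),
      (potLD 1).F N (abar (sc √x A) N N w.1 w.2 + abar (sc √y (tr B)) N N (n - w.2 - w.1) w.2) =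
      ∑ p0 : ZMod Q, ∑ p1 : ZMod Q, if Any3 A A' B B' C C' N p0 p1 (n - p0 - p1) then
        LD 1 (x • abar A N N p0 p1 + y • abar (tr B) N N (n - p0 - p1) p1) else 0 := by
    rw [Finset.sum_filter, Fintype.sum_prod_type]
    refine Finset.sum_congr rfl fun p0 _ => Finset.sum_congr rfl fun p1 _ => ?_
    simp only [abar_sc hx, abar_sc hy]
    rw [show n - p1 - p0 = n - p0 - p1 by ring]
    rfl
  have e3 : ∑ w ∈ (Finset.univ.filter fun w : ZMod Q × ZMod Q =>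
        Any3 A A' B B' C C' N (n - w.2 - w.1) w.1 w.2),
      (potLD 1).F N (abar (sc √y B) N N w.1 w.2 + abar (sc √z (tr C)) N N (n - w.2 - w.1) w.2) =
      ∑ p0 : ZMod Q, ∑ p1 : ZMod Q, if Any3 A A' B B' C C' N p0 p1 (n - p0 - p1) then
        LD 1 (y • abar B N N p1 (n - p0 - p1) + z • abar (tr C) N N p0 (n - p0 - p1)) else 0 := by
    rw [sum_third n (fun p0 p1 p2 => if Any3 A A' B B' C C' N p0 p1 p2 then
        LD 1 (y • abar B N N p1 p2 + z • abar (tr C) N N p0 p2) else 0)]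
    rw [Finset.sum_filter, Fintype.sum_prod_type, Finset.sum_comm]
    refine Finset.sum_congr rfl fun p2 _ => Finset.sum_congr rfl fun p1 _ => ?_
    simp only [abar_sc hy, abar_sc hz]
    rfl
  rw [e1, e2, e3, ← Finset.sum_add_distrib, ← Finset.sum_add_distrib]
  refine Finset.sum_congr rfl fun p0 _ => ?_
  rw [← Finset.sum_add_distrib, ← Finset.sum_add_distrib]
  refine Finset.sum_congr rfl fun p1 _ => ?_
  by_cases h : Any3 A A' B B' C C' N p0 p1 (n - p0 - p1)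
  · simp only [h, if_true]
    rfl
  · simp only [h, if_false, add_zero]

open Classical in
/-- change of the own potentials of one function -/
theorem ew_change (A A' : ZMod Q → ZMod Q → ℝ) (a : ℕ) {x : ℝ} (hx : 0 ≤ x) :
    (EW (potLD 1) (sc √x (tr A)) a a - EW (potLD 1) (sc √x (tr A')) a a) +
    (EW (potLD 1) (sc √x A) a a - EW (potLD 1) (sc √x A') a a) ≤
    ∑ q : ZMod Q, ∑ p : ZMod Q, if Sees A A' a q p then JE A a q p x else 0 := by
  have h1 := touchE (potLD 1) 1 (instLD one_pos) Q (sc √x (tr A)) (sc √x (tr A')) a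
    (Finset.univ.filter fun w => Sees A A' a w.2 w.1) (by
      intro p q h
      rw [Finset.mem_filter]
      exact ⟨Finset.mem_univ _, sees_tr (sees_sc h)⟩)
  have h2 := touchE (potLD 1) 1 (instLD one_pos) Q (sc √x A) (sc √x A') a
    (Finset.univ.filter fun w => Sees A A' a w.1 w.2) (by
      intro p q h
      rw [Finset.mem_filter]
      exact ⟨Finset.mem_univ _, sees_sc h⟩)
  refine (add_le_add h1 h2).trans (le_of_eq ?_)
  rw [Finset.sum_filter, Finset.sum_filter, Fintype.sum_prod_type, Fintype.sum_prod_type,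
    Finset.sum_comm, ← Finset.sum_add_distrib]
  refine Finset.sum_congr rfl fun q _ => ?_
  rw [← Finset.sum_add_distrib]
  refine Finset.sum_congr rfl fun p _ => ?_
  by_cases h : Sees A A' a q p
  · simp only [h, if_true, abar_sc hx]
    unfold JE
    rw [add_comm]
    rfl
  · simp only [h, if_false, add_zero]

theorem LD_zero (t : ℝ) {n : Type*} [Fintype n] [DecidableEq n] :
    LD t (0 : Matrix n n ℝ) = 0 := by
  unfold LD LD1
  simp

theorem abar_zero (a r : ℕ) (q p : ZMod Q) :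
    abar (fun _ _ => 0 : ZMod Q → ZMod Q → ℝ) a r q p = 0 := by
  ext j j'
  simp [abar]

theorem Vb_zero (N : ℕ) :
    Vb (potLD 1) (fun _ _ => 0 : ZMod Q → ZMod Q → ℝ) (fun _ _ => 0) N = 0 := by
  unfold Vb bl W
  simp [abar_zero, potLD, LD_zero]

theorem EE_zero (N : ℕ) :
    EE (potLD 1) (fun _ _ => 0 : ZMod Q → ZMod Q → ℝ) (fun _ _ => 0) N = 0 := by
  unfold EE EW
  simp [abar_zero, potLD, LD_zero]

theorem sc_zero (c : ℝ) {X : ZMod Q → ZMod Q → ℝ} (h : X = fun _ _ => 0) :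
    sc c X = fun _ _ => 0 := by
  unfold sc
  rw [h]
  simp

theorem tr_zero {X : ZMod Q → ZMod Q → ℝ} (h : X = fun _ _ => 0) :
    tr X = fun _ _ => 0 := by
  unfold tr
  rw [h]

open Classical in
/-- the three vertices together, at fixed parameters -/
theorem mask_three (A B C : ℕ → ZMod Q → ZMod Q → ℝ) (hA : A 0 = fun _ _ => 0)
    (hB : B 0 = fun _ _ => 0) (hC : C 0 = fun _ _ => 0) (κ M : ℕ) (l : ℤ)
    (hκ : 2 * |l| + 20 ≤ 2 ^ κ) {x y z : ℝ} (hx : 0 ≤ x) (hy : 0 ≤ y) (hz : 0 ≤ z) :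
    ∑ m ∈ range M, bl (fun n => ∑ p0 : ZMod Q, ∑ p1 : ZMod Q,
      gams (A (m + 1)) (B (m + 1)) (C (m + 1)) (2 ^ m) p0 p1 (n - p0 - p1) x y z) (2 ^ m) l ≤
    4 * ∑ m ∈ range M, bl (fun n => ∑ p0 : ZMod Q, ∑ p1 : ZMod Q,
      if Any3 (A (m + 1)) (A m) (B (m + 1)) (B m) (C (m + 1)) (C m) (2 ^ m) p0 p1 (n - p0 - p1)
      then JV (A (m + 1)) (B (m + 1)) (C (m + 1)) (2 ^ m) p0 p1 (n - p0 - p1) x y z
      else 0) (2 ^ m) (-2) +
    16 * ∑ k ∈ range κ, ∑ m ∈ range M,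
      ((∑ q : ZMod Q, ∑ p : ZMod Q, if Sees (A (m + 1)) (A m) (2 ^ (m + k)) q p then
        JE (A (m + 1)) (2 ^ (m + k)) q p x else 0) +
      (∑ q : ZMod Q, ∑ p : ZMod Q, if Sees (B (m + 1)) (B m) (2 ^ (m + k)) q p then
        JE (B (m + 1)) (2 ^ (m + k)) q p y else 0) +
      (∑ q : ZMod Q, ∑ p : ZMod Q, if Sees (C (m + 1)) (C m) (2 ^ (m + k)) q p then
        JE (C (m + 1)) (2 ^ (m + k)) q p z else 0)) := by
  have hg := instLD (t := 1) one_pos
  have h1 := mask_sum hg (fun m => sc √x (tr (A m))) (fun m => sc √z (C m)) κ M l hκ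
  have h2 := mask_sum hg (fun m => sc √x (A m)) (fun m => sc √y (tr (B m))) κ M l hκ
  have h3 := mask_sum hg (fun m => sc √y (B m)) (fun m => sc √z (tr (C m))) κ M l hκ
  simp only [sc_zero _ (tr_zero hA), sc_zero _ hC, sc_zero _ hA, sc_zero _ (tr_zero hB),
    sc_zero _ hB, sc_zero _ (tr_zero hC), Vb_zero, EE_zero, mul_zero, add_zero, mul_one] at h1 h2 h3
  have hL : ∀ m : ℕ, bl (fun n => ∑ p0 : ZMod Q, ∑ p1 : ZMod Q,
      gams (A (m + 1)) (B (m + 1)) (C (m + 1)) (2 ^ m) p0 p1 (n - p0 - p1) x y z) (2 ^ m) l =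
      bl (GW (potLD 1) (sc √x (tr (A (m + 1)))) (sc √z (C (m + 1))) (2 ^ m)) (2 ^ m) l +
      bl (GW (potLD 1) (sc √x (A (m + 1))) (sc √y (tr (B (m + 1)))) (2 ^ m)) (2 ^ m) l +
      bl (GW (potLD 1) (sc √y (B (m + 1))) (sc √z (tr (C (m + 1)))) (2 ^ m)) (2 ^ m) l := by
    intro m
    rw [← bl_add, ← bl_add]
    congr 1
    funext n
    exact sum_gams_eq _ _ _ _ _ hx hy hz
  simp only [hL]
  rw [Finset.sum_add_distrib, Finset.sum_add_distrib]
  refine (add_le_add (add_le_add h1 h2) h3).trans ?_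
  have hV := Finset.sum_le_sum fun m (_ : m ∈ range M) =>
    vb_change (A (m + 1)) (A m) (B (m + 1)) (B m) (C (m + 1)) (C m) (N := 2 ^ m) (by positivity)
      hx hy hz
  have hE : ∑ k ∈ range κ, ∑ m ∈ range M,
      ((EE (potLD 1) (sc √x (tr (A (m + 1)))) (sc √z (C (m + 1))) (2 ^ (m + k)) -
        EE (potLD 1) (sc √x (tr (A m))) (sc √z (C m)) (2 ^ (m + k))) +
      (EE (potLD 1) (sc √x (A (m + 1))) (sc √y (tr (B (m + 1)))) (2 ^ (m + k)) -
        EE (potLD 1) (sc √x (A m)) (sc √y (tr (B m))) (2 ^ (m + k))) +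
      (EE (potLD 1) (sc √y (B (m + 1))) (sc √z (tr (C (m + 1)))) (2 ^ (m + k)) -
        EE (potLD 1) (sc √y (B m)) (sc √z (tr (C m))) (2 ^ (m + k)))) ≤
      ∑ k ∈ range κ, ∑ m ∈ range M,
      ((∑ q : ZMod Q, ∑ p : ZMod Q, if Sees (A (m + 1)) (A m) (2 ^ (m + k)) q p then
        JE (A (m + 1)) (2 ^ (m + k)) q p x else 0) +
      (∑ q : ZMod Q, ∑ p : ZMod Q, if Sees (B (m + 1)) (B m) (2 ^ (m + k)) q p then
        JE (B (m + 1)) (2 ^ (m + k)) q p y else 0) +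
      (∑ q : ZMod Q, ∑ p : ZMod Q, if Sees (C (m + 1)) (C m) (2 ^ (m + k)) q p then
        JE (C (m + 1)) (2 ^ (m + k)) q p z else 0)) := by
    refine Finset.sum_le_sum fun k _ => Finset.sum_le_sum fun m _ => ?_
    have a1 := ew_change (A (m + 1)) (A m) (2 ^ (m + k)) hx
    have a2 := ew_change (B (m + 1)) (B m) (2 ^ (m + k)) hy
    have a3 := ew_change (C (m + 1)) (C m) (2 ^ (m + k)) hz
    unfold EE
    linarith
  simp only [Finset.sum_add_distrib] at hV hE ⊢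
  linarith

/-- the boxes of all scales `< M` and all offsets of the block `l` -/
noncomputable def idx (Q : ℕ) [NeZero Q] (M : ℕ) : Finset (Σ _ : ℕ, ℕ × ZMod Q × ZMod Q) :=
  (range M).sigma fun m => (range (2 ^ m)) ×ˢ (Finset.univ ×ˢ Finset.univ)

theorem sum_idx (M : ℕ) (l : ℤ) (f : ℕ → ZMod Q → ZMod Q → ZMod Q → ℝ) :
    ∑ i ∈ idx Q M, (1 / ((2 ^ i.1 : ℕ) : ℝ)) * f i.1 i.2.2.1 i.2.2.2
      ((l : ZMod Q) * ((2 ^ i.1 : ℕ) : ZMod Q) + (i.2.1 : ZMod Q) - i.2.2.1 - i.2.2.2) =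
    ∑ m ∈ range M, bl (fun n => ∑ p0 : ZMod Q, ∑ p1 : ZMod Q, f m p0 p1 (n - p0 - p1)) (2 ^ m) l
    := by
  unfold idx
  rw [Finset.sum_sigma]
  refine Finset.sum_congr rfl fun m _ => ?_
  unfold bl
  rw [Finset.sum_product, Finset.mul_sum]
  refine Finset.sum_congr rfl fun i _ => ?_
  rw [Finset.sum_product, Finset.mul_sum]
  refine Finset.sum_congr rfl fun p0 _ => ?_
  rw [Finset.mul_sum]

open Classical in
/-- **(TRI)** for an arbitrary path, with abstract budgets of the boxes which see a change -/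
theorem tri_path (A B C : ℕ → ZMod Q → ZMod Q → ℝ) (hA : A 0 = fun _ _ => 0)
    (hB : B 0 = fun _ _ => 0) (hC : C 0 = fun _ _ => 0) (κ M : ℕ) (l : ℤ)
    (hκ : 2 * |l| + 20 ≤ 2 ^ κ) {x y z : ℤ → ℝ} (hp : PathSeq x y z)
    (GV : ℕ → ZMod Q → ZMod Q → ZMod Q → ℝ) (GA GB GC : ℕ → ℕ → ZMod Q → ZMod Q → ℝ)
    (hV : ∀ m ∈ range M, ∀ p0 p1 p2 : ZMod Q,
      Any3 (A (m + 1)) (A m) (B (m + 1)) (B m) (C (m + 1)) (C m) (2 ^ m) p0 p1 p2 → ∀ J : ℕ,
      ∑ j ∈ Finset.Ico (-(J : ℤ)) J, (√(x j) * √(y j) * √(z j))⁻¹ *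
        JV (A (m + 1)) (B (m + 1)) (C (m + 1)) (2 ^ m) p0 p1 p2 (x j) (y j) (z j) ≤
      GV m p0 p1 p2)
    (hGA : ∀ m ∈ range M, ∀ k ∈ range κ, ∀ q p : ZMod Q,
      Sees (A (m + 1)) (A m) (2 ^ (m + k)) q p → ∀ J : ℕ,
      ∑ j ∈ Finset.Ico (-(J : ℤ)) J, (√(x j) * √(y j) * √(z j))⁻¹ *
        JE (A (m + 1)) (2 ^ (m + k)) q p (x j) ≤ GA m k q p)
    (hGB : ∀ m ∈ range M, ∀ k ∈ range κ, ∀ q p : ZMod Q,
      Sees (B (m + 1)) (B m) (2 ^ (m + k)) q p → ∀ J : ℕ,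
      ∑ j ∈ Finset.Ico (-(J : ℤ)) J, (√(x j) * √(y j) * √(z j))⁻¹ *
        JE (B (m + 1)) (2 ^ (m + k)) q p (y j) ≤ GB m k q p)
    (hGC : ∀ m ∈ range M, ∀ k ∈ range κ, ∀ q p : ZMod Q,
      Sees (C (m + 1)) (C m) (2 ^ (m + k)) q p → ∀ J : ℕ,
      ∑ j ∈ Finset.Ico (-(J : ℤ)) J, (√(x j) * √(y j) * √(z j))⁻¹ *
        JE (C (m + 1)) (2 ^ (m + k)) q p (z j) ≤ GC m k q p) :
    ∑ m ∈ range M, bl (fun n => ∑ p0 : ZMod Q, ∑ p1 : ZMod Q,
      |Lbox (A (m + 1)) (B (m + 1)) (C (m + 1)) (2 ^ m) p0 p1 (n - p0 - p1)|) (2 ^ m) l ≤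
    76800 * (4 * ∑ m ∈ range M, bl (fun n => ∑ p0 : ZMod Q, ∑ p1 : ZMod Q,
      if Any3 (A (m + 1)) (A m) (B (m + 1)) (B m) (C (m + 1)) (C m) (2 ^ m) p0 p1 (n - p0 - p1)
      then GV m p0 p1 (n - p0 - p1) else 0) (2 ^ m) (-2) +
    16 * ∑ k ∈ range κ, ∑ m ∈ range M,
      ((∑ q : ZMod Q, ∑ p : ZMod Q, if Sees (A (m + 1)) (A m) (2 ^ (m + k)) q p then
        GA m k q p else 0) +
      (∑ q : ZMod Q, ∑ p : ZMod Q, if Sees (B (m + 1)) (B m) (2 ^ (m + k)) q p then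
        GB m k q p else 0) +
      (∑ q : ZMod Q, ∑ p : ZMod Q, if Sees (C (m + 1)) (C m) (2 ^ (m + k)) q p then
        GC m k q p else 0))) := by
  rw [← sum_idx M l (fun m p0 p1 p2 =>
    |Lbox (A (m + 1)) (B (m + 1)) (C (m + 1)) (2 ^ m) p0 p1 p2|)]
  refine Lbox_path (idx Q M) (fun i => 1 / ((2 ^ i.1 : ℕ) : ℝ)) (fun i _ => by positivity)
    (fun i => A (i.1 + 1)) (fun i => B (i.1 + 1)) (fun i => C (i.1 + 1)) (fun i => 2 ^ i.1)
    (fun i _ => by positivity) (fun i => i.2.2.1) (fun i => i.2.2.2)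
    (fun i => (l : ZMod Q) * ((2 ^ i.1 : ℕ) : ZMod Q) + (i.2.1 : ZMod Q) - i.2.2.1 - i.2.2.2) hp _
    fun J => ?_
  set w : ℤ → ℝ := fun j => (√(x j) * √(y j) * √(z j))⁻¹ with hw
  have hw0 : ∀ j, 0 ≤ w j := fun j => by positivity
  have h1 : ∀ j ∈ Finset.Ico (-(J : ℤ)) J, (√(x j) * √(y j) * √(z j))⁻¹ *
      ∑ i ∈ idx Q M, 1 / ((2 ^ i.1 : ℕ) : ℝ) * gams (A (i.1 + 1)) (B (i.1 + 1)) (C (i.1 + 1))
        (2 ^ i.1) i.2.2.1 i.2.2.2
        ((l : ZMod Q) * ((2 ^ i.1 : ℕ) : ZMod Q) + (i.2.1 : ZMod Q) - i.2.2.1 - i.2.2.2)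
        (x j) (y j) (z j) ≤
      4 * ∑ m ∈ range M, bl (fun n => ∑ p0 : ZMod Q, ∑ p1 : ZMod Q,
      if Any3 (A (m + 1)) (A m) (B (m + 1)) (B m) (C (m + 1)) (C m) (2 ^ m) p0 p1 (n - p0 - p1)
      then w j * JV (A (m + 1)) (B (m + 1)) (C (m + 1)) (2 ^ m) p0 p1 (n - p0 - p1) (x j) (y j) (z j)
      else 0) (2 ^ m) (-2) +
      16 * ∑ k ∈ range κ, ∑ m ∈ range M,
      ((∑ q : ZMod Q, ∑ p : ZMod Q, if Sees (A (m + 1)) (A m) (2 ^ (m + k)) q p then
        w j * JE (A (m + 1)) (2 ^ (m + k)) q p (x j) else 0) +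
      (∑ q : ZMod Q, ∑ p : ZMod Q, if Sees (B (m + 1)) (B m) (2 ^ (m + k)) q p then
        w j * JE (B (m + 1)) (2 ^ (m + k)) q p (y j) else 0) +
      (∑ q : ZMod Q, ∑ p : ZMod Q, if Sees (C (m + 1)) (C m) (2 ^ (m + k)) q p then
        w j * JE (C (m + 1)) (2 ^ (m + k)) q p (z j) else 0)) := by
    intro j _
    rw [sum_idx M l (fun m p0 p1 p2 =>
      gams (A (m + 1)) (B (m + 1)) (C (m + 1)) (2 ^ m) p0 p1 p2 (x j) (y j) (z j))]
    have h := mul_le_mul_of_nonneg_left (mask_three A B C hA hB hC κ M l hκ (hp.xpos j).le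
      (hp.ypos j).le (hp.zpos j).le) (hw0 j)
    refine h.trans (le_of_eq ?_)
    rw [mul_add, mul_left_comm, mul_left_comm (w j) 16]
    congr 2
    · rw [Finset.mul_sum]
      refine Finset.sum_congr rfl fun m _ => ?_
      rw [← bl_const_mul]
      congr 1
      funext n
      rw [Finset.mul_sum]
      refine Finset.sum_congr rfl fun p0 _ => ?_
      rw [Finset.mul_sum]
      refine Finset.sum_congr rfl fun p1 _ => ?_
      rw [mul_ite, mul_zero]
    · rw [Finset.mul_sum]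
      refine Finset.sum_congr rfl fun k _ => ?_
      rw [Finset.mul_sum]
      refine Finset.sum_congr rfl fun m _ => ?_
      rw [mul_add, mul_add]
      congr 2
      all_goals
        rw [Finset.mul_sum]
        refine Finset.sum_congr rfl fun p0 _ => ?_
        rw [Finset.mul_sum]
        refine Finset.sum_congr rfl fun p1 _ => ?_
        rw [mul_ite, mul_zero]
  refine (Finset.sum_le_sum h1).trans ?_
  rw [Finset.sum_add_distrib, ← Finset.mul_sum, ← Finset.mul_sum]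
  refine add_le_add (mul_le_mul_of_nonneg_left ?_ (by norm_num))
    (mul_le_mul_of_nonneg_left ?_ (by norm_num))
  · rw [Finset.sum_comm]
    refine Finset.sum_le_sum fun m hm => ?_
    rw [← bl_sum]
    refine bl_mono (fun n => ?_) _ _
    rw [Finset.sum_comm]
    refine Finset.sum_le_sum fun p0 _ => ?_
    rw [Finset.sum_comm]
    refine Finset.sum_le_sum fun p1 _ => ?_
    by_cases h : Any3 (A (m + 1)) (A m) (B (m + 1)) (B m) (C (m + 1)) (C m) (2 ^ m) p0 p1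
      (n - p0 - p1)
    · simp only [h, if_true]
      exact hV m hm _ _ _ h J
    · simp only [h, if_false, Finset.sum_const_zero, le_refl]
  · rw [Finset.sum_comm]
    refine Finset.sum_le_sum fun k hk => ?_
    rw [Finset.sum_comm]
    refine Finset.sum_le_sum fun m hm => ?_
    rw [Finset.sum_add_distrib, Finset.sum_add_distrib]
    refine add_le_add (add_le_add ?_ ?_) ?_
    · rw [Finset.sum_comm]
      refine Finset.sum_le_sum fun q _ => ?_
      rw [Finset.sum_comm]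
      refine Finset.sum_le_sum fun p _ => ?_
      by_cases h : Sees (A (m + 1)) (A m) (2 ^ (m + k)) q p
      · simp only [h, if_true]
        exact hGA m hm k hk _ _ h J
      · simp only [h, if_false, Finset.sum_const_zero, le_refl]
    · rw [Finset.sum_comm]
      refine Finset.sum_le_sum fun q _ => ?_
      rw [Finset.sum_comm]
      refine Finset.sum_le_sum fun p _ => ?_
      by_cases h : Sees (B (m + 1)) (B m) (2 ^ (m + k)) q p
      · simp only [h, if_true]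
        exact hGB m hm k hk _ _ h J
      · simp only [h, if_false, Finset.sum_const_zero, le_refl]
    · rw [Finset.sum_comm]
      refine Finset.sum_le_sum fun q _ => ?_
      rw [Finset.sum_comm]
      refine Finset.sum_le_sum fun p _ => ?_
      by_cases h : Sees (C (m + 1)) (C m) (2 ^ (m + k)) q p
      · simp only [h, if_true]
        exact hGC m hm k hk _ _ h J
      · simp only [h, if_false, Finset.sum_const_zero, le_refl]

end Crest.Agent.R079.Pot
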